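import Crest.Agent.R281.Am2_957
import Crest.Agent.R281.PathM_315

/-!
# R281 / Am3 (helper957): **ASM-M**, the algebraic ray over the `m`-dimensional model

`exists_rayM`: for all but countably many abscissas, from every marked member there is a smooth
path in the model along which the period moves up a vertical line, to a member over a point of a
coordinate line through a `k₀`-rational point, from which the vertical ray lifts completely and
runs into one end of the curve over this line, over the cusp itself.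
-/

set_option autoImplicit false
set_option linter.style.haveILetI false
set_option linter.unusedSectionVars false

open Polynomial Set Filter Topology UpperHalfPlane
open scoped Polynomial.Bivariate ContDiff

namespace Crest.Agent.R281.Am_957

open Sl_957 Ends1_989 CL_473 Nc_957 As_957

noncomputable section

variable {k₀ R : Type*} [Field k₀] [Algebra k₀ ℂ] {M : Fmt k₀ R} {N : ℝ} {Λ : Set (Fin 3 → ℝ)}
  {G : Type*} [Group G] {E : Type*} [MulAction G E]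

namespace GeomM

variable (D : GeomM M N Λ G E)

theorem continuous_z : Continuous D.z := by
  have h := D.toLS.continuous_pr
  unfold z
  fun_prop

/-- the period map is holomorphic in the coordinate -/
theorem an (x : D.T) : ∃ φ : (Fin M.m → ℂ) → ℂ, AnalyticAt ℂ φ (D.z x) ∧
    (∀ᶠ y in 𝓝 x, (D.Ψ y : ℂ) = φ (D.z y)) ∧
    ∀ᶠ q in 𝓝 (D.toLS.pr x), (D.Ψ (D.toLS.tr x q) : ℂ) = φ q.1.1 := by
  obtain ⟨φ, hφ, h⟩ := D.Φ_hol x
  refine ⟨φ, hφ, ?_, h⟩
  rw [D.toLS.nhds_eq, eventually_map]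
  filter_upwards [h, (D.toLS.U_open (D.toLS.p x)).mem_nhds (D.toLS.U_mem (D.toLS.p x))] with q h1 h2
  have h3 : D.toLS.pr (D.toLS.tr x q) = q := D.toLS.pr_tr x h2
  change (D.Φ (D.s x q) : ℂ) = φ (D.toLS.pr (D.toLS.tr x q)).1.1
  rw [h3]
  exact h1

theorem on_z (x : D.T) : M.On (D.z x) (D.toLS.pr x).1.2 := (D.toLS.pr x).2

theorem lδ_eval_ne (a d : Fin M.m → ℂ) (x : D.T) (u : ℂ) (hx : D.z x = fun j => a j + u * d j) :
    (M.lδ a d).eval u ≠ 0 := by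
  rw [M.eval_lδ, ← hx]
  exact (D.on_z x).2

/-- **non-constancy** of the period map in the coordinates -/
theorem not_const [Infinite k₀] (h : M.Nice) {S : Set ℍ}
    (hS : ∀ x : D.T, (∀ i, D.z x i ∈ range (algebraMap k₀ ℂ)) → D.Ψ x ∈ S) (x₀ : D.T)
    (h0 : D.Ψ x₀ ∉ S) {φ : (Fin M.m → ℂ) → ℂ} (hφ : ∀ᶠ y in 𝓝 x₀, (D.Ψ y : ℂ) = φ (D.z y)) :
    ¬ ∀ᶠ z in 𝓝 (D.z x₀), φ z = φ (D.z x₀) := by
  intro hc
  obtain ⟨z', hz'⟩ := h.exists_rat
  set a : Fin M.m → ℂ := fun j => algebraMap k₀ ℂ (z' j) with ha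
  set d : Fin M.m → ℂ := fun j => D.z x₀ j - a j with hd
  have hx : D.z x₀ = fun j => a j + 1 * d j := by
    funext j
    simp [hd]
  have hb : (M.lδ a d).eval 0 ≠ 0 := by
    rw [M.eval_lδ]
    have h1 : (fun j => a j + 0 * d j) = fun j => algebraMap k₀ ℂ (z' j) := by
      funext j
      simp [ha]
    rw [h1, Fmt.ez_algebraMap]
    exact fun h2 => hz' ((algebraMap k₀ ℂ).injective (by rw [h2, map_zero]))
  have hδ : M.lδ a d ≠ 0 := fun h2 => hb (by rw [h2, eval_zero])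
  refine (D.line a d).not_lc (h.lf_monic a d) hδ (h.lf_sep a d) (D.onLine a d x₀ 1 hx) hb
    (S := S) (fun y hy => ?_) h0 ?_
  · rw [← D.Ψ_toT]
    refine hS _ fun i => ⟨z' i, ?_⟩
    rw [D.z_toT a d y, hy]
    simp [ha]
  · have h1 : ∀ᶠ y in 𝓝 x₀, (D.Ψ y : ℂ) = D.Ψ x₀ := by
      filter_upwards [hφ, D.continuous_z.continuousAt.eventually hc] with y hy1 hy2
      rw [hy1, hy2, ← hφ.self_of_nhds]
    have h2 := (D.continuous_toT a d).continuousAt (x := D.onLine a d x₀ 1 hx)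
    exact h2.eventually h1

end GeomM

/-- a smooth path `p` in the model from `x₀` to `x₁`, lifted to `X`, along which the period moves up
the vertical line through `Ψ x₀` -/
structure Up (D : GeomM M N Λ G E) (x₀ x₁ : D.T) where
  p : ℝ → Fin M.m → ℂ
  X : ℝ → D.T
  p_smooth : ContDiff ℝ ∞ p
  X_cont : Continuous X
  z_X : ∀ t, D.z (X t) = p t
  X_le : ∀ t ≤ 0, X t = x₀
  X_ge : ∀ t, 1 ≤ t → X t = x₁
  Ψ_smooth : ContDiff ℝ ∞ fun t => (D.Ψ (X t) : ℂ)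
  Ψ_re : ∀ t, (D.Ψ (X t)).re = (D.Ψ x₀).re
  Ψ_im : Monotone fun t => (D.Ψ (X t)).im
  Ψ_lt : (D.Ψ x₀).im < (D.Ψ x₁).im

/-- the section of the model in the coordinates and the lift of a path -/
theorem exists_path (D : GeomM M N Λ G E) (h : M.Nice) (x₀ : D.T)
    {φ : (Fin M.m → ℂ) → ℂ} (hφ : AnalyticAt ℂ φ (D.z x₀))
    (hφ' : ∀ᶠ q in 𝓝 (D.toLS.pr x₀), (D.Ψ (D.toLS.tr x₀ q) : ℂ) = φ q.1.1)
    (hnc : ¬ ∀ᶠ z in 𝓝 (D.z x₀), φ z = φ (D.z x₀)) {K0 : Set ℂ} (hK : Dense K0) :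
    ∃ (p : ℝ → Fin M.m → ℂ) (X : ℝ → D.T) (j : Fin M.m), ContDiff ℝ ∞ p ∧ Continuous X ∧
      (∀ t, D.z (X t) = p t) ∧ (∀ t ≤ 0, X t = x₀) ∧ (∀ t, 1 ≤ t → X t = X 1) ∧
      (ContDiff ℝ ∞ fun t => (D.Ψ (X t) : ℂ)) ∧ (∀ t, (D.Ψ (X t)).re = (D.Ψ x₀).re) ∧
      (Monotone fun t => (D.Ψ (X t)).im) ∧ (D.Ψ x₀).im < (D.Ψ (X 1)).im ∧
      ∀ i, i ≠ j → p 1 i ∈ K0 := by
  obtain ⟨e, hxe, he⟩ := exists_chart h (D.toLS.pr x₀)
  have hez : e (D.toLS.pr x₀) = D.z x₀ := by rw [← he]; rfl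
  have htgt : D.z x₀ ∈ e.target := by rw [← hez]; exact e.map_source hxe
  have hsx : e.symm (D.z x₀) = D.toLS.pr x₀ := by rw [← hez, e.left_inv hxe]
  have hcs : ContinuousAt e.symm (D.z x₀) := e.symm.continuousAt htgt
  have h1 : ∀ᶠ z in 𝓝 (D.z x₀), e.symm z ∈ D.toLS.U (D.toLS.pr x₀) := by
    refine hcs.eventually ?_
    rw [hsx]
    exact (D.toLS.U_open _).mem_nhds (D.toLS.U_mem _)
  have h2 : ∀ᶠ z in 𝓝 (D.z x₀), (D.Ψ (D.toLS.tr x₀ (e.symm z)) : ℂ) = φ (e.symm z).1.1 := by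
    rw [← hsx] at hφ'
    exact hcs.eventually hφ'
  have h1' : ∀ᶠ z in 𝓝 (D.z x₀), z ∈ e.target := e.open_target.mem_nhds htgt
  obtain ⟨B, hB, hBo, hzB⟩ := eventually_nhds_iff.1 ((h1.and h2).and
    (h1'.and hφ.eventually_analyticAt))
  obtain ⟨p, j, hp, hp0, hp1, hpB, hre, him, hlt, hK', -⟩ :=
    PathM_315.path_m hBo (fun z hz => (hB z hz).2.2) hzB hnc hK
  have hesz : ∀ z ∈ B, (e.symm z).1.1 = z := fun z hz => by
    have h3 := e.right_inv (hB z hz).2.1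
    rw [← he] at h3
    exact h3
  set X : ℝ → D.T := fun t => D.toLS.tr x₀ (e.symm (p t)) with hX
  have hΨ : ∀ t, (D.Ψ (X t) : ℂ) = φ (p t) := fun t => by
    rw [hX]
    change (D.Ψ (D.toLS.tr x₀ (e.symm (p t))) : ℂ) = φ (p t)
    rw [(hB _ (hpB t)).1.2, hesz _ (hpB t)]
  have hX0 : ∀ t ≤ 0, X t = x₀ := fun t ht => by
    change D.toLS.tr x₀ (e.symm (p t)) = x₀
    rw [hp0 t ht, hsx, D.toLS.tr_self]
  have hΨ0 : (D.Ψ x₀ : ℂ) = φ (D.z x₀) := by
    rw [← hX0 0 le_rfl, hΨ, hp0 0 le_rfl]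
    exact congrArg φ (congrArg D.z (hX0 0 le_rfl)).symm
  have hre' : ∀ τ : ℍ, τ.re = (τ : ℂ).re := fun τ => rfl
  have him' : ∀ τ : ℍ, τ.im = (τ : ℂ).im := fun τ => rfl
  refine ⟨p, X, j, hp, ?_, fun t => ?_, hX0, fun t ht => ?_, ?_, fun t => ?_, ?_, ?_, hK'⟩
  · rw [continuous_iff_continuousAt]
    intro t
    have h3 : ContinuousAt (D.toLS.tr x₀) (e.symm (p t)) :=
      (D.toLS.continuousOn_tr x₀).continuousAt ((D.toLS.U_open _).mem_nhds (hB _ (hpB t)).1.1)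
    exact h3.comp (f := fun t => e.symm (p t))
      ((e.symm.continuousAt (hB _ (hpB t)).2.1).comp (f := p) hp.continuous.continuousAt)
  · change (D.toLS.pr (D.toLS.tr x₀ (e.symm (p t)))).1.1 = p t
    rw [D.toLS.pr_tr x₀ (hB _ (hpB t)).1.1]
    exact hesz _ (hpB t)
  · change D.toLS.tr x₀ (e.symm (p t)) = D.toLS.tr x₀ (e.symm (p 1))
    rw [hp1 t ht]
  · have h3 : (fun t => (D.Ψ (X t) : ℂ)) = fun t => φ (p t) := funext hΨ
    rw [h3, contDiff_iff_contDiffAt]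
    intro t
    have h4 : ContDiffAt ℂ ∞ φ (p t) := ((hB _ (hpB t)).2.2).contDiffAt
    exact (h4.restrict_scalars ℝ).comp t hp.contDiffAt
  · rw [hre', hre', hΨ, hΨ0]
    exact hre t
  · intro s t hst
    change (D.Ψ (X s)).im ≤ (D.Ψ (X t)).im
    rw [him', him', hΨ, hΨ]
    exact him hst
  · rw [him', him', hΨ, hΨ0]
    exact hlt

/-- **ASM-M**: off a countable set of abscissas, every marked member `x₀` is joined by a smooth
path, along which the period moves up the vertical line, to a member `x₁` over a point of a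
coordinate line `c + u e_j` through a `k₀`-rational point `c`, and over this line there is the
algebraic ray from `x₁` into one end over the cusp (`As6_957.Ray`) -/
theorem exists_rayM (D : GeomM M N Λ G E) [Countable k₀] [Infinite k₀] [Countable G] (h : M.Nice)
    (hd : Dense (range (algebraMap k₀ ℂ))) (hN : 0 < N) (hΛ : Lat N Λ)
    (hsub : ∀ x ∈ Λ, ∀ y ∈ Λ, x - y ∈ Λ) {S : Set ℍ} (hSc : S.Countable)
    (hS : ∀ x : D.T, (∀ i, D.z x i ∈ range (algebraMap k₀ ℂ)) → D.Ψ x ∈ S) :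
    ∃ Nl : Set ℝ, Nl.Countable ∧ ∀ x₀ : D.T, (D.Ψ x₀).re ∉ Nl →
      ∃ x₁ : D.T, Nonempty (Up D x₀ x₁) ∧ ∃ (c : Fin M.m → k₀) (j : Fin M.m) (u : ℂ)
        (hx : D.z x₁ = fun i => algebraMap k₀ ℂ (c i) + u * (Pi.single j 1 : Fin M.m → ℂ) i),
        Nonempty (Ray (D.line (fun i => algebraMap k₀ ℂ (c i)) (Pi.single j 1))
          (D.onLine (fun i => algebraMap k₀ ℂ (c i)) (Pi.single j 1) x₁ u hx)) := by
  classical
  have hex : ∀ s : (Fin M.m → k₀) × Fin M.m, ∃ Nl : Set ℝ, Nl.Countable ∧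
      (M.lδ (fun i => algebraMap k₀ ℂ (s.1 i)) (Pi.single s.2 1) ≠ 0 →
      ∀ x : (D.line (fun i => algebraMap k₀ ℂ (s.1 i)) (Pi.single s.2 1)).T,
        ((D.line (fun i => algebraMap k₀ ℂ (s.1 i)) (Pi.single s.2 1)).Ψ x).re ∉ Nl →
        Nonempty (Ray (D.line (fun i => algebraMap k₀ ℂ (s.1 i)) (Pi.single s.2 1)) x)) := by
    intro s
    by_cases hδ : M.lδ (fun i => algebraMap k₀ ℂ (s.1 i)) (Pi.single s.2 1) = 0
    · exact ⟨∅, countable_empty, fun h1 => absurd hδ h1⟩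
    · obtain ⟨Nl, h1, h2⟩ := exists_ray
        (D.line (fun i => algebraMap k₀ ℂ (s.1 i)) (Pi.single s.2 1)) hN hΛ hsub
        (h.lf_monic _ _) hδ (h.lf_sep _ _)
      exact ⟨Nl, h1, fun _ => h2⟩
  choose Nl hNl hray using hex
  refine ⟨(fun τ : ℍ => τ.re) '' S ∪ ⋃ s, Nl s, (hSc.image _).union (countable_iUnion hNl),
    fun x₀ hx₀ => ?_⟩
  have h0 : D.Ψ x₀ ∉ S := fun h1 => hx₀ (Or.inl ⟨_, h1, rfl⟩)
  obtain ⟨φ, hφ, hφ1, hφ2⟩ := D.an x₀
  obtain ⟨p, X, j, hp, hXc, hz, hX0, hX1, hΨs, hre, him, hlt, hK⟩ :=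
    exists_path D h x₀ hφ hφ2 (D.not_const h hS x₀ h0 hφ1) hd
  have hc : ∀ i : Fin M.m, ∃ c : k₀, p 1 i = algebraMap k₀ ℂ c +
      p 1 j * (Pi.single j 1 : Fin M.m → ℂ) i := by
    intro i
    by_cases hij : i = j
    · subst hij
      exact ⟨0, by simp⟩
    · obtain ⟨c, hc⟩ := hK i hij
      exact ⟨c, by simp [hij, hc]⟩
  choose c hc using hc
  have hp1 : D.z (X 1) = fun i => algebraMap k₀ ℂ (c i) +
      p 1 j * (Pi.single j 1 : Fin M.m → ℂ) i := by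
    rw [hz 1]
    funext i
    exact hc i
  have hδ : M.lδ (fun i => algebraMap k₀ ℂ (c i)) (Pi.single j 1) ≠ 0 := fun h1 => by
    have h2 := D.lδ_eval_ne (fun i => algebraMap k₀ ℂ (c i)) (Pi.single j 1) (X 1) (p 1 j) hp1
    rw [h1, eval_zero] at h2
    exact h2 rfl
  refine ⟨X 1, ⟨{
    p := p
    X := X
    p_smooth := hp
    X_cont := hXc
    z_X := hz
    X_le := hX0
    X_ge := hX1
    Ψ_smooth := hΨs
    Ψ_re := hre
    Ψ_im := him
    Ψ_lt := hlt }⟩, c, j, p 1 j, hp1, ?_⟩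
  refine hray (c, j) hδ (D.onLine (fun i => algebraMap k₀ ℂ (c i)) (Pi.single j 1) (X 1)
    (p 1 j) hp1) fun h1 => hx₀ (Or.inr (mem_iUnion.2 ⟨(c, j), ?_⟩))
  rw [D.Ψ_onLine, hre 1] at h1
  exact h1

/-- algebraic numbers are dense -/
theorem dense_QB : Dense (range (algebraMap QB ℂ)) := by
  have h1 : DenseRange (Prod.map ((↑) : ℚ → ℝ) ((↑) : ℚ → ℝ)) :=
    Rat.denseRange_cast.prodMap Rat.denseRange_cast
  have h2 : DenseRange (Complex.equivRealProdCLM.symm ∘ Prod.map ((↑) : ℚ → ℝ) ((↑) : ℚ → ℝ)) :=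
    (Complex.equivRealProdCLM.symm.surjective.denseRange).comp h1
      Complex.equivRealProdCLM.symm.continuous
  refine Dense.mono ?_ h2
  rintro _ ⟨⟨a, b⟩, rfl⟩
  have h3 : Complex.equivRealProdCLM.symm (Prod.map ((↑) : ℚ → ℝ) ((↑) : ℚ → ℝ) (a, b)) =
      (a : ℂ) + b * Complex.I := by
    apply Complex.ext <;> simp
  have hI : Complex.I ∈ QB := by
    rw [mem_QB_iff]
    exact ⟨X ^ 2 + 1, (by
      intro h
      have h4 := congrArg (Polynomial.eval 0) h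
      simp at h4), by simp⟩
  have h4 : (a : ℂ) + b * Complex.I ∈ QB :=
    add_mem (IntermediateField.algebraMap_mem QB a)
      (mul_mem (IntermediateField.algebraMap_mem QB b) hI)
  refine ⟨⟨_, h4⟩, ?_⟩
  rw [Function.comp_apply, h3]
  rfl

instance : Countable QB := countable_QB.to_subtype

/-- **ASM-M** over the field of algebraic numbers -/
theorem exists_rayM_QB {M : Fmt QB R} (D : GeomM M N Λ G E) [Countable G] (h : M.Nice)
    (hN : 0 < N) (hΛ : Lat N Λ) (hsub : ∀ x ∈ Λ, ∀ y ∈ Λ, x - y ∈ Λ) {S : Set ℍ}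
    (hSc : S.Countable) (hS : ∀ x : D.T, (∀ i, D.z x i ∈ QB) → D.Ψ x ∈ S) :
    ∃ Nl : Set ℝ, Nl.Countable ∧ ∀ x₀ : D.T, (D.Ψ x₀).re ∉ Nl →
      ∃ x₁ : D.T, Nonempty (Up D x₀ x₁) ∧ ∃ (c : Fin M.m → QB) (j : Fin M.m) (u : ℂ)
        (hx : D.z x₁ = fun i => algebraMap QB ℂ (c i) + u * (Pi.single j 1 : Fin M.m → ℂ) i),
        Nonempty (Ray (D.line (fun i => algebraMap QB ℂ (c i)) (Pi.single j 1))
          (D.onLine (fun i => algebraMap QB ℂ (c i)) (Pi.single j 1) x₁ u hx)) :=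
  exists_rayM D h dense_QB hN hΛ hsub hSc fun x hx => hS x fun i => by
    obtain ⟨a, ha⟩ := hx i
    rw [← ha]
    exact a.2

end

end Crest.Agent.R281.Am_957
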