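import Crest.Agent.R281.Ehr5_268
import Crest.Agent.R281.CL3_473

/-!
# R281 (S0424), B4-EHR (helper268), part 6: the marked cover, instance of `LS` (helper473)

* `QFam Q E H` : family of cones over `Q`, `Q` locally homeomorphic to the parameter space `E`
* `Mark F C`   : a marking over `q`: a chart system `C'` compatible with `C` and a member
                 `P : HEmb C' H` with cone `S q`
* `Sim`        : same `q`, the transition map acts trivially on `H²(X, C)`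
* `ls F C`     : `LS Q (difG C ⧸ tG C) (MQ F C)`
-/

set_option autoImplicit false
set_option maxSynthPendingDepth 5
set_option linter.unusedSectionVars false

open Set Filter Topology Complex
open scoped ContDiff

namespace Crest.Agent.R281.Ehr6_268

open Crest.Agent.R281.HkR_835 Crest.Agent.R281.Ehr2_268 Crest.Agent.R281.Dif_268
open Crest.Agent.R281.Ehr4_268 Crest.Agent.R281.CL_473

noncomputable section

universe uq

theorem _root_.Crest.Agent.R281.Ehr2_268.ConeMap.mono {E H : Type} [NormedAddCommGroup E]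
    [NormedSpace ℂ E] [NormedAddCommGroup H] [NormedSpace ℂ H] {S : Set (E × H)} {c0 : E}
    {r r' : ℝ} {Φ Ψ : E → H → H} (hM : ConeMap S c0 r Φ Ψ) (h0 : 0 < r') (h : r' ≤ r) :
    ConeMap S c0 r' Φ Ψ := by
  have hb : Metric.ball c0 r' ⊆ Metric.ball c0 r := Metric.ball_subset_ball h
  exact ⟨h0, hM.ne, hM.cone, hM.id0, fun c hc => hM.hom c (hb hc), fun c hc => hM.maps c (hb hc),
    fun c hc => hM.maps' c (hb hc), fun c hc => hM.left c (hb hc), fun c hc => hM.right c (hb hc),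
    fun c hc => hM.ext c (hb hc), fun c hc => hM.ext' c (hb hc)⟩

/-- family of cones over `Q` -/
structure QFam (Q : Type uq) [TopologicalSpace Q] (E H : Type) [NormedAddCommGroup E]
    [NormedSpace ℂ E] [NormedAddCommGroup H] [NormedSpace ℂ H] where
  /-- local coordinate -/
  u : Q → E
  /-- the cones -/
  S : Q → Set H
  e : Q → OpenPartialHomeomorph Q E
  mem : ∀ q, q ∈ (e q).source
  coe : ∀ q0, ∀ q ∈ (e q0).source, e q0 q = u q
  T : Q → Set (E × H)
  T_eq : ∀ q0, ∀ q ∈ (e q0).source, ∀ w, (u q, w) ∈ T q0 ↔ w ∈ S q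
  cm : ∀ q0, ∃ (r : ℝ) (Φ Ψ : E → H → H), ConeMap (T q0) (u q0) r Φ Ψ

variable {Q : Type uq} [TopologicalSpace Q] {E H : Type} [NormedAddCommGroup E]
    [NormedSpace ℂ E] [NormedAddCommGroup H] [NormedSpace ℂ H]

namespace QFam

variable (F : QFam Q E H)

theorem cm' (q0 : Q) : ∃ (r : ℝ) (Φ Ψ : E → H → H), ConeMap (F.T q0) (F.u q0) r Φ Ψ ∧
    Metric.ball (F.u q0) r ⊆ (F.e q0).target := by
  obtain ⟨r, Φ, Ψ, h⟩ := F.cm q0
  have h1 : F.u q0 ∈ (F.e q0).target := by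
    rw [← F.coe q0 q0 (F.mem q0)]
    exact (F.e q0).map_source (F.mem q0)
  obtain ⟨δ, hδ, hb⟩ := Metric.isOpen_iff.mp (F.e q0).open_target _ h1
  exact ⟨min r δ, Φ, Ψ, h.mono (lt_min h.hr hδ) (min_le_left _ _),
    (Metric.ball_subset_ball (min_le_right _ _)).trans hb⟩

/-- radius of transport -/
def r (q0 : Q) : ℝ := Classical.choose (F.cm' q0)

/-- cone maps -/
def Φ (q0 : Q) : E → H → H := Classical.choose (Classical.choose_spec (F.cm' q0))

/-- inverse cone maps -/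
def Ψ (q0 : Q) : E → H → H :=
  Classical.choose (Classical.choose_spec (Classical.choose_spec (F.cm' q0)))

theorem hM (q0 : Q) : ConeMap (F.T q0) (F.u q0) (F.r q0) (F.Φ q0) (F.Ψ q0) :=
  (Classical.choose_spec (Classical.choose_spec (Classical.choose_spec (F.cm' q0)))).1

theorem ball_target (q0 : Q) : Metric.ball (F.u q0) (F.r q0) ⊆ (F.e q0).target :=
  (Classical.choose_spec (Classical.choose_spec (Classical.choose_spec (F.cm' q0)))).2

/-- neighbourhood of transport -/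
def U (q0 : Q) : Set Q := (F.e q0).source ∩ F.e q0 ⁻¹' Metric.ball (F.u q0) (F.r q0)

theorem U_open (q0 : Q) : IsOpen (F.U q0) :=
  (F.e q0).isOpen_inter_preimage Metric.isOpen_ball

theorem U_mem (q0 : Q) : q0 ∈ F.U q0 := by
  refine ⟨F.mem q0, ?_⟩
  show F.e q0 q0 ∈ Metric.ball (F.u q0) (F.r q0)
  rw [F.coe q0 q0 (F.mem q0)]
  exact Metric.mem_ball_self (F.hM q0).hr

theorem ball_of_mem {q0 q : Q} (h : q ∈ F.U q0) : F.u q ∈ Metric.ball (F.u q0) (F.r q0) := by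
  rw [← F.coe q0 q h.1]
  exact h.2

theorem U_eq (q0 : Q) : F.U q0 = (F.e q0).symm '' Metric.ball (F.u q0) (F.r q0) := by
  ext q
  constructor
  · rintro ⟨h1, h2⟩
    exact ⟨F.e q0 q, h2, (F.e q0).left_inv h1⟩
  · rintro ⟨c, hc, rfl⟩
    have h1 := F.ball_target q0 hc
    refine ⟨(F.e q0).map_target h1, ?_⟩
    show F.e q0 ((F.e q0).symm c) ∈ Metric.ball (F.u q0) (F.r q0)
    rwa [(F.e q0).right_inv h1]

/-- the neighbourhoods of transport are connected -/
theorem U_conn (q0 : Q) : IsPreconnected (F.U q0) := by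
  rw [U_eq]
  refine (convex_ball (F.u q0) (F.r q0)).isPreconnected.image _ ?_
  exact (F.e q0).continuousOn_symm.mono (F.ball_target q0)

theorem cont_u (q : Q) : ContinuousAt F.u q := by
  have h1 : ContinuousAt (F.e q) q := (F.e q).continuousAt (F.mem q)
  refine h1.congr ?_
  filter_upwards [(F.e q).open_source.mem_nhds (F.mem q)] with y hy using F.coe q y hy

/-- isomorphism of the cones -/
theorem iso {q0 : Q} {c : E} (hc : c ∈ Metric.ball (F.u q0) (F.r q0)) :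
    ConeIso {w | (F.u q0, w) ∈ F.T q0} {w | (c, w) ∈ F.T q0} (F.Φ q0 c) (F.Ψ q0 c) :=
  iso_of_coneMap (F.hM q0) hc

end QFam

variable {V X : Type} [NormedAddCommGroup V] [NormedSpace ℝ V] [TopologicalSpace X]

/-- markings -/
structure Mark (F : QFam Q E H) (C : RCh V X) where
  q : Q
  C' : RCh V X
  cmp : Cmp C C'
  P : HEmb C' H
  cone : ∀ w, w ∈ P.cone ↔ w ∈ F.S q

variable {F : QFam Q E H} {C : RCh V X}

namespace Mark

theorem coneT (m : Mark F C) (w : H) : w ∈ m.P.cone ↔ w ∈ {w | (F.u m.q, w) ∈ F.T m.q} := by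
  rw [m.cone]
  exact (F.T_eq m.q m.q (F.mem m.q) w).symm

/-- transport inside the neighbourhood -/
def trIn (m : Mark F C) (q : Q) (h : q ∈ F.U m.q) : Mark F C where
  q := q
  C' := m.C'
  cmp := m.cmp
  P := mapIso m.P (F.iso (F.ball_of_mem h)) m.coneT
  cone w := by
    rw [mapIso_cone]
    exact F.T_eq m.q q h.1 w

open Classical in
/-- transport -/
def tr (m : Mark F C) (q : Q) : Mark F C := if h : q ∈ F.U m.q then m.trIn q h else m

theorem tr_of_mem (m : Mark F C) {q : Q} (h : q ∈ F.U m.q) : m.tr q = m.trIn q h := dif_pos h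

/-- transport back -/
def back (m : Mark F C) (q0 : Q) (h : m.q ∈ F.U q0) : Mark F C where
  q := q0
  C' := m.C'
  cmp := m.cmp
  P := mapIso m.P (F.iso (F.ball_of_mem h)).symm (fun w => by
    rw [m.cone]
    exact (F.T_eq q0 m.q h.1 w).symm)
  cone w := by
    rw [mapIso_cone]
    exact F.T_eq q0 q0 (F.mem q0) w

/-- equivalence of markings -/
def Sim (m m' : Mark F C) : Prop := m.q = m'.q ∧ ∃ f, Over m.P m'.P f ∧ HTriv C f

theorem Sim.refl (m : Mark F C) : Sim m m := ⟨rfl, id, Over.refl m.P, HTriv.id C⟩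

theorem Sim.trans {m m' m'' : Mark F C} (h : Sim m m') (h' : Sim m' m'') : Sim m m'' := by
  obtain ⟨h1, f, h2, h3⟩ := h
  obtain ⟨h1', f', h2', h3'⟩ := h'
  exact ⟨h1.trans h1', f' ∘ f, h2.comp h2', h3'.comp h3⟩

/-- action of a diffeomorphism -/
def act (g : difG C) (m : Mark F C) : Mark F C where
  q := m.q
  C' := mapCh m.C' g.1
  cmp := cmp_mapCh m.cmp g
  P := mapHom m.P g.1
  cone w := by rw [mapHom_cone]; exact m.cone w

variable [FiniteDimensional ℝ V] [CompactSpace X] [T2Space X] [FiniteDimensional ℂ H]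

theorem cone_eq {m m' : Mark F C} (h : m.q = m'.q) : m.P.cone = m'.P.cone := by
  ext w
  rw [m.cone, m'.cone, h]

theorem Sim.symm {m m' : Mark F C} (h : Sim m m') : Sim m' m := by
  obtain ⟨h1, f, h2, h3⟩ := h
  obtain ⟨φ, hφ⟩ := over_difG (C := C) m'.cmp m.cmp m'.P m.P (cone_eq h1.symm)
  refine ⟨h1.symm, φ.1, hφ, ?_⟩
  obtain ⟨g, hg⟩ := φ.2.1
  exact h3.inv g hg (hφ.inv_eq h2)

/-- the setoid -/
def setoid (F : QFam Q E H) (C : RCh V X) : Setoid (Mark F C) where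
  r := Sim
  iseqv := ⟨Sim.refl, Sim.symm, Sim.trans⟩

end Mark

variable [FiniteDimensional ℝ V] [CompactSpace X] [T2Space X] [FiniteDimensional ℂ H]

open Mark

/-- classes of markings -/
def MQ (F : QFam Q E H) (C : RCh V X) : Type _ := Quotient (Mark.setoid F C)

/-- the class of a marking -/
def MQ.mk (m : Mark F C) : MQ F C := Quotient.mk (Mark.setoid F C) m

theorem MQ.sound {m m' : Mark F C} (h : Sim m m') : MQ.mk m = MQ.mk m' := Quotient.sound h

theorem MQ.exact {m m' : Mark F C} (h : MQ.mk m = MQ.mk m') : Sim m m' := Quotient.exact h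

theorem MQ.exists_rep (x : MQ F C) : ∃ m, MQ.mk m = x := Quotient.exists_rep x

theorem act_sim (g : difG C) {m m' : Mark F C} (h : Sim m m') : Sim (act g m) (act g m') := by
  obtain ⟨h1, f, h2, h3⟩ := h
  obtain ⟨a, ha⟩ := g.2.1
  obtain ⟨b, hb⟩ := g.2.2
  refine ⟨h1, g.1 ∘ f ∘ g.1.symm, ?_, ?_⟩
  · have e1 : Over (mapHom m.P g.1) m.P g.1.symm :=
      (over_mapHom m.P g.1).inv fun x => g.1.apply_symm_apply x
    exact (e1.comp h2).comp (over_mapHom m'.P g.1)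
  · have := h3.conj a b (by rw [ha, hb]; funext x; exact g.1.apply_symm_apply x)
    rwa [ha, hb] at this

theorem act_one (m : Mark F C) : Sim (act 1 m) m := by
  refine ⟨rfl, id, ?_, HTriv.id C⟩
  have e1 : Over (mapHom m.P (1 : difG C).1) m.P (1 : difG C).1.symm :=
    (over_mapHom m.P (1 : difG C).1).inv fun x => (1 : difG C).1.apply_symm_apply x
  exact e1

theorem act_mul (g h : difG C) (m : Mark F C) : Sim (act (g * h) m) (act g (act h m)) := by
  refine ⟨rfl, id, ?_, HTriv.id C⟩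
  have e1 : Over (mapHom m.P (g * h).1) m.P (g * h).1.symm :=
    (over_mapHom m.P (g * h).1).inv fun x => (g * h).1.apply_symm_apply x
  have e2 : Over m.P (mapHom m.P h.1) h.1 := over_mapHom m.P h.1
  have e3 : Over (mapHom m.P h.1) (mapHom (mapHom m.P h.1) g.1) g.1 := over_mapHom _ g.1
  have e4 := (e1.comp e2).comp e3
  have e5 : g.1 ∘ h.1 ∘ (g * h).1.symm = id := by
    funext x
    exact (g * h).1.apply_symm_apply x
  rw [e5] at e4
  exact e4

theorem act_trivial {g : difG C} (hg : g ∈ tG C) (m : Mark F C) : Sim (act g m) m :=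
  Sim.symm ⟨rfl, g.1, over_mapHom m.P g.1, hg⟩

/-- the action of the group of diffeomorphisms -/
instance actDif : MulAction (difG C) (MQ F C) where
  smul g := Quotient.map (act g) fun _ _ h => act_sim g h
  one_smul x := by
    obtain ⟨m, rfl⟩ := MQ.exists_rep x
    exact MQ.sound (act_one m)
  mul_smul g h x := by
    obtain ⟨m, rfl⟩ := MQ.exists_rep x
    exact MQ.sound (act_mul g h m)

theorem smul_mk (g : difG C) (m : Mark F C) : g • MQ.mk m = MQ.mk (act g m) := rfl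

/-- the quotient group acts -/
def permHom (F : QFam Q E H) (C : RCh V X) : (difG C ⧸ tG C) →* Equiv.Perm (MQ F C) :=
  QuotientGroup.lift (tG C) (MulAction.toPermHom (difG C) (MQ F C)) (by
    intro g hg
    ext x
    obtain ⟨m, rfl⟩ := MQ.exists_rep x
    exact MQ.sound (act_trivial hg m))

instance actQuot : MulAction (difG C ⧸ tG C) (MQ F C) := MulAction.compHom _ (permHom F C)

theorem smul_mk' (g : difG C) (m : Mark F C) :
    (QuotientGroup.mk g : difG C ⧸ tG C) • MQ.mk m = MQ.mk (act g m) := rfl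

/-- projection -/
def MQ.p : MQ F C → Q := Quotient.lift (fun m => m.q) fun _ _ h => h.1

@[simp] theorem MQ.p_mk (m : Mark F C) : (MQ.mk m).p = m.q := rfl

theorem trIn_sim {m m' : Mark F C} (h : Sim m m') {q : Q} (hq : q ∈ F.U m.q)
    (hq' : q ∈ F.U m'.q) : Sim (m.trIn q hq) (m'.trIn q hq') := by
  obtain ⟨h1, f, h2, h3⟩ := h
  obtain ⟨q0, C₁, c1, P, k1⟩ := m
  obtain ⟨q0', C₂, c2, P', k2⟩ := m'
  simp only at h1 h2 hq hq'
  subst h1
  exact ⟨rfl, f, over_mapIso (F.iso (F.ball_of_mem hq)) (Mark.coneT ⟨q0, C₁, c1, P, k1⟩)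
    (Mark.coneT ⟨q0, C₂, c2, P', k2⟩) h2, h3⟩

theorem tr_sim {m m' : Mark F C} (h : Sim m m') (q : Q) : Sim (m.tr q) (m'.tr q) := by
  by_cases hq : q ∈ F.U m.q
  · have hq' : q ∈ F.U m'.q := by rw [← h.1]; exact hq
    rw [tr_of_mem m hq, tr_of_mem m' hq']
    exact trIn_sim h hq hq'
  · have hq' : q ∉ F.U m'.q := by rw [← h.1]; exact hq
    rw [tr, tr, dif_neg hq, dif_neg hq']
    exact h

/-- transport of classes -/
def MQ.s (x : MQ F C) (q : Q) : MQ F C :=
  Quotient.lift (fun m : Mark F C => MQ.mk (m.tr q)) (fun _ _ h => MQ.sound (tr_sim h q)) x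

theorem MQ.s_mk (m : Mark F C) (q : Q) : (MQ.mk m).s q = MQ.mk (m.tr q) := rfl

theorem MQ.s_mk_mem (m : Mark F C) {q : Q} (h : q ∈ F.U m.q) :
    (MQ.mk m).s q = MQ.mk (m.trIn q h) := by rw [MQ.s_mk, tr_of_mem m h]

theorem trIn_self (m : Mark F C) : Sim (m.trIn m.q (F.U_mem m.q)) m := by
  refine ⟨rfl, id, ?_, HTriv.id C⟩
  refine Over.of_eq (C := m.C') (P := (m.trIn m.q (F.U_mem m.q)).P) (P' := m.P) fun i z hz => ?_
  show F.Φ m.q (F.u m.q) (m.P.u i z) = _
  exact (F.hM m.q).id0 _ ((m.coneT _).mp (m.P.mem_cone hz))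

theorem trIn_back (m : Mark F C) {q0 : Q} (h : m.q ∈ F.U q0) :
    Sim ((m.back q0 h).trIn m.q h) m := by
  refine ⟨rfl, id, ?_, HTriv.id C⟩
  refine Over.of_eq (C := m.C') (P := ((m.back q0 h).trIn m.q h).P) (P' := m.P) fun i z hz => ?_
  show F.Φ q0 (F.u m.q) (F.Ψ q0 (F.u m.q) (m.P.u i z)) = _
  refine (F.iso (F.ball_of_mem h)).right _ ?_
  exact (F.T_eq q0 m.q h.1 _).mpr ((m.cone _).mp (m.P.mem_cone hz))

theorem trIn_inj {m m' : Mark F C} (h : m.q = m'.q) {q : Q} (hq : q ∈ F.U m.q)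
    (hq' : q ∈ F.U m'.q) (hs : Sim (m.trIn q hq) (m'.trIn q hq')) : Sim m m' := by
  obtain ⟨q0, C₁, c1, P, k1⟩ := m
  obtain ⟨q0', C₂, c2, P', k2⟩ := m'
  simp only at h hq hq'
  subst h
  obtain ⟨-, f, h2, h3⟩ := hs
  exact ⟨rfl, f, over_of_mapIso (F.iso (F.ball_of_mem hq)) (Mark.coneT ⟨q0, C₁, c1, P, k1⟩)
    (Mark.coneT ⟨q0, C₂, c2, P', k2⟩) h2, h3⟩

/-- **local constancy of the transport** -/
theorem trIn_loc (m : Mark F C) {q1 : Q} (h1 : q1 ∈ F.U m.q) :
    ∀ᶠ q in 𝓝 q1, ∃ (ha : q ∈ F.U m.q) (hb : q ∈ F.U (m.trIn q1 h1).q),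
      Sim (m.trIn q ha) ((m.trIn q1 h1).trIn q hb) := by
  -- a small ball around `u q1`
  set O : Set Q := (F.e m.q).source ∩ (F.e q1).source with hO
  have hO1 : q1 ∈ O := ⟨h1.1, F.mem q1⟩
  have hOo : IsOpen O := (F.e m.q).open_source.inter (F.e q1).open_source
  have himg : IsOpen (F.e q1 '' O) :=
    (F.e q1).isOpen_image_of_subset_source hOo inter_subset_right
  have hu1 : F.u q1 ∈ F.e q1 '' O := ⟨q1, hO1, F.coe q1 q1 (F.mem q1)⟩
  have hnh : F.e q1 '' O ∩ Metric.ball (F.u m.q) (F.r m.q) ∩ Metric.ball (F.u q1) (F.r q1) ∈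
      𝓝 (F.u q1) :=
    Filter.inter_mem (Filter.inter_mem (himg.mem_nhds hu1)
      (Metric.isOpen_ball.mem_nhds (F.ball_of_mem h1)))
      (Metric.ball_mem_nhds _ (F.hM q1).hr)
  obtain ⟨δ, hδ, hball⟩ := Metric.mem_nhds_iff.mp hnh
  have hev1 : ∀ᶠ q in 𝓝 q1, F.u q ∈ Metric.ball (F.u q1) δ :=
    (F.cont_u q1).eventually (Metric.ball_mem_nhds _ hδ)
  filter_upwards [hev1, (F.U_open m.q).mem_nhds h1, (F.U_open q1).mem_nhds (F.U_mem q1)] with
    q hq1 ha hb
  refine ⟨ha, hb, ?_⟩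
  -- the path of parameters
  let χ : ℝ → ℝ := Real.smoothTransition
  let γ : ℝ → E := fun s => F.u q1 + χ s • (F.u q - F.u q1)
  have hγs : ContDiff ℝ ∞ γ := by
    have h : ContDiff ℝ ∞ χ := Real.smoothTransition.contDiff
    exact contDiff_const.add (h.smul contDiff_const)
  have hγ0 : γ 0 = F.u q1 := by simp [γ, χ, Real.smoothTransition.zero]
  have hγ1 : γ 1 = F.u q := by simp [γ, χ, Real.smoothTransition.one]
  have hγb : ∀ s, γ s ∈ Metric.ball (F.u q1) δ := by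
    intro s
    rw [mem_ball_iff_norm]
    have e1 : γ s - F.u q1 = χ s • (F.u q - F.u q1) := by simp [γ]
    rw [e1, norm_smul, Real.norm_of_nonneg (Real.smoothTransition.nonneg s)]
    rw [mem_ball_iff_norm] at hq1
    have e2 : χ s ≤ 1 := Real.smoothTransition.le_one s
    calc χ s * ‖F.u q - F.u q1‖ ≤ 1 * ‖F.u q - F.u q1‖ :=
          mul_le_mul_of_nonneg_right e2 (norm_nonneg _)
      _ < δ := by rw [one_mul]; exact hq1
  have hγa : ∀ s, γ s ∈ Metric.ball (F.u m.q) (F.r m.q) := fun s => (hball (hγb s)).1.2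
  have hγb' : ∀ s, γ s ∈ Metric.ball (F.u q1) (F.r q1) := fun s => (hball (hγb s)).2
  have hTT : ∀ s w, (γ s, w) ∈ F.T m.q ↔ (γ s, w) ∈ F.T q1 := by
    intro s w
    obtain ⟨q', hq', he⟩ := (hball (hγb s)).1.1
    rw [F.coe q1 q' hq'.2] at he
    rw [← he, F.T_eq m.q q' hq'.1, F.T_eq q1 q' hq'.2]
  -- the two paths of members
  let A : ℝ → HEmb m.C' H := fun s => mapIso m.P (F.iso (hγa s)) m.coneT
  let m1 : Mark F C := m.trIn q1 h1
  let B : ℝ → HEmb m.C' H := fun s => mapIso m1.P (F.iso (q0 := q1) (hγb' s)) m1.coneT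
  have hA : ∀ i, ContDiffOn ℝ ∞ (fun p : ℝ × V => (A p.1).u i p.2)
      (univ ×ˢ (m.C'.e i).target) := by
    intro i p hp
    have e1 : ContDiffAt ℝ ∞ (fun p : E × V => m.P.fam (F.Φ m.q) i p.1 p.2) (γ p.1, p.2) :=
      fam_contDiffAt m.P (F.hM m.q) (fun w => (m.coneT w).symm) (hγa p.1) hp.2
        ((m.P.sm i).contDiffAt ((m.C'.e i).open_target.mem_nhds hp.2))
    have e2 : ContDiffAt ℝ ∞ (fun p : ℝ × V => (γ p.1, p.2)) p :=
      (hγs.contDiffAt.comp p contDiffAt_fst).prodMk contDiffAt_snd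
    exact (e1.comp (f := fun p : ℝ × V => (γ p.1, p.2)) p e2).contDiffWithinAt
  have hB : ∀ i, ContDiffOn ℝ ∞ (fun p : ℝ × V => (B p.1).u i p.2)
      (univ ×ˢ (m.C'.e i).target) := by
    intro i p hp
    have e1 : ContDiffAt ℝ ∞ (fun p : E × V => m1.P.fam (F.Φ q1) i p.1 p.2) (γ p.1, p.2) :=
      fam_contDiffAt m1.P (F.hM q1) (fun w => (m1.coneT w).symm) (hγb' p.1) hp.2
        ((m1.P.sm i).contDiffAt ((m.C'.e i).open_target.mem_nhds hp.2))
    have e2 : ContDiffAt ℝ ∞ (fun p : ℝ × V => (γ p.1, p.2)) p :=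
      (hγs.contDiffAt.comp p contDiffAt_fst).prodMk contDiffAt_snd
    exact (e1.comp (f := fun p : ℝ × V => (γ p.1, p.2)) p e2).contDiffWithinAt
  have hAB : ∀ s, (A s).cone = (B s).cone := by
    intro s
    ext w
    have a1 : w ∈ (A s).cone ↔ w ∈ {w | (γ s, w) ∈ F.T m.q} := mapIso_cone _ _ _ w
    have a2 : w ∈ (B s).cone ↔ w ∈ {w | (γ s, w) ∈ F.T q1} := mapIso_cone _ _ _ w
    exact a1.trans ((hTT s w).trans a2.symm)
  have h0 : ∀ i, ∀ z ∈ (m.C'.e i).target, (A 0).u i z = (B 0).u i z := by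
    intro i z hz
    show F.Φ m.q (γ 0) (m.P.u i z) = F.Φ q1 (γ 0) (m1.P.u i z)
    rw [hγ0]
    have e3 : m1.P.u i z = F.Φ m.q (F.u q1) (m.P.u i z) := rfl
    rw [← e3]
    exact ((F.hM q1).id0 _ ((m1.coneT _).mp (m1.P.mem_cone hz))).symm
  obtain ⟨f, hf, hft⟩ := htriv_of_path A B hA hB hAB h0
  refine ⟨rfl, f, ?_, hft.cmp m.cmp⟩
  -- identify the ends
  have e1 : Over (m.trIn q ha).P (A 1) id := by
    refine Over.of_eq (C := m.C') (P := (m.trIn q ha).P) (P' := A 1) fun i z _ => ?_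
    show F.Φ m.q (F.u q) (m.P.u i z) = F.Φ m.q (γ 1) (m.P.u i z)
    rw [hγ1]
  have e2 : Over (B 1) (m1.trIn q hb).P id := by
    refine Over.of_eq (C := m.C') (P := B 1) (P' := (m1.trIn q hb).P) fun i z _ => ?_
    show F.Φ q1 (γ 1) (m1.P.u i z) = F.Φ q1 (F.u q) (m1.P.u i z)
    rw [hγ1]
  exact (e1.comp hf).comp e2

/-- **the marked cover of the family** -/
def ls (F : QFam Q E H) (C : RCh V X) : LS Q (difG C ⧸ tG C) (MQ F C) where
  p := MQ.p
  U := F.U
  U_open := F.U_open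
  U_mem := F.U_mem
  s := MQ.s
  p_s x q hq := by
    obtain ⟨m, rfl⟩ := MQ.exists_rep x
    rw [MQ.s_mk_mem m hq]
    rfl
  s_self x := by
    obtain ⟨m, rfl⟩ := MQ.exists_rep x
    rw [MQ.p_mk, MQ.s_mk_mem m (F.U_mem m.q)]
    exact MQ.sound (trIn_self m)
  surj q0 y hy := by
    obtain ⟨m, rfl⟩ := MQ.exists_rep y
    rw [MQ.p_mk] at hy
    refine ⟨MQ.mk (m.back q0 hy), rfl, ?_⟩
    rw [MQ.p_mk, MQ.s_mk_mem (m.back q0 hy) hy]
    exact MQ.sound (trIn_back m hy)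
  inj x y hxy q hq he := by
    obtain ⟨m, rfl⟩ := MQ.exists_rep x
    obtain ⟨m', rfl⟩ := MQ.exists_rep y
    rw [MQ.p_mk, MQ.p_mk] at hxy
    rw [MQ.p_mk] at hq
    have hq' : q ∈ F.U m'.q := by rw [← hxy]; exact hq
    rw [MQ.s_mk_mem m hq, MQ.s_mk_mem m' hq'] at he
    exact MQ.sound (trIn_inj hxy hq hq' (MQ.exact he))
  loc x q1 hq1 := by
    obtain ⟨m, rfl⟩ := MQ.exists_rep x
    rw [MQ.p_mk] at hq1
    filter_upwards [trIn_loc m hq1] with q hq
    obtain ⟨ha, hb, hs⟩ := hq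
    rw [MQ.s_mk_mem m ha, MQ.s_mk_mem m hq1, MQ.s_mk_mem (m.trIn q1 hq1) hb]
    exact MQ.sound hs
  p_smul g x := by
    obtain ⟨g, rfl⟩ := QuotientGroup.mk_surjective g
    obtain ⟨m, rfl⟩ := MQ.exists_rep x
    rfl
  s_smul g x q hq := by
    obtain ⟨g, rfl⟩ := QuotientGroup.mk_surjective g
    obtain ⟨m, rfl⟩ := MQ.exists_rep x
    rw [MQ.p_mk] at hq
    rw [smul_mk', MQ.s_mk_mem m hq, smul_mk', MQ.s_mk_mem (act g m) hq]
    refine MQ.sound ⟨rfl, id, ?_, HTriv.id C⟩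
    exact Over.of_eq (C := mapCh m.C' g.1) (P := ((act g m).trIn q hq).P)
      (P' := (act g (m.trIn q hq)).P) fun i z _ => rfl
  trans x y hxy := by
    obtain ⟨m, rfl⟩ := MQ.exists_rep x
    obtain ⟨m', rfl⟩ := MQ.exists_rep y
    rw [MQ.p_mk, MQ.p_mk] at hxy
    obtain ⟨φ, hφ⟩ := over_difG (C := C) m.cmp m'.cmp m.P m'.P (cone_eq hxy)
    refine ⟨QuotientGroup.mk φ, ?_⟩
    rw [smul_mk']
    refine MQ.sound ⟨hxy.symm, id, ?_, HTriv.id C⟩
    have e1 : Over m'.P m.P φ.1.symm := hφ.inv fun x => φ.1.apply_symm_apply x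
    have e2 := e1.comp (over_mapHom m.P φ.1)
    have e3 : φ.1 ∘ φ.1.symm = id := by
      funext x
      exact φ.1.apply_symm_apply x
    rw [e3] at e2
    exact e2

end

end Crest.Agent.R281.Ehr6_268
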