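import Crest.Agent.R281.Ehr7_268
import Crest.Agent.R281.AlgDefs_998

/-!
# R281 (S0424), COUNT = (D13) (helper311), part 1: countably many classes over one member

* `Bas C`           : finitely many integral classes span `H²` (output of the basis theorem)
* `countable_Lz`    : countably many integral classes
* `countable_hPull` : the smooth maps `X → X` give countably many endomorphisms of `H²`
* `countable_G`     : `difG C ⧸ tG C` is countable
* `MarkK C K`       : markings of ONE cone `K` (a compatible chart system and homogeneous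
                      coordinates with cone `K`), `NatK` : natural classes
* `NatK.countable`  : a family of natural classes takes countably many values
* `IsPer F a b τ`   : `a + i b` has the class of `z • σ_τ`, `z ≠ 0`; `IsPer.uniq`
* `PerK`, `countable_PerK` : **the periods of all markings of `K`**
* `NatF.toK`, `countable_PerF` : the same for the members of a family `QFam`
-/

set_option autoImplicit false
set_option linter.unusedSectionVars false

open Set Filter Topology
open scoped ContDiff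

namespace Crest.Agent.R281.Cnt_311

open Crest.Agent.R281.HkR_835 Crest.Agent.R281.Ehr2_268 Crest.Agent.R281.Dif_268
open Crest.Agent.R281.Ehr4_268 Crest.Agent.R281.Ehr6_268 Crest.Agent.R281.Ehr7_268
open Crest.Agent.R281.Cdr_234 Crest.Agent.R281.Alg_998
open Crest.Agent.R281.Ti_846 (F1 IsD Ex)

noncomputable section

section classes

variable {V X : Type} [NormedAddCommGroup V] [NormedSpace ℝ V] [TopologicalSpace X]
  {C : RCh V X}

/-- finitely many integral classes span `H²`, and integral classes are integral combinations -/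
def Bas (C : RCh V X) : Prop :=
  ∃ (N : ℕ) (b : Fin N → F2 C), (∀ k, IntF (b k)) ∧
    (∀ w : F2 C, ∃ t : Fin N → ℝ, Ex (w - ∑ k, t k • b k)) ∧
    ∀ t : Fin N → ℝ, IntF (∑ k, t k • b k) → ∀ k, ∃ m : ℤ, t k = m

theorem cl_sum {N : ℕ} (t : Fin N → ℝ) (b : Fin N → F2 C) :
    cl (∑ k, t k • b k) = ∑ k, t k • cl (b k) := by
  show (exS C).mkQ (∑ k, t k • b k) = _
  rw [map_sum]
  rfl

/-- countably many integral classes -/
theorem countable_Lz (hb : Bas C) : ((Lz C : AddSubgroup (HdR C)) : Set (HdR C)).Countable := by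
  obtain ⟨N, b, -, hspan, hint⟩ := hb
  refine (countable_range fun m : Fin N → ℤ => ∑ k, (m k : ℝ) • cl (b k)).mono ?_
  intro x hx
  obtain ⟨w, rfl⟩ := cl_surj x
  obtain ⟨t, ht⟩ := hspan w
  have h1 : cl w = cl (∑ k, t k • b k) := cl_eq_iff.mpr ((ex_sub_iff _ _).mp ht)
  rw [h1] at hx ⊢
  have h2 := hint t (cl_mem_Lz.mp hx)
  choose m hm using h2
  refine ⟨m, ?_⟩
  show ∑ k, (m k : ℝ) • cl (b k) = cl (∑ k, t k • b k)
  rw [cl_sum]
  exact Finset.sum_congr rfl fun k _ => by rw [hm k]

/-- the smooth maps give countably many endomorphisms of `H²` -/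
theorem countable_hPull (hb : Bas C) :
    (range fun g : SMap C C => (hPull g : HdR C →ₗ[ℝ] HdR C)).Countable := by
  have hL := countable_Lz hb
  obtain ⟨N, b, hbi, hspan, -⟩ := hb
  have : Countable ((Lz C : AddSubgroup (HdR C)) : Set (HdR C)) := hL.to_subtype
  -- the values on the basis determine the map
  have h1 : ∀ f f' : HdR C →ₗ[ℝ] HdR C, (∀ k, f (cl (b k)) = f' (cl (b k))) → f = f' := by
    intro f f' h
    refine LinearMap.ext fun x => ?_
    obtain ⟨w, rfl⟩ := cl_surj x
    obtain ⟨t, ht⟩ := hspan w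
    have h1 : cl w = ∑ k, t k • cl (b k) := by
      rw [← cl_sum]
      exact cl_eq_iff.mpr ((ex_sub_iff _ _).mp ht)
    rw [h1, map_sum, map_sum]
    exact Finset.sum_congr rfl fun k _ => by rw [map_smul, map_smul, h k]
  let φ : (range fun g : SMap C C => (hPull g : HdR C →ₗ[ℝ] HdR C)) →
      Fin N → ((Lz C : AddSubgroup (HdR C)) : Set (HdR C)) := fun f k =>
    ⟨f.1 (cl (b k)), by
      obtain ⟨g, hg⟩ := f.2
      rw [← hg]
      exact hPull_mem g (cl_mem_Lz.mpr (hbi k))⟩
  have hφ : Function.Injective φ := by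
    intro f f' h
    refine Subtype.ext (h1 _ _ fun k => ?_)
    exact congrArg (fun p : Fin N → ((Lz C : AddSubgroup (HdR C)) : Set (HdR C)) => (p k).1) h
  exact countable_coe_iff.mp hφ.countable

/-- the group of the marked covers is countable -/
theorem countable_G (hb : Bas C) : Countable (difG C ⧸ tG C) := by
  have h1 : (range (rG C)).Countable := by
    refine (countable_hPull hb).mono ?_
    rintro _ ⟨g, rfl⟩
    obtain ⟨φ, rfl⟩ := QuotientGroup.mk_surjective g
    exact ⟨invS φ, rfl⟩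
  have h2 : Countable (range (rG C)) := h1.to_subtype
  refine Function.Injective.countable (f := fun g => (⟨rG C g, g, rfl⟩ : range (rG C))) ?_
  intro g g' h
  exact rG_injective (congrArg Subtype.val h)

end classes

/-! ### markings of one cone -/

section marks

variable {V X : Type} [NormedAddCommGroup V] [NormedSpace ℝ V] [TopologicalSpace X]
  {H : Type} [NormedAddCommGroup H] [NormedSpace ℂ H] {C : RCh V X}

/-- markings of the cone `K` -/
structure MarkK (C : RCh V X) (K : Set H) where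
  C' : RCh V X
  cmp : Cmp C C'
  P : HEmb C' H
  cone : ∀ w, w ∈ P.cone ↔ w ∈ K

/-- a closed form for every marking of `K`, natural under the transition maps -/
structure NatK (C : RCh V X) (K : Set H) where
  w : MarkK C K → F2 C
  nat : ∀ (m m' : MarkK C K) (g : SMap C C), Over m.P m'.P g.f → Coh (g.pull (w m')) (w m)

variable [FiniteDimensional ℝ V] [CompactSpace X] [T2Space X] [FiniteDimensional ℂ H]
  {K : Set H}

theorem MarkK.exists_over (m m' : MarkK C K) : ∃ g : SMap C C, Over m.P m'.P g.f := by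
  have h : m.P.cone = m'.P.cone := by
    ext w
    rw [m.cone, m'.cone]
  obtain ⟨φ, hφ⟩ := over_difG (C := C) m.cmp m'.cmp m.P m'.P h
  obtain ⟨g, hg⟩ := φ.2.1
  exact ⟨g, by rw [hg]; exact hφ⟩

/-- **natural classes take countably many values on the markings of one cone** -/
theorem NatK.countable (hb : Bas C) {κ : Type*} (N : κ → NatK C K) :
    {x : κ → HdR C | ∃ m, ∀ i, x i = cl ((N i).w m)}.Countable := by
  by_cases hm : ∃ m0 : MarkK C K, True
  · obtain ⟨m0, -⟩ := hm
    refine ((countable_hPull hb).image fun f : HdR C →ₗ[ℝ] HdR C => fun i : κ =>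
      f (cl ((N i).w m0))).mono ?_
    rintro x ⟨m, hx⟩
    obtain ⟨g, hg⟩ := m.exists_over m0
    refine ⟨hPull g, ⟨g, rfl⟩, ?_⟩
    funext i
    rw [hx i]
    exact cl_eq_iff.mpr ((N i).nat m m0 g hg)
  · refine (countable_empty).mono ?_
    rintro x ⟨m, -⟩
    exact (hm ⟨m, trivial⟩).elim

end marks

/-! ### periods -/

section periods

variable {V X : Type} [NormedAddCommGroup V] [NormedSpace ℝ V] [TopologicalSpace X]
  {C : RCh V X} {Q : F2 C →ₗ[ℝ] F2 C →ₗ[ℝ] ℝ}

/-- `a + i b` has the class of a non-zero multiple of `σ_τ` -/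
def IsPer (F : Frm C Q) (a b : F2 C) (τ : ℂ) : Prop :=
  ∃ z : ℂ, z ≠ 0 ∧ Cl a (z.re • F.sre τ - z.im • F.sim τ) ∧
    Cl b (z.im • F.sre τ + z.re • F.sim τ)

theorem cl_iff {w w' : F2 C} : Cl w w' ↔ cl w = cl w' :=
  (ex_sub_iff w w').trans cl_eq_iff.symm

theorem IsPer.congr {F : Frm C Q} {a b a' b' : F2 C} {τ : ℂ} (h : IsPer F a b τ)
    (ha : cl a = cl a') (hb : cl b = cl b') : IsPer F a' b' τ := by
  obtain ⟨z, hz, h1, h2⟩ := h
  exact ⟨z, hz, (cl_iff.mpr ha.symm).trans h1, (cl_iff.mpr hb.symm).trans h2⟩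

theorem Q_cl (hQ : ∀ a b : F2 C, Ex a → Q a b = 0) {a a' : F2 C} (h : Cl a a') (b : F2 C) :
    Q a b = Q a' b := by
  have h1 : Q (a - a') b = 0 := hQ _ _ h
  rw [map_sub, LinearMap.sub_apply] at h1
  linarith

/-- the period of a pair of closed forms -/
def per (F : Frm C Q) (a b : F2 C) : ℂ :=
  ((Q a F.v : ℂ) + (Q b F.v : ℂ) * Complex.I) /
    ((F.N : ℂ) * ((Q a F.e : ℂ) + (Q b F.e : ℂ) * Complex.I))

theorem Q_sre (hs : ∀ a b, Q a b = Q b a) (F : Frm C Q) (τ : ℂ) :
    Q (F.sre τ) F.e = 1 ∧ Q (F.sre τ) F.v = F.N * τ.re := by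
  have h1 : Q F.v F.e = 0 := by rw [hs, F.e_v]
  unfold Frm.sre
  simp only [map_sub, map_add, map_smul, LinearMap.sub_apply, LinearMap.add_apply,
    LinearMap.smul_apply, smul_eq_mul]
  rw [F.es_e, F.e_e, h1, F.es_v, F.v_v, F.e_v]
  constructor <;> ring

theorem Q_sim (hs : ∀ a b, Q a b = Q b a) (F : Frm C Q) (τ : ℂ) :
    Q (F.sim τ) F.e = 0 ∧ Q (F.sim τ) F.v = F.N * τ.im := by
  have h1 : Q F.v F.e = 0 := by rw [hs, F.e_v]
  unfold Frm.sim
  simp only [map_sub, map_smul, LinearMap.sub_apply, LinearMap.smul_apply, smul_eq_mul]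
  rw [F.e_e, h1, F.v_v, F.e_v]
  constructor <;> ring

/-- **the period is determined by the classes** -/
theorem IsPer.uniq (hs : ∀ a b, Q a b = Q b a) (hQ : ∀ a b : F2 C, Ex a → Q a b = 0)
    {F : Frm C Q} {a b : F2 C} {τ : ℂ} (h : IsPer F a b τ) : τ = per F a b := by
  obtain ⟨z, hz, ha, hb⟩ := h
  have key : ∀ x : F2 C, Q a x = z.re * Q (F.sre τ) x - z.im * Q (F.sim τ) x ∧
      Q b x = z.im * Q (F.sre τ) x + z.re * Q (F.sim τ) x := by
    intro x
    rw [Q_cl hQ ha x, Q_cl hQ hb x]
    constructor <;> simp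
  have e1 := (key F.e).1
  have e2 := (key F.e).2
  have e3 := (key F.v).1
  have e4 := (key F.v).2
  rw [(Q_sre hs F τ).1, (Q_sim hs F τ).1] at e1 e2
  rw [(Q_sre hs F τ).2, (Q_sim hs F τ).2] at e3 e4
  have h1 : ((Q a F.e : ℂ) + (Q b F.e : ℂ) * Complex.I) = z := by
    rw [e1, e2]
    apply Complex.ext <;> simp
  have h2 : ((Q a F.v : ℂ) + (Q b F.v : ℂ) * Complex.I) = (F.N : ℂ) * (z * τ) := by
    rw [e3, e4]
    apply Complex.ext <;> simp <;> ring
  have hN : (F.N : ℂ) ≠ 0 := Complex.ofReal_ne_zero.mpr F.hN.ne'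
  unfold per
  rw [h1, h2, mul_div_mul_left _ _ hN, mul_comm z, mul_div_assoc, div_self hz, mul_one]

theorem per_congr (hQ : ∀ a b : F2 C, Ex a → Q a b = 0) (F : Frm C Q) {a b a' b' : F2 C}
    (ha : cl a = cl a') (hb : cl b = cl b') : per F a b = per F a' b' := by
  unfold per
  rw [Q_cl hQ (cl_iff.mpr ha), Q_cl hQ (cl_iff.mpr ha), Q_cl hQ (cl_iff.mpr hb),
    Q_cl hQ (cl_iff.mpr hb)]

/-- the period of a hyperkaehler structure over `τ` -/
theorem _root_.Crest.Agent.R281.Alg_998.AtTau.isPer {F : Frm C Q} {A : F2 C} {H : HkT C} {τ : ℂ}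
    (h : AtTau F A H τ) : IsPer F (H.om 1) (H.om 2) τ := h.om12

/-- multiplication of the form by a non-zero constant -/
theorem IsPer.scale {F : Frm C Q} {a b : F2 C} {τ : ℂ} (h : IsPer F a b τ) {c : ℂ} (hc : c ≠ 0) :
    IsPer F (c.re • a - c.im • b) (c.im • a + c.re • b) τ := by
  obtain ⟨z, hz, h1, h2⟩ := h
  refine ⟨c * z, mul_ne_zero hc hz, ?_, ?_⟩
  · have h3 := (h1.smul c.re).add (h2.smul (-c.im))
    rw [cl_iff] at h3 ⊢
    have e1 : c.re • a - c.im • b = c.re • a + (-c.im) • b := by rw [neg_smul, sub_eq_add_neg]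
    rw [e1, h3]
    congr 1
    simp only [Complex.mul_re, Complex.mul_im, smul_sub, smul_add, smul_smul, sub_smul, add_smul,
      neg_smul, neg_mul]
    abel
  · have h3 := (h1.smul c.im).add (h2.smul c.re)
    rw [cl_iff] at h3 ⊢
    rw [h3]
    congr 1
    simp only [Complex.mul_re, Complex.mul_im, smul_sub, smul_add, smul_smul, sub_smul, add_smul]
    abel

variable {H : Type} [NormedAddCommGroup H] [NormedSpace ℂ H]

/-- **the periods of all markings of `K`** -/
def PerK (F : Frm C Q) {K : Set H} (R I : NatK C K) : Set ℂ :=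
  {τ | ∃ m, IsPer F (R.w m) (I.w m) τ}

variable [FiniteDimensional ℝ V] [CompactSpace X] [T2Space X] [FiniteDimensional ℂ H]

/-- **COUNT, one member** -/
theorem countable_PerK (hb : Bas C) (hs : ∀ a b, Q a b = Q b a)
    (hQ : ∀ a b : F2 C, Ex a → Q a b = 0) (F : Frm C Q) {K : Set H} (R I : NatK C K) :
    (PerK F R I).Countable := by
  have h1 := NatK.countable hb ![R, I]
  let g : (Fin 2 → HdR C) → ℂ := fun x => per F (Classical.choose (cl_surj (x 0)))
    (Classical.choose (cl_surj (x 1)))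
  refine (h1.image g).mono ?_
  rintro τ ⟨m, hm⟩
  refine ⟨![cl (R.w m), cl (I.w m)], ⟨m, fun i => ?_⟩, ?_⟩
  · fin_cases i <;> rfl
  · rw [hm.uniq hs hQ]
    exact per_congr hQ F (Classical.choose_spec (cl_surj (cl (R.w m))))
      (Classical.choose_spec (cl_surj (cl (I.w m))))

/-- **COUNT** for countably many members -/
theorem countable_iUnion_PerK (hb : Bas C) (hs : ∀ a b, Q a b = Q b a)
    (hQ : ∀ a b : F2 C, Ex a → Q a b = 0) (F : Frm C Q) {α : Type*} [Countable α]
    {K : α → Set H} (R I : ∀ a, NatK C (K a)) : (⋃ a, PerK F (R a) (I a)).Countable :=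
  countable_iUnion fun a => countable_PerK hb hs hQ F (R a) (I a)

end periods

/-! ### members of a family -/

section fam

universe uq

variable {Q' : Type uq} [TopologicalSpace Q'] {E H : Type} [NormedAddCommGroup E]
    [NormedSpace ℂ E] [NormedAddCommGroup H] [NormedSpace ℂ H] {V X : Type}
    [NormedAddCommGroup V] [NormedSpace ℝ V] [TopologicalSpace X] {C : RCh V X}
    {Fm : QFam Q' E H}

/-- a marking of the member `q` -/
def MarkK.toMark {q : Q'} (m : MarkK C (Fm.S q)) : Mark Fm C where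
  q := q
  C' := m.C'
  cmp := m.cmp
  P := m.P
  cone := m.cone

/-- a natural form on the family gives one on each member -/
def _root_.Crest.Agent.R281.Ehr7_268.NatF.toK (N : NatF Fm C) (q : Q') : NatK C (Fm.S q) where
  w m := N.w m.toMark
  nat m m' g h := N.nat m.toMark m'.toMark rfl g h

variable {Q : F2 C →ₗ[ℝ] F2 C →ₗ[ℝ] ℝ}

/-- the periods of the markings over `A` -/
def PerF (F : Frm C Q) (R I : NatF Fm C) (A : Set Q') : Set ℂ :=
  {τ | ∃ m : Mark Fm C, m.q ∈ A ∧ IsPer F (R.w m) (I.w m) τ}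

variable [FiniteDimensional ℝ V] [CompactSpace X] [T2Space X] [FiniteDimensional ℂ H]

/-- **COUNT on a family**: countably many periods over a countable set of parameters -/
theorem countable_PerF (hb : Bas C) (hs : ∀ a b, Q a b = Q b a)
    (hQ : ∀ a b : F2 C, Ex a → Q a b = 0) (F : Frm C Q) (R I : NatF Fm C) {A : Set Q'}
    (hA : A.Countable) : (PerF F R I A).Countable := by
  have h1 : (⋃ q ∈ A, PerK F (R.toK q) (I.toK q)).Countable :=
    hA.biUnion fun q _ => countable_PerK hb hs hQ F _ _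
  refine h1.mono ?_
  rintro τ ⟨⟨q, C', cmp, P, cone⟩, hq, hm⟩
  exact mem_biUnion hq ⟨⟨C', cmp, P, cone⟩, hm⟩

/-- the same in terms of classes of markings -/
theorem countable_cls (hb : Bas C) {κ : Type*} (N : κ → NatF Fm C) {A : Set Q'}
    (hA : A.Countable) :
    {x : κ → HdR C | ∃ y : MQ Fm C, y.p ∈ A ∧ ∀ i, x i = (N i).cls y}.Countable := by
  have h1 : (⋃ q ∈ A, {x : κ → HdR C | ∃ m : MarkK C (Fm.S q), ∀ i,
      x i = cl (((N i).toK q).w m)}).Countable :=
    hA.biUnion fun q _ => NatK.countable hb fun i => (N i).toK q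
  refine h1.mono ?_
  rintro x ⟨y, hy, hx⟩
  obtain ⟨⟨q, C', cmp, P, cone⟩, rfl⟩ := MQ.exists_rep y
  exact mem_biUnion (show q ∈ A from hy) ⟨⟨C', cmp, P, cone⟩, hx⟩

end fam

end

end Crest.Agent.R281.Cnt_311
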