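import Crest.Agent.R281.Phl5_655
import Crest.Agent.R281.Ehr8_268

/-!
# R281 (S0424), PER-HOL, part 6 (helper655): constant classes on the marked cover

`cls_const` : for a parameter free cone `K` containing all cones of the family and `τ : B1 K` the
class of `τ` is constant along the transports of the marked cover.
-/

set_option autoImplicit false
set_option maxSynthPendingDepth 5
set_option linter.unusedSectionVars false

open Set Filter Topology Complex
open scoped ContDiff

namespace Crest.Agent.R281.Phl_655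

open Crest.Agent.R281.HkR_835 Crest.Agent.R281.Ehr2_268 Crest.Agent.R281.Dif_268
open Crest.Agent.R281.Ehr4_268 Crest.Agent.R281.CL_473 Crest.Agent.R281.Ehr6_268
open Crest.Agent.R281.Cdr_234 Crest.Agent.R281.Ehr7_268 Crest.Agent.R281.Ehr8_268

noncomputable section

universe uq

variable {Q : Type uq} [TopologicalSpace Q] {E H : Type} [NormedAddCommGroup E]
    [NormedSpace ℂ E] [NormedAddCommGroup H] [NormedSpace ℂ H] {V X : Type}
    [NormedAddCommGroup V] [NormedSpace ℝ V] [TopologicalSpace X]
    {F : QFam Q E H} {C : RCh V X} {K : Set H}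

/-- the basic form on the family given by a form on a parameter free cone -/
def qbf (τ : B1 K) (h : ∀ q0, F.R q0 ⊆ {p : E × H | p.2 ∈ K}) : QBF F := QBF.const (τ.bf E) h

theorem qbf_const (τ : B1 K) (hK : Co K) (h : ∀ q0, F.R q0 ⊆ {p : E × H | p.2 ∈ K})
    (m : Mark F C) {c c' : E} (hc : c ∈ Metric.ball (F.u m.q) (F.r m.q))
    (hc' : c' ∈ Metric.ball (F.u m.q) (F.r m.q)) :
    Coh ((qbf τ h).at' m hc) ((qbf τ h).at' m hc') := by
  have hF : m.pf.In {p : E × H | p.2 ∈ K} := fun i c hc z hz => h m.q (Ehr8_268.pf_in m i c hc z hz)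
  have h1 := coh_const τ hK m.pf hF (convex_ball _ _).isPreconnected hc hc'
  have e : ∀ {c : E} (hc : c ∈ Metric.ball (F.u m.q) (F.r m.q)),
      Eqv ((qbf τ h).at' m hc) ((τ.bf E).pull m.pf (hK.cn E) hF hc) :=
    fun _ _ _ _ _ _ => rfl
  exact ((e hc).coh.trans h1).trans (e hc').symm.coh

variable [FiniteDimensional ℝ V] [CompactSpace X] [T2Space X] [FiniteDimensional ℂ H]

/-- **the class is constant along the transports** -/
theorem cls_const (τ : B1 K) (hK : Co K) (h : ∀ q0, F.R q0 ⊆ {p : E × H | p.2 ∈ K})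
    (x : MQ F C) (q : Q) (hq : q ∈ (ls F C).U ((ls F C).p x)) :
    ((qbf τ h).natF C).cls ((ls F C).s x q) = ((qbf τ h).natF C).cls x :=
  (qbf τ h).cls_s_const (fun m _ _ hc hc' => qbf_const τ hK h m hc hc') x q hq

end

end Crest.Agent.R281.Phl_655
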