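import Crest.Agent.R281.Qc1_377

/-!
# R281 (S0424), PER-HOL (helper377), part 2: the holomorphic 2-form on the family of a code

* `qcfC K M h hM : QCF (qfamC K M h hM)` : the form `K.Y.D` (867) over 871's family of record
* `memC`, `memC_cx`, `markC_cx` : the members along the transport, their tangent spaces are complex
* `qcfC_cw`      : value on a member (`cw * X_j^m = b_j`), `qcfC_cw_self` at the marking itself
* `qcfC_nd`, `qcfC_typ` : nondegenerate, type `(2,0)`, on every member along the transport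
* `qcfC_nd_self`, `qcfC_typ_self`, `re_form'`, `im_form'` : at the marking itself
-/

set_option autoImplicit false
set_option linter.unusedSectionVars false
set_option synthInstance.maxHeartbeats 200000
set_option maxSynthPendingDepth 3

open Set Filter Topology Complex
open scoped ContDiff

namespace Crest.Agent.R281.Qc_377

open Crest.Agent.R281.HkR_835 Crest.Agent.R281.Ehr2_268 Crest.Agent.R281.Dif_268
  Crest.Agent.R281.Ehr4_268 Crest.Agent.R281.Ehr6_268 Crest.Agent.R281.Ehr8_268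
  Crest.Agent.R281.Phl_655 Crest.Agent.R281.AF_867 Crest.Agent.R281.KrB1_871
  Crest.Agent.R281.KrB4_871 Crest.Agent.R281.Kr_488 Crest.Agent.R281.QF_871
  Crest.Agent.R281.Ehr9_268 Crest.Agent.R281.Ehr10_268 Crest.Agent.R281.Ehr11_268
  Crest.Agent.R281.Sl_957 Crest.Agent.R281.Am_957 Crest.Agent.R281.CA_867

noncomputable section

variable {k₀ : Type} [Field k₀] [Algebra k₀ ℂ] {n N : ℕ} {K : Code k₀ n N}
  {M : Fmt k₀ (Fin K.k)}

/-- exactness at every point of the model -/
theorem exactC (hM : ∀ (z : Fin M.m → ℂ) (w : ℂ), M.On z w → K.Good (M.pt z w)) (q : QM M) :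
    (K.Y.D.map (evP M q)).Exact := (hM q.1.1 q.1.2 q.2).mem_ok.exact

theorem impC (hM : ∀ (z : Fin M.m → ℂ) (w : ℂ), M.On z w → K.Good (M.pt z w)) (q : QM M) :
    (K.Y.D.map (evP M q)).Imp (MvPolynomial.map (evP M q) '' range K.Y.G) := by
  have h1 := (hM q.1.1 q.1.2 q.2).mem_ok.imp_id
  have h2 : range (K.mem (M.pt q.1.1 q.1.2)).G = MvPolynomial.map (evP M q) '' range K.Y.G :=
    CDat.range_map K.Y _
  rw [h2] at h1
  exact h1

variable (h : M.Nice) (hM : ∀ (z : Fin M.m → ℂ) (w : ℂ), M.On z w → K.Good (M.pt z w))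

/-- the coefficients at a parameter of the chart -/
theorem evL_targetC {q0 : QM M} {p : Fin M.m → ℂ}
    (hp : p ∈ (locE (isLocalHomeomorph_zc h) q0).target) :
    evL (isLocalHomeomorph_zc h) (evP M) q0 p =
      evP M ((locE (isLocalHomeomorph_zc h) q0).symm p) := if_pos hp

/-- the local polynomial forms -/
def qjfC (q0 : QM M) : JForm ((qfamC K M h hM).R q0) (Fin (N + 1)) :=
  jfP (ev := evL (isLocalHomeomorph_zc h) (evP M) q0) (E := range K.Y.G) (fun _ hp => hp.1)
    K.Y.D (le_trans (by norm_num) (exactC hM q0).two)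
    (fun p _ hp => by
      rw [evL_targetC h hp.2]
      exact exactC hM _)
    (fun _ _ hp r => analyticAt_evL' (isLocalHomeomorph_zc h) (anE_evP h r) q0 hp.2)
    (fun p _ hp => by
      rw [evL_targetC h hp.2]
      exact impC hM _)

theorem qjfC_X (q0 : QM M) : (qjfC h hM q0).X = fun j => EuclideanSpace.proj j := rfl

theorem qjfC_m (q0 : QM M) : (qjfC h hM q0).m = K.Y.D.m := rfl

theorem qjfC_s (q0 : QM M) (j : Fin (N + 1)) :
    (qjfC h hM q0).s j = sj (evL (isLocalHomeomorph_zc h) (evP M) q0) K.Y.D j := rfl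

theorem qjfC_congr (q0 : QM M) {q : QM M} (hq : q ∈ (locE (isLocalHomeomorph_zc h) q0).source)
    (x v w : EuclideanSpace ℂ (Fin (N + 1))) :
    (qjfC h hM q0).val (zc M q) x v w = (qjfC h hM q).val (zc M q) x v w := by
  have h1 : evL (isLocalHomeomorph_zc h) (evP M) q0 (zc M q) =
      evL (isLocalHomeomorph_zc h) (evP M) q (zc M q) := by
    rw [evL_u (isLocalHomeomorph_zc h) (evP M) q0 hq,
      evL_u (isLocalHomeomorph_zc h) (evP M) q (mem_locE (isLocalHomeomorph_zc h) q)]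
  refine val_congr _ _ ?_ ?_ ?_ v w
  · rw [qjfC_X, qjfC_X]
  · rw [qjfC_m, qjfC_m]
  · funext j
    rw [qjfC_s, qjfC_s]
    exact sj_congr h1 j x

/-- **the holomorphic form on the family of a code** -/
def qcfC (K : Code k₀ n N) (M : Fmt k₀ (Fin K.k)) (h : M.Nice)
    (hM : ∀ (z : Fin M.m → ℂ) (w : ℂ), M.On z w → K.Good (M.pt z w)) :
    QCF (qfamC K M h hM) where
  β q0 := (qjfC h hM q0).cf ((qfamC K M h hM).cn q0)
  compat q0 _ hq x v w _ _ := qjfC_congr h hM q0 hq x v w

variable {V X : Type} [NormedAddCommGroup V] [NormedSpace ℝ V] [TopologicalSpace X]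
  [FiniteDimensional ℝ V] {C : RCh V X}

/-- the member at the parameter `p` along the transport of a marking -/
def memC (m : Mark (qfamC K M h hM) C) {p : Fin M.m → ℂ}
    (hp : p ∈ Metric.ball ((qfamC K M h hM).u m.q) ((qfamC K M h hM).r m.q)) :
    HEmb m.C' (EuclideanSpace ℂ (Fin (N + 1))) :=
  famEmb m.P ((qfamC K M h hM).hM m.q) m.coneS hp

theorem memC_u (m : Mark (qfamC K M h hM) C) {p : Fin M.m → ℂ}
    (hp : p ∈ Metric.ball ((qfamC K M h hM).u m.q) ((qfamC K M h hM).r m.q)) (i : m.C'.ι) :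
    (memC h hM m hp).u i = m.pf.u i p := rfl

/-- the point of the model at the parameter `p` -/
def ptC (m : Mark (qfamC K M h hM) C) (p : Fin M.m → ℂ) : QM M :=
  (locE (isLocalHomeomorph_zc h) m.q).symm p

theorem evL_memC (m : Mark (qfamC K M h hM) C) {p : Fin M.m → ℂ}
    (hp : p ∈ Metric.ball ((qfamC K M h hM).u m.q) ((qfamC K M h hM).r m.q)) :
    evL (isLocalHomeomorph_zc h) (evP M) m.q p = evP M (ptC h hM m p) :=
  evL_targetC h ((qfamC K M h hM).ball_target m.q hp)

theorem memC_cone (m : Mark (qfamC K M h hM) C) {p : Fin M.m → ℂ}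
    (hp : p ∈ Metric.ball ((qfamC K M h hM).u m.q) ((qfamC K M h hM).r m.q))
    (w : EuclideanSpace ℂ (Fin (N + 1))) :
    w ∈ (memC h hM m hp).cone ↔ w ∈ (pcC K).cone (evP M (ptC h hM m p)) := by
  have h1 := (famEmb_cone m.P ((qfamC K M h hM).hM m.q) m.coneS hp w).symm
  refine h1.trans ?_
  rw [← evL_memC h hM m hp]
  rfl

/-- the members have complex tangent spaces -/
theorem memC_cx (hV : Module.finrank ℝ V = 2 * n) (m : Mark (qfamC K M h hM) C)
    {p : Fin M.m → ℂ}
    (hp : p ∈ Metric.ball ((qfamC K M h hM).u m.q) ((qfamC K M h hM).r m.q)) :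
    (memC h hM m hp).Cx :=
  cx_of_pcert (okAt (hM _ _ (ptC h hM m p).2)) hV _ fun w hw =>
    (memC_cone h hM m hp w).mp hw

/-- value of the form on a member, in a coordinate `j` -/
theorem qcfC_cw (m : Mark (qfamC K M h hM) C) {p : Fin M.m → ℂ}
    (hp : p ∈ Metric.ball ((qfamC K M h hM).u m.q) ((qfamC K M h hM).r m.q)) {i : m.C'.ι}
    {z : V} (hz : z ∈ (m.C'.e i).target) {j : Fin (N + 1)} (hj : m.pf.u i p z j ≠ 0) (v w : V) :
    (qcfC K M h hM).cw m i p z v w * m.pf.u i p z j ^ K.Y.D.m =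
      (K.Y.D.map (evP M (ptC h hM m p))).b j (fun k => m.pf.u i p z k)
        (fun k => fderiv ℝ (m.pf.u i p) z v k) (fun k => fderiv ℝ (m.pf.u i p) z w k) := by
  have h0 := QCF.lift_pf m hp hz
  have hv : ∀ v, Vel ((qfamC K M h hM).R m.q) p (m.pf.u i p z)
      (fderiv ℝ (m.pf.u i p) z v) := by
    intro v
    have h1 := h0.vel ((qfamC K M h hM).cn m.q) (pf_in m) hp hz v
    rw [QCF.dz_pf m hp hz] at h1
    exact h1
  have hin : (p, m.pf.u i p z) ∈ (qfamC K M h hM).R m.q := pf_in m i p hp z hz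
  have h2 : (qcfC K M h hM).cw m i p z v w = (qjfC h hM m.q).val p
      (m.pf.u i p z) (fderiv ℝ (m.pf.u i p) z v) (fderiv ℝ (m.pf.u i p) z w) :=
    (qcfC K M h hM).cw_apply m hp hz v w
  have hj' : (qjfC h hM m.q).X j (m.pf.u i p z) ≠ 0 := hj
  rw [h2, JForm.val_eq _ hin hj' (hv v) (hv w)]
  have h3 : (qjfC h hM m.q).X j (m.pf.u i p z) = m.pf.u i p z j := rfl
  have h4 : (qjfC h hM m.q).m = K.Y.D.m := rfl
  rw [h3, h4, div_mul_cancel₀ _ (pow_ne_zero _ hj), ← evL_memC h hM m hp]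
  exact sj_apply (ev := evL (isLocalHomeomorph_zc h) (evP M) m.q) K.Y.D j (p, m.pf.u i p z) _ _

/-- **the form is nondegenerate on the members** -/
theorem qcfC_nd (hV : Module.finrank ℝ V = 2 * n) (m : Mark (qfamC K M h hM) C)
    {p : Fin M.m → ℂ}
    (hp : p ∈ Metric.ball ((qfamC K M h hM).u m.q) ((qfamC K M h hM).r m.q)) {i : m.C'.ι}
    {z : V} (hz : z ∈ (m.C'.e i).target) {v : V}
    (h0 : ∀ w, (qcfC K M h hM).cw m i p z v w = 0) : v = 0 := by
  obtain ⟨j, hj⟩ : ∃ j, m.pf.u i p z j ≠ 0 := by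
    by_contra hcon
    push Not at hcon
    refine (memC h hM m hp).ne i z hz ?_
    ext j
    exact hcon j
  refine nd_of_pimp (okAt (hM _ _ (ptC h hM m p).2)) hV (exactC hM (ptC h hM m p))
    (impC hM (ptC h hM m p)) (memC h hM m hp)
    (fun w hw => (memC_cone h hM m hp w).mp hw) hz (j := j) hj fun w => ?_
  have h2 := qcfC_cw h hM m hp hz hj v w
  rw [h0 w, zero_mul] at h2
  exact h2.symm

/-- **type (2,0)** : for every `v` there is `v'` (`= i v`) with `σ(v', w) = i σ(v, w)` -/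
theorem qcfC_typ (hV : Module.finrank ℝ V = 2 * n) (m : Mark (qfamC K M h hM) C)
    {p : Fin M.m → ℂ}
    (hp : p ∈ Metric.ball ((qfamC K M h hM).u m.q) ((qfamC K M h hM).r m.q)) {i : m.C'.ι}
    {z : V} (hz : z ∈ (m.C'.e i).target) (v : V) :
    ∃ (v' : V) (a : ℂ), I • fderiv ℝ (m.pf.u i p) z v =
        fderiv ℝ (m.pf.u i p) z v' + a • m.pf.u i p z ∧
      ∀ w, (qcfC K M h hM).cw m i p z v' w = I * (qcfC K M h hM).cw m i p z v w := by
  obtain ⟨v', a, h'⟩ := memC_cx h hM hV m hp i z hz v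
  exact ⟨v', a, h', fun w => QCF.typ _ m hp hz h'⟩

/-! ### at the marking itself -/

/-- the base point of the transport is the marking -/
theorem ptC_self (m : Mark (qfamC K M h hM) C) : ptC h hM m (zc M m.q) = m.q :=
  symm_u (isLocalHomeomorph_zc h) (mem_locE (isLocalHomeomorph_zc h) m.q)

theorem self_ball (m : Mark (qfamC K M h hM) C) :
    zc M m.q ∈ Metric.ball ((qfamC K M h hM).u m.q) ((qfamC K M h hM).r m.q) :=
  (qfamC K M h hM).ball_of_mem ((qfamC K M h hM).U_mem m.q)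

/-- the marking is its own member at the base parameter -/
theorem pf_self (m : Mark (qfamC K M h hM) C) {i : m.C'.ι} {z : V} (hz : z ∈ (m.C'.e i).target) :
    m.pf.u i (zc M m.q) z = m.P.u i z := pf_id m hz

theorem fderiv_pf_self (m : Mark (qfamC K M h hM) C) {i : m.C'.ι} {z : V}
    (hz : z ∈ (m.C'.e i).target) :
    fderiv ℝ (m.pf.u i (zc M m.q)) z = fderiv ℝ (m.P.u i) z := by
  refine Filter.EventuallyEq.fderiv_eq ?_
  filter_upwards [(m.C'.e i).open_target.mem_nhds hz] with y hy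
  exact pf_self h hM m hy

/-- **the members at a marking have complex tangent spaces** -/
theorem markC_cx (hV : Module.finrank ℝ V = 2 * n) (m : Mark (qfamC K M h hM) C) : m.P.Cx :=
  cx_of_pcert (okAt (hM _ _ m.q.2)) hV _ fun w hw => by
    have h1 := (m.cone w).mp hw
    rw [qfamC_S, ← cone_eq] at h1
    exact h1

/-- the complex value of the form of a marking, on the chart system of the marking -/
def sgC (m : Mark (qfamC K M h hM) C) (i : m.C'.ι) (z v w : V) : ℂ :=
  (qcfC K M h hM).cw m i (zc M m.q) z v w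

theorem re_form' (m : Mark (qfamC K M h hM) C) (i : m.C'.ι) (z v w : V) :
    ((qcfC K M h hM).re.form' m).w i z v w = (sgC h hM m i z v w).re :=
  (qcfC K M h hM).re_at m (self_ball h hM m) i z v w

theorem im_form' (m : Mark (qfamC K M h hM) C) (i : m.C'.ι) (z v w : V) :
    ((qcfC K M h hM).im.form' m).w i z v w = (sgC h hM m i z v w).im :=
  (qcfC K M h hM).im_at m (self_ball h hM m) i z v w

/-- **value at the marking** : `sgC * u_j ^ m = b_j (u; Du v, Du w)` with the certificate of the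
member `K.mem (M.pt m.q)` -/
theorem sgC_mul (m : Mark (qfamC K M h hM) C) {i : m.C'.ι} {z : V}
    (hz : z ∈ (m.C'.e i).target) (j : Fin (N + 1)) (v w : V) (hj : m.P.u i z j ≠ 0) :
    sgC h hM m i z v w * m.P.u i z j ^ K.Y.D.m =
      (K.mem (M.pt m.q.1.1 m.q.1.2)).D.b j (fun k => m.P.u i z k)
        (fun k => fderiv ℝ (m.P.u i) z v k) (fun k => fderiv ℝ (m.P.u i) z w k) := by
  have h1 := qcfC_cw h hM m (self_ball h hM m) hz (j := j)
    (by rw [pf_self h hM m hz]; exact hj) v w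
  rw [pf_self h hM m hz, fderiv_pf_self h hM m hz, ptC_self h hM m] at h1
  exact h1

/-- nondegenerate at the marking -/
theorem sgC_nd (hV : Module.finrank ℝ V = 2 * n) (m : Mark (qfamC K M h hM) C) {i : m.C'.ι}
    {z : V} (hz : z ∈ (m.C'.e i).target) {v : V} (h0 : ∀ w, sgC h hM m i z v w = 0) : v = 0 :=
  qcfC_nd h hM hV m (self_ball h hM m) hz h0

/-- type `(2,0)` at the marking: `i Du v = Du v' + a u ⟹ σ (v', w) = i σ (v, w)` -/
theorem sgC_typ (m : Mark (qfamC K M h hM) C) {i : m.C'.ι} {z : V}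
    (hz : z ∈ (m.C'.e i).target) {v v' : V} {a : ℂ}
    (hv : I • fderiv ℝ (m.P.u i) z v = fderiv ℝ (m.P.u i) z v' + a • m.P.u i z) (w : V) :
    sgC h hM m i z v' w = I * sgC h hM m i z v w := by
  refine QCF.typ _ m (self_ball h hM m) hz (a := a) ?_
  rw [pf_self h hM m hz, fderiv_pf_self h hM m hz]
  exact hv

end

end Crest.Agent.R281.Qc_377
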