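import Crest.Agent.R281.QF5_871
import Crest.Agent.R281.Phl6_655
import Crest.Agent.R281.Blk6_592
import Crest.Agent.R281.Cnt1_311
import Crest.Agent.R281.Am3_957
import Crest.Agent.R281.LI2_473
import Crest.Agent.R281.Qc2_377
import Crest.Agent.R281.Sta3_684

/-!
# R281 (S0424), DIV 2, assembly, part 1 (helper957): the countably many types

* `B1.comap`    : pull back of a basic form by a linear map
* `rx e`        : coordinates of `ℂ^(N+1)` in the blocks
* `segS e`      : the Segre cone, `blkB e k` : the `k`-th block form, `totB e` : the Fubini-Study form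
* `Ty n C`      : code, model, blocks, integral classes; `Ty.countable`
* `Ty.F`        : the family of a type, `Ty.cls` : the classes of the blocks at a marking
* `Ty.Ok`       : the classes span the orthogonal space of the plane `W`
-/

set_option autoImplicit false
set_option linter.unusedSectionVars false
set_option maxSynthPendingDepth 5

open Set Filter Topology
open scoped ContDiff

namespace Crest.Agent.R281.Dv_957

open Crest.Agent.R281.HkR_835 Crest.Agent.R281.Ehr2_268 Crest.Agent.R281.Dif_268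
  Crest.Agent.R281.Ehr4_268 Crest.Agent.R281.Ehr6_268 Crest.Agent.R281.Ehr7_268
  Crest.Agent.R281.Ehr8_268 Crest.Agent.R281.Cdr_234 Crest.Agent.R281.Phl_655
  Crest.Agent.R281.Blk_592 Crest.Agent.R281.Sl_957 Crest.Agent.R281.Am_957
  Crest.Agent.R281.CA_867 Crest.Agent.R281.QF_871 Crest.Agent.R281.Cnt_311
  Crest.Agent.R281.Alg_998 Crest.Agent.R281.CL_473

noncomputable section

/-! ### pull back of basic forms by linear maps -/

section comap

variable {H H' : Type} [NormedAddCommGroup H] [NormedSpace ℂ H] [NormedAddCommGroup H']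
  [NormedSpace ℂ H']

theorem v1_map (T : H →L[ℂ] H') {K : Set H} {K' : Set H'} (hK : ∀ x ∈ K, T x ∈ K') {x v : H}
    (h : V1 K x v) : V1 K' (T x) (T v) := by
  obtain ⟨γ, h0, h1, h2⟩ := h
  refine ⟨fun t => T (γ t), congrArg T h0, ?_, h2.mono fun t ht => hK _ ht⟩
  exact (T.restrictScalars ℝ).hasFDerivAt.comp_hasDerivAt (0 : ℝ) h1

/-- **pull back by a linear map** -/
def B1.comap (T : H →L[ℂ] H') {K : Set H} {K' : Set H'} (τ : B1 K') (hK : ∀ x ∈ K, T x ∈ K') :
    B1 K where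
  sg x u v := τ.sg (T x) (T u) (T v)
  loc x hx := by
    obtain ⟨Sg, h1, h2⟩ := τ.loc (T x) (hK x hx)
    have hc : Tendsto (fun y : H => T y) (𝓝 x) (𝓝 (T x)) := T.continuous.continuousAt
    have hT : ∀ y : H, HasFDerivAt (fun y : H => T y) (T.restrictScalars ℝ) y := fun y =>
      (T.restrictScalars ℝ).hasFDerivAt
    refine ⟨fun y => pbl (T.restrictScalars ℝ) (Sg (T y)), ?_, ?_⟩
    · filter_upwards [hc.eventually h1] with y hy
      refine ⟨?_, fun hyK => ⟨fun u v => ?_, fun u v hu hv => ?_⟩⟩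
      · have h3 : ContDiffAt ℝ ∞ (fun y => Sg (T y)) y :=
          ContDiffAt.comp (f := fun y : H => T y) (g := Sg) y hy.1
            (T.restrictScalars ℝ).contDiff.contDiffAt
        exact contDiffAt_pbl contDiffAt_const h3
      · rw [pbl_apply, pbl_apply]
        exact (hy.2 (hK _ hyK)).1 _ _
      · rw [pbl_apply]
        exact (hy.2 (hK _ hyK)).2 _ _ (v1_map T hK hu) (v1_map T hK hv)
    · intro u v w hu hv hw
      have h3 : DifferentiableAt ℝ Sg (T x) := h1.self_of_nhds.1.differentiableAt (by simp)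
      have h4 : HasFDerivAt (fun y => Sg (T y))
          ((fderiv ℝ Sg (T x)).comp (T.restrictScalars ℝ)) x :=
        HasFDerivAt.comp (f := fun y : H => T y) (g := Sg) x h3.hasFDerivAt (hT x)
      have h5 : ContDiffAt ℝ ∞ (fun y => pbl (T.restrictScalars ℝ) (Sg (T y))) x :=
        contDiffAt_pbl contDiffAt_const (ContDiffAt.comp (f := fun y : H => T y) (g := Sg) x
          h1.self_of_nhds.1 (T.restrictScalars ℝ).contDiff.contDiffAt)
      have h6 : DifferentiableAt ℝ (fun y => pbl (T.restrictScalars ℝ) (Sg (T y))) x :=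
        h5.differentiableAt (by simp)
      have key : ∀ a b c : H, fderiv ℝ (fun y => pbl (T.restrictScalars ℝ) (Sg (T y))) x a b c =
          fderiv ℝ Sg (T x) (T a) (T b) (T c) := by
        intro a b c
        have h7 := (h6.hasFDerivAt.clm_apply (hasFDerivAt_const b x)).clm_apply
          (hasFDerivAt_const c x)
        have h8 := (h4.clm_apply (hasFDerivAt_const (T b) x)).clm_apply
          (hasFDerivAt_const (T c) x)
        have h9 := h7.unique h8
        have h10 := congrArg (fun L => L a) h9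
        simpa using h10
      rw [key, key, key]
      exact h2 _ _ _ (v1_map T hK hu) (v1_map T hK hv) (v1_map T hK hw)
  bas x hx a ha b b' u v hu hv := by
    simp only [map_smul, map_add]
    exact τ.bas (T x) (hK x hx) a ha b b' _ _ (v1_map T hK hu) (v1_map T hK hv)

theorem comap_sg (T : H →L[ℂ] H') {K : Set H} {K' : Set H'} (τ : B1 K') (hK : ∀ x ∈ K, T x ∈ K')
    (x u v : H) : (B1.comap T τ hK).sg x u v = τ.sg (T x) (T u) (T v) := rfl

end comap

/-! ### the blocks -/

section blocks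

variable {ι : Type} [Fintype ι] [DecidableEq ι] {J : ι → Type} [∀ k, Fintype (J k)] {N : ℕ}

/-- coordinates in the blocks -/
def rx (e : (∀ k, J k) ≃ Fin (N + 1)) :
    EuclideanSpace ℂ (Fin (N + 1)) →L[ℂ] ((∀ k, J k) → ℂ) :=
  ContinuousLinearMap.pi fun a => EuclideanSpace.proj (e a)

@[simp] theorem rx_apply (e : (∀ k, J k) ≃ Fin (N + 1)) (w : EuclideanSpace ℂ (Fin (N + 1)))
    (a : ∀ k, J k) : rx e w a = w (e a) := rfl

theorem rx_ne (e : (∀ k, J k) ≃ Fin (N + 1)) {w : EuclideanSpace ℂ (Fin (N + 1))} (hw : w ≠ 0) :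
    rx e w ≠ 0 := by
  intro h
  apply hw
  ext i
  have h1 := congrFun h (e.symm i)
  rw [rx_apply, e.apply_symm_apply] at h1
  exact h1

/-- the Segre cone -/
def segS (e : (∀ k, J k) ≃ Fin (N + 1)) : Set (EuclideanSpace ℂ (Fin (N + 1))) :=
  {w | w ≠ 0 ∧ SegRel (rx e w)}

theorem segS_co (e : (∀ k, J k) ≃ Fin (N + 1)) : Co (segS e) := fun w hw a ha =>
  ⟨smul_ne_zero ha hw.1, by rw [map_smul]; exact hw.2.smul a⟩

theorem rx_mem (e : (∀ k, J k) ≃ Fin (N + 1)) : ∀ w ∈ segS e, rx e w ∈ segK J :=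
  fun _ hw => ⟨rx_ne e hw.1, hw.2⟩

/-- **the `k`-th block form** -/
def blkB (e : (∀ k, J k) ≃ Fin (N + 1)) (k : ι) : B1 (segS e) := B1.comap (rx e) (segB k) (rx_mem e)

/-- **the Fubini-Study form** -/
def totB (e : (∀ k, J k) ≃ Fin (N + 1)) : B1 (segS e) :=
  B1.comap (rx e) (FS (∀ k, J k)) fun _ hw => rx_ne e hw.1

end blocks

/-! ### the types -/

section types

variable {V X : Type} [NormedAddCommGroup V] [NormedSpace ℝ V] [TopologicalSpace X]

/-- **the types**: a code over the algebraic numbers, its model, the blocks, integral classes -/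
structure Ty (n : ℕ) (C : RCh V X) where
  N : ℕ
  K : Code QB n N
  M : Fmt QB (Fin K.k)
  nice : M.Nice
  good : ∀ (z : Fin M.m → ℂ) (w : ℂ), M.On z w → K.Good (M.pt z w)
  ρ : ℕ
  b : Fin ρ → ℕ
  e : (∀ k, Fin (b k + 1)) ≃ Fin (N + 1)
  seg : ∀ k a a', MvPolynomial.map (MvPolynomial.C : QB →+* MvPolynomial (Fin K.k) QB)
    (MvPolynomial.rename e (segPoly QB k a a')) ∈ range K.Y.G
  B : Fin ρ → HdR C
  B_int : ∀ k, B k ∈ Lz C

variable {C : RCh V X} {n : ℕ}

/-- there are countably many types -/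
theorem Ty.countable (hb : Bas C) : Countable (Ty n C) := by
  have hL : Countable ((Lz C : AddSubgroup (HdR C)) : Set (HdR C)) := (countable_Lz hb).to_subtype
  have h0 : ∀ ρ : ℕ, Countable (Fin ρ → ((Lz C : AddSubgroup (HdR C)) : Set (HdR C))) :=
    fun ρ => inferInstance
  let φ : Ty n C → Σ N : ℕ, Σ K : Code QB n N, Fmt QB (Fin K.k) × Σ ρ : ℕ,
      (Fin ρ → ((Lz C : AddSubgroup (HdR C)) : Set (HdR C))) ×
      Σ b : Fin ρ → ℕ, ((∀ k, Fin (b k + 1)) ≃ Fin (N + 1)) :=
    fun T => ⟨T.N, T.K, T.M, T.ρ, fun k => ⟨T.B k, T.B_int k⟩, T.b, T.e⟩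
  have hφ : Function.Injective φ := by
    rintro ⟨N, K, M, h1, h2, ρ, b, e, h3, B, h4⟩ ⟨N', K', M', h1', h2', ρ', b', e', h3', B', h4'⟩ h
    simp only [φ, Sigma.mk.injEq] at h
    obtain ⟨rfl, h⟩ := h
    have h := eq_of_heq h
    rw [Sigma.mk.injEq] at h
    obtain ⟨rfl, h⟩ := h
    have h := eq_of_heq h
    rw [Prod.mk.injEq] at h
    obtain ⟨rfl, h⟩ := h
    rw [Sigma.mk.injEq] at h
    obtain ⟨rfl, h⟩ := h
    have h := eq_of_heq h
    rw [Prod.mk.injEq] at h
    obtain ⟨h5, h⟩ := h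
    rw [Sigma.mk.injEq] at h
    obtain ⟨rfl, h⟩ := h
    have h := eq_of_heq h
    subst h
    have h6 : B = B' := funext fun k => congrArg Subtype.val (congrFun h5 k)
    subst h6
    rfl
  exact hφ.countable

/-! ### the family of a type -/

namespace Ty

variable (T : Ty n C)

/-- the family of a type -/
def F : QFam (QM T.M) (Fin T.M.m → ℂ) (EuclideanSpace ℂ (Fin (T.N + 1))) :=
  qfamC T.K T.M T.nice T.good

@[simp] theorem F_u : T.F.u = zc T.M := rfl

theorem F_S (q : QM T.M) : T.F.S q = T.K.cone (T.M.pt q.1.1 q.1.2) := rfl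

/-- the members satisfy the Segre relations -/
theorem cone_seg {c : Fin T.K.k → ℂ} {w : EuclideanSpace ℂ (Fin (T.N + 1))}
    (hw : w ∈ T.K.cone c) : w ∈ segS T.e := by
  refine ⟨hw.1, ?_⟩
  rw [segRel_iff]
  intro k a a'
  have h1 := hw.2 _ (T.K.mem_G_of_C (T.seg k a a') c)
  rw [MvPolynomial.map_rename, Blk_592.segPoly_map, MvPolynomial.eval_rename] at h1
  exact h1

theorem R_seg (q0 : QM T.M) : T.F.R q0 ⊆ {p | p.2 ∈ segS T.e} := by
  rintro ⟨c, w⟩ ⟨h1, h2⟩
  have h3 := (T.F.e q0).map_target h2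
  have h4 : T.F.u ((T.F.e q0).symm c) = c := by
    rw [← T.F.coe q0 _ h3, (T.F.e q0).right_inv h2]
  rw [← h4, T.F.T_eq q0 _ h3] at h1
  exact T.cone_seg h1

/-- the `k`-th block form on the family -/
def qb (k : Fin T.ρ) : QBF T.F := qbf (blkB T.e k) T.R_seg

/-- the Fubini-Study form on the family -/
def qt : QBF T.F := qbf (totB T.e) T.R_seg

/-- the certified holomorphic symplectic form on the family (377) -/
def qc : Crest.Agent.R281.Ehr11_268.QCF T.F := Crest.Agent.R281.Qc_377.qcfC T.K T.M T.nice T.good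

/-- the prescribed classes of the block forms -/
def pcl (k : Fin T.ρ) : HdR C := Real.pi • T.B k

variable [FiniteDimensional ℝ V] [CompactSpace X] [T2Space X]

/-- the marked cover -/
abbrev L : LS (QM T.M) (difG C ⧸ tG C) (MQ T.F C) := ls T.F C

/-- **the class of the `k`-th block form** at a marking -/
def cls (k : Fin T.ρ) : MQ T.F C → HdR C := ((T.qb k).natF C).cls

/-- constant along the transports: the field `cls_s` of `HM` -/
theorem cls_s (k : Fin T.ρ) (x : MQ T.F C) (q : QM T.M) (hq : q ∈ T.L.U (T.L.p x)) :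
    T.cls k (T.L.s x q) = T.cls k x :=
  cls_const (blkB T.e k) (segS_co T.e) T.R_seg x q hq

end Ty

/-! ### the plane -/

open Crest.Agent.R281.Sta2_684 (QS)
open Crest.Agent.R281.Sta3_684 (Bq)
open Crest.Agent.R281.LI_473

variable {Q : F2 C →ₗ[ℝ] F2 C →ₗ[ℝ] ℝ}

/-- the frame of the plane `W` -/
def frF (F : Frm C Q) (hQ : QS Q) : Fr (Bq hQ) where
  sym := fun x y => by
    obtain ⟨a, rfl⟩ := cl_surj x
    obtain ⟨b, rfl⟩ := cl_surj y
    exact hQ.symm a b
  N := F.N
  N_pos := F.hN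
  e := cl F.e
  v := cl F.v
  f := cl F.es
  ee := F.e_e
  ev := F.e_v
  vv := F.v_v
  ff := F.es_es
  fv := F.es_v
  fe := F.es_e

/-- **the classes of the type span the orthogonal space of `W`** -/
structure Ty.Ok (T : Ty n C) (F : Frm C Q) (hQ : QS Q) : Prop where
  perp : ∀ k, Bq hQ (cl F.e) (T.B k) = 0 ∧ Bq hQ (cl F.v) (T.B k) = 0 ∧
    Bq hQ (cl F.es) (T.B k) = 0
  span : ∀ x : HdR C, (∀ k, Bq hQ x (T.B k) = 0) → x ∈ (frF F hQ).M
  pos : 0 < Bq hQ (∑ k, T.B k) (∑ k, T.B k)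

/-- the field `mem_M` of `HM` -/
theorem Ty.Ok.mem_M {T : Ty n C} {F : Frm C Q} {hQ : QS Q} (h : T.Ok F hQ) (x : HdR C)
    (hx : ∀ k, Bq hQ x (T.pcl k) = 0) : x ∈ (frF F hQ).M := by
  refine h.span x fun k => ?_
  have h1 := hx k
  rw [Ty.pcl, map_smul, smul_eq_mul] at h1
  exact (mul_eq_zero.mp h1).resolve_left Real.pi_ne_zero

/-- the field `perp` of `HM` -/
theorem Ty.Ok.perp' {T : Ty n C} {F : Frm C Q} {hQ : QS Q} (h : T.Ok F hQ) (x : HdR C)
    (hx : x ∈ (frF F hQ).M) (k : Fin T.ρ) : Bq hQ x (T.pcl k) = 0 := by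
  obtain ⟨w, rfl⟩ := hx
  obtain ⟨h1, h2, h3⟩ := h.perp k
  rw [Ty.pcl, map_smul, Fr.κ_apply]
  have e1 : Bq hQ (frF F hQ).f (T.B k) = 0 := h3
  have e2 : Bq hQ (frF F hQ).v (T.B k) = 0 := h2
  have e3 : Bq hQ (frF F hQ).e (T.B k) = 0 := h1
  simp [e1, e2, e3]

/-- the classes of the blocks add up to a positive multiple of `A` -/
def Ty.Rel (T : Ty n C) (A : F2 C) : Prop := ∃ c : ℝ, 0 < c ∧ ∑ k, T.B k = c • cl A

end types

end

end Crest.Agent.R281.Dv_957
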