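import Crest.Agent.R281.Pt2_313
import Crest.Agent.R281.Dv1_957
import Crest.Agent.R281.Qc2_377

/-!
# Row 281, point level, part 3 (helper313): `HD` at every marking of a type

* `pl_form`     : the form of a marking on `C` is its form on the charts of the marking
* `Ty.inK`, `qb_form'`, `typ_form'`, `nd_form'`
* `Ty.kf l m`   : `∑ l k • (T.qb k).form m`
* `Ty.hd`       : **`HD` at every marking**, for every `l > 0`
* `Ty.J m`      : the complex structure of a marking on `C`; `Ty.iRel`, `Ty.cxOf`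
-/

set_option autoImplicit false
set_option linter.unusedSectionVars false
set_option maxSynthPendingDepth 3

open Set Filter Topology Complex
open scoped ContDiff ComplexConjugate

namespace Crest.Agent.R281.Pt_313

open Crest.Agent.R281.HkR_835 Crest.Agent.R281.Ehr2_268 Crest.Agent.R281.Dif_268
open Crest.Agent.R281.HkR_835.Cmp
open Crest.Agent.R281.Ehr6_268 Crest.Agent.R281.Ehr8_268
open Crest.Agent.R281.Pe_313 (IRel Typ Typ11 Nd Pos11 exists_iRel CxOf)
open Crest.Agent.R281.Phl_655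
open Crest.Agent.R281.NefO_476 (AJ)
open Crest.Agent.R281.Al_830 (HD)
open Crest.Agent.R281.Dv_957 (Ty segS blkB rx)
open Crest.Agent.R281.Qc_377 (markC_cx sgC sgC_typ sgC_nd re_form' im_form')

noncomputable section

universe uq

section gen

variable {Q : Type uq} [TopologicalSpace Q] {E H : Type} [NormedAddCommGroup E]
    [NormedSpace ℂ E] [NormedAddCommGroup H] [NormedSpace ℂ H] {V X : Type}
    [NormedAddCommGroup V] [NormedSpace ℝ V] [TopologicalSpace X]
    {F : QFam Q E H} {C : RCh V X}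

/-- the form of a marking, on `C` and on the charts of the marking -/
theorem pl_form (b : QBF F) (m : Mark F C) : Pl (b.form m) (b.form' m) := fun _ _ _ hz u v =>
  (SMap.ofCmp m.cmp.symm).pull_w _ hz u v

theorem Pl.sum {κ : Type} [Fintype κ] {C' : RCh V X} {w : κ → F2 C} {w' : κ → F2 C'}
    (h : ∀ k, Pl (w k) (w' k)) (l : κ → ℝ) : Pl (∑ k, l k • w k) (∑ k, l k • w' k) := by
  intro i j z hz u v
  rw [F2.sum_w, F2.sum_w]
  simp only [sum_apply]
  exact Finset.sum_congr rfl fun k _ => (h k).smul (l k) i j z hz u v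

variable {K : Set H}

/-- the members have values in `K` -/
theorem inK_mark (hK : ∀ q0, F.R q0 ⊆ {p : E × H | p.2 ∈ K}) (m : Mark F C) : InK m.P K :=
  fun _ _ hz => hK m.q ((F.R_iff (F.mem m.q) _).mpr ((m.cone _).mp (m.P.mem_cone hz)))

/-- value of a parameter free form at a marking -/
theorem qbf_form' (τ : B1 K) (hK : ∀ q0, F.R q0 ⊆ {p : E × H | p.2 ∈ K}) (m : Mark F C)
    {j : m.C'.ι} {z : V} (hz : z ∈ (m.C'.e j).target) (v w : V) :
    ((qbf τ hK).form' m).w j z v w = τ.sg (m.P.u j z) (fderiv ℝ (m.P.u j) z v)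
      (fderiv ℝ (m.P.u j) z w) := Ehj_461.form'_w (qbf τ hK) m hz v w

theorem sum_form' {κ : Type} [Fintype κ] (τ : κ → B1 K)
    (hK : ∀ q0, F.R q0 ⊆ {p : E × H | p.2 ∈ K}) (m : Mark F C) (l : κ → ℝ)
    {j : m.C'.ι} {z : V} (hz : z ∈ (m.C'.e j).target) (v w : V) :
    (∑ k, l k • (qbf (τ k) hK).form' m : F2 m.C').w j z v w = ∑ k, l k *
      (τ k).sg (m.P.u j z) (fderiv ℝ (m.P.u j) z v) (fderiv ℝ (m.P.u j) z w) := by
  rw [F2.sum_w]
  simp only [sum_apply]
  refine Finset.sum_congr rfl fun k _ => ?_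
  rw [← qbf_form' (τ k) hK m hz]
  rfl

end gen

section ty

variable {V X : Type} [NormedAddCommGroup V] [NormedSpace ℝ V] [TopologicalSpace X]
  {C : RCh V X} {n : ℕ} (T : Ty n C)

theorem rx_inj {ι : Type} [Fintype ι] [DecidableEq ι] {J : ι → Type} [∀ k, Fintype (J k)]
    {N : ℕ} (e : (∀ k, J k) ≃ Fin (N + 1)) : Function.Injective (rx e) := by
  intro x y h
  ext j
  have h1 := congrFun h (e.symm j)
  rw [Dv_957.rx_apply, Dv_957.rx_apply, e.apply_symm_apply] at h1
  exact h1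

/-- **the block forms of a type are positive** -/
theorem posF_blkB {ι : Type} [Fintype ι] [DecidableEq ι] {J : ι → Type} [∀ k, Fintype (J k)]
    {N : ℕ} (e : (∀ k, J k) ≃ Fin (N + 1)) : PosF fun k : ι => blkB e k := by
  have h := (posF_segB (J := J)).comap (K := segS e) (rx e) (Dv_957.rx_mem e) (rx_inj e)
  exact ⟨h.inv, h.nn, h.df⟩

/-- a positive combination of the block forms at a marking -/
def _root_.Crest.Agent.R281.Dv_957.Ty.kf (l : Fin T.ρ → ℝ) (m : Mark T.F C) : F2 C :=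
  ∑ k, l k • (T.qb k).form m

/-- the same on the charts of the marking -/
def _root_.Crest.Agent.R281.Dv_957.Ty.kf' (l : Fin T.ρ → ℝ) (m : Mark T.F C) : F2 m.C' :=
  ∑ k, l k • (T.qb k).form' m

theorem pl_kf (l : Fin T.ρ → ℝ) (m : Mark T.F C) : Pl (T.kf l m) (T.kf' l m) :=
  Pl.sum (fun k => pl_form (T.qb k) m) l

theorem kf'_w (l : Fin T.ρ → ℝ) (m : Mark T.F C) (j : m.C'.ι) (z : V)
    (hz : z ∈ (m.C'.e j).target) (v w : V) : (T.kf' l m).w j z v w = ∑ k, l k *
      (blkB T.e k).sg (m.P.u j z) (fderiv ℝ (m.P.u j) z v) (fderiv ℝ (m.P.u j) z w) :=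
  sum_form' (fun k => blkB T.e k) T.R_seg m l hz v w

theorem inK_ty (m : Mark T.F C) : InK m.P (segS T.e) := inK_mark T.R_seg m

theorem typ11_kf' (l : Fin T.ρ → ℝ) (m : Mark T.F C) : Typ11 m.P (T.kf' l m) :=
  (posF_blkB T.e).typ11 (inK_ty T m) (kf'_w T l m)

theorem pos11_kf' {l : Fin T.ρ → ℝ} (hl : ∀ k, 0 < l k) (m : Mark T.F C) :
    Pos11 m.P (T.kf' l m) :=
  (posF_blkB T.e).pos11 (inK_ty T m) hl (kf'_w T l m)

variable [FiniteDimensional ℝ V]

theorem typ_form' (m : Mark T.F C) : Typ m.P (T.qc.re.form' m) (T.qc.im.form' m) := by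
  intro j z hz v v' u hv
  obtain ⟨c, hc⟩ := hv
  have h1 := sgC_typ T.nice T.good m hz hc u
  have e1 : (T.qc.re.form' m).w j z v' u = (sgC T.nice T.good m j z v' u).re :=
    re_form' T.nice T.good m j z v' u
  have e2 : (T.qc.im.form' m).w j z v u = (sgC T.nice T.good m j z v u).im :=
    im_form' T.nice T.good m j z v u
  rw [e1, e2, h1, mul_re, I_re, I_im]
  ring

theorem nd_form' (hV : Module.finrank ℝ V = 2 * n) (m : Mark T.F C) : Nd (T.qc.re.form' m) := by
  intro j z hz v hv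
  refine sgC_nd T.nice T.good hV m hz (v := v) fun u => ?_
  obtain ⟨u', c, hc⟩ := markC_cx T.nice T.good hV m j z hz u
  have e1 : ∀ u, (T.qc.re.form' m).w j z v u = (sgC T.nice T.good m j z v u).re :=
    fun u => re_form' T.nice T.good m j z v u
  have e2 : (T.qc.im.form' m).w j z v u = (sgC T.nice T.good m j z v u).im :=
    im_form' T.nice T.good m j z v u
  have h1 := typ_form' T m j z hz u u' v ⟨c, hc⟩
  rw [(T.qc.re.form' m).alt j z hz, (T.qc.im.form' m).alt j z hz u v, hv u', e2] at h1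
  have h2 := hv u
  rw [e1] at h2
  refine Complex.ext h2 ?_
  rw [zero_im]
  linarith

/-- **the complex structure of a marking**, on `C` -/
def _root_.Crest.Agent.R281.Dv_957.Ty.J (m : Mark T.F C) : AJ C :=
  ajS (T.qc.re.form m) (T.qc.im.form m)

/-- **`HD` at every marking** -/
theorem _root_.Crest.Agent.R281.Dv_957.Ty.hd (hV : Module.finrank ℝ V = 2 * n)
    (m : Mark T.F C) {l : Fin T.ρ → ℝ} (hl : ∀ k, 0 < l k) :
    HD (T.J m) (T.kf l m) (T.qc.re.form m) (T.qc.im.form m) :=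
  hd_of m.cmp (markC_cx T.nice T.good hV m) (typ_form' T m) (nd_form' T hV m)
    (typ11_kf' T l m) (pos11_kf' T hl m) (pl_form _ m) (pl_form _ m) (pl_kf T l m)

/-- `T.J m` is the complex structure of the member -/
theorem _root_.Crest.Agent.R281.Dv_957.Ty.iRel (hV : Module.finrank ℝ V = 2 * n)
    (m : Mark T.F C) {i : C.ι} {j : m.C'.ι} {z : V} (hj : z ∈ mov m.C' C j i) (u : V) :
    IRel m.P j (mt m.C' C j i z) (fderiv ℝ (mt m.C' C j i) z u)
      (fderiv ℝ (mt m.C' C j i) z ((T.J m).J i z u)) :=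
  iRel_ajS m.cmp (markC_cx T.nice T.good hV m) (typ_form' T m) (nd_form' T hV m)
    (pl_form _ m) (pl_form _ m) hj u

/-- hyperkaehler triples on the complex structure of the member -/
theorem _root_.Crest.Agent.R281.Dv_957.Ty.cxOf (hV : Module.finrank ℝ V = 2 * n)
    (m : Mark T.F C) {H : HkT C}
    (hJ : ∀ i, ∀ z ∈ (C.e i).target, ∀ u, H.J 0 i z u = (T.J m).J i z u) : CxOf m.P H :=
  cxOf_of m.cmp (markC_cx T.nice T.good hV m) (typ_form' T m) (nd_form' T hV m)
    (pl_form _ m) (pl_form _ m) hJ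

/-- conversely the structure of `m` is determined by `CxOf` -/
theorem _root_.Crest.Agent.R281.Dv_957.Ty.J_of_cxOf (hV : Module.finrank ℝ V = 2 * n)
    (m : Mark T.F C) {H : HkT C} (hH : CxOf m.P H) (i : C.ι) (z : V)
    (hz : z ∈ (C.e i).target) (u : V) : H.J 0 i z u = (T.J m).J i z u := by
  obtain ⟨j, hj⟩ : ∃ j, z ∈ mov m.C' C j i := exists_mov m.C' hz
  have h1 := T.iRel hV m hj u
  have h2 := hH i j z hj u
  have h3 := h2.uniq (mt_mem hj).1 h1
  exact m.cmp.symm.inj hj h3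

end ty

end

end Crest.Agent.R281.Pt_313
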