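import Crest.Agent.R281.Blk7_592
import Crest.Agent.R281.Pt3_313

/-!
# R281 (S0424), blocks of members (helper592), part 8: the class of the total form

* `totB_sum`      : `(totB e).sg x u v = ∑ k, (blkB e k).sg x u v` on velocities
* `form'_tot_sum`, `form_tot_sum` : the same for the forms of a marking
* `cls_tot_sum`   : the same for the classes of the marked cover
* `Ty.cls_tot`, `Ty.cls_tot_rel`  : `[total form] = (π c) • [A]` at the markings with prescribed
                    classes of the blocks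
-/

set_option autoImplicit false
set_option linter.unusedSectionVars false
set_option maxSynthPendingDepth 3

open Set Filter Topology Complex
open scoped ContDiff ComplexConjugate

namespace Crest.Agent.R281.Blk_592

open Crest.Agent.R281.HkR_835 Crest.Agent.R281.Ehr2_268 Crest.Agent.R281.Dif_268
open Crest.Agent.R281.Ehr4_268 Crest.Agent.R281.Ehr6_268 Crest.Agent.R281.Ehr7_268
open Crest.Agent.R281.Ehr8_268 Crest.Agent.R281.Cdr_234
open Crest.Agent.R281.Pe_313 (CxOf)
open Crest.Agent.R281.Phl_655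
open Crest.Agent.R281.Pt_313 (inK_mark pl_form)
open Crest.Agent.R281.Dv_957 (Ty segS blkB totB rx rx_mem v1_map)

noncomputable section

universe uq

section forms

variable {ι : Type} [Fintype ι] [DecidableEq ι] {J : ι → Type} [∀ k, Fintype (J k)] {N : ℕ}
  (e : (∀ k, J k) ≃ Fin (N + 1))

theorem totB_sum {x u v : EuclideanSpace ℂ (Fin (N + 1))} (hx : x ∈ segS e)
    (hu : V1 (segS e) x u) (hv : V1 (segS e) x v) :
    (totB e).sg x u v = ∑ k, (blkB e k).sg x u v :=
  FS_eq_sum (rx_mem e x hx) (v1_map (rx e) (rx_mem e) hu) (v1_map (rx e) (rx_mem e) hv)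

variable {Q : Type uq} [TopologicalSpace Q] {E : Type} [NormedAddCommGroup E]
    [NormedSpace ℂ E] {V X : Type}
    [NormedAddCommGroup V] [NormedSpace ℝ V] [TopologicalSpace X]
    {F : QFam Q E (EuclideanSpace ℂ (Fin (N + 1)))} {C : RCh V X}

theorem vel_mark {K : Set (EuclideanSpace ℂ (Fin (N + 1)))} {C' : RCh V X}
    {P : HEmb C' (EuclideanSpace ℂ (Fin (N + 1)))} (hP : InK P K) {i : C'.ι} {y : V}
    (hy : y ∈ (C'.e i).target) (v : V) : V1 K (P.u i y) (fderiv ℝ (P.u i) y v) := by
  have hm : ∀ᶠ y' in 𝓝 y, P.u i y' ∈ K := by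
    filter_upwards [(C'.e i).open_target.mem_nhds hy] with y' hy'
    exact hP i y' hy'
  have hd : DifferentiableAt ℝ (P.u i) y :=
    ((P.sm i).contDiffAt ((C'.e i).open_target.mem_nhds hy)).differentiableAt (by simp)
  exact vel_of (S := {p : ℂ × EuclideanSpace ℂ (Fin (N + 1)) | p.2 ∈ K}) (c := 0) hd hm v

/-- **the total form of a marking is the sum of the block forms** -/
theorem form'_tot_sum (hK : ∀ q0, F.R q0 ⊆ {p | p.2 ∈ segS e}) (m : Mark F C) :
    Eqv ((qbf (totB e) hK).form' m) (∑ k, (qbf (blkB e k) hK).form' m) := by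
  intro i z hz u v
  have hP := inK_mark hK m
  rw [F2.sum_w, Pt_313.qbf_form' (totB e) hK m hz, totB_sum e (hP i z hz) (vel_mark hP hz u)
    (vel_mark hP hz v)]
  simp only [_root_.sum_apply]
  exact Finset.sum_congr rfl fun k _ => (Pt_313.qbf_form' (blkB e k) hK m hz u v).symm

theorem eqv_pull_sum {V' X' : Type} [NormedAddCommGroup V'] [NormedSpace ℝ V']
    [TopologicalSpace X'] {C' : RCh V' X'} (g : SMap C' C) {κ : Type} [Fintype κ]
    (w : κ → F2 C) : Eqv (g.pull (∑ k, w k)) (∑ k, g.pull (w k)) := by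
  intro j z hz u v
  obtain ⟨i, hi⟩ := g.exists_dom hz
  rw [F2.sum_w, g.pull_w _ hi, F2.sum_w]
  simp only [_root_.sum_apply]
  exact Finset.sum_congr rfl fun k _ => (g.pull_w (w k) hi u v).symm

theorem form_tot_sum (hK : ∀ q0, F.R q0 ⊆ {p | p.2 ∈ segS e}) (m : Mark F C) :
    Eqv ((qbf (totB e) hK).form m) (∑ k, (qbf (blkB e k) hK).form m) :=
  ((form'_tot_sum e hK m).pull (SMap.ofCmp m.cmp.symm)).trans (eqv_pull_sum _ _)

variable [FiniteDimensional ℝ V] [CompactSpace X] [T2Space X]

/-- **the class of the total form** -/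
theorem cls_tot_sum (hK : ∀ q0, F.R q0 ⊆ {p | p.2 ∈ segS e}) (x : MQ F C) :
    ((qbf (totB e) hK).natF C).cls x = ∑ k, ((qbf (blkB e k) hK).natF C).cls x := by
  obtain ⟨m, rfl⟩ := MQ.exists_rep x
  have h1 : cl ((qbf (totB e) hK).form m) = cl (∑ k, (qbf (blkB e k) hK).form m) :=
    cl_eq_iff.mpr (form_tot_sum e hK m).coh
  have h2 : ∀ s : Finset ι, cl (∑ k ∈ s, (qbf (blkB e k) hK).form m) =
      ∑ k ∈ s, cl ((qbf (blkB e k) hK).form m) := by
    intro s
    induction s using Finset.induction_on with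
    | empty => rfl
    | insert k s hk ih => rw [Finset.sum_insert hk, Finset.sum_insert hk, cl_add, ih]
  exact h1.trans (h2 Finset.univ)

end forms

section ty

variable {V X : Type} [NormedAddCommGroup V] [NormedSpace ℝ V] [TopologicalSpace X]
  {C : RCh V X} {n : ℕ} (T : Ty n C) [FiniteDimensional ℝ V] [CompactSpace X] [T2Space X]

theorem _root_.Crest.Agent.R281.Dv_957.Ty.cls_tot (x : MQ T.F C) :
    (T.qt.natF C).cls x = ∑ k, T.cls k x := cls_tot_sum T.e T.R_seg x

/-- **the class of the total form at a marking with the prescribed classes of the blocks** -/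
theorem _root_.Crest.Agent.R281.Dv_957.Ty.cls_tot_rel {x : MQ T.F C}
    (hx : ∀ k, T.cls k x = T.pcl k) {A : F2 C} {c : ℝ} (h : ∑ k, T.B k = c • cl A) :
    (T.qt.natF C).cls x = (Real.pi * c) • cl A := by
  rw [T.cls_tot x, Finset.sum_congr rfl fun k _ => hx k, mul_smul, ← h, Finset.smul_sum]
  rfl

/-- the same for the form of the marking -/
theorem _root_.Crest.Agent.R281.Dv_957.Ty.ex_tot {m : Mark T.F C}
    (hx : ∀ k, T.cls k (MQ.mk m) = T.pcl k) {A : F2 C} {c : ℝ} (h : ∑ k, T.B k = c • cl A) :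
    Coh (T.qt.form m) ((Real.pi * c) • A) := by
  rw [← cl_eq_iff, cl_smul]
  exact T.cls_tot_rel hx h

end ty

end

end Crest.Agent.R281.Blk_592
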