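import Crest.Agent.R281.Dif3_268
import Crest.Agent.R281.Ehr2_268

/-!
# R281 (S0424), B4-EHR (helper268), part 4: members, transitions, isomorphisms of cones

* `Over P P' f`   : `f` takes the point below `P` to the point below `P'`
* `ConeIso`       : equivariant isomorphism of cones, smooth both ways; `ConeMap.iso`
* `HEmb.mapIso`   : transport of a member
* `HEmb.mapCh`    : action of homeomorphisms (through the charts)
-/

set_option autoImplicit false
set_option maxSynthPendingDepth 5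
set_option linter.unusedSectionVars false

open Set Filter Topology Complex
open scoped ContDiff

namespace Crest.Agent.R281.Ehr4_268

open Crest.Agent.R281.HkR_835 Crest.Agent.R281.Ehr2_268 Crest.Agent.R281.Dif_268

noncomputable section

variable {V X : Type} [NormedAddCommGroup V] [NormedSpace ℝ V] [TopologicalSpace X]
variable {H : Type} [NormedAddCommGroup H] [NormedSpace ℂ H]
variable {C C₁ C₂ C₃ : RCh V X}

/-- `f` takes the point below `P` to the point below `P'` -/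
def Over (P : HEmb C₁ H) (P' : HEmb C₂ H) (f : X → X) : Prop :=
  ∀ i, ∀ z ∈ (C₁.e i).target, ∀ j, ∀ z' ∈ (C₂.e j).target,
    (C₂.e j).symm z' = f ((C₁.e i).symm z) → ∃ a : ℂ, a ≠ 0 ∧ P.u i z = a • P'.u j z'

theorem exists_coord (C : RCh V X) (x : X) : ∃ i, ∃ z ∈ (C.e i).target, (C.e i).symm z = x := by
  obtain ⟨i, hi⟩ := C.cover x
  exact ⟨i, C.e i x, (C.e i).map_source hi, (C.e i).left_inv hi⟩

theorem same_point (P : HEmb C H) {i j : C.ι} {z z' : V} (hz : z ∈ (C.e i).target)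
    (hz' : z' ∈ (C.e j).target) (h : (C.e j).symm z' = (C.e i).symm z) :
    ∃ a : ℂ, a ≠ 0 ∧ P.u i z = a • P.u j z' := by
  have h1 : z ∈ C.ov i j := ⟨hz, by rw [← h]; exact (C.e j).map_target hz'⟩
  have h2 : C.t i j z = z' := by
    show C.e j ((C.e i).symm z) = z'
    rw [← h, (C.e j).right_inv hz']
  obtain ⟨a, ha, h3⟩ := P.tr' h1
  exact ⟨a, ha, by rw [h3, h2]⟩

theorem Over.refl (P : HEmb C H) : Over P P id := fun _ _ hz _ _ hz' h => same_point P hz hz' h

theorem Over.of_eq {P P' : HEmb C H} (h : ∀ i, ∀ z ∈ (C.e i).target, P.u i z = P'.u i z) :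
    Over P P' id := by
  intro i z hz j z' hz' he
  obtain ⟨a, ha, h1⟩ := same_point P hz hz' he
  exact ⟨a, ha, by rw [h1, h j z' hz']⟩

theorem Over.comp {P : HEmb C₁ H} {P' : HEmb C₂ H} {P'' : HEmb C₃ H} {f g : X → X}
    (h : Over P P' f) (h' : Over P' P'' g) : Over P P'' (g ∘ f) := by
  intro i z hz k z'' hz'' he
  obtain ⟨j, z', hz', hx⟩ := exists_coord C₂ (f ((C₁.e i).symm z))
  obtain ⟨a, ha, h1⟩ := h i z hz j z' hz' hx
  obtain ⟨b, hb, h2⟩ := h' j z' hz' k z'' hz'' (by rw [he, hx]; rfl)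
  exact ⟨a * b, mul_ne_zero ha hb, by rw [h1, h2, smul_smul]⟩

theorem Over.uniq {P : HEmb C₁ H} {P' : HEmb C₂ H} {f g : X → X} (h : Over P P' f)
    (h' : Over P P' g) : f = g := by
  funext x
  obtain ⟨i, z, hz, hx⟩ := exists_coord C₁ x
  obtain ⟨j, z', hz', hx'⟩ := exists_coord C₂ (f x)
  obtain ⟨k, z'', hz'', hx''⟩ := exists_coord C₂ (g x)
  obtain ⟨a, ha, h1⟩ := h i z hz j z' hz' (by rw [hx', hx])
  obtain ⟨b, hb, h2⟩ := h' i z hz k z'' hz'' (by rw [hx'', hx])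
  rw [← hx', ← hx'']
  refine P'.inj j k z' hz' z'' hz'' ⟨a⁻¹ * b, ?_⟩
  rw [mul_smul, ← h2, h1, smul_smul, inv_mul_cancel₀ ha, one_smul]

theorem Over.inv {P : HEmb C₁ H} {P' : HEmb C₂ H} {f f' : X → X} (h : Over P P' f)
    (hf : ∀ x, f (f' x) = x) : Over P' P f' := by
  intro j z' hz' i z hz he
  obtain ⟨a, ha, h1⟩ := h i z hz j z' hz' (by rw [he, hf])
  exact ⟨a⁻¹, inv_ne_zero ha, by rw [h1, smul_smul, inv_mul_cancel₀ ha, one_smul]⟩

/-- mutually inverse transitions -/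
theorem Over.inv_eq {P : HEmb C₁ H} {P' : HEmb C₂ H} {f g : X → X} (h : Over P P' f)
    (h' : Over P' P g) : g ∘ f = id := (h.comp h').uniq (Over.refl P)

/-! ### isomorphisms of cones -/

/-- equivariant isomorphism of cones with local smooth extensions -/
structure ConeIso (K K' : Set H) (f g : H → H) : Prop where
  ne : ∀ w ∈ K, w ≠ 0
  ne' : ∀ w ∈ K', w ≠ 0
  cone : ∀ w ∈ K, ∀ a : ℂ, a ≠ 0 → a • w ∈ K
  cone' : ∀ w ∈ K', ∀ a : ℂ, a ≠ 0 → a • w ∈ K'
  hom : ∀ w ∈ K, ∀ a : ℂ, a ≠ 0 → f (a • w) = a • f w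
  hom' : ∀ w ∈ K', ∀ a : ℂ, a ≠ 0 → g (a • w) = a • g w
  maps : ∀ w ∈ K, f w ∈ K'
  maps' : ∀ w ∈ K', g w ∈ K
  left : ∀ w ∈ K, g (f w) = w
  right : ∀ w ∈ K', f (g w) = w
  ext : ∀ w1 ∈ K, ∃ F : H → H, ContDiffAt ℝ ∞ F w1 ∧ ∀ᶠ w in 𝓝 w1, w ∈ K → F w = f w
  ext' : ∀ w1 ∈ K', ∃ F : H → H, ContDiffAt ℝ ∞ F w1 ∧ ∀ᶠ w in 𝓝 w1, w ∈ K' → F w = g w

namespace ConeIso

variable {K K' : Set H} {f g : H → H}

theorem symm (h : ConeIso K K' f g) : ConeIso K' K g f :=
  ⟨h.ne', h.ne, h.cone', h.cone, h.hom', h.hom, h.maps', h.maps, h.right, h.left, h.ext', h.ext⟩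

end ConeIso

variable {E : Type} [NormedAddCommGroup E] [NormedSpace ℂ E]

theorem iso_of_coneMap {S : Set (E × H)} {c0 : E} {r : ℝ} {Φ Ψ : E → H → H}
    (hM : ConeMap S c0 r Φ Ψ) {c : E} (hc : c ∈ Metric.ball c0 r) :
    ConeIso {w | (c0, w) ∈ S} {w | (c, w) ∈ S} (Φ c) (Ψ c) where
  ne w hw := hM.ne _ hw
  ne' w hw := hM.ne _ hw
  cone w hw a ha := hM.cone _ hw a ha
  cone' w hw a ha := hM.cone _ hw a ha
  hom w hw a ha := hM.hom c hc w hw a ha
  hom' w hw a ha := hM.hom' hc hw ha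
  maps w hw := hM.maps c hc w hw
  maps' w hw := hM.maps' c hc w hw
  left w hw := hM.left c hc w hw
  right w hw := hM.right c hc w hw
  ext w1 hw1 := by
    obtain ⟨F, hF, hFe, -⟩ := hM.ext c hc w1 hw1
    have ht : Tendsto (fun w : H => (c, w)) (𝓝 w1) (𝓝 (c, w1)) :=
      Continuous.tendsto' (by fun_prop) _ _ rfl
    refine ⟨fun w => F (c, w), ?_, ?_⟩
    · have h1 : ContDiffAt ℝ ∞ (fun w : H => (c, w)) w1 := by fun_prop
      exact (hF.of_le le_top).comp w1 h1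
    · filter_upwards [ht.eventually hFe] with w hw using hw
  ext' w1 hw1 := by
    obtain ⟨F, hF, hFe⟩ := hM.ext' c hc w1 hw1
    have ht : Tendsto (fun w : H => (c, w)) (𝓝 w1) (𝓝 (c, w1)) :=
      Continuous.tendsto' (by fun_prop) _ _ rfl
    refine ⟨fun w => F (c, w), ?_, ?_⟩
    · have h1 : ContDiffAt ℝ ∞ (fun w : H => (c, w)) w1 := by fun_prop
      exact (hF.of_le le_top).comp w1 h1
    · filter_upwards [ht.eventually hFe] with w hw using hw

/-! ### transport of a member -/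

section mapIso

variable (P : HEmb C H) {K K' : Set H} {f g : H → H} (h : ConeIso K K' f g)
  (hP : ∀ w, w ∈ P.cone ↔ w ∈ K)
include h hP

theorem u_mem {i : C.ι} {z : V} (hz : z ∈ (C.e i).target) : P.u i z ∈ K :=
  (hP _).mp (P.mem_cone hz)

theorem iso_contDiffAt {i : C.ι} {z : V} (hz : z ∈ (C.e i).target) :
    ContDiffAt ℝ ∞ (fun z => f (P.u i z)) z := by
  have hu : ContDiffAt ℝ ∞ (P.u i) z := (P.sm i).contDiffAt ((C.e i).open_target.mem_nhds hz)
  obtain ⟨F, hF, hFe⟩ := h.ext _ (u_mem P h hP hz)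
  refine (hF.comp z hu).congr_of_eventuallyEq ?_
  filter_upwards [hu.continuousAt.eventually hFe, (C.e i).open_target.mem_nhds hz] with y hy1 hy2
  exact (hy1 (u_mem P h hP hy2)).symm

theorem iso_imm {i : C.ι} {z : V} (hz : z ∈ (C.e i).target) {v : V}
    (hv : ∃ a : ℂ, fderiv ℝ (fun z => f (P.u i z)) z v = a • f (P.u i z)) : v = 0 := by
  obtain ⟨a, ha⟩ := hv
  have hU := iso_contDiffAt P h hP hz
  have hUz : DifferentiableAt ℝ (fun z => f (P.u i z)) z := hU.differentiableAt (by simp)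
  have hK' : f (P.u i z) ∈ K' := h.maps _ (u_mem P h hP hz)
  obtain ⟨F, hF, hFe⟩ := h.ext' _ hK'
  have hFd : HasFDerivAt F (fderiv ℝ F (f (P.u i z))) (f (P.u i z)) :=
    (hF.differentiableAt (by simp)).hasFDerivAt
  have h1 : HasFDerivAt (fun y => F (f (P.u i y)))
      ((fderiv ℝ F (f (P.u i z))).comp (fderiv ℝ (fun z => f (P.u i z)) z)) z :=
    HasFDerivAt.comp (f := fun y => f (P.u i y)) (g := F) z hFd hUz.hasFDerivAt
  have h2 : (fun y => F (f (P.u i y))) =ᶠ[𝓝 z] P.u i := by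
    filter_upwards [hUz.continuousAt.eventually hFe, (C.e i).open_target.mem_nhds hz] with y hy1 hy2
    rw [hy1 (h.maps _ (u_mem P h hP hy2))]
    exact h.left _ (u_mem P h hP hy2)
  have h4 : fderiv ℝ (P.u i) z v = fderiv ℝ F (f (P.u i z)) (a • f (P.u i z)) := by
    have h5 := (h1.congr_of_eventuallyEq h2.symm).fderiv
    rw [h5]
    simp [ha]
  have h6 : HasDerivAt (fun s : ℝ => F ((1 + (s : ℂ) * a) • f (P.u i z)))
      (fderiv ℝ F (f (P.u i z)) (a • f (P.u i z))) 0 := by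
    have h7 : HasDerivAt (fun s : ℝ => (1 + (s : ℂ) * a) • f (P.u i z)) (a • f (P.u i z)) 0 := by
      have h8 : HasDerivAt (fun s : ℝ => (1 + (s : ℂ) * a)) a 0 := by
        have := ((Complex.ofRealCLM.hasDerivAt (x := (0 : ℝ))).mul_const a).const_add 1
        simpa using this
      exact h8.smul_const _
    have h9 : HasFDerivAt F (fderiv ℝ F (f (P.u i z)))
        ((fun s : ℝ => (1 + (s : ℂ) * a) • f (P.u i z)) 0) := by
      simpa using hFd
    exact h9.comp_hasDerivAt (0 : ℝ) h7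
  have h10 : (fun s : ℝ => F ((1 + (s : ℂ) * a) • f (P.u i z))) =ᶠ[𝓝 0]
      fun s : ℝ => (1 + (s : ℂ) * a) • P.u i z := by
    have h11 : Tendsto (fun s : ℝ => (1 + (s : ℂ) * a) • f (P.u i z)) (𝓝 0)
        (𝓝 (f (P.u i z))) := by
      have : Continuous (fun s : ℝ => (1 + (s : ℂ) * a) • f (P.u i z)) := by fun_prop
      exact this.tendsto' _ _ (by simp)
    have h12 : ∀ᶠ s : ℝ in 𝓝 0, (1 + (s : ℂ) * a) ≠ 0 := by
      have : Continuous (fun s : ℝ => (1 + (s : ℂ) * a)) := by fun_prop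
      exact (this.tendsto' 0 1 (by simp)).eventually_ne one_ne_zero
    filter_upwards [h11.eventually hFe, h12] with s hs1 hs2
    rw [hs1 (h.cone' _ hK' _ hs2), h.hom' _ hK' _ hs2, h.left _ (u_mem P h hP hz)]
  have h14 : HasDerivAt (fun s : ℝ => (1 + (s : ℂ) * a) • P.u i z) (a • P.u i z) 0 := by
    have h8 : HasDerivAt (fun s : ℝ => (1 + (s : ℂ) * a)) a 0 := by
      have := ((Complex.ofRealCLM.hasDerivAt (x := (0 : ℝ))).mul_const a).const_add 1
      simpa using this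
    exact h8.smul_const _
  have h15 := (h6.congr_of_eventuallyEq h10.symm).unique h14
  exact P.imm i z hz v ⟨a, by rw [h4, h15]⟩

/-- transport of a member by an isomorphism of cones -/
def mapIso : HEmb C H where
  u i z := f (P.u i z)
  sm i := fun z hz => (iso_contDiffAt P h hP hz).contDiffWithinAt
  ne i z hz := h.ne' _ (h.maps _ (u_mem P h hP hz))
  tr i j z hz := by
    obtain ⟨a, ha, e⟩ := P.tr' hz
    refine ⟨a, ?_⟩
    rw [e]
    exact h.hom _ (u_mem P h hP (RCh.t_mem hz).1) a ha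
  inj i j z hz z' hz' he := by
    obtain ⟨a, ha⟩ := he
    have ha0 : a ≠ 0 := by
      rintro rfl
      rw [zero_smul] at ha
      exact h.ne' _ (h.maps _ (u_mem P h hP hz)) ha
    refine P.inj i j z hz z' hz' ⟨a, ?_⟩
    have h1 := congrArg g ha
    rwa [h.left _ (u_mem P h hP hz), h.hom' _ (h.maps _ (u_mem P h hP hz')) a ha0,
      h.left _ (u_mem P h hP hz')] at h1
  imm i z hz v hv := iso_imm P h hP hz hv

theorem mapIso_u (i : C.ι) (z : V) : (mapIso P h hP).u i z = f (P.u i z) := rfl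

theorem mapIso_cone (w : H) : w ∈ (mapIso P h hP).cone ↔ w ∈ K' := by
  constructor
  · rintro ⟨i, z, hz, a, ha, rfl⟩
    exact h.cone' _ (h.maps _ (u_mem P h hP hz)) a ha
  · intro hw
    obtain ⟨i, z, hz, a, ha, e⟩ := (hP _).mpr (h.maps' w hw)
    refine ⟨i, z, hz, a, ha, ?_⟩
    show w = a • f (P.u i z)
    rw [← h.hom _ (u_mem P h hP hz) a ha, ← e, h.right w hw]

end mapIso

theorem over_mapIso {P : HEmb C₁ H} {P' : HEmb C₂ H} {K K' : Set H} {f g : H → H}
    (h : ConeIso K K' f g) (hP : ∀ w, w ∈ P.cone ↔ w ∈ K) (hP' : ∀ w, w ∈ P'.cone ↔ w ∈ K)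
    {φ : X → X} (ho : Over P P' φ) : Over (mapIso P h hP) (mapIso P' h hP') φ := by
  intro i z hz j z' hz' he
  obtain ⟨a, ha, h1⟩ := ho i z hz j z' hz' he
  refine ⟨a, ha, ?_⟩
  rw [mapIso_u, mapIso_u, h1]
  exact h.hom _ (u_mem P' h hP' hz') a ha

theorem over_of_mapIso {P : HEmb C₁ H} {P' : HEmb C₂ H} {K K' : Set H} {f g : H → H}
    (h : ConeIso K K' f g) (hP : ∀ w, w ∈ P.cone ↔ w ∈ K) (hP' : ∀ w, w ∈ P'.cone ↔ w ∈ K)
    {φ : X → X} (ho : Over (mapIso P h hP) (mapIso P' h hP') φ) : Over P P' φ := by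
  intro i z hz j z' hz' he
  obtain ⟨a, ha, h1⟩ := ho i z hz j z' hz' he
  refine ⟨a, ha, ?_⟩
  rw [mapIso_u, mapIso_u] at h1
  have h2 := congrArg g h1
  rwa [h.left _ (u_mem P h hP hz), h.hom' _ (h.maps _ (u_mem P' h hP' hz')) a ha,
    h.left _ (u_mem P' h hP' hz')] at h2

/-! ### action of homeomorphisms -/

/-- the member with the charts `e_i ∘ φ⁻¹` -/
def mapHom (P : HEmb C H) (φ : X ≃ₜ X) : HEmb (mapCh C φ) H where
  u := P.u
  sm := fun (i : C.ι) => by
    have h := P.sm i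
    rw [← mapCh_target φ i] at h
    exact h
  ne := fun (i : C.ι) z hz => by
    rw [mapCh_target] at hz
    exact P.ne i z hz
  tr := fun (i j : C.ι) z hz => by
    rw [mapCh_ov] at hz
    rw [mapCh_t]
    exact P.tr i j z hz
  inj := fun (i j : C.ι) z hz z' hz' h => by
    rw [mapCh_target] at hz hz'
    rw [mapCh_symm, mapCh_symm, P.inj i j z hz z' hz' h]
  imm := fun (i : C.ι) z hz v h => by
    rw [mapCh_target] at hz
    exact P.imm i z hz v h

theorem mapHom_cone (P : HEmb C H) (φ : X ≃ₜ X) : (mapHom P φ).cone = P.cone := by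
  ext w
  constructor
  · rintro ⟨(i : C.ι), z, hz, a, ha, h⟩
    rw [mapCh_target] at hz
    exact ⟨i, z, hz, a, ha, h⟩
  · rintro ⟨i, z, hz, a, ha, h⟩
    exact ⟨i, z, by rw [mapCh_target]; exact hz, a, ha, h⟩

theorem over_mapHom (P : HEmb C H) (φ : X ≃ₜ X) : Over P (mapHom P φ) φ := by
  intro i z hz (j : C.ι) z' hz' he
  rw [mapCh_target] at hz'
  rw [mapCh_symm] at he
  exact same_point P hz hz' (φ.injective he)

end

end Crest.Agent.R281.Ehr4_268
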