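import Crest.Agent.R281.Pe5_313
import Crest.Agent.R281.Ehr4_268

/-!
# R281 (S0424), FAM (helper313), part 6: the complex structure of an embedding and the triples

`C : RCh V X` the fixed real charts, `P : HEmb C' H₀` a member (`Cmp C C'`), `T : HkT C`.

* `CxOf P T`      : `T.J 0` is the complex structure of the embedding
* `CxOf.cp`       : `HolA P b A` ⇒ `Cp (T.acm 0) A`  (the atlas of the embedding is a holomorphic
                    atlas of `J 0`; no Newlander-Nirenberg)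
* `cxOf_of_cp`    : `HolA P b A`, `Cp (T.acm 0) A` ⇒ `CxOf P T`
* `CxOf.holA`     : `CxOf P T`, `Cp (T.acm 0) A` ⇒ `HolA P b A`
* `cxOf_ofProj`   : `Cp (T.acm 0) A`, `Q : ProjD A` ⇒ `CxOf (ofProj Q b) T`
* `CxOf.over`     : `CxOf` depends only on the map
* `typ_of_cxOf` .. : types of forms read with `T.J 0`
-/

set_option autoImplicit false
set_option linter.unusedSectionVars false

open Set Filter Topology Complex
open scoped ContDiff

namespace Crest.Agent.R281.Pe_313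

open Crest.Agent.R275.Geo Crest.Agent.R275.Core144 Crest.Agent.R275.GC293
open Crest.Agent.R273.Defs_333 Crest.Agent.R273.Fam_835 Crest.Agent.R273.PB_835
open Crest.Agent.R273.Map_835
open Crest.Agent.R260.ACM_580 Crest.Agent.R260.NNB_580
open Crest.Agent.R281.HkR_835 Crest.Agent.R281.Ehr2_268 Crest.Agent.R281.Defs_273

noncomputable section

section comp

variable {V V' V'' X : Type} [NormedAddCommGroup V] [NormedSpace ℝ V] [NormedAddCommGroup V']
  [NormedSpace ℝ V'] [NormedAddCommGroup V''] [NormedSpace ℝ V''] [TopologicalSpace X]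
  {C : RCh V X} {C' : RCh V' X} {C'' : RCh V'' X}

theorem mov_comp {i : C.ι} {j : C'.ι} {k : C''.ι} {z : V''} (h1 : z ∈ mov C C'' i k)
    (h2 : z ∈ mov C' C'' j k) : mt C' C'' j k z ∈ mov C C' i j := by
  refine ⟨(C'.e j).map_source h2.2, ?_⟩
  show (C'.e j).symm (C'.e j ((C''.e k).symm z)) ∈ (C.e i).source
  rw [(C'.e j).left_inv h2.2]
  exact h1.2

theorem mt_comp {i : C.ι} {j : C'.ι} {k : C''.ι} {z : V''} (h2 : z ∈ mov C' C'' j k) :
    mt C C' i j (mt C' C'' j k z) = mt C C'' i k z := by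
  show C.e i ((C'.e j).symm (C'.e j ((C''.e k).symm z))) = C.e i ((C''.e k).symm z)
  rw [(C'.e j).left_inv h2.2]

theorem dmt_comp (h : Cmp C C') (h' : Cmp C' C'') {i : C.ι} {j : C'.ι} {k : C''.ι} {z : V''}
    (h1 : z ∈ mov C C'' i k) (h2 : z ∈ mov C' C'' j k) (v : V'') :
    fderiv ℝ (mt C C' i j) (mt C' C'' j k z) (fderiv ℝ (mt C' C'' j k) z v) =
      fderiv ℝ (mt C C'' i k) z v := by
  have e1 : (fun y => mt C C' i j (mt C' C'' j k y)) =ᶠ[𝓝 z] mt C C'' i k := by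
    filter_upwards [(Cmp.isOpen_mov C' C'' j k).mem_nhds h2] with y hy using mt_comp hy
  have e2 := HasFDerivAt.comp (g := mt C C' i j) (f := mt C' C'' j k) z
    (h.diff (mov_comp h1 h2)).hasFDerivAt (h'.diff h2).hasFDerivAt
  have e3 : fderiv ℝ (fun y => mt C C' i j (mt C' C'' j k y)) z = _ := e2.fderiv
  rw [e1.fderiv_eq] at e3
  rw [e3]
  rfl

end comp

variable {V V' V₂ X : Type} [NormedAddCommGroup V] [NormedSpace ℝ V] [NormedAddCommGroup V']
  [NormedSpace ℝ V'] [NormedAddCommGroup V₂] [NormedSpace ℝ V₂] [TopologicalSpace X]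
variable {H : Type} [NormedAddCommGroup H] [NormedSpace ℂ H] {K N : ℕ}
variable {C : RCh V X} {C' : RCh V' X} {C₂ : RCh V₂ X}

theorem nu_of_iRel {P : HEmb C' H} {b : H ≃L[ℂ] (Fin (K + 1) → ℂ)} {i : C'.ι} {z : V'}
    {k : Fin (K + 1)} (hz : z ∈ dm P b k i) {v v' : V'} (h : IRel P i z v v') :
    I • fderiv ℝ (nu P b k i) z v = fderiv ℝ (nu P b k i) z v' := by
  obtain ⟨c, hc⟩ := h
  have h1 := congrArg b hc
  rw [map_add, map_smul, map_smul] at h1
  rw [fderiv_nu hz, fderiv_nu hz]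
  have hk : b (P.u i z) k ≠ 0 := hz.2
  have h2 : b (fderiv ℝ (P.u i) z v') = I • b (fderiv ℝ (P.u i) z v) - c • b (P.u i z) := by
    rw [h1, add_sub_cancel_right]
  rw [h2]
  funext l
  simp only [Pi.smul_apply, Pi.sub_apply, smul_eq_mul]
  field_simp
  ring

/-- `T.J 0` is the complex structure of the tangent spaces of the image of the embedding -/
def CxOf (P : HEmb C' H) (T : HkT C) : Prop :=
  ∀ (i : C.ι) (j : C'.ι), ∀ z ∈ mov C' C j i, ∀ v : V,
    IRel P j (mt C' C j i z) (fderiv ℝ (mt C' C j i) z v)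
      (fderiv ℝ (mt C' C j i) z (T.J 0 i z v))

variable {P : HEmb C' H} {T : HkT C} {b : H ≃L[ℂ] (Fin (K + 1) → ℂ)} {A : Atl N X}

/-- the tangent spaces are complex -/
theorem CxOf.cx (hc : Cmp C C') (h : CxOf P T) : P.Cx := by
  intro j y hy v
  obtain ⟨i, hi⟩ := Cmp.exists_mov (C' := C') C hy
  -- the point in the chart of `C`
  have hz : mt C C' i j y ∈ mov C' C j i := Cmp.mt_mem hi
  obtain ⟨c, hc'⟩ := h i j _ hz (fderiv ℝ (mt C C' i j) y v)
  rw [Cmp.mt_mt hi, hc.d_d hi] at hc'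
  exact ⟨_, c, hc'⟩

/-- the atlas of the embedding is a holomorphic atlas of `J 0` -/
theorem CxOf.cp (hc : Cmp C C') (h : CxOf P T) (hA : HolA P b A) : Cp (T.acm 0) A := by
  intro a
  refine ⟨fun i => ?_, fun i => ?_, fun i z hz v => ?_⟩
  · exact (cmp_trans hc hA.cmp).s' i a
  · exact (cmp_trans hc hA.cmp).s i a
  · have hz : z ∈ mov (ofAtl A) C a i := hz
    obtain ⟨j, hj⟩ := C'.cover ((C.e i).symm z)
    have hzj : z ∈ mov C' C j i := ⟨hz.1, hj⟩
    have hy : mt (ofAtl A) C a i z ∈ mov C' (ofAtl A) j a := by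
      refine ⟨((ofAtl A).e a).map_source hz.2, ?_⟩
      show ((ofAtl A).e a).symm ((ofAtl A).e a ((C.e i).symm z)) ∈ _
      rw [((ofAtl A).e a).left_inv hz.2]
      exact hj
    have e1 := h i j z hzj v
    have hcA : Cmp (ofAtl A) C := (cmp_trans hc hA.cmp).symm
    have e2 := dmt_comp hA.cmp hcA hzj hz v
    have e3 := dmt_comp hA.cmp hcA hzj hz (T.J 0 i z v)
    have e4 : mt C' (ofAtl A) j a (mt (ofAtl A) C a i z) = mt C' C j i z := mt_comp hz
    rw [← e2, ← e3, ← e4] at e1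
    exact (hA.iRel_iff hy _ _).1 e1

/-- conversely -/
theorem cxOf_of_cp (hc : Cmp C C') (hA : HolA P b A) (hp : Cp (T.acm 0) A) : CxOf P T := by
  intro i j z hz v
  obtain ⟨a, ha⟩ := (ofAtl A).cover ((C.e i).symm z)
  have hza : z ∈ mov (ofAtl A) C a i := ⟨hz.1, ha⟩
  have hcA : Cmp (ofAtl A) C := (cmp_trans hc hA.cmp).symm
  have hy : mt (ofAtl A) C a i z ∈ mov C' (ofAtl A) j a := by
    refine ⟨((ofAtl A).e a).map_source hza.2, ?_⟩
    show ((ofAtl A).e a).symm ((ofAtl A).e a ((C.e i).symm z)) ∈ _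
    rw [((ofAtl A).e a).left_inv hza.2]
    exact hz.2
  have e2 := dmt_comp hA.cmp hcA hz hza v
  have e3 := dmt_comp hA.cmp hcA hz hza (T.J 0 i z v)
  have e4 : mt C' (ofAtl A) j a (mt (ofAtl A) C a i z) = mt C' C j i z := mt_comp hza
  rw [← e2, ← e3, ← e4]
  exact (hA.iRel_iff hy _ _).2 ((hp a).lin i z hza v)

/-- in the charts of a holomorphic atlas of `J 0` the affine coordinates are holomorphic -/
theorem CxOf.holA (hc : Cmp C C') (h : CxOf P T) (hp : Cp (T.acm 0) A) : HolA P b A := by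
  have hCA : Cmp C (ofAtl A) := cmp_of_cp hp
  have hcmp : Cmp C' (ofAtl A) := cmp_trans hc.symm hCA
  refine ⟨hcmp, fun a k z hz hk => ?_⟩
  obtain ⟨j, hj⟩ := C'.cover ((A.e a).symm z)
  obtain ⟨i, hi⟩ := C.cover ((A.e a).symm z)
  have hzj : z ∈ mov C' (ofAtl A) j a := ⟨hz, hj⟩
  have hzi : z ∈ mov C (ofAtl A) i a := ⟨hz, hi⟩
  have hzd : mt C' (ofAtl A) j a z ∈ dm P b k j := (mem_OX hj).1 hk
  have e1 : (fun z => nuX P b k ((A.e a).symm z)) =ᶠ[𝓝 z]
      fun z => nu P b k j (mt C' (ofAtl A) j a z) := by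
    have h3 : ∀ᶠ z' in 𝓝 z, (A.e a).symm z' ∈ OX P b k :=
      ((A.e a).continuousAt_symm hz).preimage_mem_nhds ((isOpen_OX k).mem_nhds hk)
    filter_upwards [(Cmp.isOpen_mov C' (ofAtl A) j a).mem_nhds hzj, h3] with z' hz' hk'
    exact nuX_eq hz'.2 hk'
  have e2 := HasFDerivAt.comp (g := nu P b k j) (f := mt C' (ofAtl A) j a) z
    (nu_diff hzd).hasFDerivAt (hcmp.diff hzj).hasFDerivAt
  have e3 : HasFDerivAt (fun z => nuX P b k ((A.e a).symm z)) _ z :=
    HasFDerivAt.congr_of_eventuallyEq (f := fun z => nu P b k j (mt C' (ofAtl A) j a z)) e2 e1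
  have hm : mt C (ofAtl A) i a z ∈ mov C' C j i := by
    refine ⟨(C.e i).map_source hi, ?_⟩
    show (C.e i).symm (C.e i ((A.e a).symm z)) ∈ _
    rw [(C.e i).left_inv hi]
    exact hj
  have e4 : ∀ v : Cn N, IRel P j (mt C' (ofAtl A) j a z) (fderiv ℝ (mt C' (ofAtl A) j a) z v)
      (fderiv ℝ (mt C' (ofAtl A) j a) z (I • v)) := by
    intro v
    have f1 := h i j _ hm (fderiv ℝ (mt C (ofAtl A) i a) z v)
    have f2 : T.J 0 i (mt C (ofAtl A) i a z) (fderiv ℝ (mt C (ofAtl A) i a) z v) =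
        fderiv ℝ (mt C (ofAtl A) i a) z (I • v) := ((hp a).lin' (i := i) hzi v).symm
    rw [f2, dmt_comp hc.symm hCA hzj hzi, dmt_comp hc.symm hCA hzj hzi] at f1
    have f3 : mt C' C j i (mt C (ofAtl A) i a z) = mt C' (ofAtl A) j a z := mt_comp hzi
    rwa [f3] at f1
  obtain ⟨S, hS⟩ := exists_complex (fderiv ℝ (fun z => nuX P b k ((A.e a).symm z)) z) fun v => by
    rw [e3.fderiv]
    exact (nu_of_iRel hzd (e4 v)).symm
  exact (hasFDerivAt_of_restrictScalars ℝ e3.differentiableAt.hasFDerivAt hS).differentiableAt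

/-- the embedding given by `Q : ProjD A`, `A` a holomorphic atlas of `J 0` -/
theorem cxOf_ofProj (hp : Cp (T.acm 0) A) (Q : ProjD A) (b : H ≃L[ℂ] (Fin (Q.N + 1) → ℂ)) :
    CxOf (ofProj Q b) T :=
  cxOf_of_cp (cmp_of_cp hp) (ofProj_holA Q b) hp

/-- existence of a finite good atlas of `J 0` in which the coordinates of the embedding are
holomorphic -/
theorem CxOf.exists_atl [FiniteDimensional ℝ V'] [CompactSpace X] [T2Space X] (hc : Cmp C C')
    (h : CxOf P T) (hN : Module.finrank ℝ V' = 2 * N) (b : H ≃L[ℂ] (Fin (K + 1) → ℂ)) {κ : Type*}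
    (O : κ → Set X) (hO : ∀ k, IsOpen (O k)) (hOc : ∀ x, ∃ k, x ∈ O k) :
    ∃ A : Atl N X, Finite A.ι ∧ GoodA A ∧ Nonempty (Part A) ∧ HolA P b A ∧ Cp (T.acm 0) A ∧
      (∀ a, ∃ k, (A.e a).source ⊆ O k) ∧ (∀ a, ∃ k, (A.e a).source ⊆ OX P b k) ∧
      (∀ a, ∃ i, (A.e a).source ⊆ (C'.e i).source) := by
  obtain ⟨A, h1, h2, h3, h4, h5, h6, h7⟩ :=
    Pe_313.exists_atl (P := P) (h.cx hc) hN b O hO hOc
  exact ⟨A, h1, h2, h3, h4, h.cp hc h4, h5, h6, h7⟩

/-! ### `CxOf` depends only on the map to the projective space -/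

open Crest.Agent.R281.Ehr4_268 in
/-- change of the homogeneous coordinates and of the charts -/
theorem CxOf.over {P₁ P₂ : HEmb C' H} (ho : Over P₁ P₂ id)
    (h : CxOf P₁ T) {b : H ≃L[ℂ] (Fin (K + 1) → ℂ)} : CxOf P₂ T := by
  intro i j z hz v
  set y := mt C' C j i z with hy
  have hyt : y ∈ (C'.e j).target := (Cmp.mt_mem hz).1
  obtain ⟨k, hk⟩ : ∃ k, b (P₁.u j y) k ≠ 0 := by
    by_contra hcon
    push Not at hcon
    exact P₁.ne j y hyt (b.injective (by rw [map_zero]; funext k; exact hcon k))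
  have h1 := h i j z hz v
  have hd1 : y ∈ dm P₁ b k j := ⟨hyt, hk⟩
  have hnu : ∀ y' ∈ dm P₁ b k j, y' ∈ dm P₂ b k j ∧ nu P₁ b k j y' = nu P₂ b k j y' := by
    intro y' hy'
    obtain ⟨a, ha, e⟩ := ho j y' hy'.1 j y' hy'.1 rfl
    have e' : b (P₁.u j y') = a • b (P₂.u j y') := by rw [e, map_smul]
    have e2 : b (P₂.u j y') k ≠ 0 := by
      intro h0
      apply hy'.2
      rw [e', Pi.smul_apply, h0, smul_zero]
    refine ⟨⟨hy'.1, e2⟩, ?_⟩
    show (b (P₁.u j y') k)⁻¹ • b (P₁.u j y') = (b (P₂.u j y') k)⁻¹ • b (P₂.u j y')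
    rw [e', smul_smul, Pi.smul_apply, smul_eq_mul, mul_inv, mul_comm a⁻¹, mul_assoc,
      inv_mul_cancel₀ ha, mul_one]
  have e1 : nu P₁ b k j =ᶠ[𝓝 y] nu P₂ b k j := by
    filter_upwards [(isOpen_dm (P := P₁) (b := b) k j).mem_nhds hd1] with y' hy' using (hnu y' hy').2
  have h2 := nu_of_iRel hd1 h1
  rw [e1.fderiv_eq] at h2
  exact iRel_of_nu (hnu y hd1).1 h2

end

end Crest.Agent.R281.Pe_313
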