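import Crest.Agent.R281.QF4_871
import Crest.Agent.R281.CA3_867
import Crest.Agent.R281.Ehr8_268

/-!
# R281, QFAM (helper871): the family of a code (helper867) over the model `QM M` (helper957)

`qfamC K M h hM : QFam (QM M) (Fin M.m → ℂ) (EuclideanSpace ℂ (Fin (N + 1)))`, depending on the code `K` and
the format `M` only, with `S q = K.cone (M.pt q)`; local equations of codimension `N - n` at every point;
every marking has complex tangent spaces (`qfamC_cx`).
-/

set_option autoImplicit false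
set_option linter.unusedSectionVars false

open Set Filter Topology

namespace Crest.Agent.R281.QF_871

open Crest.Agent.R281.Kr_488 Crest.Agent.R281.KrB1_871 Crest.Agent.R281.KrB2_871
  Crest.Agent.R281.KrB3_871 Crest.Agent.R281.KrB4_871 Crest.Agent.R281.KrB5_871
open Crest.Agent.R281.Sl_957 Crest.Agent.R281.Am_957 Crest.Agent.R281.CA_867
open Crest.Agent.R281.HkR_835 Crest.Agent.R281.Ehr2_268 Crest.Agent.R281.Dif_268
  Crest.Agent.R281.Ehr4_268 Crest.Agent.R281.Ehr6_268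

noncomputable section

variable {k₀ : Type} [Field k₀] [Algebra k₀ ℂ] {n N : ℕ}

/-- the pointwise certificate of a code -/
def pcC (K : Code k₀ n N) : PCert n N (MvPolynomial (Fin K.k) k₀) where
  E := range K.Y.G
  ι := Fin K.Y.q
  κ := K.Y.κ

theorem okAt {K : Code k₀ n N} {c : Fin K.k → ℂ} (h : K.Good c) :
    (pcC K).OkAt (MvPolynomial.aeval c : MvPolynomial (Fin K.k) k₀ →ₐ[k₀] ℂ).toRingHom where
  hom := by
    rintro _ ⟨l, rfl⟩
    exact h.mem_ok.hom l
  good := fun a => by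
    have h1 := h.mem_ok.good a
    have h2 : range (K.mem c).G = MvPolynomial.map
        (MvPolynomial.aeval c : MvPolynomial (Fin K.k) k₀ →ₐ[k₀] ℂ).toRingHom '' range K.Y.G :=
      CDat.range_map K.Y _
    rw [h2] at h1
    exact h1
  cov := fun v hv hG => by
    have hv' : (fun i => v i) ≠ 0 := by
      intro h0
      apply hv
      ext i
      exact congrFun h0 i
    obtain ⟨a, ha⟩ := h.mem_ok.exists_dG hv' fun l => hG _ ⟨l, rfl⟩
    refine ⟨a, ?_⟩
    have h3 : ((K.mem c).κ a).dG = MvPolynomial.map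
        (MvPolynomial.aeval c : MvPolynomial (Fin K.k) k₀ →ₐ[k₀] ℂ).toRingHom (K.Y.κ a).dG :=
      KDat.dG_map _ (K.Y.κ a)
    rw [h3] at ha
    exact ha

theorem cone_eq (K : Code k₀ n N) (c : Fin K.k → ℂ) :
    (pcC K).cone (MvPolynomial.aeval c : MvPolynomial (Fin K.k) k₀ →ₐ[k₀] ℂ).toRingHom =
      K.cone c := by
  ext w
  rw [PCert.mem_cone]
  refine and_congr_right fun _ => ?_
  constructor
  · rintro h _ ⟨l, rfl⟩
    exact h _ ⟨l, rfl⟩
  · rintro h _ ⟨l, rfl⟩
    exact h _ ⟨l, rfl⟩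

variable {K : Code k₀ n N} {M : Fmt k₀ (Fin K.k)}

/-- **the family of a code** -/
def qfamC (K : Code k₀ n N) (M : Fmt k₀ (Fin K.k)) (h : M.Nice)
    (hM : ∀ (z : Fin M.m → ℂ) (w : ℂ), M.On z w → K.Good (M.pt z w)) :
    QFam (QM M) (Fin M.m → ℂ) (EuclideanSpace ℂ (Fin (N + 1))) :=
  { qfamPM h (pcC K) fun q => okAt (hM q.1.1 q.1.2 q.2) with
    S := fun q => K.cone (M.pt q.1.1 q.1.2)
    T_eq := fun q0 q hq w => by
      rw [(qfamPM h (pcC K) fun q => okAt (hM q.1.1 q.1.2 q.2)).T_eq q0 q hq w, ← cone_eq]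
      rfl }

variable (h : M.Nice) (hM : ∀ (z : Fin M.m → ℂ) (w : ℂ), M.On z w → K.Good (M.pt z w))

@[simp] theorem qfamC_u : (qfamC K M h hM).u = zc M := rfl

@[simp] theorem qfamC_S (q : QM M) : (qfamC K M h hM).S q = K.cone (M.pt q.1.1 q.1.2) := rfl

theorem qfamC_T (q : QM M) : (qfamC K M h hM).T q =
    KC (evL (isLocalHomeomorph_zc h) (evP M) q) (range K.Y.G) := rfl

theorem qfamC_e (q : QM M) : (qfamC K M h hM).e q = locE (isLocalHomeomorph_zc h) q := rfl

/-- local equations at every point -/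
theorem qfamC_locEq (q : QM M) (w : EuclideanSpace ℂ (Fin (N + 1)))
    (hw : w ∈ (qfamC K M h hM).S q) :
    LocEq ((qfamC K M h hM).T q) (N - n) ((qfamC K M h hM).u q, w) :=
  qfamPM_locEq h (pcC K) (fun q => okAt (hM q.1.1 q.1.2 q.2)) q w (by
    rw [qfamPM_S]
    rw [qfamC_S, ← cone_eq] at hw
    exact hw)

/-- `n ≤ N` as soon as a member is nonempty -/
theorem le_of_mem {c : Fin K.k → ℂ} (hc : K.Good c) {w : EuclideanSpace ℂ (Fin (N + 1))}
    (hw : w ∈ K.cone c) : n ≤ N := by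
  have h1 := okAt hc
  obtain ⟨a, -⟩ := h1.cov w hw.1 (by
    rw [← cone_eq] at hw
    exact hw.2)
  have h2 := cod_eq (K.Y.κ a) _ (surj_TT (h1.good a))
  omega

variable {V X : Type} [NormedAddCommGroup V] [NormedSpace ℝ V] [TopologicalSpace X]
  [FiniteDimensional ℝ V] {C : RCh V X}

/-- **every marking has complex tangent spaces** -/
theorem qfamC_cx (hV : Module.finrank ℝ V = 2 * n) (m : Mark (qfamC K M h hM) C) : m.P.Cx := by
  intro i z hz v
  have h1 : m.P.u i z ∈ (qfamC K M h hM).S m.q := (m.cone _).mp (m.P.mem_cone hz)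
  have h2 : n ≤ N := le_of_mem (hM m.q.1.1 m.q.1.2 m.q.2) h1
  have h3 : Module.finrank ℝ V + 2 + 2 * (N - n) =
      2 * Module.finrank ℂ (EuclideanSpace ℂ (Fin (N + 1))) := by
    rw [hV, finrank_euclideanSpace, Fintype.card_fin]
    omega
  exact Mark.cx m h3 (fun w hw => qfamC_locEq h hM m.q w hw) i z hz v

/-- the model of a good code -/
theorem exists_model_code [CharZero k₀] {c : Fin K.k → ℂ} (hc : K.Good c) :
    ∃ (M : Fmt k₀ (Fin K.k)) (_ : M.Nice)
      (_ : ∀ (z : Fin M.m → ℂ) (w : ℂ), M.On z w → K.Good (M.pt z w)) (q : QM M),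
      AlgebraicIndependent k₀ q.1.1 ∧ M.pt q.1.1 q.1.2 = c := by
  obtain ⟨M, z, b, hN, hz, hon, hpt, hsp⟩ := Fmt.exists_fmt (k₀ := k₀) c K.rr hc.ne
  exact ⟨M, hN, fun z' w hw => hc.spec (hsp z' w hw).1 (hsp z' w hw).2, ⟨(z, b), hon⟩, hz, hpt⟩

end

end Crest.Agent.R281.QF_871
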