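import Crest.Agent.R281.CA4_867
import Crest.Agent.R281.QF5_871
import Crest.Agent.R281.Pe6_313

/-!
# R281 (S0424), START-CODE (helper867): a projective embedding is a member of the family of a code

* `IsCert.form`   : the value of the form of the certificate on the derivatives of the embedding is
                    `F_j ^ m σ`, in the shape of 313's `ofProj`;
* `exists_start`  : code, model, base point, and 268's marking `⟨q0, ofAtl A, hc, ofProj P b, _⟩`.
-/

set_option autoImplicit false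

open MvPolynomial Set Filter Topology
open scoped Matrix

namespace Crest.Agent.R281.CB_867

open Crest.Agent.R281.AF_867 Crest.Agent.R281.Kr_488 Crest.Agent.R281.CA_867
open Crest.Agent.R275 Crest.Agent.R275.Geo Crest.Agent.R275.Core144
open Crest.Agent.R273.SerA_945 Crest.Agent.R273.SerB_945 Crest.Agent.R273.SerC_945
open Crest.Agent.R273.SerE_945 Crest.Agent.R273.TD3_733 Crest.Agent.R273.FS_333
open Crest.Agent.R273.Defs_333 Crest.Agent.R281.Defs_273 Crest.Agent.R272.CpChow_338
open Crest.Agent.R273.SteinC_794 Crest.Agent.R273.KosGen_313 Crest.Agent.R273.Chow_313 Crest.Agent.R260.Zt_313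
open Crest.Agent.R281.Sl_957 Crest.Agent.R281.Am_957 Crest.Agent.R281.QF_871
open Crest.Agent.R281.HkR_835 Crest.Agent.R281.Ehr2_268 Crest.Agent.R281.Ehr6_268
open Crest.Agent.R281.Pe_313 Crest.Agent.R273.Fam_835

noncomputable section

variable {n : ℕ} {M : Type} [TopologicalSpace M] {A : Atl n M}

section Form

variable {P : ProjD A} {σ : HSymp A} {C : CDat n P.N ℂ}

theorem b_sum_right {κ α : Type*} [Fintype κ] (D : FDat κ ℂ) (j : κ) (x : κ → ℂ) (s : Finset α)
    (c : α → ℂ) (v : κ → ℂ) (w : α → κ → ℂ) :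
    D.b j x v (∑ a ∈ s, c a • w a) = ∑ a ∈ s, c a * D.b j x v (w a) := by
  classical
  induction s using Finset.induction_on with
  | empty => simp [FDat.b]
  | insert a s ha ih =>
    rw [Finset.sum_insert ha, Finset.sum_insert ha, FDat.b_add_right, FDat.b_smul_right, ih]

/-- the form of the certificate on the columns of derivatives -/
theorem form_dcol (h : IsCert P σ C) {i : A.ι} {x : M} (hx : x ∈ (A.e i).source)
    (j : Fin (P.N + 1)) (a b : Fin n) :
    C.D.b j (fun k => sec P k i x) (dcol (fun k => sec P k) i x a)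
      (dcol (fun k => sec P k) i x b) = sec P j i x ^ C.D.m * σ.s i x a b := by
  have h1 := congrFun (congrFun (h.frm j i x hx) a) b
  rw [Matrix.smul_apply, smul_eq_mul] at h1
  rw [h1, Matrix.mul_apply]
  unfold FDat.b
  rw [Finset.sum_comm]
  refine Finset.sum_congr rfl fun l _ => ?_
  rw [Matrix.mul_apply, Finset.sum_mul]
  refine Finset.sum_congr rfl fun k _ => ?_
  rw [Matrix.transpose_apply, evM_apply]
  show MvPolynomial.eval (fun k => sec P k i x) (C.D.s j k l) *
    (DF (fun k => sec P k) i x k a * DF (fun k => sec P k) i x l b) = _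
  ring

/-- `df` of the sections `F_k` is the derivative of `P.F` -/
theorem df_sec {i : A.ι} {z : Cn n} (hz : z ∈ (A.e i).target) (v : Cn n) (k : Fin (P.N + 1)) :
    df A i (sec P k i) ((A.e i).symm z) v =
      fderiv ℂ (fun w => P.F i ((A.e i).symm w)) z v k := by
  have hx : (A.e i).symm z ∈ (A.e i).source := (A.e i).map_target hz
  have h1 : HasFDerivAt (fun w => P.F i ((A.e i).symm w))
      (fderiv ℂ (fun w => P.F i ((A.e i).symm w)) z) z := (F_hol P hz).hasFDerivAt
  have h2 : HasFDerivAt (fun w => P.F i ((A.e i).symm w) k)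
      ((ContinuousLinearMap.proj k).comp (fderiv ℂ (fun w => P.F i ((A.e i).symm w)) z)) z :=
    (ContinuousLinearMap.proj (R := ℂ) (φ := fun _ : Fin (P.N + 1) => ℂ) k).hasFDerivAt.comp z h1
  have h3 : (fun w => sec P k i ((A.e i).symm w)) =ᶠ[𝓝 z]
      fun w => P.F i ((A.e i).symm w) k := by
    filter_upwards [(A.e i).open_target.mem_nhds hz] with w hw
    exact sec_eq P ((A.e i).map_target hw) k
  unfold df
  rw [(A.e i).right_inv hz, h3.fderiv_eq, h2.fderiv]
  rfl

/-- **the value of the form** -/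
theorem form_eq (h : IsCert P σ C) {i : A.ι} {z : Cn n} (hz : z ∈ (A.e i).target)
    (j : Fin (P.N + 1)) (u v : Cn n) :
    C.D.b j (P.F i ((A.e i).symm z))
      (fderiv ℂ (fun w => P.F i ((A.e i).symm w)) z u)
      (fderiv ℂ (fun w => P.F i ((A.e i).symm w)) z v) =
      P.F i ((A.e i).symm z) j ^ C.D.m * sb (σ.s i ((A.e i).symm z)) u v := by
  have hx : (A.e i).symm z ∈ (A.e i).source := (A.e i).map_target hz
  have hF : (fun k => sec P k i ((A.e i).symm z)) = P.F i ((A.e i).symm z) :=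
    funext fun k => sec_eq P hx k
  have hd : ∀ v : Cn n, fderiv ℂ (fun w => P.F i ((A.e i).symm w)) z v =
      ∑ a, v a • dcol (fun k => sec P k) i ((A.e i).symm z) a := by
    intro v
    rw [← dir_eq (F := fun k => sec P k)]
    funext k
    exact (df_sec hz v k).symm
  rw [hd u, hd v, b_sum_left]
  simp only [b_sum_right]
  have h1 : ∀ a b, C.D.b j (P.F i ((A.e i).symm z))
      (dcol (fun k => sec P k) i ((A.e i).symm z) a)
      (dcol (fun k => sec P k) i ((A.e i).symm z) b) =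
      P.F i ((A.e i).symm z) j ^ C.D.m * σ.s i ((A.e i).symm z) a b := by
    intro a b
    have h2 := form_dcol h hx j a b
    rw [hF, sec_eq P hx j] at h2
    exact h2
  simp only [h1]
  unfold sb
  rw [Finset.mul_sum]
  refine Finset.sum_congr rfl fun a _ => ?_
  rw [Finset.mul_sum, Finset.mul_sum]
  refine Finset.sum_congr rfl fun b _ => ?_
  ring

end Form

/-- the standard coordinates -/
abbrev bE (N : ℕ) : EuclideanSpace ℂ (Fin (N + 1)) ≃L[ℂ] (Fin (N + 1) → ℂ) :=
  EuclideanSpace.equiv (Fin (N + 1)) ℂ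

theorem cone_ofProj {P : ProjD A} {σ : HSymp A} {C : CDat n P.N ℂ} (h : IsCert P σ C)
    (w : EuclideanSpace ℂ (Fin (P.N + 1))) :
    w ∈ (ofProj P (bE P.N)).cone ↔ w ≠ 0 ∧ OnE (range C.G) fun i => w i := by
  rw [ofProj_cone]
  have e : bE P.N w = fun i => w i := rfl
  constructor
  · rintro ⟨a, x, hx, c, hc, hw⟩
    have h0 : (fun i => w i) ≠ (0 : Fin (P.N + 1) → ℂ) := by
      rw [← e, hw]
      exact smul_ne_zero hc (P.ne a x hx)
    refine ⟨fun hw0 => h0 ?_, (h.onE_iff h0).2 ⟨a, x, hx, c, hc, ?_⟩⟩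
    · rw [hw0]
      rfl
    · rw [← e, hw]
  · rintro ⟨hw0, hw⟩
    have h0 : (fun i => w i) ≠ (0 : Fin (P.N + 1) → ℂ) := by
      intro h1
      apply hw0
      ext i
      exact congrFun h1 i
    obtain ⟨a, x, hx, c, hc, hw'⟩ := (h.onE_iff h0).1 hw
    exact ⟨a, x, hx, c, hc, hw'⟩

variable [T2Space M] [ConnectedSpace M] [CompactSpace M] [Finite A.ι]

/-- **START-CODE** -/
theorem exists_start (k₀ : Type) [Field k₀] [CharZero k₀] [Algebra k₀ ℂ] (PA : Part A) (hD : D2 A)
    (P : ProjD A) (σ : HSymp A) (hcl : Closed σ.toH2)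
    (T : Finset (MvPolynomial (Fin (P.N + 1)) k₀))
    (hT : ∀ p ∈ T, MvPolynomial.map (algebraMap k₀ ℂ) p ∈ Rels (fun k => sec P k)) :
    ∃ (K : Code k₀ n P.N) (Mo : Fmt k₀ (Fin K.k)) (h : Mo.Nice)
      (hM : ∀ (z : Fin Mo.m → ℂ) (w : ℂ), Mo.On z w → K.Good (Mo.pt z w)) (q0 : QM Mo),
      (∀ p ∈ T, MvPolynomial.map (MvPolynomial.C : k₀ →+* MvPolynomial (Fin K.k) k₀) p ∈
        range K.Y.G) ∧
      IsCert P σ (K.mem (Mo.pt q0.1.1 q0.1.2)) ∧ AlgebraicIndependent k₀ q0.1.1 ∧
      ∀ w, w ∈ (ofProj P (bE P.N)).cone ↔ w ∈ (qfamC K Mo h hM).S q0 := by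
  obtain ⟨K, c, hg, hC, hT'⟩ := exists_code k₀ (algebraMap k₀ ℂ).injective PA hD P σ hcl T hT
  obtain ⟨Mo, h, hM, q0, hz, hpt⟩ := exists_model_code hg
  have hC' : IsCert P σ (K.mem (Mo.pt q0.1.1 q0.1.2)) := by
    rw [hpt]
    exact hC
  refine ⟨K, Mo, h, hM, q0, hT', hC', hz, fun w => ?_⟩
  rw [cone_ofProj hC', qfamC_S]
  rfl

end

end Crest.Agent.R281.CB_867
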