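import Crest.Agent.R281.Ehr12_268
import Crest.Agent.R281.CB1_867

/-!
# R281 (S0424), PER-HOL / G28 (helper268), part 13: the form on the family of a code

* `polP`        : `PolF` over 871's `qfamP`
* `polC`        : `PolF` over 871's `qfamC` (family of a code of 867); `polC_D`
* `liftU_toProj`: the sections of 313's `HolA.toProj` lift the embedding
* `formC_code`  : 989's `FormC (K.mem (M.pt m.q)).D U σ`
* `start_s`     : at the marking of 867's START-CODE the form is the given form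
-/

set_option autoImplicit false
set_option linter.unusedSectionVars false
set_option synthInstance.maxHeartbeats 200000
set_option maxSynthPendingDepth 3

open Set Filter Topology Complex
open scoped ContDiff Matrix

namespace Crest.Agent.R281.Ehr13_268

open Crest.Agent.R275 Crest.Agent.R275.Geo Crest.Agent.R275.Core144 Crest.Agent.R275.GC293
open Crest.Agent.R273.SteinC_794 Crest.Agent.R273.SerA_945 Crest.Agent.R273.Defs_333
open Crest.Agent.R273.Fam_835 Crest.Agent.R281.Defs_273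
open Crest.Agent.R281.HkR_835 Crest.Agent.R281.Ehr2_268 Crest.Agent.R281.Dif_268
open Crest.Agent.R281.Ehr4_268 Crest.Agent.R281.Ehr6_268 Crest.Agent.R281.Ehr8_268
open Crest.Agent.R281.Phl_655 Crest.Agent.R281.AF_867 Crest.Agent.R281.KrB4_871
open Crest.Agent.R281.Kr_488 Crest.Agent.R281.KrB1_871 Crest.Agent.R281.CA_867
open Crest.Agent.R281.QF_871 Crest.Agent.R281.Ehr9_268 Crest.Agent.R281.Ehr10_268
open Crest.Agent.R281.Ehr11_268 Crest.Agent.R281.Pe_313 Crest.Agent.R281.Ehr12_268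
open Crest.Agent.R281.Sl_957 Crest.Agent.R281.Am_957

noncomputable section

universe uq

/-! ### instances -/

section inst

variable {Q : Type uq} [TopologicalSpace Q] {E0 : Type} [NormedAddCommGroup E0]
  [NormedSpace ℂ E0] {n N : ℕ} {R : Type*} [CommRing R]

/-- polynomial forms over 871's family of pointwise certificates -/
def polP [FiniteDimensional ℂ E0] {u : Q → E0} (hu : IsLocalHomeomorph u) (c : PCert n N R)
    (ev : Q → (R →+* ℂ)) (han : ∀ r, AnE u fun q => ev q r) (hok : ∀ q, c.OkAt (ev q))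
    (D : FDat (Fin (N + 1)) R) (hX : ∀ q, (D.map (ev q)).Exact)
    (hI : ∀ q, (D.map (ev q)).Imp (MvPolynomial.map (ev q) '' c.E)) :
    PolF (qfamP hu c ev han hok) n R where
  E := c.E
  D := D
  ev := ev
  evl := evL hu ev
  exact := hX
  sub _ _ hp := hp.1
  an q0 _ hc r := analyticAt_evL' hu (han r) q0 hc
  eq q0 _ hq := evL_u hu ev q0 hq
  imp := hI
  hom q := (hok q).hom
  dim q w hw := by
    obtain ⟨a, ha⟩ := (hok q).cov w hw.1 hw.2
    exact finrank_TS_pt ((hok q).good a) ha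

end inst

section code

variable {k₀ : Type} [Field k₀] [Algebra k₀ ℂ] {n N : ℕ} {K : Code k₀ n N}
  {M : Fmt k₀ (Fin K.k)}

/-- **the form on the family of a code** -/
def polC (h : M.Nice) (hM : ∀ (z : Fin M.m → ℂ) (w : ℂ), M.On z w → K.Good (M.pt z w)) :
    PolF (qfamC K M h hM) n (MvPolynomial (Fin K.k) k₀) where
  E := range K.Y.G
  D := K.Y.D
  ev := evP M
  evl := evL (isLocalHomeomorph_zc h) (evP M)
  exact q := (hM q.1.1 q.1.2 q.2).mem_ok.exact
  sub _ _ hp := hp.1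
  an q0 _ hc r := analyticAt_evL' (isLocalHomeomorph_zc h) (anE_evP h r) q0 hc
  eq q0 _ hq := evL_u (isLocalHomeomorph_zc h) (evP M) q0 hq
  imp q := by
    have h1 : MvPolynomial.map (evP M q) '' range K.Y.G = range (K.mem (M.pt q.1.1 q.1.2)).G :=
      (CDat.range_map K.Y _).symm
    rw [h1]
    exact (hM q.1.1 q.1.2 q.2).mem_ok.imp_id
  hom q := (okAt (hM q.1.1 q.1.2 q.2)).hom
  dim q w hw := by
    have hw' : w ∈ (pcC K).cone (evP M q) := by
      rw [show (pcC K).cone (evP M q) = K.cone (M.pt q.1.1 q.1.2) from cone_eq K _]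
      exact hw
    obtain ⟨a, ha⟩ := (okAt (hM q.1.1 q.1.2 q.2)).cov w hw'.1 hw'.2
    exact finrank_TS_pt ((okAt (hM q.1.1 q.1.2 q.2)).good a) ha

variable (h : M.Nice) (hM : ∀ (z : Fin M.m → ℂ) (w : ℂ), M.On z w → K.Good (M.pt z w))

/-- the form data of the member -/
theorem polC_D (q : QM M) : (polC h hM).D.map ((polC h hM).ev q) =
    (K.mem (M.pt q.1.1 q.1.2)).D := rfl

end code

/-! ### lifting sections -/

section lift

variable {n N : ℕ} {V X : Type} [NormedAddCommGroup V] [NormedSpace ℝ V] [TopologicalSpace X]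
  {C' : RCh V X} {A : Atl n X} {P : HEmb C' (EuclideanSpace ℂ (Fin (N + 1)))}
  {b : EuclideanSpace ℂ (Fin (N + 1)) ≃L[ℂ] (Fin (N + 1) → ℂ)}

/-- sections of a projective embedding whose coordinates are proportional to those of `P` -/
theorem liftU_of {Q : ProjD A} (e : Q.N = N) {U : Fin (N + 1) → Fn A}
    (hU : ∀ k, U k = Crest.Agent.R273.FS_333.sec Q (Fin.cast (by rw [e]) k))
    (hl : ∀ a i, ∀ x ∈ (A.e a).source, x ∈ (C'.e i).source → ∃ c : ℂ, c ≠ 0 ∧
      ∀ k : Fin (N + 1), Q.F a x (Fin.cast (by rw [e]) k) = c * P.u i (C'.e i x) k) :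
    LiftU P A U where
  hol k a := by
    rw [hU k]
    exact (Crest.Agent.R273.FS_333.isHS_sec Q _).hol a
  eq a i x hx hi := by
    obtain ⟨c, hc, h1⟩ := hl a i x hx hi
    refine ⟨c, hc, fun k => ?_⟩
    rw [hU k, Crest.Agent.R273.FS_333.sec_eq Q hx, h1 k]

/-- **the sections of `HolA.toProj`** -/
theorem liftU_toProj (hb : ∀ w k, b w k = w k) (hA : HolA P b A) (κ : A.ι → Fin (N + 1))
    (hκ : ∀ a, (A.e a).source ⊆ OX P b (κ a)) :
    LiftU P A (fun k => Crest.Agent.R273.FS_333.sec (hA.toProj κ hκ) k) where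
  hol k a := (Crest.Agent.R273.FS_333.isHS_sec (hA.toProj κ hκ) k).hol a
  eq a i x hx hi := by
    have h1 := (mem_OX hi).1 (hκ a hx)
    refine ⟨(b (P.u i (C'.e i x)) (κ a))⁻¹, inv_ne_zero h1.2, fun k => ?_⟩
    refine (Crest.Agent.R273.FS_333.sec_eq (hA.toProj κ hκ) hx k).trans ?_
    show nuX P b (κ a) x k = _
    rw [nuX_eq hi (hκ a hx)]
    show (b (P.u i (C'.e i x)) (κ a))⁻¹ * b (P.u i (C'.e i x)) k = _
    rw [hb _ k]

/-- the sections of the embedding of `ofProj` -/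
theorem liftU_ofProj (Q : ProjD A) (bq : EuclideanSpace ℂ (Fin (Q.N + 1)) ≃L[ℂ]
    (Fin (Q.N + 1) → ℂ)) (hb : ∀ w k, bq w k = w k) :
    LiftU (ofProj Q bq) A (fun k => Crest.Agent.R273.FS_333.sec Q k) where
  hol k a := (Crest.Agent.R273.FS_333.isHS_sec Q k).hol a
  eq a i x hx hi := by
    obtain ⟨c, hc⟩ := Q.tr a i x ⟨hx, hi⟩
    have h0 : c ≠ 0 := by
      rintro rfl
      refine Q.ne a x hx ?_
      rw [hc, zero_smul]
    refine ⟨c, h0, fun k => ?_⟩
    rw [Crest.Agent.R273.FS_333.sec_eq Q hx, hc]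
    have h1 : (ofProj Q bq).u i ((ofAtl A).e i x) = bq.symm (Q.F i x) := by
      show bq.symm (Q.F i ((A.e i).symm (A.e i x))) = _
      rw [(A.e i).left_inv hi]
    show c * Q.F i x k = c * ((ofProj Q bq).u i ((ofAtl A).e i x)) k
    rw [h1, ← hb, bq.apply_symm_apply]

end lift

/-! ### the member of a code -/

section member

variable {k₀ : Type} [Field k₀] [Algebra k₀ ℂ] {n N : ℕ} {K : Code k₀ n N}
  {M : Fmt k₀ (Fin K.k)} (h : M.Nice)
  (hM : ∀ (z : Fin M.m → ℂ) (w : ℂ), M.On z w → K.Good (M.pt z w))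
  {V X : Type} [NormedAddCommGroup V] [NormedSpace ℝ V] [TopologicalSpace X]
  {C : RCh V X} [FiniteDimensional ℝ V] {A : Atl n X} {L : ℕ}
  {m : Mark (qfamC K M h hM) C}
  {b : EuclideanSpace ℂ (Fin (N + 1)) ≃L[ℂ] (Fin (L + 1) → ℂ)}

/-- **`FormC` at a marking of the family of a code** -/
theorem formC_code (hV : Module.finrank ℝ V = 2 * n) (hA : HolA m.P b A)
    {U : Fin (N + 1) → Fn A} (hU : LiftU m.P A U) :
    GTi_989.FormC (K.mem (M.pt m.q.1.1 m.q.1.2)).D U ((polC h hM).hsymp hV hA).toH2 :=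
  (polC h hM).formC hV hA hU

end member

section start

variable {k₀ : Type} [Field k₀] [Algebra k₀ ℂ] {n : ℕ} {X : Type} [TopologicalSpace X]
  {A : Atl n X} {P : ProjD A} {σ : HSymp A} {K : Code k₀ n P.N} {M : Fmt k₀ (Fin K.k)}
  (h : M.Nice) (hM : ∀ (z : Fin M.m → ℂ) (w : ℂ), M.On z w → K.Good (M.pt z w))
  {C : RCh (Cn n) X}

/-- **the marking of START-CODE** -/
def startMark (q0 : QM M) (hc : Cmp C (ofAtl A))
    (hcone : ∀ w, w ∈ (ofProj P (CB_867.bE P.N)).cone ↔ w ∈ (qfamC K M h hM).S q0) :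
    Mark (qfamC K M h hM) C := ⟨q0, ofAtl A, hc, ofProj P (CB_867.bE P.N), hcone⟩

/-- **the form at the start is the given form** -/
theorem start_s (hV : Module.finrank ℝ (Cn n) = 2 * n) {q0 : QM M} {hc : Cmp C (ofAtl A)}
    {hcone : ∀ w, w ∈ (ofProj P (CB_867.bE P.N)).cone ↔ w ∈ (qfamC K M h hM).S q0}
    (hC : IsCert P σ (K.mem (M.pt q0.1.1 q0.1.2)))
    (hA : HolA (startMark h hM q0 hc hcone).P (CB_867.bE P.N) A) (i : A.ι) (x : X)
    (hx : x ∈ (A.e i).source) : ((polC h hM).hsymp hV hA).s i x = σ.s i x := by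
  have h1 : GTi_989.FormC (K.mem (M.pt q0.1.1 q0.1.2)).D
      (fun k => Crest.Agent.R273.FS_333.sec P k) ((polC h hM).hsymp hV hA).toH2 :=
    formC_code h hM hV hA (liftU_ofProj P (CB_867.bE P.N) fun _ _ => rfl)
  have h2 : GTi_989.FormC (K.mem (M.pt q0.1.1 q0.1.2)).D
      (fun k => Crest.Agent.R273.FS_333.sec P k) σ.toH2 := fun j i x hx => hC.frm j i x hx
  refine formC_uniq h1 h2 (fun i x hx => ?_) i x hx
  by_contra hcon
  push Not at hcon
  refine P.ne i x hx (funext fun k => ?_)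
  have h3 := hcon k
  rw [Crest.Agent.R273.FS_333.sec_eq P hx] at h3
  exact h3

end start

end

end Crest.Agent.R281.Ehr13_268
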