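import Crest.Agent.R281.Ehr6_268
import Crest.Agent.R281.Cdr2_234

/-!
# R281 (S0424), B4-EHR (helper268), part 7: action on the classes, natural classes of markings

* `cl w`             : the class of `w` in `HdR C`, `cl_eq_iff : cl w = cl w' ↔ Coh w w'`
* `hPull g`          : pull back on classes (`hPull_cl`, `hPull_comp`, `hPull_id`)
* `rD C`, `rG C`     : `difG C →* Module.End ℝ (HdR C)`, `difG C ⧸ tG C →* Module.End ℝ (HdR C)`
                       (`g ↦ (g⁻¹)^*`), `rG_injective`
* `Lz C`             : the integral classes, `rG_mem`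
* `NatF F C`         : a closed 2-form on `C` for every marking, natural under `Over`;
                       `NatF.cls : MQ F C → HdR C`, `NatF.cls_smul`
-/

set_option autoImplicit false
set_option maxSynthPendingDepth 5
set_option linter.unusedSectionVars false

open Set Filter Topology Complex
open scoped ContDiff

namespace Crest.Agent.R281.Ehr7_268

open Crest.Agent.R281.HkR_835 Crest.Agent.R281.Ehr2_268 Crest.Agent.R281.Dif_268
open Crest.Agent.R281.Ehr4_268 Crest.Agent.R281.CL_473 Crest.Agent.R281.Ehr6_268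
open Crest.Agent.R281.Cdr_234
open Crest.Agent.R281.Ti_846 (F1 IsD Ex)

noncomputable section

universe uq

section classes

variable {V V' V'' X X' X'' : Type} [NormedAddCommGroup V] [NormedSpace ℝ V]
  [NormedAddCommGroup V'] [NormedSpace ℝ V'] [NormedAddCommGroup V''] [NormedSpace ℝ V'']
  [TopologicalSpace X] [TopologicalSpace X'] [TopologicalSpace X'']
  {C : RCh V X} {C' : RCh V' X'} {C'' : RCh V'' X''}

/-- the class of a closed form -/
def cl (w : F2 C) : HdR C := Submodule.Quotient.mk w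

theorem ex_sub_iff (w w' : F2 C) : Ex (w - w') ↔ Coh w w' := by
  constructor
  · rintro ⟨η, hη⟩
    refine ⟨η, fun i z hz u v => ?_⟩
    have h := hη i z hz u v
    rw [F2.sub_w] at h
    exact h
  · rintro ⟨η, hη⟩
    refine ⟨η, fun i z hz u v => ?_⟩
    rw [F2.sub_w]
    exact hη i z hz u v

theorem cl_eq_iff {w w' : F2 C} : cl w = cl w' ↔ Coh w w' :=
  (Submodule.Quotient.eq (exS C)).trans (ex_sub_iff w w')

theorem cl_surj (x : HdR C) : ∃ w, cl w = x := Submodule.Quotient.mk_surjective _ x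

theorem cl_add (w w' : F2 C) : cl (w + w') = cl w + cl w' := rfl

theorem cl_smul (c : ℝ) (w : F2 C) : cl (c • w) = c • cl w := rfl

theorem pull_add (g : SMap C' C) (w w' : F2 C) :
    Eqv (g.pull (w + w')) (g.pull w + g.pull w') := by
  intro j z hz u v
  obtain ⟨i, hi⟩ := g.exists_dom hz
  rw [F2.add_w, g.pull_w _ hi, F2.add_w]
  show _ = (g.pull w).w j z u v + (g.pull w').w j z u v
  rw [g.pull_w _ hi, g.pull_w _ hi]
  rfl

theorem pull_smul (g : SMap C' C) (c : ℝ) (w : F2 C) :
    Eqv (g.pull (c • w)) (c • g.pull w) := by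
  intro j z hz u v
  obtain ⟨i, hi⟩ := g.exists_dom hz
  rw [F2.smul_w, g.pull_w _ hi, F2.smul_w]
  show _ = c • (g.pull w).w j z u v
  rw [g.pull_w _ hi]
  rfl

/-- `w ↦ [g^* w]` -/
def pullL (g : SMap C' C) : F2 C →ₗ[ℝ] HdR C' where
  toFun w := cl (g.pull w)
  map_add' w w' := by
    rw [← cl_add]
    exact cl_eq_iff.mpr (pull_add g w w').coh
  map_smul' c w := by
    rw [RingHom.id_apply, ← cl_smul]
    exact cl_eq_iff.mpr (pull_smul g c w).coh

/-- pull back on classes -/
def hPull (g : SMap C' C) : HdR C →ₗ[ℝ] HdR C' :=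
  (exS C).liftQ (pullL g) (by
    intro w hw
    have h1 : Ex (g.pull w) := g.ex_pull hw
    show cl (g.pull w) = 0
    exact (Submodule.Quotient.mk_eq_zero _).mpr h1)

@[simp] theorem hPull_cl (g : SMap C' C) (w : F2 C) : hPull g (cl w) = cl (g.pull w) := rfl

theorem hPull_comp (g : SMap C' C) (h : SMap C'' C') (x : HdR C) :
    hPull (g.comp h) x = hPull h (hPull g x) := by
  obtain ⟨w, rfl⟩ := cl_surj x
  rw [hPull_cl, hPull_cl, hPull_cl]
  exact cl_eq_iff.mpr (pull_comp g h w).coh

theorem hPull_id (x : HdR C) : hPull (SMap.id C) x = x := by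
  obtain ⟨w, rfl⟩ := cl_surj x
  rw [hPull_cl]
  exact cl_eq_iff.mpr (pull_id w).coh

/-- the smooth map underlying `φ⁻¹` -/
def invS (φ : difG C) : SMap C C := Classical.choose φ.2.2

theorem invS_f (φ : difG C) : (invS φ).f = φ.1.symm := Classical.choose_spec φ.2.2

/-- the smooth map underlying `φ` -/
def dirS (φ : difG C) : SMap C C := Classical.choose φ.2.1

theorem dirS_f (φ : difG C) : (dirS φ).f = φ.1 := Classical.choose_spec φ.2.1

theorem invS_one : invS (1 : difG C) = SMap.id C := SMap.ext' (invS_f 1)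

theorem invS_mul (φ ψ : difG C) : invS (φ * ψ) = (invS ψ).comp (invS φ) := by
  refine SMap.ext' ?_
  show _ = (invS ψ).f ∘ (invS φ).f
  rw [invS_f, invS_f, invS_f]
  rfl

theorem dir_inv (φ : difG C) : (dirS φ).comp (invS φ) = SMap.id C := by
  refine SMap.ext' ?_
  show (dirS φ).f ∘ (invS φ).f = _
  rw [dirS_f, invS_f]
  funext x
  exact φ.1.apply_symm_apply x

theorem inv_dir (φ : difG C) : (invS φ).comp (dirS φ) = SMap.id C := by
  refine SMap.ext' ?_
  show (invS φ).f ∘ (dirS φ).f = _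
  rw [dirS_f, invS_f]
  funext x
  exact φ.1.symm_apply_apply x

/-- the action of the diffeomorphisms on the classes, `φ ↦ (φ⁻¹)^*` -/
def rD (C : RCh V X) : difG C →* Module.End ℝ (HdR C) where
  toFun φ := hPull (invS φ)
  map_one' := by
    ext x
    show hPull (invS 1) (Submodule.Quotient.mk x) = Submodule.Quotient.mk x
    rw [invS_one, hPull_id]
  map_mul' φ ψ := by
    ext x
    show hPull (invS (φ * ψ)) (Submodule.Quotient.mk x) =
      hPull (invS φ) (hPull (invS ψ) (Submodule.Quotient.mk x))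
    rw [invS_mul, hPull_comp]

theorem rD_apply (φ : difG C) (x : HdR C) : rD C φ x = hPull (invS φ) x := rfl

theorem rD_cl (φ : difG C) (w : F2 C) : rD C φ (cl w) = cl ((invS φ).pull w) := rfl

/-- the action of `φ` is inverse to the pull back by `φ` -/
theorem hPull_rD (φ : difG C) (x : HdR C) : hPull (dirS φ) (rD C φ x) = x := by
  rw [rD_apply, ← hPull_comp, inv_dir, hPull_id]

theorem rD_hPull (φ : difG C) (x : HdR C) : rD C φ (hPull (dirS φ) x) = x := by
  rw [rD_apply, ← hPull_comp, dir_inv, hPull_id]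

theorem rD_eq_iff (φ : difG C) (x y : HdR C) : rD C φ x = y ↔ hPull (dirS φ) y = x := by
  constructor
  · rintro rfl
    exact hPull_rD φ x
  · rintro rfl
    exact rD_hPull φ y

theorem mem_tG_iff (φ : difG C) : φ ∈ tG C ↔ rD C φ = 1 := by
  constructor
  · intro h
    obtain ⟨g, hg, hc⟩ : HTriv C φ.1 := h
    have e : g = dirS φ := SMap.ext' (hg.trans (dirS_f φ).symm)
    ext x
    show rD C φ (cl x) = cl x
    rw [rD_eq_iff, hPull_cl, ← e]
    exact cl_eq_iff.mpr (hc x)
  · intro h
    refine ⟨dirS φ, dirS_f φ, fun w => ?_⟩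
    rw [← cl_eq_iff, ← hPull_cl]
    have h1 : rD C φ (cl w) = cl w := by rw [h]; rfl
    exact (rD_eq_iff φ _ _).mp h1

/-- the action of the group of the marked cover on the classes -/
def rG (C : RCh V X) : (difG C ⧸ tG C) →* Module.End ℝ (HdR C) :=
  QuotientGroup.lift (tG C) (rD C) fun g hg => (mem_tG_iff g).mp hg

@[simp] theorem rG_mk (φ : difG C) (x : HdR C) :
    rG C (QuotientGroup.mk φ) x = hPull (invS φ) x := rfl

theorem rG_injective : Function.Injective (rG C) := by
  rw [injective_iff_map_eq_one]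
  intro g hg
  obtain ⟨φ, rfl⟩ := QuotientGroup.mk_surjective g
  have h1 : rD C φ = 1 := hg
  exact (QuotientGroup.eq_one_iff φ).mpr ((mem_tG_iff φ).mpr h1)

/-- the classes coming from the subgroup `G` of `ℝ` -/
def clsQ (C : RCh V X) (G : AddSubgroup ℝ) : AddSubgroup (HdR C) :=
  (clsS C G).map ((exS C).mkQ : F2 C →ₗ[ℝ] HdR C).toAddMonoidHom

theorem mem_clsQ {G : AddSubgroup ℝ} {x : HdR C} : x ∈ clsQ C G ↔ ∃ w, Cls G w ∧ cl w = x :=
  Iff.rfl

theorem cl_mem_clsQ {G : AddSubgroup ℝ} {w : F2 C} : cl w ∈ clsQ C G ↔ Cls G w := by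
  constructor
  · rintro ⟨w', h1, h2⟩
    have h3 : Coh w' w := cl_eq_iff.mp h2
    exact Cls.of_sub_ex' h1 ((ex_sub_iff _ _).mpr h3)
  · intro h
    exact ⟨w, h, rfl⟩

theorem hPull_mem {G : AddSubgroup ℝ} (g : SMap C' C) {x : HdR C} (hx : x ∈ clsQ C G) :
    hPull g x ∈ clsQ C' G := by
  obtain ⟨w, h1, rfl⟩ := mem_clsQ.mp hx
  rw [hPull_cl, cl_mem_clsQ]
  exact Cls.pull g h1

/-- the integral classes -/
def Lz (C : RCh V X) : AddSubgroup (HdR C) := clsQ C (Int.castAddHom ℝ).range

theorem cl_mem_Lz {w : F2 C} : cl w ∈ Lz C ↔ IntF w := cl_mem_clsQ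

theorem rG_mem (g : difG C ⧸ tG C) {x : HdR C} (hx : x ∈ Lz C) : rG C g x ∈ Lz C := by
  obtain ⟨φ, rfl⟩ := QuotientGroup.mk_surjective g
  exact hPull_mem _ hx

end classes

/-! ### natural forms on the markings -/

variable {Q : Type uq} [TopologicalSpace Q] {E H : Type} [NormedAddCommGroup E]
    [NormedSpace ℂ E] [NormedAddCommGroup H] [NormedSpace ℂ H] {V X : Type}
    [NormedAddCommGroup V] [NormedSpace ℝ V] [TopologicalSpace X]

/-- a closed form for every marking, natural under the transition maps -/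
structure NatF (F : QFam Q E H) (C : RCh V X) where
  w : Mark F C → F2 C
  nat : ∀ m m' : Mark F C, m.q = m'.q → ∀ g : SMap C C, Over m.P m'.P g.f →
    Coh (g.pull (w m')) (w m)

namespace NatF

variable {F : QFam Q E H} {C : RCh V X} (N : NatF F C)

theorem cl_of_sim {m m' : Mark F C} (h : Mark.Sim m m') : cl (N.w m) = cl (N.w m') := by
  obtain ⟨h1, f, h2, g, rfl, hg⟩ := h
  rw [cl_eq_iff]
  exact (N.nat m m' h1 g h2).symm.trans (hg _)

variable [FiniteDimensional ℝ V] [CompactSpace X] [T2Space X] [FiniteDimensional ℂ H]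

/-- the class of a marking -/
def cls (x : MQ F C) : HdR C :=
  Quotient.lift (fun m : Mark F C => cl (N.w m)) (fun _ _ h => N.cl_of_sim h) x

@[simp] theorem cls_mk (m : Mark F C) : N.cls (MQ.mk m) = cl (N.w m) := rfl

/-- the class is natural -/
theorem cls_smul (g : difG C ⧸ tG C) (x : MQ F C) : N.cls (g • x) = rG C g (N.cls x) := by
  obtain ⟨φ, rfl⟩ := QuotientGroup.mk_surjective g
  obtain ⟨m, rfl⟩ := MQ.exists_rep x
  rw [smul_mk', cls_mk, cls_mk]
  show _ = rD C φ (cl (N.w m))
  symm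
  rw [rD_eq_iff, hPull_cl, cl_eq_iff]
  refine N.nat m (Mark.act φ m) rfl (dirS φ) ?_
  rw [dirS_f]
  exact over_mapHom m.P φ.1

/-- the class along the transport -/
theorem cls_s (m : Mark F C) {q : Q} (hq : q ∈ F.U m.q) :
    N.cls ((ls F C).s (MQ.mk m) q) = cl (N.w (m.trIn q hq)) := by
  show N.cls ((MQ.mk m).s q) = _
  rw [MQ.s_mk_mem m hq, cls_mk]

end NatF

theorem ls_p (F : QFam Q E H) (C : RCh V X) [FiniteDimensional ℝ V] [CompactSpace X] [T2Space X]
    [FiniteDimensional ℂ H] (x : MQ F C) : (ls F C).p x = x.p := rfl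

theorem ls_U (F : QFam Q E H) (C : RCh V X) [FiniteDimensional ℝ V] [CompactSpace X] [T2Space X]
    [FiniteDimensional ℂ H] (q : Q) : (ls F C).U q = F.U q := rfl

theorem ls_conn (F : QFam Q E H) (C : RCh V X) [FiniteDimensional ℝ V] [CompactSpace X]
    [T2Space X] [FiniteDimensional ℂ H] (q : Q) : IsPreconnected ((ls F C).U q) := F.U_conn q

end

end Crest.Agent.R281.Ehr7_268
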