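import Crest.Agent.R281.Cdr10_234
import Crest.Agent.R281.Ehr7_268

/-!
# R281 (S0424), CDR (helper234), part 11: the lattice of integral classes, adapters

`B : HBas C` (Cdr10): the literal forms consumed by 770 (`RSpan`, `IFin`, `RInt`), 311 (`Bas`),
902 (`Ctx.span`), 473 (`IsInt B.basis (Lz C)`), density and countability of the rational classes.
-/

set_option autoImplicit false
set_option linter.unusedSectionVars false
set_option maxSynthPendingDepth 3

open Set Filter Topology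
open scoped ContDiff

namespace Crest.Agent.R281.Cdr_234

open Crest.Agent.R281.HkR_835 Crest.Agent.R281.Dif_268
open Crest.Agent.R281.Ti_846 (F1 IsD Ex d1)
open Crest.Agent.R281.Ehr7_268 (cl clsQ Lz cl_mem_clsQ cl_surj)

noncomputable section

namespace HBas

variable {V X : Type} [NormedAddCommGroup V] [NormedSpace ℝ V] [TopologicalSpace X]
  {C : RCh V X} {G : AddSubgroup ℝ}

/-- 311's `Bas C` -/
theorem bas (B : HBas C) : ∃ (N : ℕ) (b : Fin N → F2 C), (∀ k, IntF (b k)) ∧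
    (∀ w : F2 C, ∃ t : Fin N → ℝ, Ex (w - ∑ k, t k • b k)) ∧
    ∀ t : Fin N → ℝ, IntF (∑ k, t k • b k) → ∀ k, ∃ m : ℤ, t k = m :=
  ⟨B.N, B.b, B.int, B.span, fun t ht => (B.intF_iff t).1 ht⟩

/-- 770's `RSpan A` (for `C = ofAtl A`) -/
theorem rspan (B : HBas C) (x : F2 C) : ∃ (N : ℕ) (b : Fin N → F2 C) (t : Fin N → ℝ),
    (∀ k, RatF (b k)) ∧ x - ∑ k, t k • b k ∈ exS C :=
  ⟨B.N, B.b, B.co x, fun k => (B.int k).rat, B.ex_co x⟩

/-- 770's `IFin A` (for `C = ofAtl A`) -/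
theorem ifin (B : HBas C) : ∃ (N : ℕ) (b : Fin N → F2 C), (∀ k, IntF (b k)) ∧
    ∀ x : F2 C, IntF x → ∃ a : Fin N → ℤ, x - ∑ k, (a k : ℝ) • b k ∈ exS C := by
  refine ⟨B.N, B.b, B.int, fun x hx => ?_⟩
  choose a ha using B.intF_iff_co.1 hx
  refine ⟨a, ?_⟩
  have h1 := B.ex_co x
  have h2 : B.co x = fun k => (a k : ℝ) := funext ha
  rw [h2] at h1
  exact h1

/-- 902's `Ctx.span` -/
theorem rat_span (B : HBas C) : ∃ (m : ℕ) (b : Fin m → F2 C), (∀ j, RatF (b j)) ∧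
    ∀ x : F2 C, ∃! a : Fin m → ℝ, Ex (x - ∑ j, a j • b j) :=
  ⟨B.N, B.b, fun k => (B.int k).rat, fun x => ⟨B.co x, B.ex_co x, fun _ ht => B.uniq ht (B.ex_co x)⟩⟩

theorem co_eq {B : HBas C} {w : F2 C} {t : Fin B.N → ℝ} (h : Ex (w - ∑ k, t k • B.b k)) :
    B.co w = t := B.uniq (B.ex_co w) h

theorem co_sum (B : HBas C) (t : Fin B.N → ℝ) : B.co (∑ k, t k • B.b k) = t :=
  co_eq (by rw [sub_self]; exact Ex.zero)

/-- the integral classes have integral coordinates: 473's `IsInt B.basis (Lz C)` -/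
theorem isInt (B : HBas C) : ∀ x ∈ Lz C, ∀ k, ∃ m : ℤ, B.basis.repr x k = m := by
  intro x hx k
  obtain ⟨w, rfl⟩ := cl_surj x
  exact B.intF_iff_co.1 (cl_mem_clsQ.1 hx) k

theorem mem_clsQ_iff (B : HBas C) {x : HdR C} : x ∈ clsQ C G ↔ ∀ k, B.basis.repr x k ∈ G := by
  obtain ⟨w, rfl⟩ := cl_surj x
  rw [cl_mem_clsQ, B.cls_iff_co]
  rfl

theorem mem_Lz_iff (B : HBas C) {x : HdR C} :
    x ∈ Lz C ↔ ∀ k, ∃ m : ℤ, B.basis.repr x k = m := by
  obtain ⟨w, rfl⟩ := cl_surj x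
  exact cl_mem_clsQ.trans B.intF_iff_co

theorem basis_mem (B : HBas C) (k : Fin B.N) : B.basis k ∈ Lz C := by
  rw [B.basis_apply]
  exact cl_mem_clsQ.2 (B.int k)

/-- **density of the rational classes** -/
theorem exists_rat_near (B : HBas C) (t : Fin B.N → ℝ) {ε : ℝ} (hε : 0 < ε) :
    ∃ q : Fin B.N → ℚ, (∀ k, |t k - q k| < ε) ∧ RatF (∑ k, (q k : ℝ) • B.b k) := by
  have h1 : ∀ k, ∃ q : ℚ, |t k - q| < ε := fun k => by
    obtain ⟨q, hq, hq'⟩ := exists_rat_btwn (show t k - ε < t k by linarith)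
    refine ⟨q, ?_⟩
    rw [abs_lt]
    constructor <;> linarith
  choose q hq using h1
  exact ⟨q, hq, (B.ratF_iff _).2 fun k => ⟨q k, rfl⟩⟩

/-- the rational classes are countable -/
theorem countable_rat (B : HBas C) :
    {x : HdR C | ∃ w, RatF w ∧ cl w = x}.Countable := by
  have h1 : {x : HdR C | ∃ w, RatF w ∧ cl w = x} ⊆
      range fun q : Fin B.N → ℚ => ∑ k, (q k : ℝ) • B.basis k := by
    rintro _ ⟨w, hw, rfl⟩
    choose q hq using B.ratF_iff_co.1 hw
    refine ⟨q, ?_⟩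
    have h2 := B.basis.sum_repr (cl w)
    rw [← h2]
    refine Finset.sum_congr rfl fun k _ => ?_
    rw [← hq k]
    rfl
  exact (countable_range _).mono h1

theorem countable_int (B : HBas C) : ((Lz C : AddSubgroup (HdR C)) : Set (HdR C)).Countable := by
  refine B.countable_rat.mono fun x hx => ?_
  obtain ⟨w, rfl⟩ := cl_surj x
  have hw : IntF w := cl_mem_clsQ.1 hx
  exact ⟨w, hw.rat, rfl⟩

/-- rational numbers on rational classes: a linear functional which is rational on integral forms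
is rational on rational forms -/
theorem lin_rat (B : HBas C) (φ : F2 C →ₗ[ℝ] ℝ) (hφ : ∀ w, Ex w → φ w = 0)
    (hi : ∀ w, IntF w → ∃ q : ℚ, φ w = q) {w : F2 C} (hw : RatF w) : ∃ q : ℚ, φ w = q := by
  choose q hq using B.ratF_iff_co.1 hw
  choose r hr using fun k => hi (B.b k) (B.int k)
  refine ⟨∑ k, q k * r k, ?_⟩
  have h1 := hφ _ (B.ex_co w)
  rw [map_sub, sub_eq_zero, map_sum] at h1
  rw [h1]
  push_cast
  refine Finset.sum_congr rfl fun k _ => ?_
  rw [map_smul, smul_eq_mul, hq, hr]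

end HBas

end

end Crest.Agent.R281.Cdr_234
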