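import Crest.Agent.R281.Cus1_581
import Crest.Agent.R281.Phb7_267
import Crest.Agent.R281.Am3_957
import Crest.Agent.R281.Ehp1_461

/-!
# Row 281, DIV 2, ASM-2 (helper581): the end over the cusp and the two legs, from the algebraic ray

`D : HM (ls Fm C) Fq (Lz C) κ` (helper473), `G := D.geomM hol` (helper267), `Up`, `Ray` (helper957).

* `valM D`      : the inclusion of the restricted cover into the marked cover, continuous
* `PpH D x τ`   : the marking `x` has the prescribed classes and the period `τ`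
* `rayEnd`      : the end map of a ray
* `up_leg`      : the leg along `Up`
* `ray_leg`     : the leg along the ray, into the end
* `exists_cusp` : **both legs and the member of the end**
-/

set_option autoImplicit false
set_option linter.unusedSectionVars false

open Set Filter Topology Polynomial UpperHalfPlane
open scoped ContDiff

namespace Crest.Agent.R281.Cus_581

open Crest.Agent.R281.HkR_835 Crest.Agent.R281.Ehr2_268 Crest.Agent.R281.Dif_268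
open Crest.Agent.R281.Ehr4_268
open Crest.Agent.R281.CL_473 Crest.Agent.R281.Ehr6_268 Crest.Agent.R281.Ehr7_268
open Crest.Agent.R281.Alg_998 Crest.Agent.R281.Cdr_234
open Crest.Agent.R281.Pe_313 Crest.Agent.R281.LI_473 Crest.Agent.R281.Am_957
open Crest.Agent.R281.Sl_957 Crest.Agent.R281.As_957 Crest.Agent.R281.Nc_957
open Crest.Agent.R281.Ends1_989

noncomputable section

section val

variable {H : Type*} [AddCommGroup H] [Module ℝ H] {Q : H →ₗ[ℝ] H →ₗ[ℝ] ℝ}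
  {B : Type*} [TopologicalSpace B] {G : Type*} [Group G] {E : Type*} [MulAction G E]
  {L : LS B G E} {Fq : Fr Q} {Lz : AddSubgroup H} {κ : Type*} (D : HM L Fq Lz κ)

/-- inclusion of the restricted cover -/
def valM (x : D.lS.Tot) : L.Tot := (show D.Mk from x).1

theorem pr_valM (x : D.lS.Tot) : L.pr (valM D x) = D.lS.pr x := rfl

theorem continuous_valM : Continuous (valM D) := by
  apply D.lS.continuous_of
  intro x
  have hU : L.U (L.pr (valM D x)) ∈ 𝓝 (L.pr (valM D x)) := (L.U_open _).mem_nhds (L.U_mem _)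
  have h1 : ContinuousAt (L.tr (valM D x)) (L.pr (valM D x)) :=
    (L.continuousOn_tr (valM D x)).continuousAt hU
  refine ContinuousAt.congr h1 ?_
  filter_upwards [hU] with q hq
  exact (D.lS_s x hq).symm

/-- the marking `x` has the prescribed classes and the period `τ` -/
def PpH (x : L.Tot) (τ : ℂ) : Prop :=
  (∀ i, D.cls i x = D.cl i) ∧ Fq.tau (D.re x) (D.im x) = τ ∧ 0 < τ.im

end val

variable {V X : Type} [NormedAddCommGroup V] [NormedSpace ℝ V] [TopologicalSpace X]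
variable [FiniteDimensional ℝ V] [CompactSpace X] [T2Space X]
variable {H : Type} [NormedAddCommGroup H] [NormedSpace ℂ H] [FiniteDimensional ℂ H]
variable {k₀ ι : Type} [Field k₀] [Algebra k₀ ℂ] {M : Fmt k₀ ι}
variable {Fm : QFam (QM M) (Fin M.m → ℂ) H} {C : RCh V X} {Q : F2 C →ₗ[ℝ] F2 C →ₗ[ℝ] ℝ}
variable {QH : HdR C →ₗ[ℝ] HdR C →ₗ[ℝ] ℝ} {Fq : Fr QH} {Lz₀ : AddSubgroup (HdR C)} {κ : Type}

section main

variable {D : HM (ls Fm C) Fq Lz₀ κ}
  {hol : ∀ x, (∀ i, D.cls i x = D.cl i) → ∃ φ₀ φ₁ : (Fin M.m → ℂ) → ℂ,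
      AnalyticAt ℂ φ₀ ((ls Fm C).p x).1.1 ∧ AnalyticAt ℂ φ₁ ((ls Fm C).p x).1.1 ∧
      ∀ᶠ q in 𝓝 ((ls Fm C).p x),
        Fq.z0 (D.re ((ls Fm C).s x q)) (D.im ((ls Fm C).s x q)) = φ₀ q.1.1 ∧
        Fq.z1 (D.re ((ls Fm C).s x q)) (D.im ((ls Fm C).s x q)) = φ₁ q.1.1}

/-- the class of markings below a point of `GeomM` -/
def vT (x : (D.geomM hol).T) : (ls Fm C).Tot := valM D x

theorem continuous_vT : Continuous (vT (D := D) (hol := hol)) := continuous_valM D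

theorem ppH_vT (x : (D.geomM hol).T) : PpH D (vT x) ((D.geomM hol).Ψ x : ℂ) := by
  have h : (show D.Mk from x).1 ∈ D.st := (show D.Mk from x).2
  exact ⟨h.1, rfl, h.2⟩

theorem u_vT (hu : ∀ q : QM M, Fm.u q = q.1.1) (x : (D.geomM hol).T) :
    Fm.u ((ls Fm C).pr (vT x)) = (D.geomM hol).z x := hu _

variable {F : Frm C Q} {A : F2 C}

/-- **the leg along `Up`** -/
theorem up_leg (hl : LiftS Fm F A (PpH D)) (hu : ∀ q : QM M, Fm.u q = q.1.1)
    {x₀ x₁ : (D.geomM hol).T} (U : Up (D.geomM hol) x₀ x₁) {T0 : HkT C}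
    (h0 : PtOf F A (vT x₀) ((D.geomM hol).Ψ x₀ : ℂ) T0) :
    ∃ T1 : HkT C, Leg F A {τ | τ.re = ((D.geomM hol).Ψ x₀ : ℂ).re ∧ 0 < τ.im} T0 T1 ∧
      PtOf F A (vT x₁) ((D.geomM hol).Ψ x₁ : ℂ) T1 := by
  have e0 : U.X 0 = x₀ := U.X_le 0 le_rfl
  have e1 : U.X 1 = x₁ := U.X_ge 1 le_rfl
  have h0' : PtOf F A (vT (U.X 0)) ((D.geomM hol).Ψ (U.X 0) : ℂ) T0 := by rwa [e0]
  obtain ⟨T1, h1, h2⟩ := exists_leg (c := fun t => vT (U.X t))
    (τ := fun t => ((D.geomM hol).Ψ (U.X t) : ℂ)) hl (continuous_vT.comp U.X_cont)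
    (by
      have h : (fun t => Fm.u ((ls Fm C).pr (vT (U.X t)))) = U.p := by
        funext t
        rw [u_vT hu, U.z_X]
      rw [h]
      exact U.p_smooth)
    U.Ψ_smooth (fun t => ppH_vT _) h0'
    (S := {τ | τ.re = ((D.geomM hol).Ψ x₀ : ℂ).re ∧ 0 < τ.im})
    (fun t => ⟨U.Ψ_re t, ((D.geomM hol).Ψ (U.X t)).im_pos⟩)
  refine ⟨T1, h1, ?_⟩
  simp only [e1] at h2
  exact h2

variable {x₁ : (D.geomM hol).T} {a d : Fin M.m → ℂ} {u : ℂ}
  {hx : (D.geomM hol).z x₁ = fun j => a j + u * d j}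

theorem z_end (ρ : Ray ((D.geomM hol).line a d) ((D.geomM hol).onLine a d x₁ u hx)) {z : ℂ}
    (hz : 1 ≤ z.im) : (D.geomM hol).z ((D.geomM hol).toT a d (ρ.g • ρ.e.F z)) =
      fun j => a j + ρ.e.En.U z * d j := by
  rw [(D.geomM hol).z_toT a d]
  have h1 : ((D.geomM hol).line a d).u (ρ.g • ρ.e.F z) = ρ.e.En.U z := by
    have h2 : ((D.geomM hol).line a d).toLS.pr (ρ.g • ρ.e.F z) =
        ((D.geomM hol).line a d).toLS.pr (ρ.e.F z) := LS.pr_smul _ _ _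
    have h3 := ρ.e.pr z hz
    show (((D.geomM hol).line a d).toLS.pr (ρ.g • ρ.e.F z)).1.1 = _
    rw [h2, h3]
  rw [h1]

/-- **the end map of a ray** -/
def rayEnd (hu : ∀ q : QM M, Fm.u q = q.1.1)
    (ρ : Ray ((D.geomM hol).line a d) ((D.geomM hol).onLine a d x₁ u hx)) {Y : ℝ}
    (hY : ρ.Y₂ ≤ Y) : EndMap Fm C (PpH D) Y where
  pt τ := vT ((D.geomM hol).toT a d (ρ.g • ρ.e.F (ρ.k τ)))
  cont := by
    have h1 : ContinuousOn ρ.k {τ | Y < τ.im} :=
      ρ.k_diff.continuousOn.mono fun τ hτ => lt_of_le_of_lt hY hτ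
    exact (continuous_vT.comp ((D.geomM hol).continuous_toT a d)).comp_continuousOn
      ((((D.geomM hol).line a d).toLS.continuous_smul' ρ.g).comp_continuousOn
        (ρ.e.cont.comp_continuousOn h1))
  sm := by
    have hO : IsOpen {τ : ℂ | Y < τ.im} := isOpen_lt continuous_const Complex.continuous_im
    have h1 : DifferentiableOn ℂ (fun τ => ρ.e.En.U (ρ.k τ)) {τ | Y < τ.im} :=
      ρ.e.En.diffU.comp (ρ.k_diff.mono fun τ hτ => lt_of_le_of_lt hY hτ) fun τ hτ =>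
        lt_of_lt_of_le zero_lt_one (ρ.k_im τ (lt_of_le_of_lt hY hτ)).le
    have h2 : ContDiffOn ℂ ∞ (fun τ => ρ.e.En.U (ρ.k τ)) {τ | Y < τ.im} := h1.contDiffOn hO
    have h3 : ContDiffOn ℝ ∞ (fun τ => (fun j => a j + ρ.e.En.U (ρ.k τ) * d j : Fin M.m → ℂ))
        {τ | Y < τ.im} := by
      rw [contDiffOn_pi]
      intro j
      exact (contDiffOn_const.add (h2.mul contDiffOn_const)).restrict_scalars ℝ
    refine h3.congr fun τ hτ => ?_
    rw [u_vT hu]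
    exact z_end ρ (ρ.k_im τ (lt_of_le_of_lt hY hτ)).le
  per τ hτ := by
    have h0 : ρ.Y₂ < τ.im := lt_of_le_of_lt hY hτ
    have h1 := ppH_vT (hol := hol) ((D.geomM hol).toT a d (ρ.g • ρ.e.F (ρ.k τ)))
    have h2 : ((D.geomM hol).Ψ ((D.geomM hol).toT a d (ρ.g • ρ.e.F (ρ.k τ))) : ℂ) = τ := by
      rw [(D.geomM hol).Ψ_toT, ρ.nf _ (ρ.k_im τ h0), ρ.k_inv τ h0]
    rwa [h2] at h1

/-- **the leg along the ray** -/
theorem ray_leg (hl : LiftS Fm F A (PpH D)) (hu : ∀ q : QM M, Fm.u q = q.1.1)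
    (ρ : Ray ((D.geomM hol).line a d) ((D.geomM hol).onLine a d x₁ u hx)) {Y : ℝ}
    (hY : ρ.Y₂ ≤ Y) {T1 : HkT C} (h1 : PtOf F A (vT x₁) ((D.geomM hol).Ψ x₁ : ℂ) T1) {y : ℝ}
    (hy : ρ.Y₁ ≤ y) :
    ∃ T2 : HkT C, Leg F A {τ | τ.re = ((D.geomM hol).Ψ x₁ : ℂ).re ∧ 0 < τ.im} T1 T2 ∧
      PtOf F A ((rayEnd hu ρ hY).pt (((D.geomM hol).Ψ x₁).re + y * Complex.I))
        (((D.geomM hol).Ψ x₁).re + y * Complex.I) T2 := by
  set a0 : ℝ := ((D.geomM hol).Ψ x₁).re with ha0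
  set y0 : ℝ := ((D.geomM hol).Ψ x₁).im with hy0
  have hy0pos : 0 < y0 := ((D.geomM hol).Ψ x₁).im_pos
  have hy0y : y0 ≤ y := ρ.le_Y₁.trans hy
  set σ : ℝ → ℝ := Ehp_461.stp y0 y with hσ
  have hσm : ∀ t, σ t ∈ Icc y0 y := Ehp_461.stp_mem hy0y
  have hσs : ContDiff ℝ ∞ σ := Ehp_461.stp_contDiff y0 y
  have hσ0 : σ 0 = y0 := Ehp_461.stp_left _ _ (by norm_num)
  have hσ1 : σ 1 = y := Ehp_461.stp_right _ _ (by norm_num)
  have hI : ∀ t, σ t ∈ Ici y0 := fun t => (hσm t).1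
  have hcc : Continuous fun t => ρ.c (σ t) := ρ.c_cont.comp_continuous hσs.continuous hI
  have hre : ∀ s : ℝ, ((a0 : ℂ) + s * Complex.I).re = a0 := fun s => by simp
  have him : ∀ s : ℝ, ((a0 : ℂ) + s * Complex.I).im = s := fun s => by simp
  have hΨ : ∀ t, ((D.geomM hol).Ψ ((D.geomM hol).toT a d (ρ.c (σ t))) : ℂ) =
      (a0 : ℂ) + (σ t : ℝ) * Complex.I := by
    intro t
    rw [(D.geomM hol).Ψ_toT, ρ.c_ray (σ t) (hI t)]
    exact ray_coe (hy0pos.trans_le (hI t))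
  have hus : ContDiff ℝ ∞ fun t => ((D.geomM hol).line a d).u (ρ.c (σ t)) := by
    rw [contDiff_iff_contDiffAt]
    intro t0
    obtain ⟨φ, hφ, hφe⟩ := ρ.c_an (σ t0) (hI t0)
    have e1 : ContDiffAt ℝ ∞ φ ((a0 : ℂ) + (σ t0 : ℝ) * Complex.I) :=
      (hφ.contDiffAt (n := ∞)).restrict_scalars ℝ
    have e2 : ContDiff ℝ ∞ fun t => (a0 : ℂ) + (σ t : ℝ) * Complex.I :=
      contDiff_const.add ((Complex.ofRealCLM.contDiff.comp hσs).mul contDiff_const)
    have e3 : ContDiffAt ℝ ∞ (fun t => φ ((a0 : ℂ) + (σ t : ℝ) * Complex.I)) t0 :=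
      e1.comp t0 e2.contDiffAt
    refine e3.congr_of_eventuallyEq ?_
    have e4 : Tendsto σ (𝓝 t0) (𝓝[Ici y0] (σ t0)) :=
      tendsto_nhdsWithin_of_tendsto_nhds_of_eventually_within _ hσs.continuous.continuousAt
        (Eventually.of_forall hI)
    exact e4.eventually hφe
  have c0 : (D.geomM hol).toT a d (ρ.c (σ 0)) = x₁ := by
    rw [hσ0]
    have h2 : ρ.c y0 = (D.geomM hol).onLine a d x₁ u hx := ρ.c_start
    rw [h2]
    exact (D.geomM hol).toT_onLine a d x₁ u hx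
  have h1' : PtOf F A (vT ((D.geomM hol).toT a d (ρ.c (σ 0))))
      ((a0 : ℂ) + (σ 0 : ℝ) * Complex.I) T1 := by
    rw [← hΨ 0, c0]
    exact h1
  obtain ⟨T2, h3, h4⟩ := exists_leg (c := fun t => vT ((D.geomM hol).toT a d (ρ.c (σ t))))
    (τ := fun t => (a0 : ℂ) + (σ t : ℝ) * Complex.I) hl
    (continuous_vT.comp (((D.geomM hol).continuous_toT a d).comp hcc))
    (by
      have h : (fun t => Fm.u ((ls Fm C).pr (vT ((D.geomM hol).toT a d (ρ.c (σ t)))))) =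
          fun t => (fun j => a j + ((D.geomM hol).line a d).u (ρ.c (σ t)) * d j) := by
        funext t
        rw [u_vT hu, (D.geomM hol).z_toT a d]
      rw [h, contDiff_pi]
      intro j
      exact contDiff_const.add (hus.mul contDiff_const))
    (contDiff_const.add ((Complex.ofRealCLM.contDiff.comp hσs).mul contDiff_const))
    (fun t => by
      have h := ppH_vT (hol := hol) ((D.geomM hol).toT a d (ρ.c (σ t)))
      rwa [hΨ t] at h)
    h1' (S := {τ | τ.re = ((D.geomM hol).Ψ x₁ : ℂ).re ∧ 0 < τ.im})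
    (fun t => ⟨hre _, by rw [him]; exact hy0pos.trans_le (hI t)⟩)
  refine ⟨T2, h3, ?_⟩
  have h5 : ρ.c y = ρ.g • ρ.e.F (ρ.k ((a0 : ℂ) + y * Complex.I)) := ρ.c_end y hy
  simp only [hσ1, h5] at h4
  exact h4

/-- **the two legs and the member of the end** -/
theorem exists_cusp (hl : LiftS Fm F A (PpH D)) (hu : ∀ q : QM M, Fm.u q = q.1.1)
    (hP : PerUniq F A) {x₀ : (D.geomM hol).T} (U : Up (D.geomM hol) x₀ x₁)
    (ρ : Ray ((D.geomM hol).line a d) ((D.geomM hol).onLine a d x₁ u hx)) {Y : ℝ} (hY0 : 0 < Y)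
    (hY : ρ.Y₂ ≤ Y) {T0 : HkT C} (h0 : PtOf F A (vT x₀) ((D.geomM hol).Ψ x₀ : ℂ) T0) :
    ∃ (T1 : HkT C) (τ1 : ℂ), (cuspOf hY0 (rayEnd hu ρ hY) hl).Mem τ1 T1 ∧
      τ1.re = ((D.geomM hol).Ψ x₀ : ℂ).re ∧
      Leg F A {τ | τ.re = ((D.geomM hol).Ψ x₀ : ℂ).re ∧ 0 < τ.im} T0 T1 := by
  obtain ⟨T1, h1, h2⟩ := up_leg hl hu U h0
  have hre : ((D.geomM hol).Ψ x₁ : ℂ).re = ((D.geomM hol).Ψ x₀ : ℂ).re := by
    have h := U.Ψ_re 1
    rw [U.X_ge 1 le_rfl] at h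
    exact h
  set y : ℝ := max ρ.Y₁ (Y + 1) with hy
  obtain ⟨T2, h3, h4⟩ := ray_leg hl hu ρ hY h2 (le_max_left ρ.Y₁ (Y + 1))
  refine ⟨T2, ((D.geomM hol).Ψ x₁).re + y * Complex.I, ⟨?_, h4⟩, ?_, ?_⟩
  · have h5 : ((((D.geomM hol).Ψ x₁).re : ℂ) + y * Complex.I).im = y := by simp
    rw [h5]
    have := le_max_right ρ.Y₁ (Y + 1)
    linarith
  · rw [← hre]
    simp
  · rw [hre] at h3
    exact h1.trans hP h3

end main

end

end Crest.Agent.R281.Cus_581
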