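import Crest.Agent.R281.Cnt1_311

/-!
# Row 281, DIV 2, ASM-2 (helper581): the period is determined by the structure

* `perUniq` : `PerUniq F A` for a symmetric form `Q` which vanishes on exact forms
* `Leg.re_eq`, `Leg.at0`, `Leg.at1`, `Leg.trans'` : consequences
-/

set_option autoImplicit false

open Set Filter Topology
open scoped ContDiff

namespace Crest.Agent.R281.PU_581

open Crest.Agent.R281.HkR_835 Crest.Agent.R281.Cdr_234 Crest.Agent.R281.Alg_998
open Crest.Agent.R281.Ti_846 (Ex)
open Crest.Agent.R281.Cnt_311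

variable {V X : Type} [NormedAddCommGroup V] [NormedSpace ℝ V] [TopologicalSpace X]
  {C : RCh V X} {Q : F2 C →ₗ[ℝ] F2 C →ₗ[ℝ] ℝ}

/-- **the period is determined by the structure** -/
theorem perUniq (hs : ∀ a b, Q a b = Q b a) (hQ : ∀ a b : F2 C, Ex a → Q a b = 0)
    (F : Frm C Q) (A : F2 C) : PerUniq F A := fun _ _ _ h h' =>
  (h.isPer.uniq hs hQ).trans (h'.isPer.uniq hs hQ).symm

end Crest.Agent.R281.PU_581
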