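import Crest.Agent.R281.Dv1_957
import Crest.Agent.R281.Cus2_581
import Crest.Agent.R281.Cnt2_581
import Crest.Agent.R281.Cdr11_234
import Crest.Agent.R281.PU1_581

/-!
# R281 (S0424), DIV 2, assembly, part 2 (helper957): the bad real parts and the composition

* `lat_frF`     : the lattice of the frame of `W` is a `Lat` (473)
* `HmOut`       : the Hodge data of a type
* `exists_bad`  : the countable set of bad real parts of a type
* `div2Geo_of`  : `Div2Geo` from START, LIFT and the algebraic data of the ends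
-/

set_option autoImplicit false
set_option linter.unusedSectionVars false
set_option maxSynthPendingDepth 5

open Set Filter Topology UpperHalfPlane
open scoped ContDiff

namespace Crest.Agent.R281.Dv_957

open Crest.Agent.R281.HkR_835 Crest.Agent.R281.Ehr2_268 Crest.Agent.R281.Dif_268
  Crest.Agent.R281.Ehr4_268 Crest.Agent.R281.Ehr6_268 Crest.Agent.R281.Ehr7_268
  Crest.Agent.R281.Ehr8_268 Crest.Agent.R281.Cdr_234 Crest.Agent.R281.Phl_655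
  Crest.Agent.R281.Blk_592 Crest.Agent.R281.Sl_957 Crest.Agent.R281.Am_957
  Crest.Agent.R281.CA_867 Crest.Agent.R281.QF_871 Crest.Agent.R281.Cnt_311
  Crest.Agent.R281.Alg_998 Crest.Agent.R281.CL_473 Crest.Agent.R281.LI_473
  Crest.Agent.R281.As_957 Crest.Agent.R281.Nc_957 Crest.Agent.R281.Cus_581
  Crest.Agent.R281.Pe_313
open Crest.Agent.R281.Sta2_684 (QS)
open Crest.Agent.R281.Sta3_684 (Bq)

noncomputable section

variable {V X : Type} [NormedAddCommGroup V] [NormedSpace ℝ V] [TopologicalSpace X]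
  {C : RCh V X} {n : ℕ} {Q : F2 C →ₗ[ℝ] F2 C →ₗ[ℝ] ℝ}

/-- **the lattice of the frame** -/
theorem lat_frF (B : HBas C) (hQ : QS Q)
    (hint : ∀ x y : F2 C, IntF x → IntF y → ∃ k : ℤ, Q x y = k) (F : Frm C Q) :
    Lat (frF F hQ).N ((frF F hQ).Λ (Lz C)) := by
  refine Fr.lat (frF F hQ) B.basis B.isInt ?_ (cl_mem_Lz.2 F.int_e) ?_ ?_
  · intro x hx y hy
    obtain ⟨w, rfl⟩ := cl_surj x
    obtain ⟨w', rfl⟩ := cl_surj y
    exact hint w w' (cl_mem_Lz.1 hx) (cl_mem_Lz.1 hy)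
  · obtain ⟨m, hm, h⟩ := B.rat_int F.rat_v
    exact ⟨m, by exact_mod_cast hm.ne', cl_mem_Lz.2 h⟩
  · obtain ⟨m, hm, h⟩ := B.rat_int F.rat_es
    exact ⟨m, by exact_mod_cast hm.ne', cl_mem_Lz.2 h⟩

theorem sub_Λ (hQ : QS Q) (F : Frm C Q) : ∀ x ∈ (frF F hQ).Λ (Lz C), ∀ y ∈ (frF F hQ).Λ (Lz C),
    x - y ∈ (frF F hQ).Λ (Lz C) := by
  intro x hx y hy
  show (frF F hQ).κ (x - y) ∈ Lz C
  rw [map_sub]
  exact (Lz C).sub_mem hx hy

variable [FiniteDimensional ℝ V] [CompactSpace X] [T2Space X]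

/-- **the Hodge data of a type** -/
structure HmOut (T : Ty n C) (F : Frm C Q) (hQ : QS Q) where
  D : HM T.L (frF F hQ) (Lz C) (Fin T.ρ)
  cls : D.cls = T.cls
  cl : D.cl = T.pcl
  re : D.re = (T.qc.re.natF C).cls
  im : D.im = (T.qc.im.natF C).cls
  hol : ∀ x, (∀ i, D.cls i x = D.cl i) → ∃ φ₀ φ₁ : (Fin T.M.m → ℂ) → ℂ,
    AnalyticAt ℂ φ₀ (T.L.p x).1.1 ∧ AnalyticAt ℂ φ₁ (T.L.p x).1.1 ∧ ∀ᶠ q in 𝓝 (T.L.p x),
      (frF F hQ).z0 (D.re (T.L.s x q)) (D.im (T.L.s x q)) = φ₀ q.1.1 ∧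
      (frF F hQ).z1 (D.re (T.L.s x q)) (D.im (T.L.s x q)) = φ₁ q.1.1

variable {T : Ty n C} {F : Frm C Q} {hQ : QS Q}

/-- the geometry of ASM-M of a type -/
abbrev HmOut.G (O : HmOut T F hQ) := O.D.geomM O.hol

/-- **the bad real parts of a type** -/
theorem exists_bad (B : HBas C) (hint : ∀ x y : F2 C, IntF x → IntF y → ∃ k : ℤ, Q x y = k)
    (O : HmOut T F hQ) :
    ∃ Nl : Set ℝ, Nl.Countable ∧ ∀ x₀ : O.G.T, (O.G.Ψ x₀).re ∉ Nl →
      ∃ x₁ : O.G.T, Nonempty (Up O.G x₀ x₁) ∧ ∃ (c : Fin T.M.m → QB) (j : Fin T.M.m) (u : ℂ)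
        (hx : O.G.z x₁ = fun i => algebraMap QB ℂ (c i) + u * (Pi.single j 1 : Fin T.M.m → ℂ) i),
        Nonempty (Ray (O.G.line (fun i => algebraMap QB ℂ (c i)) (Pi.single j 1))
          (O.G.onLine (fun i => algebraMap QB ℂ (c i)) (Pi.single j 1) x₁ u hx)) := by
  have hG : Countable (difG C ⧸ tG C) := countable_G B.bas
  have hG' : Countable O.D.Gp := inferInstanceAs (Countable O.D.sg)
  have hS := Cnt_581.count_HM O.D T.nice.monic
  refine exists_rayM_QB O.G T.nice (frF F hQ).N_pos (lat_frF B hQ hint F) (sub_Λ hQ F) hS ?_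
  intro x hx
  exact ⟨x, hx, rfl⟩

/-! ### the composition -/

/-- the hypotheses of `Div2Geo` on `A` -/
structure AOk (F : Frm C Q) (A : F2 C) : Prop where
  int : IntF A
  e : Q A F.e = 0
  v : Q A F.v = 0
  es : Q A F.es = 0
  ex : ∃ (H0 : HkT C) (τ0 : ℂ), AtTau F A H0 τ0

/-- START: every structure over `W` is a member of a family of a type -/
def StartS (F : Frm C Q) (hQ : QS Q) (O : ∀ T : Ty n C, T.Ok F hQ → HmOut T F hQ) : Prop :=
  ∀ A : F2 C, AOk F A → ∀ (H0 : HkT C) (τ0 : ℂ), AtTau F A H0 τ0 →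
    ∃ (T : Ty n C) (ok : T.Ok F hQ), T.Rel A ∧ ∃ m0 : Mark T.F C, CxOf m0.P H0 ∧
      PpH (O T ok).D (MQ.mk m0) τ0

/-- LIFT for all types -/
def LiftAll (F : Frm C Q) (hQ : QS Q) (O : ∀ T : Ty n C, T.Ok F hQ → HmOut T F hQ) : Prop :=
  ∀ (T : Ty n C) (ok : T.Ok F hQ) (A : F2 C), AOk F A → T.Rel A →
    LiftS T.F F A (PpH (O T ok).D)

theorem hu_F (T : Ty n C) : ∀ q : QM T.M, T.F.u q = q.1.1 := fun _ => rfl

/-- the algebraic data of all ends -/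
def AlgAll (F : Frm C Q) (hQ : QS Q) (O : ∀ T : Ty n C, T.Ok F hQ → HmOut T F hQ)
    (hl : LiftAll F hQ O) (Alg : ∀ A : F2 C, Cusp F A → Prop) : Prop :=
  ∀ (T : Ty n C) (ok : T.Ok F hQ) (A : F2 C) (hA : AOk F A) (rel : T.Rel A)
    (x₁ : (O T ok).G.T) (c : Fin T.M.m → QB) (j : Fin T.M.m) (u : ℂ)
    (hx : (O T ok).G.z x₁ = fun i => algebraMap QB ℂ (c i) + u * (Pi.single j 1 : Fin T.M.m → ℂ) i)
    (ρ : Ray ((O T ok).G.line (fun i => algebraMap QB ℂ (c i)) (Pi.single j 1))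
      ((O T ok).G.onLine (fun i => algebraMap QB ℂ (c i)) (Pi.single j 1) x₁ u hx)),
    ∃ (Y : ℝ) (hY0 : 0 < Y) (hY : ρ.Y₂ ≤ Y),
      Alg A (cuspOf hY0 (rayEnd (hu_F T) ρ hY) (hl T ok A hA rel))

/-- **DIV 2, composition** -/
theorem div2Geo_of (B : HBas C) (hQ : QS Q)
    (hint : ∀ x y : F2 C, IntF x → IntF y → ∃ k : ℤ, Q x y = k) (F : Frm C Q)
    (O : ∀ T : Ty n C, T.Ok F hQ → HmOut T F hQ) (hs : StartS F hQ O) (hl : LiftAll F hQ O)
    {Alg : ∀ A : F2 C, Cusp F A → Prop} (ha : AlgAll F hQ O hl Alg) : Div2Geo F Alg := by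
  classical
  have hc : Countable (Ty n C) := Ty.countable B.bas
  choose Nl hNl hray using fun (T : Ty n C) (ok : T.Ok F hQ) => exists_bad B hint (O T ok)
  refine ⟨⋃ T : Ty n C, ⋃ ok : T.Ok F hQ, Nl T ok, ?_, ?_⟩
  · exact countable_iUnion fun T => countable_iUnion fun ok => hNl T ok
  · intro A h1 h2 h3 h4 H0 τ0 h0 hτ
    have hA : AOk F A := ⟨h1, h2, h3, h4, H0, τ0, h0⟩
    obtain ⟨T, ok, rel, m0, hcx, hp⟩ := hs A hA H0 τ0 h0
    set x₀ : (O T ok).G.T := (⟨MQ.mk m0, hp.1, by rw [hp.2.1]; exact hp.2.2⟩ : (O T ok).D.st) with hx₀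
    have hΨ : ((O T ok).G.Ψ x₀ : ℂ) = τ0 := hp.2.1
    have hre : ((O T ok).G.Ψ x₀).re = τ0.re := by rw [← hΨ]; rfl
    have hN : ((O T ok).G.Ψ x₀).re ∉ Nl T ok := by
      rw [hre]
      intro h
      exact hτ (mem_iUnion_of_mem T (mem_iUnion_of_mem ok h))
    obtain ⟨x₁, ⟨U⟩, c, j, u, hx, ⟨ρ⟩⟩ := hray T ok x₀ hN
    obtain ⟨Y, hY0, hY, hAlg⟩ := ha T ok A hA rel x₁ c j u hx ρ
    have hP : PerUniq F A := PU_581.perUniq hQ.symm hQ.ex F A
    have hpt : PtOf F A (vT x₀) ((O T ok).G.Ψ x₀ : ℂ) H0 := by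
      rw [hΨ]
      exact ⟨h0, m0, rfl, hcx⟩
    obtain ⟨T1, τ1, hm, hr, hleg⟩ := exists_cusp (hl T ok A hA rel) (hu_F T) hP U ρ hY0 hY hpt
    rw [hΨ] at hr hleg
    exact ⟨_, T1, τ1, hAlg, hm, hr, hleg⟩

end

end Crest.Agent.R281.Dv_957
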