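import Crest.Agent.R281.Al4_830
import Crest.Agent.R281.Tt3_476

/-!
# Row 281, HK-ALONG (helper830): the carrier of families

* `CFam C T` : jointly smooth family over `T ⊆ E` of complex structure `J t`, positive (1,1)-form
               `om t`, nondegenerate (2,0)-form `s1 t + i s2 t` on one space with real charts
* `CFam.comp`, `CFam.phase`, `CFam.mono`
* `JSH T H`  : jointly smooth family of hyperkaehler triples
-/

set_option autoImplicit false
set_option linter.unusedSectionVars false
set_option maxSynthPendingDepth 3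

open Set Filter Topology Function
open scoped ContDiff

namespace Crest.Agent.R281.Al_830

open Crest.Agent.R281.HkR_835 hiding pb pb_apply
open Crest.Agent.R281.Ti_846 hiding pb pb_apply
open Crest.Agent.R281.NefO_476
open Crest.Agent.R281.Nef_252
open Crest.Agent.R281.Tt_476

noncomputable section

variable {V X : Type} [NormedAddCommGroup V] [NormedSpace ℝ V] [TopologicalSpace X]
  {C : RCh V X} {E E' : Type} [NormedAddCommGroup E] [NormedSpace ℝ E] [NormedAddCommGroup E']
  [NormedSpace ℝ E']

/-- jointly smooth family over `T` of complex structures, Kaehler forms and (2,0)-forms -/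
structure CFam (C : RCh V X) (T : Set E) where
  J : E → AJ C
  om : E → F2 C
  s1 : E → F2 C
  s2 : E → F2 C
  jsJ : JSJ T J
  jsom : JS2 T om
  js1 : JS2 T s1
  js2 : JS2 T s2
  hd : ∀ t ∈ T, HD (J t) (om t) (s1 t) (s2 t)

/-- jointly smooth families of hyperkaehler triples -/
structure JSH (T : Set E) (H : E → HkT C) : Prop where
  om : ∀ k i, ContDiffOn ℝ ∞ (fun p : E × V => ((H p.1).om k).w i p.2) (T ×ˢ (C.e i).target)
  J : ∀ k i, ContDiffOn ℝ ∞ (fun p : E × V => (H p.1).J k i p.2) (T ×ˢ (C.e i).target)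
  g : ∀ i, ContDiffOn ℝ ∞ (fun p : E × V => (H p.1).g i p.2) (T ×ˢ (C.e i).target)

section reparam

variable {W : Type*} [NormedAddCommGroup W] [NormedSpace ℝ W]

theorem js_comp {f : E → V → W} {T : Set E} {T' : Set E'} {U : Set V} {φ : E' → E}
    (hφ : ContDiffOn ℝ ∞ φ T') (hm : MapsTo φ T' T)
    (hf : ContDiffOn ℝ ∞ (fun p : E × V => f p.1 p.2) (T ×ˢ U)) :
    ContDiffOn ℝ ∞ (fun p : E' × V => f (φ p.1) p.2) (T' ×ˢ U) := by
  have h1 : ContDiffOn ℝ ∞ (fun p : E' × V => (φ p.1, p.2)) (T' ×ˢ U) :=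
    (hφ.comp contDiffOn_fst fun p hp => hp.1).prodMk contDiffOn_snd
  exact hf.comp h1 fun p hp => ⟨hm hp.1, hp.2⟩

end reparam

theorem JSH.comp {T : Set E} {T' : Set E'} {H : E → HkT C} (hH : JSH T H) {φ : E' → E}
    (hφ : ContDiffOn ℝ ∞ φ T') (hm : MapsTo φ T' T) : JSH T' fun t => H (φ t) :=
  ⟨fun k i => js_comp (f := fun t z => ((H t).om k).w i z) hφ hm (hH.om k i),
    fun k i => js_comp (f := fun t z => (H t).J k i z) hφ hm (hH.J k i),
    fun i => js_comp (f := fun t z => (H t).g i z) hφ hm (hH.g i)⟩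

theorem JSH.mono {T T' : Set E} {H : E → HkT C} (hH : JSH T H) (h : T' ⊆ T) : JSH T' H :=
  ⟨fun k i => (hH.om k i).mono (prod_mono h subset_rfl),
    fun k i => (hH.J k i).mono (prod_mono h subset_rfl),
    fun i => (hH.g i).mono (prod_mono h subset_rfl)⟩

namespace CFam

variable {T : Set E} {T' : Set E'}

/-- reparametrisation -/
def comp (D : CFam C T) (φ : E' → E) (hφ : ContDiffOn ℝ ∞ φ T') (hm : MapsTo φ T' T) :
    CFam C T' where
  J t := D.J (φ t)
  om t := D.om (φ t)
  s1 t := D.s1 (φ t)
  s2 t := D.s2 (φ t)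
  jsJ i := js_comp (f := fun t z => (D.J t).J i z) hφ hm (D.jsJ i)
  jsom i := js_comp (f := fun t z => (D.om t).w i z) hφ hm (D.jsom i)
  js1 i := js_comp (f := fun t z => (D.s1 t).w i z) hφ hm (D.js1 i)
  js2 i := js_comp (f := fun t z => (D.s2 t).w i z) hφ hm (D.js2 i)
  hd _ ht := D.hd _ (hm ht)

/-- restriction to a smaller set -/
def mono (D : CFam C T) {T₁ : Set E} (h : T₁ ⊆ T) : CFam C T₁ where
  J := D.J
  om := D.om
  s1 := D.s1
  s2 := D.s2
  jsJ i := (D.jsJ i).mono (prod_mono h subset_rfl)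
  jsom i := (D.jsom i).mono (prod_mono h subset_rfl)
  js1 i := (D.js1 i).mono (prod_mono h subset_rfl)
  js2 i := (D.js2 i).mono (prod_mono h subset_rfl)
  hd t ht := D.hd t (h ht)

end CFam

/-- multiplication of the (2,0)-form by a complex number `a + i b` -/
theorem HD.phase {J : AJ C} {om s1 s2 : F2 C} (D : HD J om s1 s2) {a b : ℝ}
    (h : a ≠ 0 ∨ b ≠ 0) : HD J om (a • s1 - b • s2) (b • s1 + a • s2) where
  sq := D.sq
  t11 := D.t11
  pos := D.pos
  typ i z hz u v := by
    simp only [F2.sub_w, F2.add_w, F2.smul_w, sub_apply, add_apply, smul_apply, smul_eq_mul]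
    rw [D.typ i z hz, D.typ2 i hz]
    ring
  nd i z hz u hu := by
    have h1 : ∀ v, a * s1.w i z u v - b * s2.w i z u v = 0 := by
      intro v
      have := hu v
      simpa only [F2.sub_w, F2.smul_w, sub_apply, smul_apply, smul_eq_mul] using this
    -- `s1 (a u + b J u, v) = 0`
    have h2 : a • u + b • J.J i z u = 0 := by
      refine D.nd i z hz _ fun v => ?_
      rw [map_add, add_apply, map_smul, map_smul, smul_apply, smul_apply, smul_eq_mul,
        smul_eq_mul, D.typ i z hz]
      have := h1 v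
      linarith
    have h3 : a • J.J i z u - b • u = 0 := by
      have h4 := congrArg (J.J i z) h2
      rw [map_add, map_smul, map_smul, D.sq i z hz, map_zero, smul_neg] at h4
      rwa [sub_eq_add_neg]
    have h5 : (a ^ 2 + b ^ 2) • u = 0 := by
      have h6 : (a ^ 2 + b ^ 2) • u = a • (a • u + b • J.J i z u) -
          b • (a • J.J i z u - b • u) := by module
      rw [h6, h2, h3, smul_zero, smul_zero, sub_zero]
    have h7 : a ^ 2 + b ^ 2 ≠ 0 := by
      rcases h with h | h
      · have := pow_pos (abs_pos.2 h) 2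
        rw [sq_abs] at this
        positivity
      · have := pow_pos (abs_pos.2 h) 2
        rw [sq_abs] at this
        positivity
    exact (smul_eq_zero.1 h5).resolve_left h7

/-- multiplication of the (2,0)-form by a constant complex number -/
def CFam.phase {T : Set E} (D : CFam C T) {a b : ℝ} (h : a ≠ 0 ∨ b ≠ 0) : CFam C T where
  J := D.J
  om := D.om
  s1 t := a • D.s1 t - b • D.s2 t
  s2 t := b • D.s1 t + a • D.s2 t
  jsJ := D.jsJ
  jsom := D.jsom
  js1 i := ((D.js1 i).const_smul a).sub ((D.js2 i).const_smul b)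
  js2 i := ((D.js1 i).const_smul b).add ((D.js2 i).const_smul a)
  hd t ht := (D.hd t ht).phase h

end

end Crest.Agent.R281.Al_830
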