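import Crest.Agent.R281.Al5_830
import Crest.Agent.R281.CFam_830
import Crest.Agent.R281.YVMa2_449

/-!
# Row 281, HK-ALONG, part 6 (helper830): the volume condition

* `HD.ric_of_vol` : `det (om (b_k, J b_l)) = k det (s1 (b_k, b_l))` with a constant `k`
                    ==> Ricci flat
* `densF2`        : the squared density `det (s (b_k, b_l))` of a 2-form
-/

set_option autoImplicit false
set_option linter.unusedSectionVars false
set_option maxSynthPendingDepth 3

open Set Filter Topology Function MeasureTheory Complex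
open scoped ContDiff Matrix ComplexConjugate ComplexOrder InnerProductSpace

namespace Crest.Agent.R281.Al_830

open Crest.Agent.R275.Geo Crest.Agent.R275.Core144 Crest.Agent.R275.EDR890
open Crest.Agent.R275.GC293
open Crest.Agent.R273 Crest.Agent.R273.Hess_333 Crest.Agent.R273.HessB_333
open Crest.Agent.R273.Defs_333 Crest.Agent.R273.HM_333 Crest.Agent.R273.Kah_333
open Crest.Agent.R273.Vol_333 Crest.Agent.R273.Vm_333
open Crest.Agent.R281.Defs_273 (H2 HSymp)
open Crest.Agent.R273.NoHVF_376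
open Crest.Agent.R260.ACM_580 Crest.Agent.R260.NNB_580
open Crest.Agent.R281.HkP1_508 Crest.Agent.R281.HkP2_508 Crest.Agent.R281.HkP3_508
open Crest.Agent.R281.HkR_835 hiding pb pb_apply
open Crest.Agent.R281.HkR_835.Cmp
open Crest.Agent.R281.Ti_846 hiding pb pb_apply
open Crest.Agent.R281.NefO_476
open Crest.Agent.R281.Nef_252
open Crest.Agent.R281.Tt_476
open Crest.Agent.R281.YVMa_449

noncomputable section

section alg

variable {d : ℕ} {κ : Type} [Fintype κ] [DecidableEq κ]

/-- the sign of complex conjugation -/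
def sgC (d : ℕ) : ℝ := LinearMap.det ((cL : Cn d →L[ℝ] Cn d) : Cn d →ₗ[ℝ] Cn d)

theorem detB_sb (b : Module.Basis κ ℝ (Cn d)) (S : Matrix (Fin d) (Fin d) ℂ) :
    detB b (fun x y => (sb S x y).re) = sgC d * ‖S.det‖ ^ 2 *
      detB b (fun x y => (⟪x, y⟫_ℝ : ℝ)) := by
  have h1 : (fun x y => (sb S x y).re) = fun x y => bM (cL.comp (mL Sᵀ)) x y := by
    funext x y
    rw [bM_cL]
  have h2 : LinearMap.det ((cL.comp (mL Sᵀ) : Cn d →L[ℝ] Cn d) : Cn d →ₗ[ℝ] Cn d) =
      sgC d * ‖S.det‖ ^ 2 := by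
    rw [← Complex.normSq_eq_norm_sq, ← Matrix.det_transpose S, ← det_mL, sgC, ← LinearMap.det_comp]
    rfl
  rw [h1, detB_bM, h2]

theorem detB_inner_ne (b : Module.Basis κ ℝ (Cn d)) :
    detB b (fun x y => (⟪x, y⟫_ℝ : ℝ)) ≠ 0 :=
  detB_ne b (B := innerSL ℝ) fun u hu => by
    have := hu u
    rw [innerSL_apply_apply] at this
    exact inner_self_eq_zero.1 this

end alg

variable {V X : Type} [NormedAddCommGroup V] [NormedSpace ℝ V] [TopologicalSpace X]
  {C : RCh V X} {d : ℕ} {A : Atl d X} {κ : Type} [Fintype κ] [DecidableEq κ]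

/-- the derivative of the change of charts as a linear equivalence -/
def mtE (h : Cmp C (ofAtl A)) {i : C.ι} {j : A.ι} {z : Cn d} (hz : z ∈ mov C (ofAtl A) i j) :
    Cn d ≃ₗ[ℝ] V :=
  LinearEquiv.ofLinearMap (fderiv ℝ (mt C (ofAtl A) i j) z : Cn d →ₗ[ℝ] V)
    (fderiv ℝ (mt (ofAtl A) C j i) (mt C (ofAtl A) i j z) : V →ₗ[ℝ] Cn d)
    (LinearMap.ext fun v => h.d_d' hz v) (LinearMap.ext fun v => h.d_d hz v)

theorem mtE_apply (h : Cmp C (ofAtl A)) {i : C.ι} {j : A.ι} {z : Cn d}
    (hz : z ∈ mov C (ofAtl A) i j) (v : Cn d) :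
    mtE h hz v = fderiv ℝ (mt C (ofAtl A) i j) z v := rfl

variable {J : AJ C} {om s1 s2 : F2 C}

/-- **volume condition ==> determinant condition** -/
theorem HD.det_of_vol (D : HD J om s1 s2) (hI : IsI J A) (h : Cmp C (ofAtl A))
    (b : Module.Basis κ ℝ V) {k : ℝ} (hk : ∀ i, ∀ z ∈ (C.e i).target,
      detB b (fun x y => om.w i z x (J.J i z y)) = k * detB b (fun x y => s1.w i z x y))
    (j : A.ι) (x : X) (hx : x ∈ (A.e j).source) :
    ((D.K hI h).g j x).det.re ^ 2 = (k * sgC d) * ‖((D.S hI h).s j x).det‖ ^ 2 := by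
  set z := A.e j x with hz0
  have hz : z ∈ (A.e j).target := (A.e j).map_source hx
  have hxz : (A.e j).symm z = x := (A.e j).left_inv hx
  obtain ⟨i, hi⟩ := exists_mov (C' := ofAtl A) C (j := j) hz
  let bA : Module.Basis κ ℝ (Cn d) := b.map (mtE h hi).symm
  have hbA : ∀ a, fderiv ℝ (mt C (ofAtl A) i j) z (bA a) = b a := by
    intro a
    have h1 : mtE h hi (bA a) = b a := by
      show mtE h hi ((mtE h hi).symm (b a)) = b a
      exact (mtE h hi).apply_symm_apply _
    exact h1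
  have e1 : detB b (fun x y => om.w i (mt C (ofAtl A) i j z) x (J.J i (mt C (ofAtl A) i j z) y)) =
      detB bA (fun u v => (hb ((D.K hI h).g j x) u v).re) := by
    unfold detB
    congr 1
    ext a c
    show om.w i (mt C (ofAtl A) i j z) (b a) (J.J i (mt C (ofAtl A) i j z) (b c)) = _
    rw [← hbA a, ← hbA c, hI i j z hi, ← h.F_w om hi, ← D.K_f2 hI h hz,
      (ofKah (D.K hI h)).f2_w hz, hb_I_right, hxz]
    show (I * (-I * hb ((D.K hI h).g j x) _ _)).re = _
    rw [← mul_assoc, mul_neg, I_mul_I, neg_neg, one_mul]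
    rfl
  have e2 : detB b (fun x y => s1.w i (mt C (ofAtl A) i j z) x y) =
      detB bA (fun u v => (sb ((D.S hI h).s j x) u v).re) := by
    unfold detB
    congr 1
    ext a c
    show s1.w i (mt C (ofAtl A) i j z) (b a) (b c) = _
    rw [← hbA a, ← hbA c, ← h.F_w s1 hi]
    have h2 := D.S0_sb hI h hz (bA a) (bA c)
    have h3 : sl (D.S0 hI h) j z = (D.S hI h).s j x := by
      show (D.S0 hI h).s j ((A.e j).symm z) = _
      rw [hxz]
      rfl
    rw [h3] at h2
    show _ = (sb ((D.S hI h).s j x) (bA a) (bA c)).re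
    rw [h2]
    simp
  have h1 := hk i _ (mt_mem hi).1
  rw [e1, e2, detB_hb bA ((D.K hI h).pos j x hx).isHermitian, detB_sb] at h1
  have h2 := detB_inner_ne bA
  have h3 : (((D.K hI h).g j x).det.re ^ 2 - (k * sgC d) * ‖((D.S hI h).s j x).det‖ ^ 2) *
      detB bA (fun x y => (⟪x, y⟫_ℝ : ℝ)) = 0 := by linear_combination h1
  exact sub_eq_zero.1 ((mul_eq_zero.1 h3).resolve_right h2)

/-- **volume condition ==> Ricci flat** -/
theorem HD.ric_of_vol [Nonempty X] (D : HD J om s1 s2) (hI : IsI J A) (h : Cmp C (ofAtl A))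
    (b : Module.Basis κ ℝ V) {k : ℝ} (hk : ∀ i, ∀ z ∈ (C.e i).target,
      detB b (fun x y => om.w i z x (J.J i z y)) = k * detB b (fun x y => s1.w i z x y)) :
    RicFlat (D.K hI h) := by
  have key := D.det_of_vol hI h b hk
  have hgpos : ∀ j, ∀ x ∈ (A.e j).source, 0 < ((D.K hI h).g j x).det.re := fun j x hx =>
    (Complex.lt_def.1 ((D.K hI h).pos j x hx).det_pos).1
  have hc : 0 < k * sgC d := by
    obtain ⟨x⟩ := (inferInstance : Nonempty X)
    obtain ⟨j, hj⟩ := A.cover x
    have h1 := key j x hj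
    have h2 := pow_pos (hgpos j x hj) 2
    rw [h1] at h2
    exact (pos_iff_pos_of_mul_pos h2).2 (by
      have := (D.S hI h).nd j x hj
      positivity)
  refine D.ric_of_det hI h (D.S hI h) (Real.sqrt_pos.2 hc) fun j x hx => ?_
  have h1 := key j x hx
  have h2 : ((D.K hI h).g j x).det.re ^ 2 =
      (Real.sqrt (k * sgC d) * ‖((D.S hI h).s j x).det‖) ^ 2 := by
    rw [h1, mul_pow, Real.sq_sqrt hc.le]
  exact (pow_left_inj₀ (hgpos j x hx).le (by positivity) two_ne_zero).1 h2

/-- the squared density of a 2-form -/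
def densF2 [FiniteDimensional ℝ V] [MeasurableSpace V] [BorelSpace V] (b : Module.Basis κ ℝ V)
    (s : F2 C) : Dens C where
  r i z := detB b (fun x y => s.w i z x y)
  sm i := detB_smooth b fun x y => ((s.sm i).clm_apply contDiffOn_const).clm_apply contDiffOn_const
  tr i j z hz := by
    have h1 : (fun x y => s.w i z x y) = fun x y => s.w j (C.t i j z) (fderiv ℝ (C.t i j) z x)
        (fderiv ℝ (C.t i j) z y) := by
      funext x y
      rw [s.tr i j z hz]
    rw [h1, detB_pull]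

theorem js_densF2 [FiniteDimensional ℝ V] [MeasurableSpace V] [BorelSpace V]
    (b : Module.Basis κ ℝ V) {E : Type} [NormedAddCommGroup E] [NormedSpace ℝ E] {T : Set E}
    {s : E → F2 C} (hs : JS2 T s) : JSD T fun p => densF2 b (s p) := fun i =>
  detB_smooth b (f := fun (p : E × V) x y => (s p.1).w i p.2 x y) fun x y =>
    ((hs i).clm_apply contDiffOn_const).clm_apply contDiffOn_const

/-- **YAU-VAR**, existence form -/
def YauVar (C : RCh V X) [FiniteDimensional ℝ V] [MeasurableSpace V] [BorelSpace V]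
    (b : Module.Basis κ ℝ V) : Prop :=
  ∀ (E : Type) [NormedAddCommGroup E] [NormedSpace ℝ E] [FiniteDimensional ℝ E] (T : Set E)
    (D : E → Dat C), IsOpen T → JSDat T D →
    (∀ p ∈ T, Cx (D p).J ∧ T11 (D p).J (D p).om ∧ Pos (D p).J (D p).om ∧
      ∀ i, ∀ z ∈ (C.e i).target, (D p).r.r i z ≠ 0) →
    ∃ u : E → X → ℝ, JS0 C T u ∧ ∀ p ∈ T, SolMA b (D p) (u p)

/-- from 900's `V0` and 449's existence theorem -/
theorem yauVar_of_V0 [FiniteDimensional ℝ V] [MeasurableSpace V] [BorelSpace V]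
    [CompleteSpace V] [CompactSpace X] [T2Space X] [ConnectedSpace X] (b : Module.Basis κ ℝ V)
    (hV : V0 C (SolMA (C := C) b)) : YauVar C b := by
  intro E _ _ _ T D hT hD h
  classical
  obtain ⟨x1⟩ := (inferInstance : Nonempty X)
  have h1 : ∀ p : E, ∃ u : X → ℝ, p ∈ T → SolMA b (D p) u ∧ u x1 = 0 := by
    intro p
    by_cases hp : p ∈ T
    · obtain ⟨h2, h3, h4, h5⟩ := h p hp
      obtain ⟨u, hu⟩ := exists_solMA_norm b (D p) h2 h3 h4 h5 x1
      exact ⟨u, fun _ => hu⟩
    · exact ⟨0, fun h => absurd h hp⟩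
  choose u hu using h1
  exact ⟨u, joint_MA hV hT hD (fun p hp => (hu p hp).1) fun p hp => (hu p hp).2,
    fun p hp => (hu p hp).1⟩

end

end Crest.Agent.R281.Al_830
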