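import Crest.Agent.R281.Yv10_900
import Crest.Agent.R281.Ly3_457
import Crest.Agent.R281.Al6_830

/-!
# Row 281, YAU-VAR (helper900), part 11: **YAU-VAR**

* `tForm`   : the T-formula for all families
* `v0_MA`   : `V0 C (SolMA b)`: smoothness in the parameters of normalised solutions
* `js_MA`   : **joint smoothness** of normalised solutions of the Monge-Ampère equation
* `yauVar`  : `Al_830.YauVar C b`: existence of jointly smooth families of solutions
-/

set_option autoImplicit false
set_option maxSynthPendingDepth 3
set_option linter.unusedSectionVars false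

open Set Filter Topology Metric
open scoped ContDiff

namespace Crest.Agent.R281.Yv_900

open Crest.Agent.R275.Geo Crest.Agent.R275.Core144 Crest.Agent.R275.EDR890
open Crest.Agent.R260.ACM_580 Crest.Agent.R281.HkR_835 Crest.Agent.R281.NefO_476
open Crest.Agent.R281.Nef_252 Crest.Agent.R281.Hjs_680 Crest.Agent.R281.Tt_476

noncomputable section

/-- the T-formula -/
theorem tForm (X : Type) [TopologicalSpace X] : Ly3_457.TForm X := by
  intro n A ι _ _ b P _ _ _ T D B u0 k0 p0 h
  exact tSt b B h

variable {V X : Type} [NormedAddCommGroup V] [NormedSpace ℝ V] [TopologicalSpace X]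
  {C : RCh V X} {κ : Type} [Fintype κ] [DecidableEq κ] [FiniteDimensional ℝ V]
  [MeasurableSpace V] [BorelSpace V] [CompactSpace X] [T2Space X] [ConnectedSpace X]

/-- **V0** -/
theorem v0_MA (b : Module.Basis κ ℝ V) : V0 C (SolMA (C := C) b) := Ly3_457.v0_of (tForm X) b

/-- **YAU-VAR**: normalised solutions of a jointly smooth family of Monge-Ampère equations are
jointly smooth -/
theorem js_MA (b : Module.Basis κ ℝ V) {E : Type} [NormedAddCommGroup E]
    [NormedSpace ℝ E] [FiniteDimensional ℝ E] {T : Set E} (hT : IsOpen T) {x1 : X}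
    {D : E → Dat C} {u : E → X → ℝ} (hD : JSDat T D) (hu : ∀ p ∈ T, SolMA b (D p) (u p))
    (h1 : ∀ p ∈ T, u p x1 = 0) : JS0 C T u :=
  joint_MA (v0_MA b) hT hD hu h1

/-- **YAU-VAR with existence** -/
theorem yauVar [CompleteSpace V] (b : Module.Basis κ ℝ V) : Al_830.YauVar C b := Al_830.yauVar_of_V0 b (v0_MA b)

end

end Crest.Agent.R281.Yv_900
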