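import Crest.Agent.R281.Lf2_830
import Crest.Agent.R281.Dv2_957
import Crest.Agent.R281.Pt3_313
import Crest.Agent.R281.Yv11_900
import Crest.Agent.R281.Xi7_831

/-!
# Row 281, DIV 2, LIFT (helper830), part 3: LIFT for the types of helper957

* `B1.comb l τ`  : linear combination of basic forms
* `hd_congr`    : `HD` depends only on the values on the targets
* `perAt_of`     : `IsPer (cl s1) (cl s2)` ==> `PerAt F s1 s2 τ`
* `pointAt_ty`   : `PointAt` for a type
* `liftAll`      : **`LiftAll F hQ O`** from `Ctx`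
-/

set_option autoImplicit false
set_option maxSynthPendingDepth 5
set_option linter.unusedSectionVars false

open Filter Topology Complex Set
open scoped ContDiff

namespace Crest.Agent.R281.Lf_830

open Crest.Agent.R275.EDR890
open Crest.Agent.R275.Geo Crest.Agent.R275.Core144 Crest.Agent.R275.GC293
open Crest.Agent.R281.HkR_835 Crest.Agent.R281.Ehr2_268 Crest.Agent.R281.Dif_268
open Crest.Agent.R281.Ehr4_268 Crest.Agent.R281.CL_473 Crest.Agent.R281.Ehr6_268
open Crest.Agent.R281.Cdr_234 Crest.Agent.R281.Ehr7_268 Crest.Agent.R281.Phl_655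
open Crest.Agent.R281.Ehr8_268 Crest.Agent.R281.Ehp_461 Crest.Agent.R281.Ehj_461
open Crest.Agent.R281.Pe_313 (CxOf IRel)
open Crest.Agent.R281.Al_830 Crest.Agent.R281.NefO_476 Crest.Agent.R281.Nef_252
open Crest.Agent.R281.Tt_476 Crest.Agent.R281.Alg_998 Crest.Agent.R281.Cus_581
open Crest.Agent.R281.LI_473 Crest.Agent.R281.Dv_957 Crest.Agent.R281.RkD_902
open Crest.Agent.R281.Sta2_684 (QS)
open Crest.Agent.R281.Fuj7_207 (bn)
open Crest.Agent.R281.Sta3_684 (Bq)
open Crest.Agent.R281.Pt_313 (pl_form pl_kf kf'_w qbf_form')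

noncomputable section

/-! ### combinations of basic forms -/

section comb

variable {H : Type} [NormedAddCommGroup H] [NormedSpace ℂ H] {K : Set H} {κ : Type} [Fintype κ]

/-- linear combination of basic forms -/
def comb (l : κ → ℝ) (τ : κ → B1 K) : B1 K where
  sg x u v := ∑ k, l k * (τ k).sg x u v
  loc x hx := by
    choose Sg h1 h2 using fun k => (τ k).loc x hx
    refine ⟨fun y => ∑ k, l k • Sg k y, ?_, ?_⟩
    · have h3 : ∀ᶠ y in 𝓝 x, ∀ k, ContDiffAt ℝ ∞ (Sg k) y ∧ (y ∈ K →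
          (∀ u v, Sg k y u v = -Sg k y v u) ∧
          ∀ u v, V1 K y u → V1 K y v → Sg k y u v = (τ k).sg y u v) :=
        eventually_all.2 h1
      filter_upwards [h3] with y hy
      refine ⟨?_, fun hyK => ⟨fun u v => ?_, fun u v hu hv => ?_⟩⟩
      · exact ContDiffAt.sum fun k _ => (hy k).1.const_smul (l k)
      · simp only [sum_apply, smul_apply, smul_eq_mul]
        rw [← Finset.sum_neg_distrib]
        refine Finset.sum_congr rfl fun k _ => ?_
        rw [((hy k).2 hyK).1 u v]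
        ring
      · simp only [sum_apply, smul_apply, smul_eq_mul]
        exact Finset.sum_congr rfl fun k _ => by rw [((hy k).2 hyK).2 u v hu hv]
    · intro u v w hu hv hw
      have h4 : ∀ k, DifferentiableAt ℝ (Sg k) x := fun k =>
        (h1 k).self_of_nhds.1.differentiableAt (by simp)
      have h5 : HasFDerivAt (fun y => ∑ k, l k • Sg k y) (∑ k, l k • fderiv ℝ (Sg k) x) x :=
        HasFDerivAt.fun_sum fun k _ => ((h4 k).hasFDerivAt.const_smul (l k))
      rw [h5.fderiv]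
      simp only [sum_apply, smul_apply, smul_eq_mul]
      rw [← Finset.sum_add_distrib, ← Finset.sum_add_distrib]
      refine Finset.sum_eq_zero fun k _ => ?_
      rw [← mul_add, ← mul_add, h2 k u v w hu hv hw, mul_zero]
  bas x hx a ha b b' u v hu hv := by
    refine Finset.sum_congr rfl fun k _ => ?_
    rw [(τ k).bas x hx a ha b b' u v hu hv]

end comb

section gen

variable {V X : Type} [NormedAddCommGroup V] [NormedSpace ℝ V] [TopologicalSpace X]
  {C : RCh V X}

/-- `HD` depends only on the values on the targets -/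
theorem hd_congr {J J' : AJ C} {om om' s1 s2 : F2 C} (h : HD J om s1 s2)
    (hJ : ∀ i, ∀ z ∈ (C.e i).target, ∀ v, J'.J i z v = J.J i z v)
    (ho : ∀ i, ∀ z ∈ (C.e i).target, ∀ u v, om'.w i z u v = om.w i z u v) :
    HD J' om' s1 s2 where
  sq i z hz v := by rw [hJ i z hz, hJ i z hz]; exact h.sq i z hz v
  t11 i z hz u v := by
    rw [hJ i z hz, hJ i z hz, ho i z hz, ho i z hz]
    exact h.t11 i z hz u v
  pos i z hz v hv := by
    rw [hJ i z hz, ho i z hz]
    exact h.pos i z hz v hv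
  typ i z hz u v := by rw [hJ i z hz]; exact h.typ i z hz u v
  nd := h.nd

theorem cl_iff' {w w' : F2 C} : cl w = cl w' ↔ Cl w w' := by
  rw [cl_eq_iff, ← ex_sub_iff]
  rfl

variable {Q : F2 C →ₗ[ℝ] F2 C →ₗ[ℝ] ℝ}

/-- the period point of a pair of forms -/
theorem perAt_of (F : Frm C Q) (hQ : QS Q) {s1 s2 : F2 C}
    (h : (frF F hQ).IsPer (cl s1) (cl s2)) :
    PerAt F s1 s2 ((frF F hQ).tau (cl s1) (cl s2)) := by
  obtain ⟨h1, h2, -⟩ := h.spec
  have ha := (frF F hQ).κ_co h.a_mem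
  have hb := (frF F hQ).κ_co h.b_mem
  rw [← (frF F hQ).cv_re (cl s1) (cl s2), h2, Fr.κ_apply] at ha
  rw [← (frF F hQ).cv_im (cl s1) (cl s2), h2, Fr.κ_apply] at hb
  generalize (frF F hQ).z0 (cl s1) (cl s2) = z at h1 ha hb
  generalize (frF F hQ).tau (cl s1) (cl s2) = τ at ha hb ⊢
  have hN : (frF F hQ).N = F.N := rfl
  have c0 : (z • sig (frF F hQ).N τ) 0 = z := by
    simp [sig]
  have c1 : (z • sig (frF F hQ).N τ) 1 = z * τ := by
    simp [sig]
  have c2 : (z • sig (frF F hQ).N τ) 2 = z * (((-(F.N / 2) : ℝ) : ℂ) * (τ * τ)) := by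
    simp only [sig, Pi.smul_apply, smul_eq_mul, hN]
    push_cast
    simp [pow_two]
  rw [c0, c1, c2] at ha hb
  have e1 : (frF F hQ).f = (Cdr_234.exS C).mkQ F.es := rfl
  have e2 : (frF F hQ).v = (Cdr_234.exS C).mkQ F.v := rfl
  have e3 : (frF F hQ).e = (Cdr_234.exS C).mkQ F.e := rfl
  have e4 : ∀ w : F2 C, cl w = (Cdr_234.exS C).mkQ w := fun _ => rfl
  refine ⟨z, h1, ?_, ?_⟩
  · rw [← cl_iff', ← ha, e4, e1, e2, e3]
    simp only [Frm.sre, Frm.sim, map_sub, map_add, map_smul, mul_re, mul_im, ofReal_re, ofReal_im,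
      zero_mul, sub_zero, add_zero]
    module
  · rw [← cl_iff', ← hb, e4, e1, e2, e3]
    simp only [Frm.sre, Frm.sim, map_sub, map_add, map_smul, mul_re, mul_im, ofReal_re, ofReal_im,
      zero_mul, sub_zero, add_zero]
    module

end gen

section ty

variable {V X : Type} [NormedAddCommGroup V] [NormedSpace ℝ V] [TopologicalSpace X]
  {C : RCh V X} {n : ℕ} {Q : F2 C →ₗ[ℝ] F2 C →ₗ[ℝ] ℝ} [FiniteDimensional ℝ V] [CompactSpace X]
  [T2Space X]

/-- **the pointwise input of LIFT for a type** -/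
theorem pointAt_ty (hV : Module.finrank ℝ V = 2 * n) {T : Ty n C} {F : Frm C Q} {hQ : QS Q}
    (O : HmOut T F hQ) {A : F2 C} (hR : T.Rel A) :
    ∃ omF : QBF T.F, PointAt omF T.qc.re T.qc.im F A (PpH O.D) := by
  obtain ⟨c, hc, hB⟩ := hR
  set l : Fin T.ρ → ℝ := fun _ => (Real.pi * c)⁻¹ with hl
  have hl0 : ∀ k, 0 < l k := fun k => inv_pos.2 (mul_pos Real.pi_pos hc)
  refine ⟨qbf (comb l fun k => blkB T.e k) T.R_seg, fun x τ hx => ⟨hx.2.2, fun m hm => ?_⟩⟩
  subst hm
  have hcx : m.P.Cx := Qc_377.markC_cx T.nice T.good hV m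
  have ho : ∀ i, ∀ z ∈ (C.e i).target, ∀ u v,
      ((qbf (comb l fun k => blkB T.e k) T.R_seg).form m).w i z u v = (T.kf l m).w i z u v := by
    intro i z hz u v
    obtain ⟨j, hj⟩ : ∃ j : m.C'.ι, z ∈ mov m.C' C j i := Cmp.exists_mov m.C' hz
    rw [pl_form _ m i j z hj, qbf_form' _ _ m (Cmp.mt_mem hj).1, pl_kf T l m i j z hj,
      kf'_w T l m j _ (Cmp.mt_mem hj).1]
    rfl
  have h1 : ∀ k, cl ((T.qb k).form m) = Real.pi • T.B k := by
    intro k
    have h2 := hx.1 k
    rw [O.cls, O.cl] at h2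
    exact h2
  refine ⟨⟨hcx, ?_⟩, ?_, ?_⟩
  · refine hd_congr (T.hd hV m hl0) (fun i z hz v => ?_) ho
    obtain ⟨j, hj⟩ : ∃ j : m.C'.ι, z ∈ mov m.C' C j i := Cmp.exists_mov m.C' hz
    exact (Jm_of_iRel m.cmp hcx hj (T.iRel hV m hj v)).symm
  · have h3 : Cl ((qbf (comb l fun k => blkB T.e k) T.R_seg).form m) (T.kf l m) :=
      Cl.of_eq_on fun i z hz => by
        ext u v
        exact ho i z hz u v
    refine h3.trans (cl_iff'.1 ?_)
    have h4 : cl (T.kf l m) = ∑ k, l k • cl ((T.qb k).form m) := by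
      have e4 : ∀ w : F2 C, cl w = (Cdr_234.exS C).mkQ w := fun _ => rfl
      rw [e4, Ty.kf, map_sum]
      exact Finset.sum_congr rfl fun k _ => by rw [map_smul, e4]
    rw [h4]
    have h5 : ∀ k, l k • cl ((T.qb k).form m) = c⁻¹ • T.B k := by
      intro k
      rw [h1 k, smul_smul]
      congr 1
      rw [hl]
      have hp := Real.pi_ne_zero
      field_simp
    rw [Finset.sum_congr rfl fun k _ => h5 k, ← Finset.smul_sum, hB, smul_smul,
      inv_mul_cancel₀ hc.ne', one_smul]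
  · have h6 := O.D.isPer hx.1
    have h7 := hx.2.1
    rw [O.re, O.im] at h6 h7
    have h8 := perAt_of F hQ h6
    rw [← h7]
    exact h8

end ty

section ctx

variable {n : ℕ} {X : Type} [TopologicalSpace X] [CompactSpace X] {C : RCh (Cn (2 * n)) X}
  {Q : F2 C →ₗ[ℝ] F2 C →ₗ[ℝ] ℝ}

/-- the class `A` of a structure over `W` is positive -/
theorem qpos_of_at (hC : Ctx n C Q) {F : Frm C Q} {A : F2 C} {H : HkT C} {τ : ℂ}
    (h : AtTau F A H τ) : 0 < Q A A := by
  obtain ⟨z, hz, h1, h2⟩ := h.om12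
  have h0 : Q (H.om 0) (H.om 0) = Q A A := hC.cl_cl h.om0 h.om0
  have hST := Xi_831.Q_ST hC F τ
  have hTS : Q (F.sim τ) (F.sre τ) = 0 := by rw [hC.symm]; exact hST
  have h3 := hC.eq H 1
  rw [h0, hC.cl_cl h1 h1] at h3
  simp only [map_sub, map_smul, LinearMap.sub_apply, LinearMap.smul_apply, smul_eq_mul] at h3
  rw [hST, hTS, Xi_831.Q_SS hC, Xi_831.Q_TT hC] at h3
  have h4 : Q A A = normSq z * (F.N * τ.im ^ 2) := by
    rw [normSq_apply]
    linarith
  rw [h4]
  exact mul_pos (normSq_pos.2 hz) (mul_pos F.hN (pow_pos h.im_pos 2))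

variable [T2Space X] [ConnectedSpace X]

/-- **LIFT for all types** (`LiftAll` of helper957) -/
theorem liftAll (hC : Ctx n C Q) (hQ : QS Q) (F : Frm C Q)
    (O : ∀ T : Ty (2 * n) C, T.Ok F hQ → HmOut T F hQ) : LiftAll F hQ O := by
  intro T ok A hA hR
  obtain ⟨H0, τ0, h0⟩ := hA.ex
  have h1 := qpos_of_at hC h0
  obtain ⟨P, q, k, hk, hT, h⟩ := hC.top
  have hq : 0 < q A := by
    rw [h A A, QuadraticMap.polar_self] at h1
    have h2 := pos_of_mul_pos_right h1 hk.le
    simpa using h2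
  have hV : Module.finrank ℝ (Cn (2 * n)) = 2 * (2 * n) := by
    rw [finrank_real_of_complex]
    simp
  obtain ⟨omF, hp⟩ := pointAt_ty hV (O T ok) hR
  exact liftS_of hT (Yv_900.yauVar (bn (two_mul n))) hq hp

end ctx

end

end Crest.Agent.R281.Lf_830

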