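import Crest.Agent.R281.Aga1_581
import Crest.Agent.R281.Blk8_592
import Crest.Agent.R281.Ehr13_268
import Crest.Agent.R281.Lf3_830
import Crest.Agent.R281.NefM_252
import Crest.Agent.R281.HkM1_835

/-!
# R281 (S0424), DIV 2 (helper313): `MemA` of a marking

* `cone_mem`   : the cone of a marking in terms of the certificate of the member
* `tot_w`      : the value of the Fubini-Study form on the charts of the marking
* `s_eq`       : the value of the algebraic form, in every coordinate
* `ex_form'`   : a class on `C` read on the charts of the marking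
* `memA_of_mark`: **`MemA` from a marking with prescribed classes**
-/

set_option autoImplicit false
set_option linter.unusedSectionVars false
set_option maxSynthPendingDepth 3

open Set Filter Topology Complex
open scoped ContDiff

namespace Crest.Agent.R281.AgM_313

open Crest.Agent.R275.Geo Crest.Agent.R275.Core144
open Crest.Agent.R281.HkR_835 Crest.Agent.R281.Ehr2_268 Crest.Agent.R281.Dif_268
  Crest.Agent.R281.Ehr4_268 Crest.Agent.R281.Ehr6_268 Crest.Agent.R281.Ehr7_268
  Crest.Agent.R281.Ehr8_268 Crest.Agent.R281.Cdr_234 Crest.Agent.R281.Sl_957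
  Crest.Agent.R281.Am_957 Crest.Agent.R281.CA_867 Crest.Agent.R281.QF_871
  Crest.Agent.R281.Alg_998 Crest.Agent.R281.CL_473 Crest.Agent.R281.LI_473
  Crest.Agent.R281.Pe_313 Crest.Agent.R281.Dv_957 Crest.Agent.R281.Alg_867
  Crest.Agent.R281.Phl_655 Crest.Agent.R281.Blk_592
open Crest.Agent.R281.AF_867 (OnE FDat)
open Crest.Agent.R281.Ti_846 (Ex)
open Crest.Agent.R281.Sta2_684 (QS)
open Crest.Agent.R281.Sta3_684 (Bq)
open Crest.Agent.R281.Qc_377 (sgC sgC_mul re_form' im_form')
open Crest.Agent.R281.Ehr13_268 (polC)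

noncomputable section

universe uq

section gen

variable {Q : Type uq} [TopologicalSpace Q] {E H : Type} [NormedAddCommGroup E]
    [NormedSpace ℂ E] [NormedAddCommGroup H] [NormedSpace ℂ H] {V X : Type}
    [NormedAddCommGroup V] [NormedSpace ℝ V] [TopologicalSpace X]
    {F : QFam Q E H} {C : RCh V X}

/-- the form of a marking, read on the charts of the marking -/
theorem eqv_form' (b : QBF F) (m : Mark F C) : Eqv (m.cmp.F (b.form m)) (b.form' m) := by
  have h1 : Eqv ((SMap.ofCmp m.cmp).pull (b.form m)) (m.cmp.F (b.form m)) := Nef_252.cmp_F _ _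
  have h2 : Eqv ((SMap.ofCmp m.cmp).pull ((SMap.ofCmp m.cmp.symm).pull (b.form' m)))
      (b.form' m) := (Nef_252.bi_cmp m.cmp.symm).pull_pull (b.form' m)
  exact h1.symm.trans h2

/-- a class on `C` read on the charts of the marking -/
theorem ex_form' (b : QBF F) (m : Mark F C) {w : F2 C} (h : Cl (b.form m) w) :
    Ex (b.form' m - m.cmp.F w) := by
  have h1 : Ex (m.cmp.F (b.form m - w)) := (Nef_252.ex_cmp_F m.cmp _).2 h
  have h2 := (HkR_835.F_sub m.cmp (b.form m) w).ex h1
  refine Eqv.ex ?_ h2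
  intro i z hz u v
  have h3 := eqv_form' b m i z hz u v
  show (m.cmp.F (b.form m)).w i z u v - (m.cmp.F w).w i z u v =
    (b.form' m).w i z u v - (m.cmp.F w).w i z u v
  rw [h3]

end gen

section ty

variable {V X : Type} [NormedAddCommGroup V] [NormedSpace ℝ V] [TopologicalSpace X]
  {C : RCh V X} {n : ℕ} (T : Ty n C)

/-- the certificate of the member -/
abbrev YM (q : QM T.M) : CDat n T.N ℂ := T.K.mem (T.M.pt q.1.1 q.1.2)

theorem cone_mem (m : Mark T.F C) (w : EuclideanSpace ℂ (Fin (T.N + 1))) :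
    w ∈ m.P.cone ↔ w ≠ 0 ∧ OnE (range (YM T m.q).G) fun k => w k := by
  rw [m.cone w]
  exact Iff.rfl

theorem tot_w (m : Mark T.F C) (i : m.C'.ι) (z : V) (hz : z ∈ (m.C'.e i).target) (v v' : V) :
    (T.qt.form' m).w i z v v' = fsv (fun k => m.P.u i z k)
      (fun k => fderiv ℝ (m.P.u i) z v k) (fun k => fderiv ℝ (m.P.u i) z v' k) := by
  have h1 : (T.qt.form' m).w i z v v' = (totB T.e).sg (m.P.u i z) (fderiv ℝ (m.P.u i) z v)
      (fderiv ℝ (m.P.u i) z v') := Pt_313.qbf_form' (totB T.e) T.R_seg m hz v v'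
  rw [h1]
  exact fsv_reindex T.e (fun k => m.P.u i z k) (fun k => fderiv ℝ (m.P.u i) z v k)
    (fun k => fderiv ℝ (m.P.u i) z v' k)

variable [FiniteDimensional ℝ V]

/-- the value of the algebraic form -/
theorem sgC_eq (m : Mark T.F C) {i : m.C'.ι} {z : V} (hz : z ∈ (m.C'.e i).target)
    (v w : V) : sgC T.nice T.good m i z v w = (polC T.nice T.good).val m i z v w := by
  obtain ⟨j, hj⟩ : ∃ j, m.P.u i z j ≠ 0 := by
    by_contra hcon
    push Not at hcon
    exact m.P.ne i z hz (by ext j; exact hcon j)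
  have h1 := sgC_mul T.nice T.good m hz j v w hj
  have h2 := (polC T.nice T.good).val_eq m hz j v w
  have h3 : m.P.u i z j ^ T.K.Y.D.m ≠ 0 := pow_ne_zero _ hj
  exact mul_right_cancel₀ h3 (h1.trans h2.symm)

/-- **the algebraic form in every coordinate** -/
theorem s_eq (m : Mark T.F C) (i : m.C'.ι) (z : V) (hz : z ∈ (m.C'.e i).target)
    (j : Fin (T.N + 1)) (v v' : V) :
    (((T.qc.re.form' m).w i z v v' : ℂ) + ((T.qc.im.form' m).w i z v v' : ℂ) * I) *
        m.P.u i z j ^ (YM T m.q).D.m =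
      (YM T m.q).D.b j (fun k => m.P.u i z k) (fun k => fderiv ℝ (m.P.u i) z v k)
        (fun k => fderiv ℝ (m.P.u i) z v' k) := by
  have e1 : (T.qc.re.form' m).w i z v v' = (sgC T.nice T.good m i z v v').re :=
    re_form' T.nice T.good m i z v v'
  have e2 : (T.qc.im.form' m).w i z v v' = (sgC T.nice T.good m i z v v').im :=
    im_form' T.nice T.good m i z v v'
  rw [e1, e2, re_add_im, sgC_eq T m hz]
  exact (polC T.nice T.good).val_eq m hz j v v'

end ty

section mem

variable {n : ℕ} {X : Type} [TopologicalSpace X] {C : RCh (Cn (2 * n)) X}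
  {Q : F2 C →ₗ[ℝ] F2 C →ₗ[ℝ] ℝ} (T : Ty (2 * n) C) {F : Frm C Q} {A : F2 C}

/-- **`MemA` of a marking** from the classes on `C` -/
def memA_of_mark (m : Mark T.F C) {H : HkT C} (hcx : CxOf m.P H) {κ : ℝ} {β τ : ℂ}
    (hW : Cl (T.qt.form m) (κ • A))
    (h1 : Cl (T.qc.re.form m) (β.re • F.sre τ - β.im • F.sim τ))
    (h2 : Cl (T.qc.im.form m) (β.im • F.sre τ + β.re • F.sim τ)) :
    MemA F A (YM T m.q) κ β τ H where
  C' := m.C'
  cmp := m.cmp
  P := m.P
  cx := hcx
  cone := cone_mem T m
  W := T.qt.form' m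
  W_eq := tot_w T m
  W_cl := by
    have h3 := ex_form' T.qt m hW
    refine Eqv.ex ?_ h3
    intro i z hz u v
    have h4 := HkR_835.F_smul m.cmp κ A i z hz u v
    show (T.qt.form' m).w i z u v - (m.cmp.F (κ • A)).w i z u v =
      (T.qt.form' m).w i z u v - (κ • m.cmp.F A).w i z u v
    rw [h4]
  s1 := T.qc.re.form' m
  s2 := T.qc.im.form' m
  s_eq := s_eq T m
  s1_cl := ex_form' T.qc.re m h1
  s2_cl := ex_form' T.qc.im m h2

end mem

end

end Crest.Agent.R281.AgM_313
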