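import Crest.Agent.R281.AgM1_313

/-!
# R281 (S0424), DIV 2 (helper313): the members of the end of a ray carry the algebraic data

* `cls_of_per` : the classes of the algebraic form of a period pair
* `memF`       : **`MemF` of helper581** for every type, every ray
* `algAll`     : **`AlgAll` of helper957** for `Alg_867.AlgE`
-/

set_option autoImplicit false
set_option linter.unusedSectionVars false
set_option maxSynthPendingDepth 3

open Set Filter Topology UpperHalfPlane Complex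
open scoped ContDiff

namespace Crest.Agent.R281.AgM_313

open Crest.Agent.R275.Geo Crest.Agent.R275.Core144
open Crest.Agent.R281.HkR_835 Crest.Agent.R281.Ehr2_268 Crest.Agent.R281.Dif_268
  Crest.Agent.R281.Ehr4_268 Crest.Agent.R281.Ehr6_268 Crest.Agent.R281.Ehr7_268
  Crest.Agent.R281.Ehr8_268 Crest.Agent.R281.Cdr_234 Crest.Agent.R281.Sl_957
  Crest.Agent.R281.Am_957 Crest.Agent.R281.CA_867 Crest.Agent.R281.QF_871
  Crest.Agent.R281.Alg_998 Crest.Agent.R281.CL_473 Crest.Agent.R281.LI_473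
  Crest.Agent.R281.As_957 Crest.Agent.R281.Nc_957 Crest.Agent.R281.Cus_581
  Crest.Agent.R281.Pe_313 Crest.Agent.R281.Dv_957 Crest.Agent.R281.Ra_989
  Crest.Agent.R281.Alg_867 Crest.Agent.R281.Aga_581
open Crest.Agent.R281.Esc1_989 Crest.Agent.R281.Ends2_989 Crest.Agent.R281.Ends3_989
open Crest.Agent.R281.Sta2_684 (QS)
open Crest.Agent.R281.Sta3_684 (Bq)

noncomputable section

section per

variable {V X : Type} [NormedAddCommGroup V] [NormedSpace ℝ V] [TopologicalSpace X]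
  {C : RCh V X} {Q : F2 C →ₗ[ℝ] F2 C →ₗ[ℝ] ℝ}

/-- **the classes of a period pair**, with `z = Q(e, ·)` -/
theorem cls_of_per (F : Frm C Q) (hQ : QS Q) {s1 s2 : F2 C}
    (h : (frF F hQ).IsPer (cl s1) (cl s2)) {z τ : ℂ}
    (hz : (frF F hQ).z0 (cl s1) (cl s2) = z) (ht : (frF F hQ).tau (cl s1) (cl s2) = τ) :
    Cl s1 (z.re • F.sre τ - z.im • F.sim τ) ∧ Cl s2 (z.im • F.sre τ + z.re • F.sim τ) := by
  obtain ⟨h1, h2, -⟩ := h.spec
  have ha := (frF F hQ).κ_co h.a_mem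
  have hb := (frF F hQ).κ_co h.b_mem
  rw [← (frF F hQ).cv_re (cl s1) (cl s2), h2, Fr.κ_apply] at ha
  rw [← (frF F hQ).cv_im (cl s1) (cl s2), h2, Fr.κ_apply] at hb
  rw [hz, ht] at ha hb
  have hN : (frF F hQ).N = F.N := rfl
  have c0 : (z • sig (frF F hQ).N τ) 0 = z := by
    simp [sig]
  have c1 : (z • sig (frF F hQ).N τ) 1 = z * τ := by
    simp [sig]
  have c2 : (z • sig (frF F hQ).N τ) 2 = z * (((-(F.N / 2) : ℝ) : ℂ) * (τ * τ)) := by
    simp only [sig, Pi.smul_apply, smul_eq_mul, hN]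
    push_cast
    simp [pow_two]
  rw [c0, c1, c2] at ha hb
  have e1 : (frF F hQ).f = (Cdr_234.exS C).mkQ F.es := rfl
  have e2 : (frF F hQ).v = (Cdr_234.exS C).mkQ F.v := rfl
  have e3 : (frF F hQ).e = (Cdr_234.exS C).mkQ F.e := rfl
  have e4 : ∀ w : F2 C, cl w = (Cdr_234.exS C).mkQ w := fun _ => rfl
  refine ⟨?_, ?_⟩
  · rw [← Lf_830.cl_iff', ← ha, e4, e1, e2, e3]
    simp only [Frm.sre, Frm.sim, map_sub, map_add, map_smul, mul_re, mul_im, ofReal_re, ofReal_im,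
      zero_mul, sub_zero, add_zero]
    module
  · rw [← Lf_830.cl_iff', ← hb, e4, e1, e2, e3]
    simp only [Frm.sre, Frm.sim, map_sub, map_add, map_smul, mul_re, mul_im, ofReal_re, ofReal_im,
      zero_mul, sub_zero, add_zero]
    module

end per

variable {n : ℕ} {X : Type} [TopologicalSpace X] [CompactSpace X] [T2Space X]
  {C : RCh (Cn (2 * n)) X} {Q : F2 C →ₗ[ℝ] F2 C →ₗ[ℝ] ℝ} {T : Ty (2 * n) C} {F : Frm C Q}
  {hQ : QS Q}

/-- **`MemF` of helper581** -/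
theorem memF (O : HmOut T F hQ) (A : F2 C) {x₁ : O.G.T} {a d : Fin T.M.m → ℂ} {u : ℂ}
    {hx : O.G.z x₁ = fun j => a j + u * d j} (ρ : Ray (O.G.line a d) (O.G.onLine a d x₁ u hx))
    {c : ℝ} (hB : ∑ k, T.B k = c • cl A) {Y : ℝ} (hY : ρ.Y₂ ≤ Y) :
    MemF O A ρ (Real.pi * c) hY := by
  intro τ H h hp
  obtain ⟨-, m, hm, hcx⟩ := hp
  have hP : PpH O.D ((rayEnd (hu_F T) ρ hY).pt τ) τ := (rayEnd (hu_F T) ρ hY).per τ h
  have hk : 1 < (ρ.k τ).im := ρ.k_im τ (hY.trans_lt h)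
  have hx0 : (rayEnd (hu_F T) ρ hY).pt τ = (mkE ρ.e ρ.g (ρ.k τ)).1 := rfl
  have hcl : ∀ k, T.cls k (MQ.mk m) = T.pcl k := by
    intro k
    have h1 := hP.1 k
    rw [← hm, O.cls, O.cl] at h1
    exact h1
  have hper := O.D.isPer hP.1
  have htau := hP.2.1
  have hz : bE ρ.e ρ.g (ρ.k τ) = (frF F hQ).z0 (O.D.re ((rayEnd (hu_F T) ρ hY).pt τ))
      (O.D.im ((rayEnd (hu_F T) ρ hY).pt τ)) := rfl
  rw [← hm, O.re, O.im] at hper htau hz
  obtain ⟨h1, h2⟩ := cls_of_per F hQ hper hz.symm htau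
  have hq : m.q = qE ρ.e.En ⟨ρ.k τ, mem_Hp hk.le⟩ := by
    have h3 := mkE_pr ρ.e ρ.g hk.le
    rw [← hx0, ← hm] at h3
    exact h3
  have hY' : (fun i => ev (hp (ρ.k τ) (ρ.k_im τ (hY.trans_lt h))) (cE ρ.e.En i)) =
      T.M.pt m.q.1.1 m.q.1.2 := by
    rw [hq]
    exact ev_cE' ρ.e.En ⟨ρ.k τ, mem_Hp hk.le⟩
  rw [hY']
  refine ⟨memA_of_mark T m hcx ?_ h1 h2⟩
  rw [← Lf_830.cl_iff']
  have h4 := T.cls_tot_rel hcl hB
  exact h4

end

end Crest.Agent.R281.AgM_313
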