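import Crest.Agent.R281.RkD_902
import Crest.Agent.R281.GTi3_989
import Crest.Agent.R281.CB1_867
import Crest.Agent.R281.Pe6_313
import Crest.Agent.R281.Blk5_592
import Crest.Agent.R281.Sl3_957

/-!
# R281 (S0424): the literal predicate `Alg` of `RkD_902` (helper867, with 989 and 957)

`Alg : RkD_902.AlgTT` : the algebraic data (O3) carried by the end `K : Cusp F A`.

* `MemA F A Y κ β τ H` : the manifold of the complex certificate `Y` is `(X, J 0)` of `H`
  (an embedding `P` with cone `Y` and complex structure `J 0`), the Fubini-Study form has the class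
  `κ A`, the algebraic form of `Y` has the class `β σ_τ`
* `AlgE F A K`         : a code over `QB`, its coefficient vector along the end (functions of
  moderate growth on the half plane), the normal form `τ = r z + h (q z)` with its inverse `k`, the
  period `b z` of the algebraic form, and `MemA` for every member of `K`
* `Alg`                : `Nonempty (AlgE ..)`
-/

set_option autoImplicit false
set_option linter.unusedSectionVars false
set_option maxSynthPendingDepth 3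

open Set Filter Topology Complex
open scoped ContDiff

namespace Crest.Agent.R281.Alg_867

open Crest.Agent.R275.Geo Crest.Agent.R275.Core144
open Crest.Agent.R281.HkR_835 Crest.Agent.R281.Ti_846
open Crest.Agent.R281.Defs_273
open Crest.Agent.R281.Ehr2_268 Crest.Agent.R281.Alg_998 Crest.Agent.R281.RkD_902
open Crest.Agent.R281.CA_867 Crest.Agent.R281.AF_867 Crest.Agent.R281.Kr_488
open Crest.Agent.R281.Pe_313 (CxOf)
open Crest.Agent.R281.Blk_592 (fsv)
open Crest.Agent.R281.Esc1_989 Crest.Agent.R281.Ends2_989 Crest.Agent.R281.Ends3_989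
open Crest.Agent.R281.Sl_957 (QB)


noncomputable section

/-- a point of the end -/
def hp (z : ℂ) (h : 1 < z.im) : Hp := ⟨z, lt_trans one_pos h⟩

section defs

variable {n N : ℕ} {X : Type} [TopologicalSpace X] {C : RCh (Cn (2 * n)) X}
  {Q : F2 C →ₗ[ℝ] F2 C →ₗ[ℝ] ℝ}

/-- **a member with its algebraic data**: the manifold of the complex certificate `Y` is
`(X, J 0)` of `H`, Fubini-Study class `κ A`, class of the algebraic form `β σ_τ` -/
structure MemA (F : Frm C Q) (A : F2 C) (Y : CDat (2 * n) N ℂ) (κ : ℝ) (β τ : ℂ) (H : HkT C) where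
  C' : RCh (Cn (2 * n)) X
  cmp : Cmp C C'
  P : HEmb C' (EuclideanSpace ℂ (Fin (N + 1)))
  cx : CxOf P H
  cone : ∀ w, w ∈ P.cone ↔ w ≠ 0 ∧ OnE (range Y.G) fun k => w k
  /-- the Fubini-Study form -/
  W : F2 C'
  W_eq : ∀ i, ∀ z ∈ (C'.e i).target, ∀ v v' : Cn (2 * n), W.w i z v v' =
    fsv (fun k => P.u i z k) (fun k => fderiv ℝ (P.u i) z v k) (fun k => fderiv ℝ (P.u i) z v' k)
  W_cl : Ex (W - κ • cmp.F A)
  /-- real and imaginary part of the algebraic form -/
  s1 : F2 C'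
  s2 : F2 C'
  s_eq : ∀ i, ∀ z ∈ (C'.e i).target, ∀ (j : Fin (N + 1)) (v v' : Cn (2 * n)),
    ((s1.w i z v v' : ℂ) + (s2.w i z v v' : ℂ) * I) * P.u i z j ^ Y.D.m =
      Y.D.b j (fun k => P.u i z k) (fun k => fderiv ℝ (P.u i) z v k)
        (fun k => fderiv ℝ (P.u i) z v' k)
  s1_cl : Ex (s1 - cmp.F (β.re • F.sre τ - β.im • F.sim τ))
  s2_cl : Ex (s2 - cmp.F (β.im • F.sre τ + β.re • F.sim τ))

/-- **the algebraic data of the end** -/
structure AlgE (F : Frm C Q) (A : F2 C) (K : Cusp F A) where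
  N : ℕ
  /-- the code -/
  Kc : Code QB (2 * n) N
  c : Fin Kc.k → ℂ
  good : Kc.Good c
  /-- the coefficients along the end -/
  c' : Fin Kc.k → MgR
  rel : ∀ z : Hp, RelOk QB c fun i => ev z (c' i)
  ne : ∀ z : Hp, MvPolynomial.aeval (fun i => ev z (c' i)) Kc.rr ≠ 0
  /-- width of the cusp, normal form `τ = r z + h (q z)` -/
  r : ℝ
  r_pos : 0 < r
  h : ℂ → ℂ
  h_diff : DifferentiableOn ℂ h (Metric.ball 0 (Real.exp (-(2 * Real.pi))))
  /-- inverse of the normal form -/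
  k : ℂ → ℂ
  k_diff : DifferentiableOn ℂ k {τ | K.Y < τ.im}
  k_im : ∀ τ : ℂ, K.Y < τ.im → 1 < (k τ).im
  k_inv : ∀ τ : ℂ, K.Y < τ.im → (r : ℂ) * k τ + h (qq (k τ)) = τ
  Ck : ℝ
  k_bd : ∀ τ : ℂ, K.Y < τ.im → ‖(r : ℂ) * k τ - τ‖ ≤ Ck
  /-- Fubini-Study constant -/
  κ : ℝ
  κ_pos : 0 < κ
  /-- period of the algebraic form, `b z = Q(e, [σ_z])` -/
  b : ℂ → ℂ
  b_diff : DifferentiableOn ℂ b {z | 1 < z.im}
  /-- the monodromy on `W` may be `- 1` times a translation -/
  b_per : ∀ z : ℂ, 1 < z.im → b (z + 1) ^ 2 = b z ^ 2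
  b_ne : ∀ z : ℂ, 1 < z.im → b z ≠ 0
  /-- the members -/
  mem : ∀ (τ : ℂ) (H : HkT C) (h : K.Mem τ H), Nonempty (MemA F A
    (Kc.mem fun i => ev (hp (k τ) (k_im τ (K.mem_im τ H h))) (c' i)) κ (b (k τ)) τ H)

namespace MemA

variable {F : Frm C Q} {A : F2 C} {Y : CDat (2 * n) N ℂ} {κ : ℝ} {β τ : ℂ} {H H' : HkT C}

/-- only `J 0` of `H` enters -/
def congr (m : MemA F A Y κ β τ H)
    (h : ∀ i, ∀ z ∈ (C.e i).target, H.J 0 i z = H'.J 0 i z) : MemA F A Y κ β τ H' where
  C' := m.C'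
  cmp := m.cmp
  P := m.P
  cx i j z hz v := by
    have h1 := m.cx i j z hz v
    rwa [h i z hz.1] at h1
  cone := m.cone
  W := m.W
  W_eq := m.W_eq
  W_cl := m.W_cl
  s1 := m.s1
  s2 := m.s2
  s_eq := m.s_eq
  s1_cl := m.s1_cl
  s2_cl := m.s2_cl

end MemA

namespace AlgE

variable {F : Frm C Q} {A : F2 C} {K : Cusp F A} (a : AlgE F A K)

/-- the certificate over the end -/
def Y : CDat (2 * n) a.N MgR := a.Kc.Y.map (GTi_989.psi a.c')

theorem Y_ev (z : Hp) : a.Y.map (ev z) = a.Kc.mem fun i => ev z (a.c' i) :=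
  GTi_989.map_psi a.Kc a.c' z

theorem Y_ok : a.Y.Ok := GTi_989.psi_ok a.good a.c' a.rel

/-- every point of the end gives an exact certificate -/
theorem mem_ok (z : Hp) : (a.Kc.mem fun i => ev z (a.c' i)).Ok := by
  rw [← a.Y_ev z]
  exact a.Y_ok.map _

/-- the algebraic data (989) as soon as enough members are connected -/
theorem exists_end (q : Fin a.Kc.Y.q) {l : Filter Hp} [l.NeBot] (hl : l ≤ lEnd)
    (hM : ∀ᶠ z in l, GTi_989.ConnM (a.Kc.mem fun i => ev z (a.c' i))) :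
    ∃ j, GTi_989.EndAlg a.Y q j :=
  GTi_989.glue_code a.good a.c' a.rel ⟨⟨Complex.I, I_mem⟩, a.ne _⟩ q hl hM

end AlgE

end defs

/-- **the predicate `Alg`** -/
def Alg : AlgTT := fun _ _ _ _ _ _ _ _ F A K => Nonempty (AlgE F A K)

end

end Crest.Agent.R281.Alg_867
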