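import Crest.Agent.R281.Ra1_989
import Crest.Agent.R281.Phb7_267
import Crest.Agent.R281.As6_957

/-!
# R281 (S0424), RAY-ALG part 2 (helper989): the period of the algebraic form along a marked end

`D : HM L F Lz κ` over the model `QM M` (473), `hol` (267), `e` an end of the line geometry
`(D.geomM hol).line a d` (957), `w` its isotropic vector (`Good e w`), `g` a marking with
`ρ g w = t • e`:

* `mkE D hol e g z : D.Mk`  : the marked member `g • e.F z`
* `bE D hol e g z : ℂ`      : `Q(e, re + i im)` of this member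
* `bE_ne`, `cv_bE`          : zero free; `re + i im = b • σ_(Ψ)` in the frame
* `diff_bE`                 : holomorphic on `{1 < Im z}`
* `sq_per`                  : `b (z + 1) ^ 2 = b z ^ 2`
-/

set_option autoImplicit false
set_option linter.unusedSectionVars false

open Polynomial Set Filter Topology UpperHalfPlane

noncomputable section

namespace Crest.Agent.R281.Ra_989

open CL_473 LI_473 As_957 Am_957 Sl_957 Nc_957
open Ends1_989 Ends2_989 Ends3_989 Ends4_989 Ends5_989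

variable {H : Type*} [AddCommGroup H] [Module ℝ H] {Q : H →ₗ[ℝ] H →ₗ[ℝ] ℝ}
  {k₀ ι : Type*} [Field k₀] [Algebra k₀ ℂ] {M : Fmt k₀ ι} {G : Type*} [Group G] {E : Type*}
  [MulAction G E] {L : LS (QM M) G E} {F : Fr Q} {Lz : AddSubgroup H} {κ : Type*}

/-- the hypothesis of 267's `HM.geomM` -/
abbrev HolH (D : HM L F Lz κ) : Prop := ∀ x, (∀ i, D.cls i x = D.cl i) →
  ∃ φ₀ φ₁ : (Fin M.m → ℂ) → ℂ,
    AnalyticAt ℂ φ₀ (L.p x).1.1 ∧ AnalyticAt ℂ φ₁ (L.p x).1.1 ∧ ∀ᶠ q in 𝓝 (L.p x),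
      F.z0 (D.re (L.s x q)) (D.im (L.s x q)) = φ₀ q.1.1 ∧
      F.z1 (D.re (L.s x q)) (D.im (L.s x q)) = φ₁ q.1.1

variable {D : HM L F Lz κ} {hol : HolH D} {a d : Fin M.m → ℂ}

/-- the marked member over the end -/
def mkE (e : LEnd ((D.geomM hol).line a d)) (g : D.Gp) (z : ℂ) : D.Mk :=
  (D.geomM hol).toT a d (g • e.F z)

/-- the period of the algebraic form -/
def bE (e : LEnd ((D.geomM hol).line a d)) (g : D.Gp) (z : ℂ) : ℂ :=
  F.z0 (D.re (mkE e g z).1) (D.im (mkE e g z).1)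

variable (e : LEnd ((D.geomM hol).line a d)) (g : D.Gp)

theorem bE_ne (z : ℂ) : bE e g z ≠ 0 := (D.vec (mkE e g z)).1

/-- the period vector of the marked member -/
theorem cv_bE (z : ℂ) : F.cv (D.re (mkE e g z).1) (D.im (mkE e g z).1) =
    bE e g z • sig F.N (((D.geomM hol).line a d).Ψ (g • e.F z)) :=
  (D.vec (mkE e g z)).2

theorem mkE_z {z : ℂ} (hz : 1 ≤ z.im) :
    ((D.geomM hol).z (mkE e g z)) = fun j => a j + e.En.U z * d j := by
  unfold mkE
  rw [(D.geomM hol).z_toT a d (g • e.F z)]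
  have h1 : ((D.geomM hol).line a d).u (g • e.F z) = e.En.U z := by
    have h2 : ((D.geomM hol).line a d).toLS.pr (g • e.F z) =
        ((D.geomM hol).line a d).toLS.pr (e.F z) := LS.pr_smul _ g (e.F z)
    show (((D.geomM hol).line a d).toLS.pr (g • e.F z)).1.1 = _
    rw [h2]
    exact congrArg Prod.fst (e.pr z hz)
  rw [h1]

theorem line_pr {z : ℂ} (hz : 1 ≤ z.im) :
    (((D.geomM hol).line a d).toLS.pr (g • e.F z) : ℂ × ℂ) = (e.En.U z, e.En.V z) := by
  have h2 : ((D.geomM hol).line a d).toLS.pr (g • e.F z) =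
      ((D.geomM hol).line a d).toLS.pr (e.F z) := LS.pr_smul _ g (e.F z)
  rw [h2]
  exact e.pr z hz

/-- the point of the model under the marked member -/
theorem mkE_pr {z : ℂ} (hz : 1 ≤ z.im) : L.p (mkE e g z).1 = qE e.En ⟨z, mem_Hp hz⟩ := by
  have h0 : L.p (mkE e g z).1 = GeomM.lm M a d (((D.geomM hol).line a d).toLS.pr (g • e.F z)) :=
    (g • e.F z : PE (D.geomM hol).toLS (GeomM.lm M a d)).2
  rw [h0]
  apply Subtype.ext
  have h1 := line_pr e g hz
  refine Prod.ext ?_ ?_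
  · funext j
    have h2 := congrArg Prod.fst h1
    show a j + (((D.geomM hol).line a d).toLS.pr (g • e.F z)).1.1 * d j = a j + e.En.U z * d j
    rw [h2]
  · exact congrArg (fun y : ℂ × ℂ => y.2) h1

/-- the marked member as a point of the total space -/
def tE (z : ℂ) : (D.geomM hol).T := mkE e g z

theorem continuous_tE : Continuous (tE e g) := by
  have h1 : Continuous fun z => g • e.F z :=
    (((D.geomM hol).line a d).toLS.continuous_smul' g).comp e.cont
  exact ((D.geomM hol).continuous_toT a d).comp h1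

/-- functions on the markings which are analytic along the transports are holomorphic along an
end -/
theorem diff_of {ψ : D.Mk → ℂ} (hψ : ∀ x : D.Mk, ∃ φ : (Fin M.m → ℂ) → ℂ,
      AnalyticAt ℂ φ (L.p x.1).1.1 ∧ ∀ᶠ q in 𝓝 (L.p x.1), ψ (D.lS.s x q) = φ q.1.1) :
    DifferentiableOn ℂ (fun z => ψ (mkE e g z)) {z | 1 < z.im} := by
  intro z hz
  have hz' : 1 < z.im := hz
  obtain ⟨φ, hφ, h⟩ := hψ (mkE e g z)
  have hopen : IsOpen {z : ℂ | 1 < z.im} := isOpen_lt continuous_const Complex.continuous_im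
  have h1 : ∀ᶠ y : (D.geomM hol).T in 𝓝 (tE e g z), ψ y = φ ((D.geomM hol).z y) := by
    rw [(D.geomM hol).toLS.nhds_eq, eventually_map]
    have h3 : (D.geomM hol).toLS.U ((D.geomM hol).toLS.p (mkE e g z)) ∈
        𝓝 ((D.geomM hol).toLS.p (mkE e g z)) :=
      ((D.geomM hol).toLS.U_open _).mem_nhds ((D.geomM hol).toLS.U_mem _)
    have h' : ∀ᶠ q in 𝓝 ((D.geomM hol).toLS.p (mkE e g z)), ψ (D.lS.s (mkE e g z) q) =
      φ q.1.1 := h
    filter_upwards [h', h3] with q hq hU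
    have h4 : (D.geomM hol).toLS.pr ((D.geomM hol).toLS.tr (tE e g z) q) = q :=
      (D.geomM hol).toLS.pr_tr (tE e g z) hU
    have h5 : (D.geomM hol).z ((D.geomM hol).toLS.tr (tE e g z) q) = q.1.1 := by
      rw [GeomM.z, h4]
    rw [h5]
    exact hq
  have h2 : ∀ᶠ z' in 𝓝 z, ψ (mkE e g z') = φ ((D.geomM hol).z (mkE e g z')) :=
    (continuous_tE e g).continuousAt.eventually h1
  have h3 : (fun z' => ψ (mkE e g z')) =ᶠ[𝓝 z] fun z' => φ fun j => a j + e.En.U z' * d j := by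
    filter_upwards [h2, hopen.mem_nhds hz'] with z' h4 h5
    have h5' : 1 < z'.im := h5
    rw [h4, mkE_z e g h5'.le]
  have h4 : DifferentiableAt ℂ e.En.U z :=
    (e.En.diffU z (mem_Hp hz'.le)).differentiableAt (isOpen_Hp.mem_nhds (mem_Hp hz'.le))
  have h5 : DifferentiableAt ℂ (fun z' => fun j => a j + e.En.U z' * d j) z := by
    rw [differentiableAt_pi]
    intro j
    exact (h4.mul_const _).const_add _
  have h6 : DifferentiableAt ℂ φ (fun j => a j + e.En.U z * d j) := by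
    have h7 : (L.p (mkE e g z).1).1.1 = fun j => a j + e.En.U z * d j := by
      rw [mkE_pr e g hz'.le]
      rfl
    rw [h7] at hφ
    exact hφ.differentiableAt
  exact ((h6.comp z h5).congr_of_eventuallyEq h3).differentiableWithinAt

/-- **the period of the algebraic form is holomorphic along the end** -/
theorem diff_bE : DifferentiableOn ℂ (bE e g) {z | 1 < z.im} := by
  refine diff_of e g (ψ := fun x : D.Mk => F.z0 (D.re x.1) (D.im x.1)) fun x => ?_
  obtain ⟨φ₀, φ₁, h0, -, h⟩ := hol x.1 x.2.1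
  refine ⟨φ₀, h0, ?_⟩
  have hU : L.U (L.p x.1) ∈ 𝓝 (L.p x.1) := (L.U_open _).mem_nhds (L.U_mem _)
  filter_upwards [h, hU] with q hq hqU
  rw [D.lS_s x hqU]
  exact hq.1

/-- the monodromy of the marked end -/
def mon (e : LEnd ((D.geomM hol).line a d)) (g : D.Gp) : D.Gp := g * e.g * g⁻¹

theorem mkE_add_one (z : ℂ) : mkE e g (z + 1) = mon e g • mkE e g z := by
  have h1 : g • e.F (z + 1) = mon e g • (g • e.F z) := by
    rw [e.per, mon, smul_smul, smul_smul, inv_mul_cancel_right]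
  show (D.geomM hol).toT a d (g • e.F (z + 1)) = _
  rw [h1]
  rfl

theorem mon_e {w : Fin 3 → ℝ} (hw : Good e w) {t : ℝ} (ht : t ≠ 0)
    (hg : D.R.ρ g w = t • ![0, 0, 1]) :
    ∃ s : ℝ, s ^ 2 = 1 ∧ D.R.ρ (mon e g) ![0, 0, 1] = s • ![0, 0, 1] := by
  have h1 : (![0, 0, 1] : Fin 3 → ℝ) = t⁻¹ • D.R.ρ g w := by
    rw [hg, smul_smul, inv_mul_cancel₀ ht, one_smul]
  have h2 : D.R.ρ g⁻¹ (D.R.ρ g w) = w := by
    rw [← Module.End.mul_apply, ← map_mul, inv_mul_cancel, map_one, Module.End.one_apply]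
  have h3 : D.R.ρ (mon e g) ![0, 0, 1] = t⁻¹ • D.R.ρ g (D.R.ρ e.g w) := by
    rw [h1, map_smul, mon, map_mul, map_mul, Module.End.mul_apply, Module.End.mul_apply, h2]
  have h4 : D.R.ρ e.g w = w ∨ D.R.ρ e.g w = -w := hw.inv
  rcases h4 with h4 | h4
  · exact ⟨1, by norm_num, by rw [h3, h4, ← h1, one_smul]⟩
  · exact ⟨-1, by norm_num, by rw [h3, h4, map_neg, smul_neg, ← h1, neg_one_smul]⟩

/-- **the period is periodic up to sign** -/
theorem per_bE {w : Fin 3 → ℝ} (hw : Good e w) {t : ℝ} (ht : t ≠ 0)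
    (hg : D.R.ρ g w = t • ![0, 0, 1]) :
    ∃ s : ℝ, s ^ 2 = 1 ∧ ∀ z, bE e g (z + 1) = s * bE e g z := by
  obtain ⟨s, hs, h⟩ := mon_e e g hw ht hg
  refine ⟨s, hs, fun z => ?_⟩
  have he : D.r (mon e g).1 F.e = s • F.e := by
    rw [← F.κ_e, ← D.κ_R, h, map_smul]
  have h5 : ∀ x : H, Q (D.r (mon e g).1 x) F.e = s * Q x F.e := by
    intro x
    have h6 := D.r_q (mon e g).1 (mon e g).2.1 x F.e
    rw [he, map_smul, smul_eq_mul] at h6
    rw [← h6, ← mul_assoc, ← pow_two, hs, one_mul]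
  unfold bE
  rw [mkE_add_one, D.smul_val, D.re_smul, D.im_smul]
  unfold Fr.z0
  rw [h5, h5]
  push_cast
  ring

theorem sq_per {w : Fin 3 → ℝ} (hw : Good e w) {t : ℝ} (ht : t ≠ 0)
    (hg : D.R.ρ g w = t • ![0, 0, 1]) (z : ℂ) : bE e g (z + 1) ^ 2 = bE e g z ^ 2 := by
  obtain ⟨s, hs, h⟩ := per_bE e g hw ht hg
  rw [h, mul_pow]
  have : (s : ℂ) ^ 2 = 1 := by exact_mod_cast hs
  rw [this, one_mul]

end Crest.Agent.R281.Ra_989
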