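import Crest.Agent.R281.Dv2_957
import Crest.Agent.R281.Alg1_867
import Crest.Agent.R281.Ra2_989

/-!
# R281 (S0424), DIV 2 (helper581): the algebraic data of the end of a ray

* `MemF`       : the members of the end carry `MemA` (helper867)
* `algE_of`    : `AlgE F A (cuspOf ..)` (helper867's record) for the cusp of a ray
* `algAll_of`  : helper957's `AlgAll` for `Alg_867.AlgE`, from `MemF` for every type and every ray
-/

set_option autoImplicit false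
set_option linter.unusedSectionVars false
set_option maxSynthPendingDepth 3

open Set Filter Topology UpperHalfPlane
open scoped ContDiff

namespace Crest.Agent.R281.Aga_581

open Crest.Agent.R275.Geo Crest.Agent.R275.Core144
open Crest.Agent.R281.HkR_835 Crest.Agent.R281.Ehr2_268 Crest.Agent.R281.Dif_268
  Crest.Agent.R281.Ehr4_268 Crest.Agent.R281.Ehr6_268 Crest.Agent.R281.Ehr7_268
  Crest.Agent.R281.Ehr8_268 Crest.Agent.R281.Cdr_234 Crest.Agent.R281.Sl_957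
  Crest.Agent.R281.Am_957 Crest.Agent.R281.CA_867 Crest.Agent.R281.QF_871
  Crest.Agent.R281.Alg_998 Crest.Agent.R281.CL_473 Crest.Agent.R281.LI_473
  Crest.Agent.R281.As_957 Crest.Agent.R281.Nc_957 Crest.Agent.R281.Cus_581
  Crest.Agent.R281.Pe_313 Crest.Agent.R281.Dv_957 Crest.Agent.R281.Ra_989
  Crest.Agent.R281.Alg_867
open Crest.Agent.R281.Esc1_989 Crest.Agent.R281.Ends2_989 Crest.Agent.R281.Ends3_989
open Crest.Agent.R281.Sta2_684 (QS)
open Crest.Agent.R281.Sta3_684 (Bq)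

noncomputable section

variable {n : ℕ} {X : Type} [TopologicalSpace X] [CompactSpace X] [T2Space X]
  {C : RCh (Cn (2 * n)) X} {Q : F2 C →ₗ[ℝ] F2 C →ₗ[ℝ] ℝ} {T : Ty (2 * n) C} {F : Frm C Q}
  {hQ : QS Q}

section one

variable (O : HmOut T F hQ) (A : F2 C) {x₁ : O.G.T} {a d : Fin T.M.m → ℂ} {u : ℂ}
  {hx : O.G.z x₁ = fun j => a j + u * d j} (ρ : Ray (O.G.line a d) (O.G.onLine a d x₁ u hx))

/-- **the members over the end carry the algebraic data** (helper867) -/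
def MemF (κ : ℝ) {Y : ℝ} (hY : ρ.Y₂ ≤ Y) : Prop :=
  ∀ (τ : ℂ) (H : HkT C) (h : Y < τ.im), PtOf F A ((rayEnd (hu_F T) ρ hY).pt τ) τ H →
    Nonempty (MemA F A (T.K.mem fun i => ev (hp (ρ.k τ) (ρ.k_im τ (hY.trans_lt h)))
      (cE ρ.e.En i)) κ (bE ρ.e ρ.g (ρ.k τ)) τ H)

variable {O A}

/-- **the algebraic data of the end of a ray** -/
theorem algE_of {κ : ℝ} (hκ : 0 < κ) {Y : ℝ} (hY0 : 0 < Y) (hY : ρ.Y₂ ≤ Y)
    (hl : LiftS T.F F A (PpH O.D)) (hm : MemF O A ρ κ hY) :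
    Nonempty (AlgE F A (cuspOf hY0 (rayEnd (hu_F T) ρ hY) hl)) := by
  obtain ⟨z₀, h0⟩ := (exists_gen (k₀ := QB) (cE ρ.e.En)).nonempty
  exact ⟨{
    N := T.N
    Kc := T.K
    c := fun i => ev z₀ (cE ρ.e.En i)
    good := good_cE T.good ρ.e.En z₀
    c' := cE ρ.e.En
    rel := h0
    ne := fun z => (good_cE T.good ρ.e.En z).ne
    r := ρ.r
    r_pos := ρ.r_pos
    h := ρ.h
    h_diff := ρ.h_diff
    k := ρ.k
    k_diff := ρ.k_diff.mono fun τ hτ => lt_of_le_of_lt hY hτ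
    k_im := fun τ hτ => ρ.k_im τ (lt_of_le_of_lt hY hτ)
    k_inv := fun τ hτ => ρ.k_inv τ (lt_of_le_of_lt hY hτ)
    Ck := ρ.C
    k_bd := fun τ hτ => ρ.k_bd τ (lt_of_le_of_lt hY hτ)
    κ := κ
    κ_pos := hκ
    b := bE ρ.e ρ.g
    b_diff := diff_bE ρ.e ρ.g
    b_per := fun z _ => sq_per ρ.e ρ.g ρ.good ρ.t_ne ρ.map_w z
    b_ne := fun z _ => bE_ne ρ.e ρ.g z
    mem := fun τ H h => hm τ H h.1 h.2 }⟩

end one

/-- **`AlgAll` of helper957** -/
theorem algAll_of (O : ∀ T : Ty (2 * n) C, T.Ok F hQ → HmOut T F hQ) (hl : LiftAll F hQ O)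
    (hm : ∀ (T : Ty (2 * n) C) (ok : T.Ok F hQ) (A : F2 C), AOk F A → T.Rel A →
      ∀ (x₁ : (O T ok).G.T) (a d : Fin T.M.m → ℂ) (u : ℂ)
        (hx : (O T ok).G.z x₁ = fun j => a j + u * d j)
        (ρ : Ray ((O T ok).G.line a d) ((O T ok).G.onLine a d x₁ u hx)) {Y : ℝ}
        (hY : ρ.Y₂ ≤ Y), 0 < Y → ∃ κ : ℝ, 0 < κ ∧ MemF (O T ok) A ρ κ hY) :
    AlgAll F hQ O hl fun A K => Nonempty (AlgE F A K) := by
  intro T ok A hA rel x₁ c j u hx ρ
  have hY0 : 0 < max ρ.Y₂ 1 := lt_max_of_lt_right one_pos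
  obtain ⟨κ, hκ, h⟩ := hm T ok A hA rel x₁ _ _ u hx ρ (le_max_left ρ.Y₂ 1) hY0
  exact ⟨max ρ.Y₂ 1, hY0, le_max_left _ _, algE_of ρ hκ hY0 _ (hl T ok A hA rel) h⟩

end

end Crest.Agent.R281.Aga_581
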