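import Crest.Agent.R281.Dvp1_326
import Crest.Agent.R281.Lf3_830
import Crest.Agent.R281.Aga1_581

/-!
# Row 281, DIV 2 in the context of RANK281 (helper326), part 2: LIFT, and `RoadP` from `MemF`

* `liftP`     : **LIFT is proved** (830)
* `MemFP`     : 581's `MemF` (the members over the end carry the algebraic data; 867), in the context
* `algP_of`   : `MemFP → AlgP liftP Alg_867.Alg`
* `roadP_of_memF` : **`MemFP → RoadP Alg_867.Alg`**
-/

set_option autoImplicit false
set_option linter.unusedSectionVars false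
set_option maxSynthPendingDepth 5

open Set Filter Topology
open scoped ContDiff

namespace Crest.Agent.R281.Dvp_326

open Crest.Agent.R275.Geo Crest.Agent.R275.Core144
open Crest.Agent.R281.HkR_835 Crest.Agent.R281.Ehr2_268 Crest.Agent.R281.Dif_268
  Crest.Agent.R281.Ehr4_268 Crest.Agent.R281.Ehr6_268 Crest.Agent.R281.Ehr7_268
  Crest.Agent.R281.Ehr8_268 Crest.Agent.R281.Cdr_234
open Crest.Agent.R281.Alg_998 Crest.Agent.R281.RkD_902 Crest.Agent.R281.Dv_957
open Crest.Agent.R281.Sta2_684 (QS)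
open Crest.Agent.R281.Sta3_684 (Bq)
open Crest.Agent.R281.Hmi_790 (qs hmOut)
open Crest.Agent.R281.Rd_326 (Div2P roadP)
open Crest.Agent.R281.Cus_581 Crest.Agent.R281.Aga_581 Crest.Agent.R281.Am_957
  Crest.Agent.R281.As_957

noncomputable section

/-- **LIFT** -/
theorem liftP : LiftP := fun _ _ _ _ _ _ _ _ hC F =>
  Lf_830.liftAll hC (qs hC) F (hmOut hC F)

/-- the members over the end of a ray carry the algebraic data (581's `MemF`) -/
def MemFP : Prop :=
  ∀ (n : ℕ) (X : Type) [TopologicalSpace X] [CompactSpace X] [T2Space X]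
    [SimplyConnectedSpace X] (C : RCh (Cn (2 * n)) X) (Q : F2 C →ₗ[ℝ] F2 C →ₗ[ℝ] ℝ)
    (hC : Ctx n C Q) (F : Frm C Q) (T : Ty (2 * n) C) (ok : T.Ok F (qs hC)) (A : F2 C),
    AOk F A → T.Rel A → ∀ (x₁ : (hmOut hC F T ok).G.T) (a d : Fin T.M.m → ℂ) (u : ℂ)
      (hx : (hmOut hC F T ok).G.z x₁ = fun j => a j + u * d j)
      (ρ : Ray ((hmOut hC F T ok).G.line a d) ((hmOut hC F T ok).G.onLine a d x₁ u hx)) {Y : ℝ}
      (hY : ρ.Y₂ ≤ Y), 0 < Y → ∃ κ : ℝ, 0 < κ ∧ MemF (hmOut hC F T ok) A ρ κ hY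

/-- **957's (d)** -/
theorem algP_of (h : MemFP) : AlgP liftP Alg_867.Alg := by
  intro n X _ _ _ _ C Q hC F
  exact algAll_of (hmOut hC F) (liftP n X C Q hC F) fun T ok A hA rel x₁ a d u hx ρ _ hY h0 =>
    h n X C Q hC F T ok A hA rel x₁ a d u hx ρ hY h0

/-- **DIV 2** -/
theorem div2P_of_memF (h : MemFP) : Div2P Alg_867.Alg := div2P_of liftP (algP_of h)

/-- **the node `RoadP`** -/
theorem roadP_of_memF (h : MemFP) : RoadP Alg_867.Alg := roadP_of liftP (algP_of h)

end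

end Crest.Agent.R281.Dvp_326
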