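import Crest.Agent.R281.AgM2_313
import Crest.Agent.R281.Dvp2_326

/-!
# R281 (S0424), DIV 2 (helper313): the nodes `Div2P` and `RoadP`

* `memFP`   : `MemFP` of helper326
* `div2P`   : **`Div2P Alg_867.Alg`**
* `roadP'`  : **`RoadP Alg_867.Alg`**
-/

set_option autoImplicit false
set_option linter.unusedSectionVars false
set_option maxSynthPendingDepth 5

namespace Crest.Agent.R281.AgM_313

open Crest.Agent.R281.Alg_998 Crest.Agent.R281.RkD_902 Crest.Agent.R281.Dv_957
open Crest.Agent.R281.Hmi_790 (qs hmOut)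
open Crest.Agent.R281.Rd_326 (Div2P)
open Crest.Agent.R281.Dvp_326 (MemFP div2P_of_memF roadP_of_memF)

/-- **the members over the end of a ray carry the algebraic data** -/
theorem memFP : MemFP := by
  intro n X _ _ _ _ C Q hC F T ok A _ hR x₁ a d u hx ρ Y hY _
  obtain ⟨c, hc, hB⟩ := hR
  exact ⟨Real.pi * c, mul_pos Real.pi_pos hc, memF (hmOut hC F T ok) A ρ hB hY⟩

/-- **DIV 2** -/
theorem div2P : Div2P Alg_867.Alg := div2P_of_memF memFP

/-- **the node `RoadP`** -/
theorem roadP' : RoadP Alg_867.Alg := roadP_of_memF memFP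

end Crest.Agent.R281.AgM_313
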