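import Crest.Agent.R281.Aga1_581

/-!
# R281 (S0424), DIV 2 (helper581): the classes of the algebraic form along a ray

* `re_im_of_cv` : `a + i b = β σ_τ` in the frame gives the classes of real and imaginary part
* `MemMk T F A κ` : the markings with the prescribed classes carry `MemA` (literal target)
* `memF_of`     : **`MemMk → MemF`** for every ray
* `algAll_of_mk` : `AlgAll` from `MemMk`
-/

set_option autoImplicit false
set_option linter.unusedSectionVars false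
set_option maxSynthPendingDepth 3

open Set Filter Topology UpperHalfPlane
open scoped ContDiff

namespace Crest.Agent.R281.Aga_581

open Crest.Agent.R275.Geo Crest.Agent.R275.Core144
open Crest.Agent.R281.HkR_835 Crest.Agent.R281.Ehr2_268 Crest.Agent.R281.Dif_268
  Crest.Agent.R281.Ehr4_268 Crest.Agent.R281.Ehr6_268 Crest.Agent.R281.Ehr7_268
  Crest.Agent.R281.Ehr8_268 Crest.Agent.R281.Cdr_234 Crest.Agent.R281.Sl_957
  Crest.Agent.R281.Am_957 Crest.Agent.R281.CA_867 Crest.Agent.R281.QF_871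
  Crest.Agent.R281.Alg_998 Crest.Agent.R281.CL_473 Crest.Agent.R281.LI_473
  Crest.Agent.R281.As_957 Crest.Agent.R281.Nc_957 Crest.Agent.R281.Cus_581
  Crest.Agent.R281.Pe_313 Crest.Agent.R281.Dv_957 Crest.Agent.R281.Ra_989
  Crest.Agent.R281.Alg_867
open Crest.Agent.R281.Esc1_989 Crest.Agent.R281.Ends2_989 Crest.Agent.R281.Ends3_989
open Crest.Agent.R281.Sta2_684 (QS)
open Crest.Agent.R281.Sta3_684 (Bq)

noncomputable section

variable {n : ℕ} {X : Type} [TopologicalSpace X] [CompactSpace X] [T2Space X]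
  {C : RCh (Cn (2 * n)) X} {Q : F2 C →ₗ[ℝ] F2 C →ₗ[ℝ] ℝ} {T : Ty (2 * n) C} {F : Frm C Q}
  {hQ : QS Q}

/-- **classes from the coordinates in the frame** -/
theorem re_im_of_cv {a b : HdR C} (ha : a ∈ (frF F hQ).M) (hb : b ∈ (frF F hQ).M) {β τ : ℂ}
    (h : (frF F hQ).cv a b = β • sig F.N τ) :
    a = cl (β.re • F.sre τ - β.im • F.sim τ) ∧ b = cl (β.im • F.sre τ + β.re • F.sim τ) := by
  have e1 : (frF F hQ).co a = fun k => ((β • sig F.N τ) k).re := by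
    rw [← h, Fr.cv_re]
  have e2 : (frF F hQ).co b = fun k => ((β • sig F.N τ) k).im := by
    rw [← h, Fr.cv_im]
  have f0 : (frF F hQ).f = cl F.es := rfl
  have f1 : (frF F hQ).v = cl F.v := rfl
  have f2 : (frF F hQ).e = cl F.e := rfl
  have hsq : ((F.N : ℂ) / 2 * τ ^ 2).re = F.N / 2 * (τ.re ^ 2 - τ.im ^ 2) := by
    have : (F.N : ℂ) / 2 = ((F.N / 2 : ℝ) : ℂ) := by push_cast; ring
    rw [this, Complex.re_ofReal_mul, pow_two, Complex.mul_re]; ring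
  have hsq' : ((F.N : ℂ) / 2 * τ ^ 2).im = F.N * (τ.re * τ.im) := by
    have : (F.N : ℂ) / 2 = ((F.N / 2 : ℝ) : ℂ) := by push_cast; ring
    rw [this, Complex.im_ofReal_mul, pow_two, Complex.mul_im]; ring
  constructor
  · have h1 := (frF F hQ).κ_co ha
    rw [← h1, e1, Fr.κ_apply, f0, f1, f2]
    have g0 : ((β • sig F.N τ) 0).re = β.re := by simp [sig]
    have g1 : ((β • sig F.N τ) 1).re = β.re * τ.re - β.im * τ.im := by
      simp [sig, Complex.mul_re]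
    have g2 : ((β • sig F.N τ) 2).re =
        -(β.re * (F.N / 2 * (τ.re ^ 2 - τ.im ^ 2)) - β.im * (F.N * (τ.re * τ.im))) := by
      have : (β • sig F.N τ) 2 = -(β * ((F.N : ℂ) / 2 * τ ^ 2)) := by
        simp [sig]
      rw [this, Complex.neg_re, Complex.mul_re, hsq, hsq']
    rw [g0, g1, g2]
    simp only [Frm.sre, Frm.sim, ← cl_add, ← cl_smul]
    congr 1
    module
  · have h1 := (frF F hQ).κ_co hb
    rw [← h1, e2, Fr.κ_apply, f0, f1, f2]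
    have g0 : ((β • sig F.N τ) 0).im = β.im := by simp [sig]
    have g1 : ((β • sig F.N τ) 1).im = β.re * τ.im + β.im * τ.re := by
      simp [sig, Complex.mul_im]
    have g2 : ((β • sig F.N τ) 2).im =
        -(β.re * (F.N * (τ.re * τ.im)) + β.im * (F.N / 2 * (τ.re ^ 2 - τ.im ^ 2))) := by
      have : (β • sig F.N τ) 2 = -(β * ((F.N : ℂ) / 2 * τ ^ 2)) := by
        simp [sig]
      rw [this, Complex.neg_im, Complex.mul_im, hsq, hsq']
    rw [g0, g1, g2]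
    simp only [Frm.sre, Frm.sim, ← cl_add, ← cl_smul]
    congr 1
    module

/-- **the markings with the prescribed classes carry the algebraic data** (helper867) -/
def MemMk (T : Ty (2 * n) C) (F : Frm C Q) (A : F2 C) (κ : ℝ) : Prop :=
  ∀ (m : Mark T.F C) (β τ : ℂ) (H : HkT C), CxOf m.P H →
    (∀ i, T.cls i (MQ.mk m) = T.pcl i) →
    cl (T.qc.re.form m) = cl (β.re • F.sre τ - β.im • F.sim τ) →
    cl (T.qc.im.form m) = cl (β.im • F.sre τ + β.re • F.sim τ) →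
    Nonempty (MemA F A (T.K.mem (T.M.pt m.q.1.1 m.q.1.2)) κ β τ H)

section one

variable {O : HmOut T F hQ} {A : F2 C} {x₁ : O.G.T} {a d : Fin T.M.m → ℂ} {u : ℂ}
  {hx : O.G.z x₁ = fun j => a j + u * d j} (ρ : Ray (O.G.line a d) (O.G.onLine a d x₁ u hx))

theorem hΨ {τ : ℂ} (h : ρ.Y₂ < τ.im) :
    ((O.G.line a d).Ψ (ρ.g • ρ.e.F (ρ.k τ)) : ℂ) = τ :=
  (ρ.nf _ (ρ.k_im τ h)).trans (ρ.k_inv τ h)

theorem hcv {τ : ℂ} (h : ρ.Y₂ < τ.im) :
    (frF F hQ).cv (O.D.re (mkE ρ.e ρ.g (ρ.k τ)).1) (O.D.im (mkE ρ.e ρ.g (ρ.k τ)).1) =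
      bE ρ.e ρ.g (ρ.k τ) • sig F.N τ :=
  (cv_bE ρ.e ρ.g (ρ.k τ)).trans (congrArg (fun t => bE ρ.e ρ.g (ρ.k τ) • sig F.N t) (hΨ ρ h))

theorem h_pt {τ : ℂ} (h : ρ.Y₂ < τ.im) {m : Mark T.F C}
    (hmk : (MQ.mk m : MQ T.F C) = (mkE ρ.e ρ.g (ρ.k τ)).1) :
    T.M.pt m.q.1.1 m.q.1.2 = fun i => ev (hp (ρ.k τ) (ρ.k_im τ h)) (cE ρ.e.En i) := by
  have h1 : m.q = T.L.p (MQ.mk m) := rfl
  have h2 : m.q = qE ρ.e.En ⟨ρ.k τ, mem_Hp (ρ.k_im τ h).le⟩ :=
    h1.trans ((congrArg T.L.p hmk).trans (mkE_pr ρ.e ρ.g (ρ.k_im τ h).le))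
  exact (congrArg (fun q : QM T.M => T.M.pt q.1.1 q.1.2) h2).trans
      (ev_cE' ρ.e.En (hp (ρ.k τ) (ρ.k_im τ h))).symm

theorem h_cl {x : O.D.Mk} {m : Mark T.F C} (hmk : (MQ.mk m : MQ T.F C) = x.1) :
    (∀ i, T.cls i (MQ.mk m) = T.pcl i) ∧ cl (T.qc.re.form m) = O.D.re x.1 ∧
      cl (T.qc.im.form m) = O.D.im x.1 := by
  refine ⟨fun i => ?_, ?_, ?_⟩
  · have h3 := x.2.1 i
    rw [O.cls, O.cl, ← hmk] at h3
    exact h3
  · rw [O.re, ← hmk]; rfl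
  · rw [O.im, ← hmk]; rfl

/-- **the members over the end** -/
theorem memF_of {κ : ℝ} (hm : MemMk T F A κ) {Y : ℝ} (hY : ρ.Y₂ ≤ Y) : MemF O A ρ κ hY := by
  rintro τ H h ⟨-, m, hmk, hcx⟩
  have hY2 : ρ.Y₂ < τ.im := hY.trans_lt h
  obtain ⟨h1, h2, h3⟩ := h_cl (x := mkE ρ.e ρ.g (ρ.k τ)) hmk
  have hper := O.D.isPer (mkE ρ.e ρ.g (ρ.k τ)).2.1
  obtain ⟨h4, h5⟩ := re_im_of_cv hper.a_mem hper.b_mem (hcv ρ hY2)
  have h6 := hm m _ τ H hcx h1 (h2.trans h4) (h3.trans h5)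
  rwa [h_pt ρ hY2 hmk] at h6

end one

/-- **`AlgAll` of helper957 from the markings** -/
theorem algAll_of_mk (O : ∀ T : Ty (2 * n) C, T.Ok F hQ → HmOut T F hQ) (hl : LiftAll F hQ O)
    (hm : ∀ (T : Ty (2 * n) C), T.Ok F hQ → ∀ A : F2 C, AOk F A → T.Rel A →
      ∃ κ : ℝ, 0 < κ ∧ MemMk T F A κ) :
    AlgAll F hQ O hl fun A K => Nonempty (AlgE F A K) :=
  algAll_of O hl fun T ok A hA rel x₁ a d u hx ρ Y hY _ => by
    obtain ⟨κ, hκ, h⟩ := hm T ok A hA rel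
    exact ⟨κ, hκ, memF_of ρ h hY⟩

end

end Crest.Agent.R281.Aga_581
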