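import Crest.Agent.R281.Aga2_581
import Crest.Agent.R281.AgM1_313
import Crest.Agent.R281.Dvp2_326

/-!
# R281 (S0424), DIV 2 (helper581): the node `RoadP`

* `memMk`   : the markings with the prescribed classes carry `MemA` (helper313, 592, 957)
* `algP`    : **helper957's (d)** in the context
* `div2P`   : **DIV 2** : `Div2P Alg_867.Alg`
* `road`    : **the node `RoadP Alg_867.Alg`** (helper326)
-/

set_option autoImplicit false
set_option linter.unusedSectionVars false
set_option maxSynthPendingDepth 3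

open Set Filter Topology
open scoped ContDiff

namespace Crest.Agent.R281.Aga_581

open Crest.Agent.R275.Geo Crest.Agent.R275.Core144
open Crest.Agent.R281.HkR_835 Crest.Agent.R281.Ehr2_268 Crest.Agent.R281.Dif_268
  Crest.Agent.R281.Ehr4_268 Crest.Agent.R281.Ehr6_268 Crest.Agent.R281.Ehr7_268
  Crest.Agent.R281.Ehr8_268 Crest.Agent.R281.Cdr_234 Crest.Agent.R281.Alg_998
  Crest.Agent.R281.Dv_957 Crest.Agent.R281.Pe_313 Crest.Agent.R281.RkD_902
open Crest.Agent.R281.Sta2_684 (QS)
open Crest.Agent.R281.Hmi_790 (qs hmOut)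
open Crest.Agent.R281.Rd_326 (Div2P roadP)
open Crest.Agent.R281.Dvp_326 (liftP AlgP div2P_of roadP_of)

noncomputable section

section mk

variable {n : ℕ} {X : Type} [TopologicalSpace X] [CompactSpace X] [T2Space X]
  {C : RCh (Cn (2 * n)) X} {Q : F2 C →ₗ[ℝ] F2 C →ₗ[ℝ] ℝ}

theorem Cl_of_cl {w w' : F2 C} (h : cl w = cl w') : Cl w w' :=
  (ex_sub_iff w w').mpr (cl_eq_iff.mp h)

/-- **the markings with the prescribed classes carry the algebraic data** -/
theorem memMk {T : Ty (2 * n) C} {F : Frm C Q} {A : F2 C} (rel : T.Rel A) :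
    ∃ κ : ℝ, 0 < κ ∧ MemMk T F A κ := by
  obtain ⟨c, hc, h⟩ := rel
  exact ⟨Real.pi * c, mul_pos Real.pi_pos hc, fun m β τ H hcx hcls h1 h2 =>
    ⟨AgM_313.memA_of_mark T m hcx (Cl_of_cl (cl_eq_iff.mpr (T.ex_tot hcls h))) (Cl_of_cl h1)
      (Cl_of_cl h2)⟩⟩

end mk

/-- **the algebraic data of all ends** (957's (d)) -/
theorem algP : AlgP liftP Alg_867.Alg := by
  intro n X _ _ _ _ C Q hC F
  exact algAll_of_mk (hmOut hC F) (liftP n X C Q hC F) fun T ok A hA rel => memMk rel

/-- **DIV 2** -/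
theorem div2P : Div2P Alg_867.Alg := div2P_of liftP algP

/-- **the node `RoadP`** -/
theorem road : RoadP Alg_867.Alg := roadP_of liftP algP

end

end Crest.Agent.R281.Aga_581
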