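import Crest.Agent.R281.Dif1_268
import Crest.Agent.R240.SmInt

/-!
# R281, DIF-HTPY (helper268), part 2: product with `ℝ` and the homotopy formula

* `prodR C`      : real charts of `ℝ × X`
* `slice C s`    : `x ↦ (s, x)` as a smooth map
* `Coh w w'`     : `w - w'` is exact (equivalence relation, respects pull back, `ex_iff`)
* `coh_slice`    : `Coh ((slice C 1).pull W) ((slice C 0).pull W)` for every closed `W` on `ℝ × X`
* `coh_homotopy` : smoothly homotopic maps have cohomologous pull backs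
-/

set_option autoImplicit false
set_option maxSynthPendingDepth 5

open Set Filter Topology MeasureTheory
open scoped ContDiff

namespace Crest.Agent.R281.Dif_268

open Crest.Agent.R281.HkR_835 Crest.Agent.R260.ACM_580
open Crest.Agent.R281.Ti_846 hiding pb pb_apply symm2

noncomputable section

variable {V V' V'' X X' X'' : Type} [NormedAddCommGroup V] [NormedSpace ℝ V]
  [NormedAddCommGroup V'] [NormedSpace ℝ V'] [NormedAddCommGroup V''] [NormedSpace ℝ V'']
  [TopologicalSpace X] [TopologicalSpace X'] [TopologicalSpace X'']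
  {C : RCh V X} {C' : RCh V' X'}

/-- real charts of `ℝ × X` -/
def prodR (C : RCh V X) : RCh (ℝ × V) (ℝ × X) where
  ι := C.ι
  e i := (OpenPartialHomeomorph.refl ℝ).prod (C.e i)
  cover := fun x => by
    obtain ⟨i, hi⟩ := C.cover x.2
    exact ⟨i, ⟨mem_univ _, hi⟩⟩
  sm i j := by
    have h1 : ContDiffOn ℝ ∞ (fun z : ℝ × V => (z.1, C.t i j z.2))
        {z | z.2 ∈ C.ov i j} :=
      contDiffOn_fst.prodMk ((C.sm i j).comp contDiffOn_snd fun z hz => hz)
    refine (h1.mono ?_).congr ?_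
    · intro z hz
      exact ⟨hz.1.2, hz.2.2⟩
    · intro z hz
      rfl

theorem prodR_target (i : C.ι) (p : ℝ × V) :
    p ∈ ((prodR C).e i).target ↔ p.2 ∈ (C.e i).target := by
  show p ∈ (univ : Set ℝ) ×ˢ (C.e i).target ↔ _
  simp

theorem prodR_source (i : C.ι) (p : ℝ × X) :
    p ∈ ((prodR C).e i).source ↔ p.2 ∈ (C.e i).source := by
  show p ∈ (univ : Set ℝ) ×ˢ (C.e i).source ↔ _
  simp

theorem prodR_e (i : C.ι) (p : ℝ × X) : (prodR C).e i p = (p.1, C.e i p.2) := rfl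

theorem prodR_symm (i : C.ι) (p : ℝ × V) : ((prodR C).e i).symm p = (p.1, (C.e i).symm p.2) := rfl

theorem prodR_t (i j : C.ι) (p : ℝ × V) : (prodR C).t i j p = (p.1, C.t i j p.2) := rfl

theorem prodR_ov {i j : C.ι} {z : V} (hz : z ∈ C.ov i j) (s : ℝ) : (s, z) ∈ (prodR C).ov i j := by
  refine ⟨(prodR_target i (s, z)).mpr hz.1, ?_⟩
  rw [prodR_symm, prodR_source]
  exact hz.2

theorem fderiv_prodR_t {i j : C.ι} {z : V} (hz : z ∈ C.ov i j) (s : ℝ) (p : ℝ × V) :
    fderiv ℝ ((prodR C).t i j) (s, z) p = (p.1, fderiv ℝ (C.t i j) z p.2) := by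
  have h1 : HasFDerivAt (C.t i j) (fderiv ℝ (C.t i j) z) z := (RCh.t_diff hz).hasFDerivAt
  have h2 : HasFDerivAt (fun p : ℝ × V => (p.1, C.t i j p.2))
      ((ContinuousLinearMap.fst ℝ ℝ V).prod
        ((fderiv ℝ (C.t i j) z).comp (ContinuousLinearMap.snd ℝ ℝ V))) (s, z) :=
    hasFDerivAt_fst.prodMk
      (HasFDerivAt.comp (f := fun p : ℝ × V => p.2) (g := C.t i j) (s, z) h1 hasFDerivAt_snd)
  have h3 : (prodR C).t i j = fun p : ℝ × V => (p.1, C.t i j p.2) := rfl
  rw [h3, h2.fderiv]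
  rfl

/-- `x ↦ (s, x)` -/
def slice (C : RCh V X) (s : ℝ) : SMap C (prodR C) where
  f := fun x => (s, x)
  cont := by fun_prop
  sm i j := by
    have h1 : ContDiffOn ℝ ∞ (fun z : V => (s, C.t j i z)) (C.ov j i) :=
      contDiffOn_const.prodMk (C.sm j i)
    refine (h1.mono ?_).congr ?_
    · intro z hz
      exact ⟨hz.1, (prodR_source (C := C) i _).mp hz.2⟩
    · intro z hz
      rfl

theorem slice_dom {i : C.ι} {z : V} (hz : z ∈ (C.e i).target) (s : ℝ) :
    z ∈ dom (prodR C) C (slice C s).f i i :=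
  ⟨hz, (prodR_source i _).mpr ((C.e i).map_target hz)⟩

theorem slice_loc {i : C.ι} {z : V} (hz : z ∈ (C.e i).target) (s : ℝ) :
    loc (prodR C) C (slice C s).f i i z = (s, z) := by
  show (s, C.e i ((C.e i).symm z)) = _
  rw [(C.e i).right_inv hz]

theorem slice_dloc {i : C.ι} {z : V} (hz : z ∈ (C.e i).target) (s : ℝ) (v : V) :
    fderiv ℝ (loc (prodR C) C (slice C s).f i i) z v = (0, v) := by
  have h1 : loc (prodR C) C (slice C s).f i i =ᶠ[𝓝 z] fun y => (s, y) := by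
    filter_upwards [(C.e i).open_target.mem_nhds hz] with y hy using slice_loc hy s
  rw [h1.fderiv_eq, (hasFDerivAt_prodMk_right s z).fderiv]
  rfl

theorem slice_pull (W : F2 (prodR C)) {i : C.ι} {z : V} (hz : z ∈ (C.e i).target) (s : ℝ)
    (u v : V) : ((slice C s).pull W).w i z u v = W.w i (s, z) (0, u) (0, v) := by
  rw [(slice C s).pull_w W (slice_dom hz s), slice_loc hz, slice_dloc hz, slice_dloc hz]

/-! ### cohomologous forms -/

/-- `w - w'` is exact -/
def Coh (w w' : F2 C) : Prop := ∃ η : F1 C, ∀ i, ∀ z ∈ (C.e i).target, ∀ u v,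
  w.w i z u v - w'.w i z u v = fderiv ℝ (η.η i) z u v - fderiv ℝ (η.η i) z v u

/-- linear combination of 1-forms -/
def F1.comb (a b : ℝ) (η θ : F1 C) : F1 C where
  η i z := a • η.η i z + b • θ.η i z
  sm i := ((η.sm i).const_smul a).add ((θ.sm i).const_smul b)
  tr i j z hz v := by
    simp only [add_apply, smul_apply, smul_eq_mul]
    rw [η.tr i j z hz, θ.tr i j z hz]

theorem F1.comb_d (a b : ℝ) (η θ : F1 C) {i : C.ι} {z : V} (hz : z ∈ (C.e i).target) (u v : V) :
    fderiv ℝ ((F1.comb a b η θ).η i) z u v =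
      a * fderiv ℝ (η.η i) z u v + b * fderiv ℝ (θ.η i) z u v := by
  have h1 := ((F1dAt η hz).hasFDerivAt.const_smul a).add ((F1dAt θ hz).hasFDerivAt.const_smul b)
  have h2 : (F1.comb a b η θ).η i = (a • η.η i) + (b • θ.η i) := rfl
  rw [h2, h1.fderiv]
  simp

theorem Coh.refl (w : F2 C) : Coh w w :=
  ⟨⟨fun _ _ => 0, fun _ => contDiffOn_const, fun _ _ _ _ _ => by simp⟩, fun i z _ u v => by simp⟩

theorem Coh.symm {w w' : F2 C} (h : Coh w w') : Coh w' w := by
  obtain ⟨η, hη⟩ := h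
  refine ⟨F1.comb (-1) 0 η η, fun i z hz u v => ?_⟩
  rw [F1.comb_d _ _ _ _ hz, F1.comb_d _ _ _ _ hz]
  linarith [hη i z hz u v]

theorem Coh.trans {w w' w'' : F2 C} (h : Coh w w') (h' : Coh w' w'') : Coh w w'' := by
  obtain ⟨η, hη⟩ := h
  obtain ⟨θ, hθ⟩ := h'
  refine ⟨F1.comb 1 1 η θ, fun i z hz u v => ?_⟩
  rw [F1.comb_d _ _ _ _ hz, F1.comb_d _ _ _ _ hz]
  linarith [hη i z hz u v, hθ i z hz u v]

theorem Eqv.coh {w w' : F2 C} (h : Eqv w w') : Coh w w' := by
  obtain ⟨η, hη⟩ := Coh.refl w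
  refine ⟨η, fun i z hz u v => ?_⟩
  rw [← h i z hz u v]
  exact hη i z hz u v

theorem Coh.ex {w w' : F2 C} (h : Coh w w') (he : Ex w') : Ex w := by
  obtain ⟨η, hη⟩ := h
  obtain ⟨θ, hθ⟩ := he
  refine ⟨F1.comb 1 1 η θ, fun i z hz u v => ?_⟩
  rw [F1.comb_d _ _ _ _ hz, F1.comb_d _ _ _ _ hz]
  linarith [hη i z hz u v, hθ i z hz u v]

theorem Coh.pull {w w' : F2 C} (h : Coh w w') (g : SMap C' C) : Coh (g.pull w) (g.pull w') := by
  obtain ⟨η, hη⟩ := h
  have h1 : IsD (F2.lin ![1, -1] ![w, w']) η := by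
    intro i z hz u v
    rw [F2.lin_w, ← hη i z hz u v]
    simp [Fin.sum_univ_two]
    ring
  refine ⟨g.pull1 η, fun j z hz u v => ?_⟩
  rw [← g.isD_pull h1 j z hz u v]
  obtain ⟨i, hi⟩ := g.exists_dom hz
  rw [g.pull_w w hi, g.pull_w w' hi, g.pull_w _ hi, F2.lin_w]
  simp [Fin.sum_univ_two]
  ring

theorem coh_iff_ex (w w' : F2 C) : Coh w w' ↔ Ex (F2.lin ![1, -1] ![w, w']) := by
  constructor
  · rintro ⟨η, hη⟩
    refine ⟨η, fun i z hz u v => ?_⟩
    rw [F2.lin_w, ← hη i z hz u v]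
    simp [Fin.sum_univ_two]
    ring
  · rintro ⟨η, hη⟩
    refine ⟨η, fun i z hz u v => ?_⟩
    rw [← hη i z hz u v, F2.lin_w]
    simp [Fin.sum_univ_two]
    ring

/-! ### the homotopy formula -/

/-- integrand of the primitive -/
def hη (W : F2 (prodR C)) (i : C.ι) (p : V × ℝ) : V →L[ℝ] ℝ :=
  (W.w i (p.2, p.1) (1, 0)).comp (ContinuousLinearMap.inr ℝ ℝ V)

theorem hη_sm (W : F2 (prodR C)) (i : C.ι) :
    ContDiffOn ℝ ∞ (hη W i) ((C.e i).target ×ˢ (univ : Set ℝ)) := by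
  have h1 : ContDiffOn ℝ ∞ (fun p : V × ℝ => W.w i (p.2, p.1))
      ((C.e i).target ×ˢ (univ : Set ℝ)) :=
    (W.sm i).comp (contDiffOn_snd.prodMk contDiffOn_fst) fun p hp =>
      (prodR_target i _).mpr hp.1
  exact (h1.clm_apply contDiffOn_const).clm_comp contDiffOn_const

/-- the primitive -/
def prim (W : F2 (prodR C)) : F1 C where
  η i z := ∫ s in Icc (0 : ℝ) 1, hη W i (z, s)
  sm i := Crest.Agent.R240.SmJ.contDiffOn_integral
    ((C.e i).open_target.prod isOpen_univ) (C.e i).open_target isCompact_Icc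
    (prod_mono subset_rfl (subset_univ _)) volume (hη_sm W i)
  tr i j z hz v := by
    have hint : ∀ (k : C.ι) (y : V), y ∈ (C.e k).target →
        Integrable (fun s => hη W k (y, s)) (volume.restrict (Icc (0 : ℝ) 1)) := by
      intro k y hy
      have h1 : ContinuousOn (fun s : ℝ => hη W k (y, s)) (Icc 0 1) :=
        (hη_sm W k).continuousOn.comp (by fun_prop) fun s _ => ⟨hy, mem_univ _⟩
      exact h1.integrableOn_compact isCompact_Icc
    rw [ContinuousLinearMap.integral_apply (hint i z hz.1),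
      ContinuousLinearMap.integral_apply (hint j _ (RCh.t_mem hz).1)]
    refine integral_congr_ae (Eventually.of_forall fun s => ?_)
    show W.w i (s, z) (1, 0) (0, v) = W.w j (s, C.t i j z) (1, 0) (0, fderiv ℝ (C.t i j) z v)
    rw [W.tr i j (s, z) (prodR_ov hz s), fderiv_prodR_t hz, fderiv_prodR_t hz, prodR_t]
    simp

theorem dx_hη (W : F2 (prodR C)) {i : C.ι} {z : V} (hz : z ∈ (C.e i).target) (s : ℝ) (u v : V) :
    Crest.Agent.R240.SmJ.dx (hη W i) (z, s) u v =
      fderiv ℝ (W.w i) (s, z) (0, u) (1, 0) (0, v) := by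
  have hW : HasFDerivAt (W.w i) (fderiv ℝ (W.w i) (s, z)) (s, z) :=
    (W.diffAt ((prodR_target i _).mpr hz)).hasFDerivAt
  have hp : HasFDerivAt (fun p : V × ℝ => (p.2, p.1)) ((ContinuousLinearMap.snd ℝ V ℝ).prod
      (ContinuousLinearMap.fst ℝ V ℝ)) (z, s) := hasFDerivAt_snd.prodMk hasFDerivAt_fst
  have hW' : HasFDerivAt (W.w i) (fderiv ℝ (W.w i) (s, z))
      ((fun p : V × ℝ => (p.2, p.1)) (z, s)) := hW
  have h1 : HasFDerivAt (fun p : V × ℝ => W.w i (p.2, p.1))
      ((fderiv ℝ (W.w i) (s, z)).comp ((ContinuousLinearMap.snd ℝ V ℝ).prod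
        (ContinuousLinearMap.fst ℝ V ℝ))) (z, s) :=
    HasFDerivAt.comp (f := fun p : V × ℝ => (p.2, p.1)) (g := W.w i) (z, s) hW' hp
  have h2 := (h1.clm_apply (hasFDerivAt_const ((1, 0) : ℝ × V) (z, s))).clm_comp
    (hasFDerivAt_const (ContinuousLinearMap.inr ℝ ℝ V) (z, s))
  have h3 : fderiv ℝ (hη W i) (z, s) = _ := h2.fderiv
  rw [Crest.Agent.R240.SmJ.dx, h3]
  simp

theorem ds_W (W : F2 (prodR C)) {i : C.ι} {z : V} (hz : z ∈ (C.e i).target) (s : ℝ) (u v : V) :
    HasDerivAt (fun s => W.w i (s, z) (0, u) (0, v))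
      (fderiv ℝ (W.w i) (s, z) (1, 0) (0, u) (0, v)) s := by
  have hW : HasFDerivAt (W.w i) (fderiv ℝ (W.w i) (s, z)) (s, z) :=
    (W.diffAt ((prodR_target i _).mpr hz)).hasFDerivAt
  have h0 : HasDerivAt (fun s : ℝ => (s, z)) ((1, 0) : ℝ × V) s :=
    (hasDerivAt_id s).prodMk (hasDerivAt_const s z)
  have hW' : HasFDerivAt (W.w i) (fderiv ℝ (W.w i) (s, z)) ((fun s : ℝ => (s, z)) s) := hW
  have h1 : HasDerivAt (W.w i ∘ fun s : ℝ => (s, z)) (fderiv ℝ (W.w i) (s, z) (1, 0)) s :=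
    hW'.comp_hasDerivAt s h0
  have h2 := (h1.clm_apply (hasDerivAt_const s ((0, u) : ℝ × V))).clm_apply
    (hasDerivAt_const s ((0, v) : ℝ × V))
  simpa using h2

/-- **homotopy formula** -/
theorem coh_slice (W : F2 (prodR C)) :
    Coh ((slice C 1).pull W) ((slice C 0).pull W) := by
  refine ⟨prim W, fun i z hz u v => ?_⟩
  have hs : IsOpen ((C.e i).target ×ˢ (univ : Set ℝ)) := (C.e i).open_target.prod isOpen_univ
  have hd := Crest.Agent.R240.SmJ.hasFDerivAt_integral hs (C.e i).open_target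
    (isCompact_Icc (a := (0 : ℝ)) (b := 1)) (prod_mono subset_rfl (subset_univ _)) volume
    (hη_sm W i) hz
  have e1 : fderiv ℝ ((prim W).η i) z = ∫ s in Icc (0 : ℝ) 1,
      Crest.Agent.R240.SmJ.dx (hη W i) (z, s) := hd.fderiv
  have hdx : ContDiffOn ℝ ∞ (Crest.Agent.R240.SmJ.dx (hη W i))
      ((C.e i).target ×ˢ (univ : Set ℝ)) := Crest.Agent.R240.SmJ.contDiffOn_dx hs (hη_sm W i)
  have hint : Integrable (fun s => Crest.Agent.R240.SmJ.dx (hη W i) (z, s))
      (volume.restrict (Icc (0 : ℝ) 1)) := by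
    have h1 : ContinuousOn (fun s : ℝ => Crest.Agent.R240.SmJ.dx (hη W i) (z, s)) (Icc 0 1) :=
      hdx.continuousOn.comp (by fun_prop) fun s _ => ⟨hz, mem_univ _⟩
    exact h1.integrableOn_compact isCompact_Icc
  have hint1 : ∀ u, Integrable (fun s => Crest.Agent.R240.SmJ.dx (hη W i) (z, s) u)
      (volume.restrict (Icc (0 : ℝ) 1)) := fun u =>
    (ContinuousLinearMap.apply ℝ (V →L[ℝ] ℝ) u).integrable_comp hint
  have hint2 : ∀ u v, Integrable (fun s => Crest.Agent.R240.SmJ.dx (hη W i) (z, s) u v)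
      (volume.restrict (Icc (0 : ℝ) 1)) := fun u v =>
    (ContinuousLinearMap.apply ℝ ℝ v).integrable_comp (hint1 u)
  have e2 : ∀ u v, fderiv ℝ ((prim W).η i) z u v = ∫ s in Icc (0 : ℝ) 1,
      fderiv ℝ (W.w i) (s, z) (0, u) (1, 0) (0, v) := by
    intro u v
    rw [e1, ContinuousLinearMap.integral_apply hint, ContinuousLinearMap.integral_apply (hint1 u)]
    exact integral_congr_ae (Eventually.of_forall fun s => dx_hη W hz s u v)
  have hint3 : ∀ u v, Integrable (fun s => fderiv ℝ (W.w i) (s, z) (0, u) (1, 0) (0, v))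
      (volume.restrict (Icc (0 : ℝ) 1)) := fun u v =>
    (hint2 u v).congr (Eventually.of_forall fun s => dx_hη W hz s u v)
  rw [e2, e2, ← integral_sub (hint3 u v) (hint3 v u)]
  have e3 : ∀ s : ℝ, fderiv ℝ (W.w i) (s, z) (0, u) (1, 0) (0, v) -
      fderiv ℝ (W.w i) (s, z) (0, v) (1, 0) (0, u) =
      fderiv ℝ (W.w i) (s, z) (1, 0) (0, u) (0, v) := by
    intro s
    have hm : (s, z) ∈ ((prodR C).e i).target := (prodR_target i _).mpr hz
    have hc := W.closed i (s, z) hm (1, 0) (0, u) (0, v)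
    -- antisymmetry of the derivative
    have ha : fderiv ℝ (W.w i) (s, z) (0, u) (0, v) (1, 0) =
        - fderiv ℝ (W.w i) (s, z) (0, u) (1, 0) (0, v) := by
      have hW : HasFDerivAt (W.w i) (fderiv ℝ (W.w i) (s, z)) (s, z) :=
        (W.diffAt hm).hasFDerivAt
      have h1 : HasFDerivAt (fun p => W.w i p (0, v) (1, 0)) _ (s, z) :=
        (hW.clm_apply (hasFDerivAt_const ((0, v) : ℝ × V) (s, z))).clm_apply
          (hasFDerivAt_const ((1, 0) : ℝ × V) (s, z))
      have h2 : HasFDerivAt (fun p => W.w i p (1, 0) (0, v)) _ (s, z) :=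
        (hW.clm_apply (hasFDerivAt_const ((1, 0) : ℝ × V) (s, z))).clm_apply
          (hasFDerivAt_const ((0, v) : ℝ × V) (s, z))
      have h3 : (fun p => W.w i p (0, v) (1, 0)) =ᶠ[𝓝 (s, z)]
          fun p => - W.w i p (1, 0) (0, v) := by
        filter_upwards [((prodR C).e i).open_target.mem_nhds hm] with p hp
        exact W.alt i p hp _ _
      have h4 := h1.unique (h2.neg.congr_of_eventuallyEq h3)
      have h5 := congrArg (fun L : ℝ × V →L[ℝ] ℝ => L (0, u)) h4
      simpa using h5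
    rw [ha] at hc
    linarith
  simp_rw [e3]
  rw [slice_pull W hz, slice_pull W hz, integral_Icc_eq_integral_Ioc,
    ← intervalIntegral.integral_of_le zero_le_one]
  symm
  refine intervalIntegral.integral_eq_sub_of_hasDerivAt (fun s _ => ds_W W hz s u v) ?_
  have h6 : Continuous (fun s : ℝ => fderiv ℝ (W.w i) (s, z) (1, 0) (0, u) (0, v)) := by
    have h7 : ContDiffOn ℝ ∞ (fderiv ℝ (W.w i)) ((prodR C).e i).target :=
      (W.sm i).fderiv_of_isOpen ((prodR C).e i).open_target (by simp)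
    have h8 : Continuous (fun s : ℝ => fderiv ℝ (W.w i) (s, z)) := by
      rw [← continuousOn_univ]
      exact h7.continuousOn.comp (by fun_prop) fun s _ => (prodR_target i _).mpr hz
    exact ((h8.clm_apply continuous_const).clm_apply continuous_const).clm_apply
      continuous_const
  exact h6.intervalIntegrable _ _

/-- smoothly homotopic maps have cohomologous pull backs -/
theorem coh_homotopy (Ψ : SMap (prodR C') C) (w : F2 C) :
    Coh ((Ψ.comp (slice C' 1)).pull w) ((Ψ.comp (slice C' 0)).pull w) :=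
  ((pull_comp Ψ (slice C' 1) w).coh.trans (coh_slice (Ψ.pull w))).trans
    (pull_comp Ψ (slice C' 0) w).symm.coh

end

end Crest.Agent.R281.Dif_268
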