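import Crest.Agent.R281.Al4_830

/-!
# Row 281, HK-ALONG, part 5 (helper830): invariance of `q`, `exists_hk1`

* `TopI.q_coh`      : `q` depends on the class only
* `TopI.q_hk`       : `q (a om_0 + c om_1 + d om_2) = (a² + c² + d²) q om_0`
* `TopI.exists_hk1` : the hyperkaehler triple of one member
-/

set_option autoImplicit false
set_option linter.unusedSectionVars false
set_option maxSynthPendingDepth 3

open Set Filter Topology Function MeasureTheory Complex
open scoped ContDiff Matrix ComplexConjugate ComplexOrder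

namespace Crest.Agent.R281.Al_830

open Crest.Agent.R275.Geo Crest.Agent.R275.Core144 Crest.Agent.R275.EDR890
open Crest.Agent.R275.GC293
open Crest.Agent.R273 Crest.Agent.R273.Hess_333 Crest.Agent.R273.HessB_333
open Crest.Agent.R273.Defs_333 Crest.Agent.R273.HM_333 Crest.Agent.R273.Kah_333
open Crest.Agent.R273.Vol_333 Crest.Agent.R273.Vm_333
open Crest.Agent.R281.Defs_273 (H2 HSymp)
open Crest.Agent.R273.NoHVF_376
open Crest.Agent.R260.ACM_580 Crest.Agent.R260.NNB_580
open Crest.Agent.R281.HkP1_508 Crest.Agent.R281.HkP2_508 Crest.Agent.R281.HkP3_508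
open Crest.Agent.R281.HKA_799 (NatM)
open Crest.Agent.R281.FujP_513 (Symm mixv)
open Crest.Agent.R281.HkR_835 hiding pb pb_apply
open Crest.Agent.R281.HkR_835.Cmp
open Crest.Agent.R281.Ti_846 hiding pb pb_apply
open Crest.Agent.R281.NefO_476
open Crest.Agent.R281.Nef_252
open Crest.Agent.R281.Fuj3_207 Crest.Agent.R281.Fuj4_207 Crest.Agent.R281.Fuj5_207

noncomputable section

variable {V X : Type} [NormedAddCommGroup V] [NormedSpace ℝ V] [TopologicalSpace X]
  {C : RCh V X}

section qinv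

variable [FiniteDimensional ℝ V] [MeasurableSpace V] [BorelSpace V] {μ : Measure V}
  [μ.IsAddHaarMeasure] [CompactSpace X] {n : ℕ}
  {b : Module.Basis (Fin (n + n) × Fin 2) ℝ V} {P : RPart C} {q : QuadraticForm ℝ (F2 C)}

theorem TopI.q_ex (T : TopI μ b P q) {e : F2 C} (he : Ex e) : q e = 0 := by
  have hn := T.npos
  have h1 := T.fuj e
  have h2 : IM μ b P (fun _ => e) = 0 := IM_ex μ b P T.ori _ (k := (⟨0, by omega⟩ : Fin (n + n))) he
  rw [h2] at h1
  exact (pow_eq_zero_iff hn.ne').1 h1.symm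

theorem TopI.polar_ex_ne (T : TopI μ b P q) {x e : F2 C} (he : Ex e) (hx : q x ≠ 0) :
    QuadraticMap.polar q x e = 0 := by
  have hn := T.npos
  have h1 := FujSig_358.first_polar' hn (IM_symm μ b P) T.fuj x e
  have h2 : IM μ b P (mixv (n + n) 1 x e) = 0 := by
    refine IM_ex μ b P T.ori _ (k := (⟨0, by omega⟩ : Fin (n + n))) ?_
    have : mixv (n + n) 1 x e ⟨0, by omega⟩ = e := by simp [mixv]
    rw [this]
    exact he
  rw [h2, mul_zero] at h1
  exact (mul_eq_zero.1 h1.symm).resolve_left (pow_ne_zero _ hx)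

theorem TopI.polar_ex (T : TopI μ b P q) {x e : F2 C} (he : Ex e) :
    QuadraticMap.polar q x e = 0 := by
  by_cases hx : q x = 0
  · by_cases hy : ∃ y, q y ≠ 0
    · obtain ⟨y, hy⟩ := hy
      have h1 : ∀ s : ℝ, q (y + s • x) = q y + s * QuadraticMap.polar q y x := by
        intro s
        rw [FujSig_358.q_line, hx]
        ring
      have h2 : ∃ s : ℝ, s ≠ 0 ∧ q (y + s • x) ≠ 0 := by
        by_contra hc
        push Not at hc
        have h3 := hc 1 one_ne_zero
        have h4 := hc (-1) (by norm_num)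
        rw [h1] at h3 h4
        apply hy
        linarith
      obtain ⟨s, hs, h3⟩ := h2
      have h4 := T.polar_ex_ne he h3
      have h5 := T.polar_ex_ne he hy
      rw [QuadraticMap.polar_add_left, QuadraticMap.polar_smul_left, h5, zero_add,
        smul_eq_mul] at h4
      exact (mul_eq_zero.1 h4).resolve_left hs
    · push Not at hy
      simp [QuadraticMap.polar, hy]
  · exact T.polar_ex_ne he hx

/-- `q` depends on the class only -/
theorem TopI.q_coh (T : TopI μ b P q) {x y : F2 C} (h : Ex (x - y)) : q x = q y := by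
  have h1 := FujSig_358.q_line q y (x - y) 1
  rw [T.polar_ex h, T.q_ex h, one_smul, add_sub_cancel] at h1
  linarith

theorem TopI.polar_coh (T : TopI μ b P q) {x y z : F2 C} (h : Ex (x - y)) :
    QuadraticMap.polar q x z = QuadraticMap.polar q y z := by
  have h1 : QuadraticMap.polar q (x - y + y) z = QuadraticMap.polar q y z := by
    rw [QuadraticMap.polar_add_left, QuadraticMap.polar_comm, T.polar_ex h, zero_add]
  rwa [sub_add_cancel] at h1

theorem TopI.q_hk_pow (T : TopI μ b P q) (H : HkT C) (a c d : ℝ) :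
    q (a • H.om 0 + c • H.om 1 + d • H.om 2) ^ n =
      ((a ^ 2 + c ^ 2 + d ^ 2) * q (H.om 0)) ^ n := by
  have h1 := IM_hk μ b P (ν := n) (by omega) H a c d
  rw [T.fuj, T.fuj] at h1
  rw [h1, mul_pow]

/-- the values of `q` on a hyperkaehler triple -/
theorem TopI.q_hk (T : TopI μ b P q) (H : HkT C) (h0 : 0 < q (H.om 0)) (a c d : ℝ) :
    q (a • H.om 0 + c • H.om 1 + d • H.om 2) = (a ^ 2 + c ^ 2 + d ^ 2) * q (H.om 0) := by
  have hn := T.npos
  by_cases hz : a ^ 2 + c ^ 2 + d ^ 2 = 0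
  · have h1 := T.q_hk_pow H a c d
    rw [hz, zero_mul, zero_pow hn.ne'] at h1
    rw [hz, zero_mul]
    exact (pow_eq_zero_iff hn.ne').1 h1
  have hz' : 0 < a ^ 2 + c ^ 2 + d ^ 2 := lt_of_le_of_ne (by positivity) (Ne.symm hz)
  have hne : ∀ x y z : ℝ, x ^ 2 + y ^ 2 + z ^ 2 ≠ 0 →
      q (x • H.om 0 + y • H.om 1 + z • H.om 2) ≠ 0 := by
    intro x y z hxyz h1
    have h2 := T.q_hk_pow H x y z
    rw [h1, zero_pow hn.ne'] at h2
    exact (pow_ne_zero n (mul_ne_zero hxyz h0.ne')) h2.symm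
  have hpos : 0 < q (a • H.om 0 + c • H.om 1 + d • H.om 2) := by
    by_cases hcd : c = 0 ∧ d = 0
    · obtain ⟨hc, hd⟩ := hcd
      subst hc hd
      have ha : a ≠ 0 := by
        rintro rfl
        simp at hz
      rw [zero_smul, zero_smul, add_zero, add_zero, QuadraticMap.map_smul, smul_eq_mul]
      exact mul_pos (mul_self_pos.2 ha) h0
    · set y : F2 C := a • H.om 0 + c • H.om 1 + d • H.om 2 with hy
      have hf : Continuous fun s : ℝ => q (H.om 0 + s • (y - H.om 0)) := by
        have : (fun s : ℝ => q (H.om 0 + s • (y - H.om 0))) = fun s =>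
            q (H.om 0) + s * QuadraticMap.polar q (H.om 0) (y - H.om 0) +
              s ^ 2 * q (y - H.om 0) := by
          funext s
          exact FujSig_358.q_line _ _ _ _
        rw [this]
        fun_prop
      by_contra hneg
      push Not at hneg
      have hsub : (0 : ℝ) ∈ (fun s : ℝ => q (H.om 0 + s • (y - H.om 0))) '' Icc 0 1 := by
        refine intermediate_value_Icc' zero_le_one hf.continuousOn ⟨?_, ?_⟩
        · simpa using hneg
        · simpa using h0.le
      obtain ⟨s, hs, h1⟩ := hsub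
      have e : H.om 0 + s • (y - H.om 0) =
          (1 - s + s * a) • H.om 0 + (s * c) • H.om 1 + (s * d) • H.om 2 := by
        rw [hy]
        module
      refine hne _ _ _ ?_ (by rw [← e]; exact h1)
      intro h2
      have h3 : (s * c) ^ 2 = 0 := by nlinarith [sq_nonneg (1 - s + s * a), sq_nonneg (s * d), sq_nonneg (s * c)]
      have h4 : (s * d) ^ 2 = 0 := by nlinarith [sq_nonneg (1 - s + s * a), sq_nonneg (s * d), sq_nonneg (s * c)]
      have h5 : (1 - s + s * a) ^ 2 = 0 := by nlinarith [sq_nonneg (1 - s + s * a), sq_nonneg (s * d), sq_nonneg (s * c)]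
      rw [sq_eq_zero_iff] at h3 h4 h5
      rcases mul_eq_zero.1 h3 with h6 | h6
      · rw [h6] at h5
        norm_num at h5
      · rcases mul_eq_zero.1 h4 with h7 | h7
        · rw [h7] at h5
          norm_num at h5
        · exact hcd ⟨h6, h7⟩
  exact (pow_left_inj₀ hpos.le (mul_nonneg hz'.le h0.le) hn.ne').1 (T.q_hk_pow H a c d)

theorem TopI.q_om (T : TopI μ b P q) (H : HkT C) (h0 : 0 < q (H.om 0)) (k : Fin 3) :
    q (H.om k) = q (H.om 0) := by
  fin_cases k
  · rfl
  · simpa using T.q_hk H h0 0 1 0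
  · simpa using T.q_hk H h0 0 0 1

theorem TopI.polar_om (T : TopI μ b P q) (H : HkT C) (h0 : 0 < q (H.om 0)) {k l : Fin 3}
    (hkl : k ≠ l) : QuadraticMap.polar q (H.om k) (H.om l) = 0 := by
  have h01 := T.q_hk H h0 1 1 0
  have h02 := T.q_hk H h0 1 0 1
  have h12 := T.q_hk H h0 0 1 1
  have e1 := T.q_om H h0 1
  have e2 := T.q_om H h0 2
  simp only [one_smul, zero_smul, add_zero, zero_add, one_pow] at h01 h02 h12
  have p01 : QuadraticMap.polar q (H.om 0) (H.om 1) = 0 := by
    rw [QuadraticMap.polar, h01, e1]; ring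
  have p02 : QuadraticMap.polar q (H.om 0) (H.om 2) = 0 := by
    rw [QuadraticMap.polar, h02, e2]; ring
  have p12 : QuadraticMap.polar q (H.om 1) (H.om 2) = 0 := by
    rw [QuadraticMap.polar, h12, e1, e2]; ring
  fin_cases k <;> fin_cases l
  · exact absurd rfl hkl
  · exact p01
  · exact p02
  · rw [QuadraticMap.polar_comm]; exact p01
  · exact absurd rfl hkl
  · exact p12
  · rw [QuadraticMap.polar_comm]; exact p02
  · rw [QuadraticMap.polar_comm]; exact p12
  · exact absurd rfl hkl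

end qinv

/-! ### the static theorem -/

section static

variable {d : ℕ} {A : Atl d X} {J : AJ C} {om s1 s2 : F2 C}

/-- the matrix of the Kaehler metric -/
theorem HD.K_g (D : HD J om s1 s2) (hI : IsI J A) (h : Cmp C (ofAtl A)) (K' : Kah A)
    (hK : ∀ j, ∀ z ∈ (A.e j).target, (h.F om).w j z = (ofKah K').f2.w j z) (j : A.ι) (x : X)
    (hx : x ∈ (A.e j).source) : (D.K hI h).g j x = K'.g j x := by
  have h1 : (D.K hI h).g j x = GB ((h.F om).w j (A.e j x)) := rfl
  rw [h1, hK j _ ((A.e j).map_source hx)]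
  exact K11.f2_k11 (ofKah K') hx

theorem hkF_f2 (h : Cmp C (ofAtl A)) (w : F2 (ofAtl A)) (j : A.ι) (z : Cn d)
    (hz : z ∈ (A.e j).target) : (h.F (h.symm.F w)).w j z = w.w j z := by
  obtain ⟨i, hi⟩ := exists_mov (C' := ofAtl A) C (j := j) hz
  obtain ⟨h1, h2⟩ := mov_swap (C := ofAtl A) (C' := C) hi
  ext u v
  rw [h.F_w _ hi, h.symm.F_w _ h1, h2, h.d_d hi, h.d_d hi]

/-- the fields of `HD` for the image of a Kaehler metric -/
theorem HD.replace (D : HD J om s1 s2) (hI : IsI J A) (h : Cmp C (ofAtl A)) (K' : Kah A) :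
    HD J (h.symm.F (ofKah K').f2) s1 s2 where
  sq := D.sq
  t11 i z hz u v := by
    obtain ⟨j, hj⟩ : ∃ j : A.ι, z ∈ mov (ofAtl A) C j i := exists_mov (C' := C) (ofAtl A) hz
    rw [h.symm.F_w _ hj, h.symm.F_w _ hj, hI.back h hj, hI.back h hj]
    exact K11.f2_inv (ofKah K') (mt_mem hj).1 _ _
  pos i z hz v hv := by
    obtain ⟨j, hj⟩ : ∃ j : A.ι, z ∈ mov (ofAtl A) C j i := exists_mov (C' := C) (ofAtl A) hz
    rw [h.symm.F_w _ hj, hI.back h hj]
    have h0 : fderiv ℝ (mt (ofAtl A) C j i) z v ≠ 0 := fun h0 => hv (h.symm.inj hj (by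
      rw [h0, map_zero]))
    rw [ks_om0 K' (mt_mem hj).1]
    exact ks_pos K' (mt_mem hj).1 _ (smul_ne_zero I_ne_zero h0)
  typ := D.typ
  nd := D.nd

/-- Ricci flatness from the determinant -/
theorem HD.ric_of_det (D : HD J om s1 s2) (hI : IsI J A) (h : Cmp C (ofAtl A)) (σ : HSymp A)
    {c : ℝ} (hc : 0 < c) (hd : ∀ j, ∀ x ∈ (A.e j).source,
      ((D.K hI h).g j x).det.re = c * ‖(σ.s j x).det‖) : RicFlat (D.K hI h) :=
  ricFlat_of_det σ hc hd

variable [FiniteDimensional ℝ V] [MeasurableSpace V] [BorelSpace V] {μ : Measure V}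
  [μ.IsAddHaarMeasure] [CompactSpace X] [T2Space X] [ConnectedSpace X] {n : ℕ}
  {b : Module.Basis (Fin (n + n) × Fin 2) ℝ V} {P : RPart C} {q : QuadraticForm ℝ (F2 C)}

theorem fin_V (b : Module.Basis (Fin (n + n) × Fin 2) ℝ V) :
    Module.finrank ℝ V = 2 * (n + n) := by
  rw [Module.finrank_eq_card_basis b]
  simp [mul_comm]

/-- **the hyperkaehler triple of one member** -/
theorem TopI.exists_hk1 (T : TopI μ b P q) (D : HD J om s1 s2) (hq : 0 < q om) :
    ∃ (H : HkT C) (r : ℝ), 0 < r ∧ ofHk H 0 = J ∧ Ex (H.om 0 - om) ∧ H.om 1 = r • s1 ∧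
      H.om 2 = r • s2 := by
  obtain ⟨A, hfin, -, ⟨PA⟩, h, hI⟩ := exists_atlas (fin_V b) D.cx
  set K := D.K hI h with hK
  set σ := D.S hI h with hσ
  obtain ⟨u, c, hs, Hy⟩ := KpK_487.yau_kah A K (ratio (volK K) (volS σ)) (sm_ratio _ _)
  have hp : ∀ i, ∀ x ∈ (A.e i).source, (K.g i x + hsf A u i x).PosDef :=
    fun i x hx => (Hy i x hx).1
  set K' : Kah A := addK K u hs hp with hK'
  have key : ∀ i, ∀ x ∈ (A.e i).source, (K'.g i x).det.re = Real.exp c * ‖(σ.s i x).det‖ := by
    intro i x hx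
    have h1 := (Hy i x hx).2
    have h2 : (K'.g i x).det = (K.g i x + hsf A u i x).det := rfl
    have h3 : (volK K).w i x = (K.g i x).det.re := rfl
    have h4 : (volS σ).w i x = ‖(σ.s i x).det‖ := rfl
    rw [h2, h1, Complex.re_ofReal_mul, ← h3, ← h4, w_ratio (volK K) (volS σ) hx, Real.exp_add]
    ring
  set om' : F2 C := h.symm.F (ofKah K').f2 with hom'
  have D' : HD J om' s1 s2 := D.replace hI h K'
  have hF : ∀ j, ∀ z ∈ (A.e j).target, (h.F om').w j z = (ofKah K').f2.w j z :=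
    fun j z hz => hkF_f2 h _ j z hz
  have hric : RicFlat (D'.K hI h) := by
    refine D'.ric_of_det hI h σ (Real.exp_pos c) fun j x hx => ?_
    rw [D'.K_g hI h K' hF j x hx]
    exact key j x hx
  -- the class of `om'`
  have hex : Ex (om' - om) := by
    have h1 : Ex ((ofKah K').f2 - (ofKah K).f2) := ex_addK K u hs hp
    have h2 := ex_F h.symm h1
    obtain ⟨η, hη⟩ := h2
    refine ⟨η, fun i z hz v w => ?_⟩
    rw [← hη i z hz v w, F_sub h.symm _ _ i z hz, F2.sub_w, sub_apply, sub_apply, ← hom']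
    congr 1
    rw [back_eq h (w := om) (fun j z hz => D.K_f2 hI h hz) i z hz]
  have hq' : 0 < q om' := by rw [T.q_coh hex]; exact hq
  obtain ⟨H, r, hr, h0, h1, h2, h3⟩ := T.hk_of_ric PA hI h D' hq' hric
  exact ⟨H, r, hr, h0, by rw [h1]; exact hex, h2, h3⟩

end static

end

end Crest.Agent.R281.Al_830
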