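import Crest.Agent.R281.Al6_830
import Crest.Agent.R281.Xi1_831

/-!
# Row 281, HK-ALONG, part 7 (helper830): the family theorem

* `js_fderiv`, `js_ddc` : derivatives of jointly smooth families
* `JSH.of_om`           : a family of triples with jointly smooth `om k` is jointly smooth
* `TopI.exists_hk`      : the jointly smooth family of hyperkaehler triples of a `CFam`
-/

set_option autoImplicit false
set_option linter.unusedSectionVars false
set_option maxSynthPendingDepth 3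

open Set Filter Topology Function MeasureTheory
open scoped ContDiff

namespace Crest.Agent.R281.Al_830

open Crest.Agent.R275.Core144 Crest.Agent.R275.EDR890
open Crest.Agent.R281.HkR_835 hiding pb pb_apply
open Crest.Agent.R281.HkR_835.Cmp
open Crest.Agent.R281.Ti_846 hiding pb pb_apply
open Crest.Agent.R281.NefO_476
open Crest.Agent.R281.Nef_252
open Crest.Agent.R281.Tt_476
open Crest.Agent.R281.Xi_831 (ND WW WW_spec WW_unique)

noncomputable section

/-! ### derivatives of jointly smooth families -/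

section js

variable {V E : Type} [NormedAddCommGroup V] [NormedSpace ℝ V] [NormedAddCommGroup E]
  [NormedSpace ℝ E]

theorem js_fderiv {W : Type*} [NormedAddCommGroup W] [NormedSpace ℝ W] {T : Set E} {U : Set V}
    (hT : IsOpen T) (hU : IsOpen U) {f : E → V → W}
    (hf : ContDiffOn ℝ ∞ (fun q : E × V => f q.1 q.2) (T ×ˢ U)) :
    ContDiffOn ℝ ∞ (fun q : E × V => fderiv ℝ (f q.1) q.2) (T ×ˢ U) := by
  intro q hq
  refine ContDiffAt.contDiffWithinAt ?_
  refine ContDiffAt.fderiv (f := fun (q : E × V) (y : V) => f q.1 y)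
    (g := fun q => q.2) (n := ∞) (m := ∞) ?_ contDiffAt_snd (by simp)
  have h2 : ContDiffAt ℝ ∞ (fun q : (E × V) × V => (q.1.1, q.2)) (q, q.2) :=
    (contDiffAt_fst.fst).prodMk contDiffAt_snd
  exact ContDiffAt.comp (g := fun q : E × V => f q.1 q.2)
    (f := fun q : (E × V) × V => (q.1.1, q.2)) (q, q.2)
    (hf.contDiffAt ((hT.prod hU).mem_nhds hq)) h2

variable {X : Type} [TopologicalSpace X] {C : RCh V X} [FiniteDimensional ℝ V]

theorem js_ddcF {T : Set E} (hT : IsOpen T) {u : E → X → ℝ} (hu : JS0 C T u) {J : E → AJ C}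
    (hJ : JSJ T J) (i : C.ι) (a b : V) : ContDiffOn ℝ ∞ (fun q : E × V =>
      ddcF (uc C (u q.1) i) ((J q.1).J i) q.2 a b) (T ×ˢ (C.e i).target) := by
  have ho := (C.e i).open_target
  have h0 : ContDiffOn ℝ ∞ (fun q : E × V => uc C (u q.1) i q.2) (T ×ˢ (C.e i).target) := hu i
  have h1 := js_fderiv (f := fun p z => uc C (u p) i z) hT ho h0
  have h2 := js_fderiv (f := fun p z => fderiv ℝ (uc C (u p) i) z) hT ho h1
  have h3 := js_fderiv (f := fun p z => (J p).J i z) hT ho (hJ i)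
  have h4 : ∀ c : V, ContDiffOn ℝ ∞ (fun q : E × V => (J q.1).J i q.2 c) (T ×ˢ (C.e i).target) :=
    fun c => (hJ i).clm_apply contDiffOn_const
  have h5 : ∀ c d : V, ContDiffOn ℝ ∞ (fun q : E × V => fderiv ℝ ((J q.1).J i) q.2 c d)
      (T ×ˢ (C.e i).target) :=
    fun c d => (h3.clm_apply contDiffOn_const).clm_apply contDiffOn_const
  have h6 : ∀ c d : V, ContDiffOn ℝ ∞ (fun q : E × V =>
      fderiv ℝ (fderiv ℝ (uc C (u q.1) i)) q.2 c ((J q.1).J i q.2 d)) (T ×ˢ (C.e i).target) :=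
    fun c d => (h2.clm_apply contDiffOn_const).clm_apply (h4 d)
  have h7 : ∀ c d : V, ContDiffOn ℝ ∞ (fun q : E × V =>
      fderiv ℝ (uc C (u q.1) i) q.2 (fderiv ℝ ((J q.1).J i) q.2 c d)) (T ×ˢ (C.e i).target) :=
    fun c d => h1.clm_apply (h5 c d)
  exact ((h6 a b).add (h7 a b)).neg.add ((h6 b a).add (h7 b a))

/-- joint smoothness of `om + dd^c u` -/
theorem js_add_ddc [MeasurableSpace V] [BorelSpace V] {T : Set E} (hT : IsOpen T)
    {u : E → X → ℝ} (hu : JS0 C T u)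
    {J : E → AJ C} (hJ : JSJ T J) {om om' : E → F2 C} (hom : JS2 T om)
    (h : ∀ p ∈ T, ∃ hs : Sm C (u p), om' p = om p + ddc (J p) (u p) hs) : JS2 T om' := by
  intro i
  refine contDiffOn_clm_apply.2 fun a => contDiffOn_clm_apply.2 fun b => ?_
  have h1 : ContDiffOn ℝ ∞ (fun q : E × V => (om q.1).w i q.2 a b) (T ×ˢ (C.e i).target) :=
    ((hom i).clm_apply contDiffOn_const).clm_apply contDiffOn_const
  refine (h1.add (js_ddcF hT hu hJ i a b)).congr ?_
  rintro ⟨p, z⟩ ⟨hp, hz⟩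
  obtain ⟨hs, he⟩ := h p hp
  show (om' p).w i z a b = (om p).w i z a b + _
  rw [he, F2.add_w, add_apply, add_apply, ddc_w (J p) (u p) hs hz]

end js

/-! ### triples -/

section triples

variable {V E X : Type} [NormedAddCommGroup V] [NormedSpace ℝ V] [NormedAddCommGroup E]
  [NormedSpace ℝ E] [TopologicalSpace X] {C : RCh V X} [FiniteDimensional ℝ V]

theorem hk_nd (H : HkT C) (k : Fin 3) {i : C.ι} {z : V} (hz : z ∈ (C.e i).target) :
    ND ((H.om k).w i z) := fun v hv => H.nondeg k hz v hv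

theorem js_WW {T : Set E} {U : Set V} {f g : E × V → Bil V}
    (hf : ContDiffOn ℝ ∞ f (T ×ˢ U)) (hg : ContDiffOn ℝ ∞ g (T ×ˢ U))
    (hn : ∀ q ∈ T ×ˢ U, ND (f q)) : ContDiffOn ℝ ∞ (fun q => WW (f q) (g q)) (T ×ˢ U) := by
  have h1 : ContDiffOn ℝ ∞ (fun q => ContinuousLinearMap.inverse (f q)) (T ×ˢ U) := fun q hq =>
    ((hn q hq).inv.contDiffAt_map_inverse (n := ∞)).comp_contDiffWithinAt q (hf q hq)
  exact h1.clm_comp hg

/-- the complex structures in terms of the forms -/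
theorem J_eq_WW (H : HkT C) {k l m : Fin 3} (h : (k, l, m) = (0, 1, 2) ∨ (k, l, m) = (1, 2, 0) ∨
    (k, l, m) = (2, 0, 1)) {i : C.ι} {z : V} (hz : z ∈ (C.e i).target) :
    H.J k i z = WW ((H.om l).w i z) (-(H.om m).w i z) := by
  refine WW_unique (hk_nd H l hz) fun u v => ?_
  rw [neg_apply, neg_apply]
  exact (H.om_J h hz u v).1

theorem g_eq_om (H : HkT C) {i : C.ι} {z : V} (hz : z ∈ (C.e i).target) :
    H.g i z = -(((H.om 0).w i z).comp (H.J 0 i z)) := by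
  ext u v
  show H.g i z u v = -((H.om 0).w i z (H.J 0 i z u) v)
  rw [H.om_eq 0 i z hz, H.J_sq 0 i z hz, map_neg, neg_apply, neg_neg]

/-- **a family of triples with jointly smooth forms is jointly smooth** -/
theorem JSH.of_om {T : Set E} {H : E → HkT C} (h : ∀ k, JS2 T fun p => (H p).om k) :
    JSH T H := by
  have hJ : ∀ k i, ContDiffOn ℝ ∞ (fun p : E × V => (H p.1).J k i p.2) (T ×ˢ (C.e i).target) := by
    intro k i
    obtain ⟨l, m, hlm⟩ : ∃ l m : Fin 3, (k, l, m) = (0, 1, 2) ∨ (k, l, m) = (1, 2, 0) ∨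
        (k, l, m) = (2, 0, 1) := by
      fin_cases k
      · exact ⟨1, 2, Or.inl rfl⟩
      · exact ⟨2, 0, Or.inr (Or.inl rfl)⟩
      · exact ⟨0, 1, Or.inr (Or.inr rfl)⟩
    refine (js_WW (h l i) (h m i).neg fun q hq => hk_nd (H q.1) l hq.2).congr ?_
    rintro ⟨p, z⟩ ⟨-, hz⟩
    exact J_eq_WW (H p) hlm hz
  refine ⟨fun k i => h k i, hJ, fun i => ?_⟩
  refine ((h 0 i).clm_comp (hJ 0 i)).neg.congr ?_
  rintro ⟨p, z⟩ ⟨-, hz⟩
  exact g_eq_om (H p) hz

/-- the scaling factor is smooth -/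
theorem js_scale [Nontrivial V] {T : Set E} {om s1 : E → F2 C} {J : E → AJ C}
    (hom : JS2 T om) (hs1 : JS2 T s1) (hJ : JSJ T J) {H : E → HkT C} {r : E → ℝ}
    (x0 : X) (hr : ∀ t ∈ T, 0 < r t) (h0 : ∀ t ∈ T, (H t).om 0 = om t)
    (h1 : ∀ t ∈ T, (H t).om 1 = r t • s1 t) (hj : ∀ t ∈ T, ofHk (H t) 0 = J t) :
    ContDiffOn ℝ ∞ r T := by
  obtain ⟨i, hi⟩ := C.cover x0
  set z0 := C.e i x0 with hz0
  have hz : z0 ∈ (C.e i).target := (C.e i).map_source hi
  obtain ⟨v0, hv0⟩ := exists_ne (0 : V)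
  obtain ⟨φ, -, hφ⟩ := exists_dual_vector ℝ v0 (norm_ne_zero_iff.2 hv0)
  -- the endomorphism `g⁻¹ s1`
  let g : E → Bil V := fun t => -(((om t).w i z0).comp ((J t).J i z0))
  have hgt : ∀ t ∈ T, g t = (H t).g i z0 := by
    intro t ht
    have h2 : (J t).J i z0 = (H t).J 0 i z0 := by
      rw [← hj t ht]
      rfl
    rw [g_eq_om (H t) hz, h0 t ht, ← h2]
  have hnd : ∀ t ∈ T, ND (g t) := by
    intro t ht u hu
    rw [hgt t ht] at hu
    by_contra hne
    exact ((H t).g_pos i z0 hz u hne).ne' (hu u)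
  have hslice : ContDiffOn ℝ ∞ (fun t : E => (t, z0)) T :=
    contDiffOn_id.prodMk contDiffOn_const
  have hmaps : MapsTo (fun t : E => (t, z0)) T (T ×ˢ (C.e i).target) := fun t ht => ⟨ht, hz⟩
  have sg : ContDiffOn ℝ ∞ g T := by
    have e1 : ContDiffOn ℝ ∞ (fun t => (om t).w i z0) T := (hom i).comp hslice hmaps
    have e2 : ContDiffOn ℝ ∞ (fun t => (J t).J i z0) T := (hJ i).comp hslice hmaps
    exact (e1.clm_comp e2).neg
  have ss : ContDiffOn ℝ ∞ (fun t => (s1 t).w i z0) T := (hs1 i).comp hslice hmaps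
  have sA : ContDiffOn ℝ ∞ (fun t => WW (g t) ((s1 t).w i z0)) T := by
    have h3 : ContDiffOn ℝ ∞ (fun t => ContinuousLinearMap.inverse (g t)) T := fun t ht =>
      ((hnd t ht).inv.contDiffAt_map_inverse (n := ∞)).comp_contDiffWithinAt t (sg t ht)
    exact h3.clm_comp ss
  have key : ∀ t ∈ T, ∀ v, r t • WW (g t) ((s1 t).w i z0) v = (H t).J 1 i z0 v := by
    intro t ht v
    refine (hnd t ht).ext fun w => ?_
    rw [map_smul, smul_apply, WW_spec (hnd t ht), hgt t ht, ← (H t).om_eq 1 i z0 hz, h1 t ht]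
    rfl
  have key2 : ∀ t ∈ T, -(φ (WW (g t) ((s1 t).w i z0) (WW (g t) ((s1 t).w i z0) v0))) =
      ((r t) ^ 2)⁻¹ * ‖v0‖ := by
    intro t ht
    have h3 := (H t).J_sq 1 i z0 hz v0
    rw [← key t ht, ← key t ht, map_smul, smul_smul] at h3
    have h4 := congrArg φ h3
    rw [map_smul, map_neg, smul_eq_mul] at h4
    have h5 : φ v0 = ‖v0‖ := hφ
    rw [h5] at h4
    have hr' := (hr t ht).ne'
    field_simp
    linarith
  have hf : ContDiffOn ℝ ∞ (fun t => -(φ (WW (g t) ((s1 t).w i z0)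
      (WW (g t) ((s1 t).w i z0) v0))) / ‖v0‖) T := by
    refine ContDiffOn.div_const (ContDiffOn.neg ?_) _
    exact φ.contDiff.comp_contDiffOn (sA.clm_apply (sA.clm_apply contDiffOn_const))
  have hv0' : ‖v0‖ ≠ 0 := norm_ne_zero_iff.2 hv0
  have hf2 : ∀ t ∈ T, -(φ (WW (g t) ((s1 t).w i z0) (WW (g t) ((s1 t).w i z0) v0))) / ‖v0‖ =
      ((r t) ^ 2)⁻¹ := by
    intro t ht
    rw [key2 t ht, mul_div_assoc, div_self hv0', mul_one]
  have hf3 : ContDiffOn ℝ ∞ (fun t => ((r t) ^ 2)⁻¹) T := hf.congr fun t ht => (hf2 t ht).symm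
  have hf4 : ContDiffOn ℝ ∞ (fun t => (Real.sqrt (((r t) ^ 2)⁻¹))⁻¹) T := by
    refine ContDiffOn.inv (ContDiffOn.sqrt hf3 fun t ht => ?_) fun t ht => ?_
    · have := hr t ht
      positivity
    · have := hr t ht
      positivity
  refine hf4.congr fun t ht => ?_
  rw [Real.sqrt_inv, inv_inv, Real.sqrt_sq (hr t ht).le]

end triples

/-! ### the family theorem -/

section main

variable {V E X : Type} [NormedAddCommGroup V] [NormedSpace ℝ V] [NormedAddCommGroup E]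
  [NormedSpace ℝ E] [TopologicalSpace X] {C : RCh V X} [FiniteDimensional ℝ V]
  [MeasurableSpace V] [BorelSpace V] {μ : Measure V}
  [μ.IsAddHaarMeasure] [CompactSpace X] [T2Space X] [ConnectedSpace X] {n : ℕ}
  {b : Module.Basis (Fin (n + n) × Fin 2) ℝ V} {P : RPart C} {q : QuadraticForm ℝ (F2 C)}
  {κ : Type} [Fintype κ] [DecidableEq κ] {b' : Module.Basis κ ℝ V}

/-- a solution of the Monge-Ampere equation gives a triple -/
theorem TopI.hk_of_sol (TI : TopI μ b P q) {J : AJ C} {om s1 s2 : F2 C} (D : HD J om s1 s2)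
    (hq : 0 < q om) {f : X → ℝ} {fs : Sm C f} {u : X → ℝ}
    (hu : SolMA b' ⟨J, om, densF2 b' s1, f, fs⟩ u) :
    ∃ (H : HkT C) (r : ℝ), 0 < r ∧ ofHk H 0 = J ∧ H.om 0 = om + ddc J u hu.sm ∧
      H.om 1 = r • s1 ∧ H.om 2 = r • s2 := by
  have D' : HD J (om + ddc J u hu.sm) s1 s2 := ⟨D.sq, fun i z hz v w => by
    simp only [F2.add_w, add_apply]
    rw [D.t11 i z hz, ddc_T11 D.cx u hu.sm i z hz], hu.pos, D.typ, D.nd⟩
  have hex : Ex ((om + ddc J u hu.sm) - om) := by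
    rw [add_sub_cancel_left]
    exact ddc_Ex J u hu.sm
  have hq' : 0 < q (om + ddc J u hu.sm) := by rw [TI.q_coh hex]; exact hq
  obtain ⟨A, hfin, -, ⟨PA⟩, h, hI⟩ := exists_atlas (fin_V b) D.cx
  obtain ⟨k, hk⟩ := hu.eq
  exact TI.hk_of_ric PA hI h D' hq' (D'.ric_of_vol hI h b' (k := k) hk)

theorem dens_ne {J : AJ C} {om s1 s2 : F2 C} (D : HD J om s1 s2) :
    ∀ i, ∀ z ∈ (C.e i).target, (densF2 b' s1).r i z ≠ 0 := fun i z hz =>
  YVMa_449.detB_ne b' (D.nd i z hz)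

/-- **HK-ALONG**: the jointly smooth family of hyperkaehler triples of a family of complex
structures, Kaehler forms and holomorphic symplectic forms -/
theorem TopI.exists_hk [FiniteDimensional ℝ E] (TI : TopI μ b P q) (hY : YauVar C b')
    {T : Set E} (hT : IsOpen T) (hne : T.Nonempty) (D : CFam C T)
    (hq : ∀ t ∈ T, 0 < q (D.om t)) :
    ∃ (H : E → HkT C) (r : E → ℝ) (u : E → X → ℝ), JSH T H ∧ ContDiffOn ℝ ∞ r T ∧ JS0 C T u ∧
      ∀ t ∈ T, 0 < r t ∧ ofHk (H t) 0 = D.J t ∧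
        (∃ hu : Sm C (u t), (H t).om 0 = D.om t + ddc (D.J t) (u t) hu) ∧
        (H t).om 1 = r t • D.s1 t ∧ (H t).om 2 = r t • D.s2 t := by
  classical
  have hf0 : Sm C (fun _ : X => (0 : ℝ)) := fun i => contDiffOn_const
  let DD : E → Dat C := fun t => ⟨D.J t, D.om t, densF2 b' (D.s1 t), fun _ => 0, hf0⟩
  have hDD : JSDat T DD := ⟨D.jsJ, D.jsom, js_densF2 b' D.js1, fun i => contDiffOn_const⟩
  obtain ⟨u, hju, hsol⟩ := hY E T DD hT hDD fun t ht =>
    ⟨(D.hd t ht).cx, (D.hd t ht).t11, (D.hd t ht).pos, dens_ne (D.hd t ht)⟩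
  have h1 : ∀ t ∈ T, ∃ (H : HkT C) (r : ℝ), 0 < r ∧ ofHk H 0 = D.J t ∧
      (∃ hu : Sm C (u t), H.om 0 = D.om t + ddc (D.J t) (u t) hu) ∧
      H.om 1 = r • D.s1 t ∧ H.om 2 = r • D.s2 t := by
    intro t ht
    obtain ⟨H, r, h2, h3, h4, h5, h6⟩ := TI.hk_of_sol (D.hd t ht) (hq t ht) (hsol t ht)
    exact ⟨H, r, h2, h3, ⟨(hsol t ht).sm, h4⟩, h5, h6⟩
  obtain ⟨t0, ht0⟩ := hne
  obtain ⟨Hd, -⟩ := h1 t0 ht0
  have h2 : ∀ t : E, ∃ (H : HkT C) (r : ℝ), t ∈ T → 0 < r ∧ ofHk H 0 = D.J t ∧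
      (∃ hu : Sm C (u t), H.om 0 = D.om t + ddc (D.J t) (u t) hu) ∧
      H.om 1 = r • D.s1 t ∧ H.om 2 = r • D.s2 t := by
    intro t
    by_cases ht : t ∈ T
    · obtain ⟨H, r, h⟩ := h1 t ht
      exact ⟨H, r, fun _ => h⟩
    · exact ⟨Hd, 0, fun h => absurd h ht⟩
  choose H r hH using h2
  have hom0 : JS2 T fun t => (H t).om 0 :=
    js_add_ddc hT hju D.jsJ D.jsom fun t ht => (hH t ht).2.2.1
  have hV : Nontrivial V := by
    have hn := TI.npos
    refine Module.nontrivial_of_finrank_pos (R := ℝ) ?_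
    rw [fin_V b]
    omega
  obtain ⟨x0⟩ := (inferInstance : Nonempty X)
  have hr : ContDiffOn ℝ ∞ r T := js_scale (om := fun t => (H t).om 0) hom0 D.js1 D.jsJ x0
    (fun t ht => (hH t ht).1) (fun t ht => rfl) (fun t ht => (hH t ht).2.2.2.1)
    (fun t ht => (hH t ht).2.1)
  have hsm : ∀ s : E → F2 C, JS2 T s → JS2 T fun t => r t • s t := by
    intro s hs i
    have h3 : ContDiffOn ℝ ∞ (fun p : E × V => r p.1) (T ×ˢ (C.e i).target) :=
      hr.comp contDiffOn_fst fun p hp => hp.1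
    exact h3.smul (hs i)
  have hom : ∀ k, JS2 T fun t => (H t).om k := by
    intro k
    fin_cases k
    · exact hom0
    · intro i
      refine (hsm _ D.js1 i).congr ?_
      rintro ⟨t, z⟩ ⟨ht, hz⟩
      show ((H t).om 1).w i z = _
      rw [(hH t ht).2.2.2.1]
    · intro i
      refine (hsm _ D.js2 i).congr ?_
      rintro ⟨t, z⟩ ⟨ht, hz⟩
      show ((H t).om 2).w i z = _
      rw [(hH t ht).2.2.2.2]
  exact ⟨H, r, u, JSH.of_om hom, hr, hju, hH⟩

end main

end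

end Crest.Agent.R281.Al_830
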