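import Crest.Agent.R281.Al7_830
import Crest.Agent.R281.Tt5_476
import Crest.Agent.R281.Uq2_250
import Crest.Agent.R281.Nef4_252
import Crest.Agent.R281.AlgDefs_998

/-!
# Row 281, HK-ALONG, part 8 (helper830): uniqueness and paths

* `hk_unique`      : two triples with the same `J 0`, cohomologous `om 0` and `om 1 = r om' 1`,
                     `r > 0`, are equal (Calabi)
* `TopI.uniqR2`    : (2,0)-forms are unique up to a complex factor, in real language
* `TopI.exists_path` : the family of triples of a `CFam` through a given triple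
* `TopI.exists_leg`  : the output in the language of `AlgDefs_998`
-/

set_option autoImplicit false
set_option linter.unusedSectionVars false
set_option maxSynthPendingDepth 3

open Set Filter Topology Function MeasureTheory
open scoped ContDiff

namespace Crest.Agent.R281.Al_830

open Crest.Agent.R275.Geo Crest.Agent.R275.Core144 Crest.Agent.R275.EDR890
open Crest.Agent.R273.Kah_333
open Crest.Agent.R281.Defs_273 (H2 HSymp)
open Crest.Agent.R281.HkP1_508 Crest.Agent.R281.HkP2_508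
open Crest.Agent.R281.HkR_835 hiding pb pb_apply
open Crest.Agent.R281.HkR_835.Cmp
open Crest.Agent.R281.Ti_846 hiding pb pb_apply
open Crest.Agent.R281.NefO_476
open Crest.Agent.R281.Nef_252
open Crest.Agent.R281.Tt_476
open Crest.Agent.R281.Xi_831 (ND WW WW_spec WW_unique)
open Crest.Agent.R281.Alg_998 (HEqv SmH Cl AtTau Frm Leg)

noncomputable section

variable {V X : Type} [NormedAddCommGroup V] [NormedSpace ℝ V] [TopologicalSpace X]
  {C : RCh V X} [FiniteDimensional ℝ V]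

section unique

variable {κ : Type} [Fintype κ] [DecidableEq κ] (b : Module.Basis κ ℝ V)

/-- `det (om_0 (x, J_0 y)) = det (om_1 (x, y))` for a triple -/
theorem detB_hk (H : HkT C) {i : C.ι} {z : V} (hz : z ∈ (C.e i).target) :
    detB b (fun x y => (H.om 0).w i z x (H.J 0 i z y)) =
      detB b (fun x y => (H.om 1).w i z x y) := by
  have h1 : (fun x y => (H.om 0).w i z x (H.J 0 i z y)) = fun x y => H.g i z x y := by
    funext x y
    rw [H.om_eq 0 i z hz, H.g_J 0 hz]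
  have h2 : detB b (fun x y => (H.om 1).w i z x y) =
      detB b (fun x y => H.g i z x (H.J 1 i z y)) := by
    unfold detB
    rw [← Matrix.det_transpose]
    congr 1
    ext k l
    show (H.om 1).w i z (b l) (b k) = _
    rw [H.om_eq 1 i z hz, H.g_symm i z hz]
    rfl
  rw [h1, h2, detB_comp b (H.g i z) (H.J 1 i z), det_sq_neg (H.J_sq 1 i z hz), mul_one]

theorem detB_smul' (c : ℝ) (B : V → V → ℝ) :
    detB b (fun x y => c * B x y) = c ^ Fintype.card κ * detB b B := by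
  unfold detB
  rw [← Matrix.det_smul]
  congr 1

/-- **uniqueness** (Calabi): same `J 0`, cohomologous `om 0`, `om 1 = r om' 1` -/
theorem om_unique [MeasurableSpace V] [BorelSpace V] [CompactSpace X] [T2Space X]
    [ConnectedSpace X] {d : ℕ} (hfin : Module.finrank ℝ V = 2 * d) (hd : 2 ≤ d)
    (H H' : HkT C) (hJ : ∀ i, ∀ z ∈ (C.e i).target, ∀ v, H.J 0 i z v = H'.J 0 i z v)
    (hex : Ex (H.om 0 - H'.om 0)) {r : ℝ}
    (h1 : ∀ i, ∀ z ∈ (C.e i).target, ∀ u v, (H.om 1).w i z u v = r * (H'.om 1).w i z u v) :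
    ∀ i, ∀ z ∈ (C.e i).target, (H.om 0).w i z = (H'.om 0).w i z := by
  set J : AJ C := ofHk H' 0 with hJd
  have hcx : Cx J := cx_ofHk H' 0
  have ht : T11 J (H.om 0) := by
    intro i z hz u v
    show (H.om 0).w i z (H'.J 0 i z u) (H'.J 0 i z v) = _
    rw [← hJ i z hz, ← hJ i z hz]
    exact T11_hk H 0 i z hz u v
  have ht' : T11 J (H'.om 0) := T11_hk H' 0
  have hw : T11 J (H.om 0 - H'.om 0) := by
    intro i z hz u v
    simp only [F2.sub_w, sub_apply]
    rw [ht i z hz, ht' i z hz]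
  have hdd : DDb J := ddb_of (Crest.Agent.R260.NN6_900.nnat d V hfin) hd hcx
    (KCls.of ht' (Pos_hk H' 0))
  obtain ⟨u, hu, hU⟩ := hdd _ hex hw
  have key : ∀ i, ∀ z ∈ (C.e i).target, ∀ x y, (H'.om 0).w i z x y +
      ddcF (uc C u i) (J.J i) z x y = (H.om 0).w i z x y := by
    intro i z hz x y
    have h2 := hU i z hz x y
    rw [F2.sub_w, sub_apply, sub_apply, ddc_w J u hu hz] at h2
    linarith
  have hz0 : ∀ i, ∀ z : V, ∀ x y, ddcF (uc C (fun _ : X => (0 : ℝ)) i) (J.J i) z x y = 0 := by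
    intro i z x y
    have e1 : uc C (fun _ : X => (0 : ℝ)) i = fun _ => (0 : ℝ) := rfl
    have e2 : fderiv ℝ (fun _ : V => (0 : ℝ)) = fun _ => 0 := by
      funext y
      exact fderiv_const_apply (0 : ℝ)
    have e3 : fderiv ℝ (fun _ : V => (0 : V →L[ℝ] ℝ)) = fun _ => 0 := by
      funext y
      exact fderiv_const_apply (0 : V →L[ℝ] ℝ)
    rw [ddcF, e1, e2, e3]
    simp
  have hr0 : ∀ i, ∀ z ∈ (C.e i).target, detB (Module.finBasis ℝ V)
      (fun x y => (H'.om 1).w i z x y) ≠ 0 := fun i z hz =>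
    YVMa_449.detB_ne _ fun v hv => H'.nondeg 1 hz v hv
  have hun := Uq_250.uniqR hfin J hcx (H'.om 0) ht' (Module.finBasis ℝ V)
    (fun i z => detB (Module.finBasis ℝ V) (fun x y => (H'.om 1).w i z x y)) hr0
    (U := u) (u := fun _ => 0) (fun i => (hu i).of_le (WithTop.coe_le_coe.2 le_top))
    (fun i => contDiffOn_const)
    (fun i z hz v hv => by
      rw [key i z hz]
      show 0 < (H.om 0).w i z v (H'.J 0 i z v)
      rw [← hJ i z hz]
      exact Pos_hk H 0 i z hz v hv)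
    (fun i z hz v hv => by
      rw [hz0, add_zero]
      exact Pos_hk H' 0 i z hz v hv)
    (k₁ := r ^ Fintype.card (Fin (Module.finrank ℝ V))) (k₂ := 1)
    (fun i z hz => by
      have h3 := detB_hk (Module.finBasis ℝ V) H hz
      have h4 : (fun x y => (H.om 1).w i z x y) = fun x y => r * (H'.om 1).w i z x y := by
        funext x y
        exact h1 i z hz x y
      rw [h4, detB_smul' (Module.finBasis ℝ V) r (fun x y => (H'.om 1).w i z x y)] at h3
      rw [← h3]
      unfold detB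
      congr 1
      ext k l
      rw [Matrix.of_apply, Matrix.of_apply, key i z hz]
      show (H.om 0).w i z _ (H'.J 0 i z _) = _
      rw [← hJ i z hz])
    (fun i z hz => by
      have h3 := detB_hk (Module.finBasis ℝ V) H' hz
      rw [one_mul, ← h3]
      unfold detB
      congr 1
      ext k l
      rw [Matrix.of_apply, Matrix.of_apply, hz0, add_zero]
      rfl)
  obtain ⟨-, c, hc⟩ := hun
  intro i z hz
  ext x y
  rw [← key i z hz, ← ddc_w J u hu hz,
    ddc_congr J hu (show Sm C (fun _ : X => (0 : ℝ)) from fun i => contDiffOn_const)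
      (c := c) (fun x => by have := hc x; linarith) hz,
    ddc_w J (fun _ : X => (0 : ℝ)) (fun i => contDiffOn_const) hz, hz0, add_zero]

/-- equality of triples from the forms `om 0` and `om 1` up to a positive factor -/
theorem hk_unique [Nonempty X] [Nontrivial V] (H H' : HkT C)
    (hJ : ∀ i, ∀ z ∈ (C.e i).target, ∀ v, H.J 0 i z v = H'.J 0 i z v)
    (h0 : ∀ i, ∀ z ∈ (C.e i).target, (H.om 0).w i z = (H'.om 0).w i z) {r : ℝ} (hr : 0 < r)
    (h1 : ∀ i, ∀ z ∈ (C.e i).target, ∀ u v, (H.om 1).w i z u v = r * (H'.om 1).w i z u v) :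
    r = 1 ∧ HEqv H H' := by
  have hJ' : ∀ i, ∀ z ∈ (C.e i).target, H.J 0 i z = H'.J 0 i z := fun i z hz => by
    ext v
    exact hJ i z hz v
  have hg : ∀ i, ∀ z ∈ (C.e i).target, H.g i z = H'.g i z := by
    intro i z hz
    rw [g_eq_om H hz, g_eq_om H' hz, h0 i z hz, hJ' i z hz]
  have hJ1 : ∀ i, ∀ z ∈ (C.e i).target, ∀ v, H.J 1 i z v = r • H'.J 1 i z v := by
    intro i z hz v
    rw [← sub_eq_zero]
    by_contra hne
    refine (H.g_pos i z hz _ hne).ne' ?_
    have h2 : ∀ w, H.g i z (H.J 1 i z v - r • H'.J 1 i z v) w = 0 := by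
      intro w
      rw [map_sub, sub_apply, map_smul, smul_apply, ← H.om_eq 1 i z hz, h1 i z hz, hg i z hz,
        ← H'.om_eq 1 i z hz, smul_eq_mul, sub_self]
    exact h2 _
  have hr1 : r = 1 := by
    obtain ⟨x⟩ := (inferInstance : Nonempty X)
    obtain ⟨i, hi⟩ := C.cover x
    obtain ⟨v, hv⟩ := exists_ne (0 : V)
    have hz := (C.e i).map_source hi
    have h3 := H.J_sq 1 i _ hz v
    rw [hJ1 i _ hz, hJ1 i _ hz, map_smul, H'.J_sq 1 i _ hz, smul_smul] at h3
    have h4 : (r * r - 1) • v = 0 := by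
      rw [sub_smul, one_smul]
      have h5 : (r * r) • v = v := by
        have := congrArg Neg.neg h3
        simpa using this
      rw [h5, sub_self]
    have h5 := (smul_eq_zero.1 h4).resolve_right hv
    nlinarith
  subst hr1
  have hJ1' : ∀ i, ∀ z ∈ (C.e i).target, H.J 1 i z = H'.J 1 i z := fun i z hz => by
    ext v
    rw [hJ1 i z hz, one_smul]
  have hJ2' : ∀ i, ∀ z ∈ (C.e i).target, H.J 2 i z = H'.J 2 i z := fun i z hz => by
    ext v
    rw [← H.J_01 i z hz, ← H'.J_01 i z hz, hJ1' i z hz, hJ' i z hz]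
  have hJa : ∀ k i, ∀ z ∈ (C.e i).target, H.J k i z = H'.J k i z := by
    intro k i z hz
    fin_cases k
    · exact hJ' i z hz
    · exact hJ1' i z hz
    · exact hJ2' i z hz
  refine ⟨rfl, ⟨fun k i z hz => ?_, hJa, hg⟩⟩
  ext u v
  rw [H.om_eq k i z hz, H'.om_eq k i z hz, hg i z hz, hJa k i z hz]

end unique

/-! ### uniqueness of the (2,0)-form -/

section uniq20

variable [MeasurableSpace V] [BorelSpace V] {μ : Measure V}
  [μ.IsAddHaarMeasure] [CompactSpace X] [T2Space X] [ConnectedSpace X] {n : ℕ}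
  {b : Module.Basis (Fin (n + n) × Fin 2) ℝ V} {P : RPart C} {q : QuadraticForm ℝ (F2 C)}

/-- **(2,0)-forms are unique up to a complex factor** -/
theorem TopI.uniqR2 (TI : TopI μ b P q) {J : AJ C} {om s1 s2 : F2 C} (D : HD J om s1 s2)
    (hq : 0 < q om) {t1 t2 : F2 C}
    (ht : ∀ i, ∀ z ∈ (C.e i).target, ∀ u v, t1.w i z (J.J i z u) v = -t2.w i z u v) :
    ∃ α β : ℝ, (∀ i, ∀ z ∈ (C.e i).target, t1.w i z = (α • s1 - β • s2).w i z) ∧
      ∀ i, ∀ z ∈ (C.e i).target, t2.w i z = (β • s1 + α • s2).w i z := by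
  obtain ⟨A, hfin, -, ⟨PA⟩, h, hI⟩ := exists_atlas (fin_V b) D.cx
  have hu : (D.S hI h).Uniq := TI.uniq_hd PA hI h D hq _
  have htyp : ∀ j, ∀ z ∈ (A.e j).target, ∀ u v : Cn (n + n),
      (h.F t1).w j z (Complex.I • u) v = -(h.F t2).w j z u v := by
    intro j z hz u v
    obtain ⟨i, hi⟩ := exists_mov (C' := ofAtl A) C (j := j) hz
    rw [h.F_w t1 hi, h.F_w t2 hi, ← hI i j z hi, ht i _ (mt_mem hi).1]
  set τ : H2 A := h20 (h.F t1) (h.F t2) htyp with hτ
  obtain ⟨c, hc⟩ := hu τ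
  have hsb : ∀ j, ∀ z ∈ (A.e j).target, ∀ u v : Cn (n + n),
      ((h.F t1).w j z u v : ℂ) + Complex.I * ((h.F t2).w j z u v : ℂ) =
        c * (((h.F s1).w j z u v : ℂ) + Complex.I * ((h.F s2).w j z u v : ℂ)) := by
    intro j z hz u v
    rw [← sb_h20 (h.F t1) (h.F t2) htyp hz u v, ← D.S0_sb hI h hz u v, ← sb_smul]
    congr 1
    have h1 := hc j _ ((A.e j).map_target hz)
    show τ.s j ((A.e j).symm z) = _
    rw [h1]
    rfl
  have hF : ∀ j, ∀ z ∈ (A.e j).target, ∀ u v : Cn (n + n),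
      (h.F t1).w j z u v = c.re * (h.F s1).w j z u v - c.im * (h.F s2).w j z u v ∧
      (h.F t2).w j z u v = c.im * (h.F s1).w j z u v + c.re * (h.F s2).w j z u v := by
    intro j z hz u v
    have h1 := hsb j z hz u v
    have h2 := congrArg Complex.re h1
    have h3 := congrArg Complex.im h1
    simp at h2 h3
    constructor
    · linarith
    · linarith
  have back : ∀ w : F2 C, ∀ i, ∀ z ∈ (C.e i).target, ∀ u v, ∀ j (hj : z ∈ mov (ofAtl A) C j i),
      w.w i z u v = (h.F w).w j (mt (ofAtl A) C j i z) (fderiv ℝ (mt (ofAtl A) C j i) z u)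
        (fderiv ℝ (mt (ofAtl A) C j i) z v) := by
    intro w i z hz u v j hj
    obtain ⟨h1, h2⟩ := mov_swap (C := C) (C' := ofAtl A) hj
    rw [h.F_w w h1, h.symm.d_d hj, h.symm.d_d hj, h2]
  refine ⟨c.re, c.im, fun i z hz => ?_, fun i z hz => ?_⟩
  · obtain ⟨j, hj⟩ : ∃ j : A.ι, z ∈ mov (ofAtl A) C j i := exists_mov (C' := C) (ofAtl A) hz
    ext u v
    simp only [F2.sub_w, F2.smul_w, sub_apply, smul_apply, smul_eq_mul]
    rw [back t1 i z hz u v j hj, back s1 i z hz u v j hj, back s2 i z hz u v j hj]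
    exact (hF j _ (mt_mem hj).1 _ _).1
  · obtain ⟨j, hj⟩ : ∃ j : A.ι, z ∈ mov (ofAtl A) C j i := exists_mov (C' := C) (ofAtl A) hz
    ext u v
    simp only [F2.add_w, F2.smul_w, add_apply, smul_apply, smul_eq_mul]
    rw [back t2 i z hz u v j hj, back s1 i z hz u v j hj, back s2 i z hz u v j hj]
    exact (hF j _ (mt_mem hj).1 _ _).2

end uniq20

/-! ### families through a given triple -/

section path

variable [MeasurableSpace V] [BorelSpace V] {μ : Measure V}
  [μ.IsAddHaarMeasure] [CompactSpace X] [T2Space X] [ConnectedSpace X] {n : ℕ}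
  {b : Module.Basis (Fin (n + n) × Fin 2) ℝ V} {P : RPart C} {q : QuadraticForm ℝ (F2 C)}
  {κ : Type} [Fintype κ] [DecidableEq κ] {b' : Module.Basis κ ℝ V}
  {E : Type} [NormedAddCommGroup E] [NormedSpace ℝ E] [FiniteDimensional ℝ E]

/-- **the family of triples of a `CFam` through a given triple** -/
theorem TopI.exists_path (TI : TopI μ b P q) (hY : YauVar C b') {T : Set E} (hT : IsOpen T)
    (D : CFam C T) (hq : ∀ t ∈ T, 0 < q (D.om t)) {t0 : E} (ht0 : t0 ∈ T) (H0 : HkT C)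
    (hJ : ∀ i, ∀ z ∈ (C.e i).target, ∀ v, H0.J 0 i z v = (D.J t0).J i z v)
    (hcl : Ex (H0.om 0 - D.om t0)) :
    ∃ (H : E → HkT C) (c : E → ℂ), JSH T H ∧ ContDiffOn ℝ ∞ c T ∧ HEqv (H t0) H0 ∧
      ∀ t ∈ T, c t ≠ 0 ∧ ofHk (H t) 0 = D.J t ∧ Ex ((H t).om 0 - D.om t) ∧
        (H t).om 1 = (c t).re • D.s1 t - (c t).im • D.s2 t ∧
        (H t).om 2 = (c t).im • D.s1 t + (c t).re • D.s2 t := by
  have hn := TI.npos
  obtain ⟨α, β, hα, hβ⟩ := TI.uniqR2 (D.hd t0 ht0) (hq t0 ht0) (t1 := H0.om 1) (t2 := H0.om 2)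
    fun i z hz u v => by
      rw [← hJ i z hz]
      exact (H0.om_J (k := 0) (l := 1) (m := 2) (Or.inl rfl) (i := i) hz u v).1
  have hV : Nontrivial V := by
    refine Module.nontrivial_of_finrank_pos (R := ℝ) ?_
    rw [fin_V b]
    omega
  have hne : α ≠ 0 ∨ β ≠ 0 := by
    by_contra hc
    push Not at hc
    obtain ⟨x⟩ := (inferInstance : Nonempty X)
    obtain ⟨i, hi⟩ := C.cover x
    obtain ⟨v, hv⟩ := exists_ne (0 : V)
    refine hv (H0.nondeg 1 ((C.e i).map_source hi) v fun w => ?_)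
    rw [hα i _ ((C.e i).map_source hi), hc.1, hc.2]
    simp
  set D' : CFam C T := D.phase hne with hD'
  obtain ⟨H, r, u, hH, hr, hu, hmain⟩ := TI.exists_hk hY hT ⟨t0, ht0⟩ D' hq
  have hex : ∀ t ∈ T, Ex ((H t).om 0 - D.om t) := by
    intro t ht
    obtain ⟨-, -, ⟨hu, h3⟩, -, -⟩ := hmain t ht
    have h4 : (H t).om 0 - D.om t = ddc (D.J t) (u t) hu := by
      rw [h3]
      exact add_sub_cancel_left _ _
    rw [h4]
    exact ddc_Ex _ _ _
  refine ⟨H, fun t => (r t : ℂ) * ⟨α, β⟩, hH, ?_, ?_, fun t ht => ?_⟩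
  · exact (Complex.ofRealCLM.contDiff.comp_contDiffOn hr).mul contDiffOn_const
  · obtain ⟨h1, h2, h3, h4, h5⟩ := hmain t0 ht0
    have hJ' : ∀ i, ∀ z ∈ (C.e i).target, ∀ v, (H t0).J 0 i z v = H0.J 0 i z v := by
      intro i z hz v
      rw [hJ i z hz]
      have h6 : (D'.J t0) = D.J t0 := rfl
      rw [← h6, ← h2]
      rfl
    have hex0 : Ex ((H t0).om 0 - H0.om 0) := by
      have h6 : (H t0).om 0 - H0.om 0 = ((H t0).om 0 - D.om t0) - (H0.om 0 - D.om t0) := by abel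
      rw [h6]
      exact Nef_252.ex_sub (hex t0 ht0) hcl
    have h1' : ∀ i, ∀ z ∈ (C.e i).target, ∀ u v,
        ((H t0).om 1).w i z u v = r t0 * (H0.om 1).w i z u v := by
      intro i z hz u v
      rw [h4, hα i z hz]
      rfl
    exact (hk_unique (H t0) H0 hJ' (om_unique (fin_V b) (by omega) (H t0) H0 hJ' hex0 h1')
      h1 h1').2
  · obtain ⟨h1, h2, h3, h4, h5⟩ := hmain t ht
    refine ⟨?_, h2, hex t ht, ?_, ?_⟩
    · refine mul_ne_zero (by exact_mod_cast h1.ne') fun h => ?_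
      have h6 := congrArg Complex.re h
      have h7 := congrArg Complex.im h
      simp at h6 h7
      rcases hne with h8 | h8
      · exact h8 h6
      · exact h8 h7
    · rw [h4]
      show r t • (α • D.s1 t - β • D.s2 t) = _
      rw [Complex.re_ofReal_mul, Complex.im_ofReal_mul, smul_sub, smul_smul, smul_smul]
    · rw [h5]
      show r t • (β • D.s1 t + α • D.s2 t) = _
      rw [Complex.re_ofReal_mul, Complex.im_ofReal_mul, smul_add, smul_smul, smul_smul]

end path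

/-! ### the language of `AlgDefs_998` -/

section leg

variable [MeasurableSpace V] [BorelSpace V] {μ : Measure V}
  [μ.IsAddHaarMeasure] [CompactSpace X] [T2Space X] [ConnectedSpace X] {n : ℕ}
  {b : Module.Basis (Fin (n + n) × Fin 2) ℝ V} {P : RPart C} {q : QuadraticForm ℝ (F2 C)}
  {κ : Type} [Fintype κ] [DecidableEq κ] {b' : Module.Basis κ ℝ V}
  {Q : F2 C →ₗ[ℝ] F2 C →ₗ[ℝ] ℝ}

theorem JSH.smH {K : ℝ → HkT C} (h : JSH univ K) : SmH K := ⟨h.om, h.J, h.g⟩

theorem SmH.jsh {K : ℝ → HkT C} (h : SmH K) : JSH univ K := ⟨h.om, h.J, h.g⟩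

theorem HEqv.J_eq {H H' : HkT C} {J : AJ C} (h : HEqv H H') (hJ : ofHk H' 0 = J) :
    ∀ i, ∀ z ∈ (C.e i).target, ∀ v, H.J 0 i z v = J.J i z v := by
  intro i z hz v
  rw [h.J 0 i z hz, ← hJ]
  rfl

/-- `s1 + i s2` has the class `z σ_τ`, `z ≠ 0` -/
def PerAt (F : Frm C Q) (s1 s2 : F2 C) (τ : ℂ) : Prop :=
  ∃ z : ℂ, z ≠ 0 ∧ Cl s1 (z.re • F.sre τ - z.im • F.sim τ) ∧
    Cl s2 (z.im • F.sre τ + z.re • F.sim τ)

theorem PerAt.smul {F : Frm C Q} {s1 s2 : F2 C} {τ : ℂ} (h : PerAt F s1 s2 τ) {c : ℂ}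
    (hc : c ≠ 0) : PerAt F (c.re • s1 - c.im • s2) (c.im • s1 + c.re • s2) τ := by
  obtain ⟨z, hz, h1, h2⟩ := h
  refine ⟨c * z, mul_ne_zero hc hz, ?_, ?_⟩
  · have h3 := (h1.smul c.re).add (h2.smul (-c.im))
    have e1 : c.re • s1 + -c.im • s2 = c.re • s1 - c.im • s2 := by module
    have e2 : c.re • (z.re • F.sre τ - z.im • F.sim τ) +
        -c.im • (z.im • F.sre τ + z.re • F.sim τ) =
        (c * z).re • F.sre τ - (c * z).im • F.sim τ := by
      rw [Complex.mul_re, Complex.mul_im]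
      module
    rwa [e1, e2] at h3
  · have h3 := (h1.smul c.im).add (h2.smul c.re)
    have e2 : c.im • (z.re • F.sre τ - z.im • F.sim τ) +
        c.re • (z.im • F.sre τ + z.re • F.sim τ) =
        (c * z).im • F.sre τ + (c * z).re • F.sim τ := by
      rw [Complex.mul_re, Complex.mul_im]
      module
    rwa [e2] at h3

/-- **HK-ALONG, path form**: a `CFam` over the real line with `[om t] = A`,
`[s1 t + i s2 t] = z σ_(τ t)` carries a jointly smooth family of hyperkaehler triples through the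
given triple `H0` at time `t0` -/
theorem TopI.exists_lift (TI : TopI μ b P q) (hY : YauVar C b') {F : Frm C Q} {A : F2 C}
    (hA : 0 < q A) (D : CFam C (univ : Set ℝ)) (hom : ∀ t, Cl (D.om t) A) {τ : ℝ → ℂ}
    (him : ∀ t, 0 < (τ t).im) (hs : ∀ t, PerAt F (D.s1 t) (D.s2 t) (τ t)) (t0 : ℝ)
    (H0 : HkT C) (hJ : ∀ i, ∀ z ∈ (C.e i).target, ∀ v, H0.J 0 i z v = (D.J t0).J i z v)
    (hcl : Cl (H0.om 0) A) :
    ∃ K : ℝ → HkT C, SmH K ∧ HEqv (K t0) H0 ∧
      ∀ t, ofHk (K t) 0 = D.J t ∧ AtTau F A (K t) (τ t) := by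
  have hq : ∀ t ∈ (univ : Set ℝ), 0 < q (D.om t) := by
    intro t _
    rw [TI.q_coh (hom t)]
    exact hA
  obtain ⟨K, c, h1, -, h3, h4⟩ := TI.exists_path hY isOpen_univ D hq (mem_univ t0) H0 hJ
    (hcl.trans (hom t0).symm)
  refine ⟨K, JSH.smH h1, h3, fun t => ?_⟩
  obtain ⟨h5, h6, h7, h8, h9⟩ := h4 t (mem_univ t)
  refine ⟨h6, him t, Cl.trans h7 (hom t), ?_⟩
  have h10 := (hs t).smul h5
  rw [← h8, ← h9] at h10
  exact h10

/-- **the leg of a `CFam`** -/
theorem TopI.exists_leg (TI : TopI μ b P q) (hY : YauVar C b') {F : Frm C Q} {A : F2 C}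
    (hA : 0 < q A) (D : CFam C (univ : Set ℝ)) (hom : ∀ t, Cl (D.om t) A) {τ : ℝ → ℂ}
    (hτ : ContDiff ℝ ∞ τ) {S : Set ℂ} (hS : ∀ t, τ t ∈ S)
    (him : ∀ t, 0 < (τ t).im) (hs : ∀ t, PerAt F (D.s1 t) (D.s2 t) (τ t))
    (H0 : HkT C) (hJ : ∀ i, ∀ z ∈ (C.e i).target, ∀ v, H0.J 0 i z v = (D.J 0).J i z v)
    (hcl : Cl (H0.om 0) A) :
    ∃ H1 : HkT C, Leg F A S H0 H1 ∧ ofHk H1 0 = D.J 1 ∧ AtTau F A H1 (τ 1) := by
  obtain ⟨K, h1, h2, h3⟩ := TI.exists_lift hY hA D hom him hs 0 H0 hJ hcl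
  exact ⟨K 1, ⟨K, τ, h1, hτ, hS, fun t => (h3 t).2, h2, HEqv.refl _⟩, h3 1⟩

end leg

end

end Crest.Agent.R281.Al_830
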