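import Crest.Agent.R281.Pt2_313

/-!
# R281 (S0424), DIV 2 (helper867): the Fubini-Study form of a Segre product is the sum of the blocks

* `hp_seg`, `hp_dseg_seg`, `hp_dseg_dseg` : Hermitian products of Segre vectors
* `fsh_seg`  : `fsh (seg u) (dseg u v) (dseg u w) = ∑ fsh (u k) (v k) (w k)`
* `dRel_eq`  : a velocity of the Segre cone is `c • dseg u v + b • x`
* `fsv_seg`  : `fsv x v w = ∑ fsv (ext k a x) (ext k a v) (ext k a w)` on the Segre cone
* `FS_eq_sum` : `(FS _).sg x v w = ∑ (segB k).sg x v w`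
-/

set_option autoImplicit false
set_option linter.unusedSectionVars false

open Set Filter Topology Complex Function
open scoped ContDiff ComplexConjugate

namespace Crest.Agent.R281.Alg_867

open Crest.Agent.R281.Blk_592 Crest.Agent.R281.Phl_655

noncomputable section

section alg

variable {T κ : Type} [Fintype T]

theorem hp_sum_left (s : Finset κ) (f : κ → T → ℂ) (w : T → ℂ) :
    Blk_592.hp (∑ k ∈ s, f k) w = ∑ k ∈ s, Blk_592.hp (f k) w := by
  unfold Blk_592.hp
  simp only [Finset.sum_apply, Finset.sum_mul]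
  exact Finset.sum_comm

theorem hp_sum_right (s : Finset κ) (v : T → ℂ) (f : κ → T → ℂ) :
    Blk_592.hp v (∑ k ∈ s, f k) = ∑ k ∈ s, Blk_592.hp v (f k) := by
  unfold Blk_592.hp
  simp only [Finset.sum_apply, map_sum, Finset.mul_sum]
  exact Finset.sum_comm

end alg

variable {ι : Type} [Fintype ι] [DecidableEq ι] {J : ι → Type} [∀ k, Fintype (J k)]

theorem hp_seg (u u' : ∀ k, J k → ℂ) : Blk_592.hp (seg u) (seg u') = ∏ k, Blk_592.hp (u k) (u' k) := by
  unfold Blk_592.hp seg
  simp only [map_prod, ← Finset.prod_mul_distrib]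
  rw [Finset.prod_univ_sum, Fintype.piFinset_univ]

theorem dseg_eq (u v : ∀ k, J k → ℂ) : dseg u v = ∑ k, seg (update u k (v k)) := by
  funext a
  rw [Finset.sum_apply]
  unfold dseg
  refine Finset.sum_congr rfl fun k _ => ?_
  rw [seg_eq _ k a, update_self]
  congr 1
  refine Finset.prod_congr rfl fun l hl => ?_
  rw [update_of_ne (Finset.ne_of_mem_erase hl)]

section main

variable {u v w : ∀ k, J k → ℂ} (hu : ∀ k, u k ≠ 0)

include hu

theorem hp_dseg_seg : Blk_592.hp (dseg u v) (seg u) =
    (∏ k, Blk_592.hp (u k) (u k)) * ∑ k, Blk_592.hp (v k) (u k) / Blk_592.hp (u k) (u k) := by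
  rw [dseg_eq, hp_sum_left, Finset.mul_sum]
  refine Finset.sum_congr rfl fun k _ => ?_
  have h0 := hp_self_ne (hu k)
  rw [hp_seg, ← Finset.mul_prod_erase _ _ (Finset.mem_univ k),
    ← Finset.mul_prod_erase _ (fun l => Blk_592.hp (u l) (u l)) (Finset.mem_univ k), update_self]
  have h1 : ∏ x ∈ Finset.univ.erase k, Blk_592.hp (update u k (v k) x) (u x) =
      ∏ x ∈ Finset.univ.erase k, Blk_592.hp (u x) (u x) := by
    refine Finset.prod_congr rfl fun l hl => ?_
    rw [update_of_ne (Finset.ne_of_mem_erase hl)]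
  rw [h1]
  field_simp

theorem hp_seg_dseg : Blk_592.hp (seg u) (dseg u w) =
    (∏ k, Blk_592.hp (u k) (u k)) * ∑ k, Blk_592.hp (u k) (w k) / Blk_592.hp (u k) (u k) := by
  rw [dseg_eq, hp_sum_right, Finset.mul_sum]
  refine Finset.sum_congr rfl fun k _ => ?_
  have h0 := hp_self_ne (hu k)
  rw [hp_seg, ← Finset.mul_prod_erase _ _ (Finset.mem_univ k),
    ← Finset.mul_prod_erase _ (fun l => Blk_592.hp (u l) (u l)) (Finset.mem_univ k), update_self]
  have h1 : ∏ x ∈ Finset.univ.erase k, Blk_592.hp (u x) (update u k (w k) x) =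
      ∏ x ∈ Finset.univ.erase k, Blk_592.hp (u x) (u x) := by
    refine Finset.prod_congr rfl fun l hl => ?_
    rw [update_of_ne (Finset.ne_of_mem_erase hl)]
  rw [h1]
  field_simp

theorem hp_upd_upd (k l : ι) : Blk_592.hp (seg (update u k (v k))) (seg (update u l (w l))) =
    (∏ m, Blk_592.hp (u m) (u m)) *
      (Blk_592.hp (v k) (u k) / Blk_592.hp (u k) (u k) * (Blk_592.hp (u l) (w l) / Blk_592.hp (u l) (u l)) +
        if k = l then Blk_592.hp (v k) (w k) / Blk_592.hp (u k) (u k) -
          Blk_592.hp (v k) (u k) / Blk_592.hp (u k) (u k) *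
            (Blk_592.hp (u k) (w k) / Blk_592.hp (u k) (u k)) else 0) := by
  rw [hp_seg]
  by_cases hkl : k = l
  · subst hkl
    have h0 := hp_self_ne (hu k)
    rw [if_pos rfl, ← Finset.mul_prod_erase _ _ (Finset.mem_univ k),
      ← Finset.mul_prod_erase _ (fun l => Blk_592.hp (u l) (u l)) (Finset.mem_univ k), update_self,
      update_self]
    have h1 : ∏ x ∈ Finset.univ.erase k, Blk_592.hp (update u k (v k) x) (update u k (w k) x) =
        ∏ x ∈ Finset.univ.erase k, Blk_592.hp (u x) (u x) := by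
      refine Finset.prod_congr rfl fun l hl => ?_
      rw [update_of_ne (Finset.ne_of_mem_erase hl), update_of_ne (Finset.ne_of_mem_erase hl)]
    rw [h1]
    field_simp
    ring
  · have h0 := hp_self_ne (hu k)
    have h0' := hp_self_ne (hu l)
    have hl : l ∈ Finset.univ.erase k := Finset.mem_erase.2 ⟨Ne.symm hkl, Finset.mem_univ l⟩
    rw [if_neg hkl, add_zero, ← Finset.mul_prod_erase _ _ (Finset.mem_univ k),
      ← Finset.mul_prod_erase _ (fun l => Blk_592.hp (u l) (u l)) (Finset.mem_univ k),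
      ← Finset.mul_prod_erase _ _ hl, ← Finset.mul_prod_erase _ (fun l => Blk_592.hp (u l) (u l)) hl,
      update_self, update_self, update_of_ne hkl, update_of_ne (Ne.symm hkl)]
    have h1 : ∏ x ∈ (Finset.univ.erase k).erase l,
        Blk_592.hp (update u k (v k) x) (update u l (w l) x) =
        ∏ x ∈ (Finset.univ.erase k).erase l, Blk_592.hp (u x) (u x) := by
      refine Finset.prod_congr rfl fun m hm => ?_
      rw [update_of_ne (Finset.ne_of_mem_erase (Finset.mem_of_mem_erase hm)),
        update_of_ne (Finset.ne_of_mem_erase hm)]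
    rw [h1]
    field_simp

/-- **the Fubini-Study form of a Segre product** -/
theorem fsh_seg : fsh (seg u) (dseg u v) (dseg u w) = ∑ k, fsh (u k) (v k) (w k) := by
  have hP : (∏ k, Blk_592.hp (u k) (u k)) ≠ 0 := Finset.prod_ne_zero_iff.2 fun k _ => hp_self_ne (hu k)
  have h1 : Blk_592.hp (dseg u v) (dseg u w) = (∏ m, Blk_592.hp (u m) (u m)) *
      ((∑ k, Blk_592.hp (v k) (u k) / Blk_592.hp (u k) (u k)) *
        (∑ k, Blk_592.hp (u k) (w k) / Blk_592.hp (u k) (u k)) +
        ∑ k, (Blk_592.hp (v k) (w k) / Blk_592.hp (u k) (u k) -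
          Blk_592.hp (v k) (u k) / Blk_592.hp (u k) (u k) *
            (Blk_592.hp (u k) (w k) / Blk_592.hp (u k) (u k)))) := by
    rw [dseg_eq u v, dseg_eq u w, hp_sum_left]
    simp only [hp_sum_right, hp_upd_upd hu]
    simp only [← Finset.mul_sum, Finset.sum_add_distrib, Finset.sum_ite_eq, Finset.mem_univ,
      if_true, ← Finset.sum_mul]
  have h2 : ∀ k, fsh (u k) (v k) (w k) = Blk_592.hp (v k) (w k) / Blk_592.hp (u k) (u k) -
      Blk_592.hp (v k) (u k) / Blk_592.hp (u k) (u k) *
        (Blk_592.hp (u k) (w k) / Blk_592.hp (u k) (u k)) := by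
    intro k
    have h0 := hp_self_ne (hu k)
    unfold fsh
    field_simp
  rw [Finset.sum_congr rfl fun k _ => h2 k]
  unfold fsh
  rw [h1, hp_dseg_seg hu, hp_seg_dseg hu, hp_seg]
  generalize (∏ k, Blk_592.hp (u k) (u k)) = P at hP
  field_simp
  ring

end main

/-- **velocities of the Segre cone** -/
theorem dRel_eq {x v : (∀ k, J k) → ℂ} (hx : SegRel x) (hv : DRel x v) {a : ∀ k, J k}
    (ha : x a ≠ 0) : ∃ b : ℂ, v = (x a * ((x a)⁻¹) ^ Fintype.card ι) •
      dseg (fun k => ext k a x) (fun k => ext k a v) + b • x := by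
  set c : ℂ := x a * ((x a)⁻¹) ^ Fintype.card ι with hc
  set U : ∀ k, J k → ℂ := fun k => ext k a x with hU
  set W : ∀ k, J k → ℂ := fun k => ext k a v with hW
  have hxs : x = c • seg U := segRel_eq hx ha
  have hUa : ∀ k, U k (a k) = x a := fun k => ext_self k a x
  have hWa : ∀ k, W k (a k) = v a := fun k => ext_self k a v
  rcases isEmpty_or_nonempty ι with hι | hι
  · -- one coordinate
    refine ⟨(v a - (c • dseg U W) a) / x a, funext fun a' => ?_⟩
    have haa : a' = a := Subsingleton.elim _ _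
    subst haa
    simp only [Pi.add_apply, Pi.smul_apply, smul_eq_mul]
    field_simp
    ring
  · obtain ⟨p, hp⟩ : ∃ p, Fintype.card ι = p + 1 :=
      ⟨Fintype.card ι - 1, (Nat.succ_pred_eq_of_pos Fintype.card_pos).symm⟩
    have hcard : ∀ k : ι, (Finset.univ.erase k).card = p := fun k => by
      rw [Finset.card_erase_of_mem (Finset.mem_univ k), Finset.card_univ, hp]
      rfl
    have hcp : c * x a ^ p = 1 := by
      rw [hc, hp, pow_succ, inv_pow]
      field_simp
    set g : ℂ := (p : ℂ) * (v a / x a) with hg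
    have hext : ∀ k, ext k a (c • dseg U W) = W k + g • U k := by
      intro k
      rw [ext_smul, ext_dseg]
      have e1 : ∏ l ∈ Finset.univ.erase k, U l (a l) = x a ^ p := by
        rw [Finset.prod_congr rfl fun l _ => hUa l, Finset.prod_const, hcard]
      have e2 : ∑ m ∈ Finset.univ.erase k, W m (a m) *
          ∏ l ∈ (Finset.univ.erase k).erase m, U l (a l) = (p : ℂ) * (v a * x a ^ (p - 1)) := by
        rw [Finset.sum_congr rfl (g := fun _ => v a * x a ^ (p - 1)), Finset.sum_const, hcard,
          nsmul_eq_mul]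
        intro m hm
        rw [hWa, Finset.prod_congr rfl fun l _ => hUa l, Finset.prod_const,
          Finset.card_erase_of_mem hm, hcard]
      rw [e1, e2, smul_add, smul_smul, smul_smul, hcp, one_smul]
      congr 2
      rw [hg]
      rcases Nat.eq_zero_or_pos p with h0 | h0
      · simp [h0]
      · have h3 : x a ^ p = x a ^ (p - 1) * x a := by
          rw [← pow_succ, Nat.sub_add_cancel h0]
        rw [h3] at hcp
        have h4 : c * x a ^ (p - 1) = (x a)⁻¹ := by
          field_simp
          linear_combination hcp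
        linear_combination (p : ℂ) * v a * h4
    refine ⟨-g, ?_⟩
    have hD : DRel x (v - (c • dseg U W + (-g) • x)) := by
      have h1 : DRel x (c • dseg U W + (-g) • x) := by
        have h2 : DRel (c • seg U) (dseg U W) := (dRel_dseg U W).smul_left c
        rw [← hxs] at h2
        exact h2.smul_add hx c (-g)
      intro k b b'
      have e1 := hv k b b'
      have e2 := h1 k b b'
      simp only [Pi.sub_apply] at *
      linear_combination e1 - e2
    have hz : ∀ k, ext k a (v - (c • dseg U W + (-g) • x)) = 0 := by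
      intro k
      have h1 : ext k a (v - (c • dseg U W + (-g) • x)) =
          ext k a v - (ext k a (c • dseg U W) + (-g) • ext k a x) := rfl
      rw [h1, hext k]
      show W k - (W k + g • U k + (-g) • U k) = 0
      rw [neg_smul]
      abel
    obtain ⟨k0⟩ := hι
    have hva : (v - (c • dseg U W + (-g) • x)) a = 0 := by
      have h1 := congrFun (hz k0) (a k0)
      rw [ext_self] at h1
      exact h1
    funext b
    have h1 := Pt_313.dRel_zero hD ha hz hva b
    exact sub_eq_zero.1 h1

/-- **the Fubini-Study form on the Segre cone is the sum of the block forms** -/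
theorem fsv_seg {x v w : (∀ k, J k) → ℂ} (hx : SegRel x) (hv : DRel x v) (hw : DRel x w)
    {a : ∀ k, J k} (ha : x a ≠ 0) :
    fsv x v w = ∑ k, fsv (ext k a x) (ext k a v) (ext k a w) := by
  obtain ⟨b, hb⟩ := dRel_eq hx hv ha
  obtain ⟨b', hb'⟩ := dRel_eq hx hw ha
  have hc : x a * ((x a)⁻¹) ^ Fintype.card ι ≠ 0 := mul_ne_zero ha (pow_ne_zero _ (inv_ne_zero ha))
  have hxs := segRel_eq hx ha
  have hU : ∀ k, ext k a x ≠ 0 := ext_ne ha
  generalize x a * ((x a)⁻¹) ^ Fintype.card ι = c at hb hb' hc hxs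
  have e1 : fsv x v w = fsv (seg fun k => ext k a x)
      (dseg (fun k => ext k a x) fun k => ext k a v)
      (dseg (fun k => ext k a x) fun k => ext k a w) := by
    have h1 := fsv_bas (seg_ne hU) (dseg (fun k => ext k a x) fun k => ext k a v)
      (dseg (fun k => ext k a x) fun k => ext k a w) hc (b * c) (b' * c)
    rw [mul_smul, mul_smul, ← hxs] at h1
    rw [← h1, ← hb, ← hb']
  rw [e1]
  unfold fsv
  rw [fsh_seg hU, Finset.mul_sum, Complex.re_sum]

theorem FS_eq_sum {x v w : (∀ k, J k) → ℂ} (hx : x ∈ segK J) (hv : V1 (segK J) x v)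
    (hw : V1 (segK J) x w) : (FS (∀ k, J k)).sg x v w = ∑ k, (segB k : B1 (segK J)).sg x v w := by
  obtain ⟨a, ha⟩ := exists_nz hx.1
  show fsv x v w = _
  rw [fsv_seg hx.2 (dRel_of_V1 hv) (dRel_of_V1 hw) ha]
  exact Finset.sum_congr rfl fun k _ => (segB_sg k hx hv hw ha).symm

end

end Crest.Agent.R281.Alg_867
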