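import Crest.Agent.R281.Alg1_867
import Crest.Agent.R281.Seg1_867
import Crest.Agent.R281.Pt3_313
import Crest.Agent.R281.Ehr13_268
import Crest.Agent.R281.NefM_252

/-!
# R281 (S0424): the members of the cusp carry algebraic data (helper867)

* `ex_form'`    : the class of a form of a marking on the charts of the marking
* `cls_qt`      : the class of the Fubini-Study form is the sum of the classes of the blocks
* `memA_of_mark`: a marking with prescribed classes gives `MemA`
-/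

set_option autoImplicit false
set_option linter.unusedSectionVars false
set_option maxSynthPendingDepth 3

open Set Filter Topology Complex
open scoped ContDiff

namespace Crest.Agent.R281.Alg_867

open Crest.Agent.R281.HkR_835 Crest.Agent.R281.Ehr2_268 Crest.Agent.R281.Dif_268
open Crest.Agent.R281.HkR_835.Cmp
open Crest.Agent.R281.Ehr4_268 Crest.Agent.R281.Ehr6_268 Crest.Agent.R281.Ehr7_268
open Crest.Agent.R281.Ehr8_268 Crest.Agent.R281.Alg_998
open Crest.Agent.R281.Phl_655 hiding Cn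
open Crest.Agent.R281.CA_867 Crest.Agent.R281.AF_867 Crest.Agent.R281.Kr_488
open Crest.Agent.R281.Blk_592 Crest.Agent.R281.QF_871
open Crest.Agent.R281.Pe_313 (CxOf)
open Crest.Agent.R281.Sl_957 (QB)
open Crest.Agent.R281.Dv_957 (Ty segS blkB totB rx)
open Crest.Agent.R281.Ehr13_268 (polC)
open Crest.Agent.R281.Ehr12_268 (PolF)
open Crest.Agent.R281.Ti_846 (Ex)
open Crest.Agent.R281.Pt_313 (pl_form qbf_form' v1_member inK_ty)

noncomputable section

universe uq

/-! ### classes on the charts of a marking -/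

section gen

variable {Q : Type uq} [TopologicalSpace Q] {E H : Type} [NormedAddCommGroup E]
    [NormedSpace ℂ E] [NormedAddCommGroup H] [NormedSpace ℂ H] {V X : Type}
    [NormedAddCommGroup V] [NormedSpace ℝ V] [TopologicalSpace X]
    {F : QFam Q E H} {C : RCh V X}

theorem eqv_sub {a a' b b' : F2 C} (h : Eqv a a') (h' : Eqv b b') : Eqv (a - b) (a' - b') := by
  intro i z hz u v
  show a.w i z u v - b.w i z u v = a'.w i z u v - b'.w i z u v
  rw [h i z hz, h' i z hz]

/-- the class of the form of a marking, on the charts of the marking -/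
theorem ex_form' (b : QBF F) (m : Mark F C) {w : F2 C} (h : cl (b.form m) = cl w) :
    Ex (b.form' m - m.cmp.F w) := by
  have h1 : Ex (b.form m - w) := (ex_sub_iff _ _).mpr (cl_eq_iff.mp h)
  have h2 := (SMap.ofCmp m.cmp).ex_pull h1
  have h3 : Eqv ((SMap.ofCmp m.cmp).pull (b.form m)) (b.form' m) :=
    Crest.Agent.R281.Cdr_234.pull_pull_cmp m.cmp.symm (b.form' m)
  have h4 := Crest.Agent.R281.Nef_252.pull_sub (SMap.ofCmp m.cmp) (b.form m) w
  have h5 : Eqv ((SMap.ofCmp m.cmp).pull (b.form m) - (SMap.ofCmp m.cmp).pull w)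
      (b.form' m - m.cmp.F w) := eqv_sub h3 (Crest.Agent.R281.Nef_252.cmp_F m.cmp w)
  exact (h4.trans h5).ex h2

end gen

/-! ### the Fubini-Study form -/

theorem hp_comp {J J' : Type} [Fintype J] [Fintype J'] (e : J ≃ J') (v w : J' → ℂ) :
    Blk_592.hp (fun a => v (e a)) (fun a => w (e a)) = Blk_592.hp v w :=
  Equiv.sum_comp e fun k => v k * (starRingEnd ℂ) (w k)

theorem fsv_comp {J J' : Type} [Fintype J] [Fintype J'] (e : J ≃ J') (x v w : J' → ℂ) :
    fsv (fun a => x (e a)) (fun a => v (e a)) (fun a => w (e a)) = fsv x v w := by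
  unfold fsv fsh
  rw [hp_comp, hp_comp, hp_comp, hp_comp]

section ty

variable {V X : Type} [NormedAddCommGroup V] [NormedSpace ℝ V] [TopologicalSpace X]
  {C : RCh V X} {n : ℕ} (T : Ty n C)

/-- value of the Fubini-Study form at a marking -/
theorem qt_form' (m : Mark T.F C) {j : m.C'.ι} {z : V} (hz : z ∈ (m.C'.e j).target) (v w : V) :
    (T.qt.form' m).w j z v w = fsv (fun k => m.P.u j z k) (fun k => fderiv ℝ (m.P.u j) z v k)
      (fun k => fderiv ℝ (m.P.u j) z w k) := by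
  have h1 : (T.qt.form' m).w j z v w = (totB T.e).sg (m.P.u j z) (fderiv ℝ (m.P.u j) z v)
      (fderiv ℝ (m.P.u j) z w) := qbf_form' (totB T.e) T.R_seg m hz v w
  rw [h1]
  exact fsv_comp T.e (fun k => m.P.u j z k) (fun k => fderiv ℝ (m.P.u j) z v k)
      (fun k => fderiv ℝ (m.P.u j) z w k)

/-- the Fubini-Study form is the sum of the block forms -/
theorem qt_sum' (m : Mark T.F C) {j : m.C'.ι} {z : V} (hz : z ∈ (m.C'.e j).target) (v w : V) :
    (T.qt.form' m).w j z v w = ∑ k, ((T.qb k).form' m).w j z v w := by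
  have h1 : (T.qt.form' m).w j z v w = (totB T.e).sg (m.P.u j z) (fderiv ℝ (m.P.u j) z v)
      (fderiv ℝ (m.P.u j) z w) := qbf_form' (totB T.e) T.R_seg m hz v w
  have h2 : ∀ k, ((T.qb k).form' m).w j z v w = (blkB T.e k).sg (m.P.u j z)
      (fderiv ℝ (m.P.u j) z v) (fderiv ℝ (m.P.u j) z w) := fun k =>
    qbf_form' (blkB T.e k) T.R_seg m hz v w
  have hv := fun v => Crest.Agent.R281.Pt_313.v1_map (rx T.e) (Dv_957.rx_mem T.e)
    (v1_member (inK_ty T m) hz v)
  rw [h1, Finset.sum_congr rfl fun k _ => h2 k]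
  exact FS_eq_sum (Dv_957.rx_mem T.e _ (inK_ty T m j z hz)) (hv v) (hv w)

theorem qt_sum (m : Mark T.F C) : Eqv (T.qt.form m) (∑ k, (T.qb k).form m) := by
  intro i z hz u v
  obtain ⟨j, hj⟩ := exists_mov (C' := C) m.C' hz
  rw [F2.sum_w]
  simp only [sum_apply]
  rw [pl_form T.qt m i j z hj u v, qt_sum' T m (mt_mem hj).1]
  exact Finset.sum_congr rfl fun k _ => (pl_form (T.qb k) m i j z hj u v).symm

end ty

/-! ### members of a cusp -/

section mem

open Crest.Agent.R275.Geo Crest.Agent.R281.Defs_273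

variable {n : ℕ} {X : Type} [TopologicalSpace X] {C : RCh (Cn (2 * n)) X}
  {Q : F2 C →ₗ[ℝ] F2 C →ₗ[ℝ] ℝ}

theorem polC_qcf (T : Ty (2 * n) C) : (polC T.nice T.good).qcf = T.qc := rfl

/-- value of the algebraic form at a marking -/
theorem qc_val (T : Ty (2 * n) C) (m : Mark T.F C) {i : m.C'.ι} {z : Cn (2 * n)}
    (hz : z ∈ (m.C'.e i).target) (j : Fin (T.N + 1)) (v w : Cn (2 * n)) :
    (((T.qc.re.form' m).w i z v w : ℂ) + ((T.qc.im.form' m).w i z v w : ℂ) * I) *
        m.P.u i z j ^ T.K.Y.D.m =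
      (T.K.mem (T.M.pt m.q.1.1 m.q.1.2)).D.b j (fun k => m.P.u i z k)
        (fun k => fderiv ℝ (m.P.u i) z v k) (fun k => fderiv ℝ (m.P.u i) z w k) := by
  have h1 := (polC T.nice T.good).val_eq m hz j v w
  have h2 : (T.qc.re.form' m).w i z v w = ((polC T.nice T.good).val m i z v w).re :=
    (polC T.nice T.good).val_re m i z v w
  have h3 : (T.qc.im.form' m).w i z v w = ((polC T.nice T.good).val m i z v w).im :=
    (polC T.nice T.good).val_im m i z v w
  have h4 : (((T.qc.re.form' m).w i z v w : ℂ) + ((T.qc.im.form' m).w i z v w : ℂ) * I) =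
      (polC T.nice T.good).val m i z v w := by
    rw [h2, h3]
    exact Complex.re_add_im _
  rw [h4]
  exact h1

theorem cl_sum {κ : Type} [Fintype κ] (w : κ → F2 C) : cl (∑ k, w k) = ∑ k, cl (w k) :=
  map_sum (Submodule.mkQ (Crest.Agent.R281.Cdr_234.exS C)) _ _

theorem cl_sum_pi {κ : Type} [Fintype κ] {w : κ → F2 C} {B : κ → Crest.Agent.R281.Cdr_234.HdR C}
    {A : F2 C} {c : ℝ} (h : ∀ k, cl (w k) = Real.pi • B k) (hR : ∑ k, B k = c • cl A) :
    cl (∑ k, w k) = cl ((Real.pi * c) • A) := by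
  rw [cl_sum, Finset.sum_congr rfl fun k _ => h k, ← Finset.smul_sum, hR, smul_smul, cl_smul]

/-- **a marking with prescribed classes is a member with algebraic data** -/
theorem memA_of_mark (T : Ty (2 * n) C) (F : Frm C Q) {A : F2 C} {c : ℝ}
    (hR : ∑ k, T.B k = c • cl A) {β τ : ℂ} {H : HkT C} (m : Mark T.F C) (hx : CxOf m.P H)
    (hcl : ∀ k, cl ((T.qb k).form m) = T.pcl k)
    (h1 : cl (T.qc.re.form m) = cl (β.re • F.sre τ - β.im • F.sim τ))
    (h2 : cl (T.qc.im.form m) = cl (β.im • F.sre τ + β.re • F.sim τ)) :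
    Nonempty (MemA F A (T.K.mem (T.M.pt m.q.1.1 m.q.1.2)) (Real.pi * c) β τ H) := by
  have e1 : Ex (T.qc.re.form' m - m.cmp.F (β.re • F.sre τ - β.im • F.sim τ)) :=
    ex_form' T.qc.re m h1
  have e2 : Ex (T.qc.im.form' m - m.cmp.F (β.im • F.sre τ + β.re • F.sim τ)) :=
    ex_form' T.qc.im m h2
  have e3 : ∀ w, w ∈ m.P.cone ↔ w ≠ 0 ∧
      OnE (range (T.K.mem (T.M.pt m.q.1.1 m.q.1.2)).G) fun k => w k := fun w => m.cone w
  have e0 : Ex (T.qt.form' m - (Real.pi * c) • m.cmp.F A) :=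
    (eqv_sub (Eqv.refl _) (F_smul m.cmp _ A)).ex
      (ex_form' T.qt m ((cl_eq_iff.mpr (qt_sum T m).coh).trans (cl_sum_pi hcl hR)))
  have e4 : ∀ i, ∀ z ∈ (m.C'.e i).target, ∀ v v' : Cn (2 * n), (T.qt.form' m).w i z v v' =
    fsv (fun k => m.P.u i z k) (fun k => fderiv ℝ (m.P.u i) z v k)
      (fun k => fderiv ℝ (m.P.u i) z v' k) := fun i z hz v w => qt_form' T m hz v w
  have e5 : ∀ i, ∀ z ∈ (m.C'.e i).target, ∀ (j : Fin (T.N + 1)) (v w : Cn (2 * n)),
      (((T.qc.re.form' m).w i z v w : ℂ) + ((T.qc.im.form' m).w i z v w : ℂ) * I) *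
        m.P.u i z j ^ (T.K.mem (T.M.pt m.q.1.1 m.q.1.2)).D.m =
      (T.K.mem (T.M.pt m.q.1.1 m.q.1.2)).D.b j (fun k => m.P.u i z k)
        (fun k => fderiv ℝ (m.P.u i) z v k) (fun k => fderiv ℝ (m.P.u i) z w k) :=
    fun i z hz j v w => qc_val T m hz j v w
  generalize T.qc.re.form' m = s1 at e1 e5
  generalize T.qc.im.form' m = s2 at e2 e5
  generalize T.qt.form' m = W at e0 e4
  exact ⟨⟨m.C', m.cmp, m.P, hx, e3, W, e4, e0, s1, s2, e5, e1, e2⟩⟩

end mem

end

end Crest.Agent.R281.Alg_867
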