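import Mathlib
import Crest.Agent.R269.Green_740

/-!
# S6-BDD, part 1: convexity of circle means in `log r`, rotation averages

`u` of class `C²` on a disc with nonnegative Laplacian: `circleAverage u 0 r` is nondecreasing and
convex in `log r`.
-/

set_option autoImplicit false

open Set Metric MeasureTheory Filter Topology Real
open Crest.Agent.R269.LevC_653 Crest.Agent.R269.Green_740

namespace Crest.Agent.R281.Bdd1_791

section circle

variable {u : ℂ → ℝ} {R : ℝ}

theorem rm1_mono (hu : ContDiffOn ℝ 2 u (ball 0 R)) (h : ∀ z ∈ ball (0 : ℂ) R, 0 ≤ lev u z 1) :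
    MonotoneOn (fun r => r * m1 u r) (Ico 0 R) := by
  have hd : ∀ r ∈ Ioo (-R) R, HasDerivAt (fun r => r * m1 u r) (1 * m1 u r + r * m2 u r) r :=
    fun r hr => (hasDerivAt_id r).mul (hasDerivAt_m1 hu hr)
  have hsub : Ico 0 R ⊆ Ioo (-R) R := fun r hr => ⟨by linarith [hr.1, hr.2], hr.2⟩
  refine monotoneOn_of_deriv_nonneg (convex_Ico 0 R) ?_ ?_ ?_
  · intro r hr
    exact (hd r (hsub hr)).continuousAt.continuousWithinAt
  · intro r hr
    rw [interior_Ico] at hr
    exact (hd r (hsub ⟨hr.1.le, hr.2⟩)).differentiableAt.differentiableWithinAt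
  · intro r hr
    rw [interior_Ico] at hr
    have hr' := hsub ⟨hr.1.le, hr.2⟩
    rw [(hd r hr').deriv, one_mul, add_comm, ← radial hu hr']
    refine mul_nonneg (by norm_num) (mul_nonneg hr.1.le ?_)
    exact intervalIntegral.integral_nonneg (by positivity) fun θ _ => h _ (mem_ball_circleMap hr')

theorem m1_nonneg (hu : ContDiffOn ℝ 2 u (ball 0 R)) (h : ∀ z ∈ ball (0 : ℂ) R, 0 ≤ lev u z 1)
    {r : ℝ} (h0 : 0 < r) (hr : r < R) : 0 ≤ m1 u r := by
  have := rm1_mono hu h (a := 0) (b := r) ⟨le_rfl, h0.trans hr⟩ ⟨h0.le, hr⟩ h0.le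
  simp only [zero_mul] at this
  exact nonneg_of_mul_nonneg_right this h0

/-- the circle integral -/
noncomputable def m0 (u : ℂ → ℝ) (r : ℝ) : ℝ := ∫ θ in (0 : ℝ)..2 * π, u (circleMap 0 r θ)

theorem avg_eq (u : ℂ → ℝ) (r : ℝ) : circleAverage u 0 r = (2 * π)⁻¹ * m0 u r := rfl

theorem m0_mono (hu : ContDiffOn ℝ 2 u (ball 0 R)) (h : ∀ z ∈ ball (0 : ℂ) R, 0 ≤ lev u z 1) :
    MonotoneOn (m0 u) (Ico 0 R) := by
  have hsub : Ico 0 R ⊆ Ioo (-R) R := fun r hr => ⟨by linarith [hr.1, hr.2], hr.2⟩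
  refine monotoneOn_of_deriv_nonneg (convex_Ico 0 R) ?_ ?_ ?_
  · intro r hr
    exact (hasDerivAt_m0 hu (hsub hr)).continuousAt.continuousWithinAt
  · intro r hr
    rw [interior_Ico] at hr
    exact (hasDerivAt_m0 hu (hsub ⟨hr.1.le, hr.2⟩)).differentiableAt.differentiableWithinAt
  · intro r hr
    rw [interior_Ico] at hr
    have e : HasDerivAt (m0 u) (m1 u r) r := hasDerivAt_m0 hu (hsub ⟨hr.1.le, hr.2⟩)
    rw [e.deriv]
    exact m1_nonneg hu h hr.1 hr.2

/-- upper slope estimate -/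
theorem m0_sub_le (hu : ContDiffOn ℝ 2 u (ball 0 R)) (h : ∀ z ∈ ball (0 : ℂ) R, 0 ≤ lev u z 1)
    {r T : ℝ} (h0 : 0 < r) (hrT : r ≤ T) (hT : T < R) :
    m0 u T - m0 u r ≤ (T * m1 u T) * Real.log (T / r) := by
  have hT0 : 0 < T := h0.trans_le hrT
  have key : MonotoneOn (fun x => (T * m1 u T) * Real.log x - m0 u x) (Icc r T) := by
    have hd : ∀ x ∈ Icc r T, HasDerivAt (fun x => (T * m1 u T) * Real.log x - m0 u x)
        ((T * m1 u T) * x⁻¹ - m1 u x) x := fun x hx =>
      ((Real.hasDerivAt_log (h0.trans_le hx.1).ne').const_mul _).sub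
        (hasDerivAt_m0 hu ⟨by linarith [hx.1, hx.2], hx.2.trans_lt hT⟩)
    refine monotoneOn_of_deriv_nonneg (convex_Icc r T) ?_ ?_ ?_
    · intro x hx
      exact (hd x hx).continuousAt.continuousWithinAt
    · intro x hx
      exact (hd x (interior_subset hx)).differentiableAt.differentiableWithinAt
    · intro x hx
      have hx' := interior_subset hx
      have hx0 : 0 < x := h0.trans_le hx'.1
      rw [(hd x hx').deriv]
      have h1 := rm1_mono hu h (a := x) (b := T) ⟨hx0.le, hx'.2.trans_lt hT⟩ ⟨hT0.le, hT⟩ hx'.2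
      simp only at h1
      have h2 : (T * m1 u T) * x⁻¹ - m1 u x = (T * m1 u T - x * m1 u x) * x⁻¹ := by
        field_simp
      rw [h2]
      exact mul_nonneg (by linarith) (inv_nonneg.mpr hx0.le)
  have h3 := key (left_mem_Icc.mpr hrT) (right_mem_Icc.mpr hrT) hrT
  simp only at h3
  rw [Real.log_div hT0.ne' h0.ne', mul_sub]
  linarith

/-- lower slope estimate -/
theorem le_m0_sub (hu : ContDiffOn ℝ 2 u (ball 0 R)) (h : ∀ z ∈ ball (0 : ℂ) R, 0 ≤ lev u z 1)
    {T S : ℝ} (h0 : 0 < T) (hTS : T ≤ S) (hS : S < R) :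
    (T * m1 u T) * Real.log (S / T) ≤ m0 u S - m0 u T := by
  have hS0 : 0 < S := h0.trans_le hTS
  have key : MonotoneOn (fun x => m0 u x - (T * m1 u T) * Real.log x) (Icc T S) := by
    have hd : ∀ x ∈ Icc T S, HasDerivAt (fun x => m0 u x - (T * m1 u T) * Real.log x)
        (m1 u x - (T * m1 u T) * x⁻¹) x := fun x hx =>
      (hasDerivAt_m0 hu ⟨by linarith [hx.1, hx.2], hx.2.trans_lt hS⟩).sub
        ((Real.hasDerivAt_log (h0.trans_le hx.1).ne').const_mul _)
    refine monotoneOn_of_deriv_nonneg (convex_Icc T S) ?_ ?_ ?_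
    · intro x hx
      exact (hd x hx).continuousAt.continuousWithinAt
    · intro x hx
      exact (hd x (interior_subset hx)).differentiableAt.differentiableWithinAt
    · intro x hx
      have hx' := interior_subset hx
      have hx0 : 0 < x := h0.trans_le hx'.1
      rw [(hd x hx').deriv]
      have h1 := rm1_mono hu h (a := T) (b := x) ⟨h0.le, hTS.trans_lt hS⟩
        ⟨hx0.le, hx'.2.trans_lt hS⟩ hx'.1
      simp only at h1
      have h2 : m1 u x - (T * m1 u T) * x⁻¹ = (x * m1 u x - T * m1 u T) * x⁻¹ := by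
        field_simp
      rw [h2]
      exact mul_nonneg (by linarith) (inv_nonneg.mpr hx0.le)
  have h3 := key (left_mem_Icc.mpr hTS) (right_mem_Icc.mpr hTS) hTS
  simp only at h3
  rw [Real.log_div hS0.ne' h0.ne', mul_sub]
  linarith

/-- **Convexity in `log r`** of the circle means. -/
theorem circle_conv (hu : ContDiffOn ℝ 2 u (ball 0 R)) (h : ∀ z ∈ ball (0 : ℂ) R, 0 ≤ lev u z 1)
    {r T S : ℝ} (h0 : 0 < r) (hrT : r ≤ T) (hTS : T ≤ S) (hS : S < R) :
    (circleAverage u 0 T - circleAverage u 0 r) * Real.log (S / T) ≤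
      (circleAverage u 0 S - circleAverage u 0 T) * Real.log (T / r) := by
  have hT0 : 0 < T := h0.trans_le hrT
  have h1 := m0_sub_le hu h h0 hrT (hTS.trans_lt hS)
  have h2 := le_m0_sub hu h hT0 hTS hS
  have l1 : 0 ≤ Real.log (S / T) := Real.log_nonneg ((one_le_div hT0).mpr hTS)
  have l2 : 0 ≤ Real.log (T / r) := Real.log_nonneg ((one_le_div h0).mpr hrT)
  have h3 : (m0 u T - m0 u r) * Real.log (S / T) ≤ (m0 u S - m0 u T) * Real.log (T / r) := by
    calc (m0 u T - m0 u r) * Real.log (S / T)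
        ≤ ((T * m1 u T) * Real.log (T / r)) * Real.log (S / T) :=
          mul_le_mul_of_nonneg_right h1 l1
      _ = ((T * m1 u T) * Real.log (S / T)) * Real.log (T / r) := by ring
      _ ≤ _ := mul_le_mul_of_nonneg_right h2 l2
  rw [avg_eq, avg_eq, avg_eq]
  have h4 : (0 : ℝ) ≤ (2 * π)⁻¹ := by positivity
  nlinarith [mul_le_mul_of_nonneg_left h3 h4]

/-- sub-mean value property -/
theorem le_circle (hu : ContDiffOn ℝ 2 u (ball 0 R)) (h : ∀ z ∈ ball (0 : ℂ) R, 0 ≤ lev u z 1)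
    {s : ℝ} (h0 : 0 ≤ s) (hs : s < R) : u 0 ≤ circleAverage u 0 s := by
  have h1 := jensen hu h0 hs
  have h2 := TG_nonneg (q := fun z => lev u z 1) h0
    ((cont_lev hu).mono (closedBall_subset_ball hs)) (fun z hz => h z (closedBall_subset_ball hs hz))
  linarith

end circle

end Crest.Agent.R281.Bdd1_791
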