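import Crest.Agent.R269.SubM_79
import Crest.Agent.R275.FLSubA_884
import Crest.Agent.R257.Glue2_101

/-!
# R281 (S0424), DIV 6, S6-RICH (helper710), file 1: sub-mean values of continuous functions

* `hasL_of_contDiffAt` : a `C²` function on `ℂ` has the expected four point mean;
* `lvE_nonneg_of_le`   : sub-mean values on small discs ⟹ Levi form `≥ 0` (`C²` functions);
* `le_avg_of_thin`     : continuous, `C²` with Levi form `≥ 0` where a holomorphic function is `≠ 0`
                         ⟹ sub-mean value;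
* `PshL`               : uniformly local sub-mean value property; `PshL.of_thin`.
-/

set_option autoImplicit false
set_option linter.unusedSectionVars false

open Set Filter Topology Metric Asymptotics Real
open scoped ContDiff

noncomputable section

namespace Crest.Agent.R281.Rich_710

open Crest.Agent.R269.SubM_79 Crest.Agent.R257.HoB_843 Crest.Agent.R257.Glue2_101

/-! ### four point mean of a `C²` function -/

section four

variable {E : Type*} [NormedAddCommGroup E] [NormedSpace ℝ E]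

/-- symmetric second difference of a `C²` function -/
theorem symm2 {u : E → ℝ} {z : E} (hu : ContDiffAt ℝ 2 u z) :
    (fun w : E => u (z + w) + u (z - w) - 2 * u z - fderiv ℝ (fderiv ℝ u) z w w) =o[𝓝 0]
      fun w : E => ‖w‖ ^ 2 := by
  have hsym : IsSymmSndFDerivAt ℝ u z := hu.isSymmSndFDerivAt (by simp)
  have hd1 : ∀ᶠ y in 𝓝 z, DifferentiableAt ℝ u y := by
    have h2 : ContDiffAt ℝ 1 u z := hu.of_le (by norm_num)
    exact (h2.eventually (by simp)).mono fun y hy => hy.differentiableAt (by norm_num)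
  have hd2 : DifferentiableAt ℝ (fderiv ℝ u) z :=
    (hu.fderiv_right (m := 1) (by norm_num)).differentiableAt (by norm_num)
  set D2 := fderiv ℝ (fderiv ℝ u) z with hD2
  have ho : (fun w : E => fderiv ℝ u (z + w) - fderiv ℝ u z - D2 w) =o[𝓝 0] fun w : E => w := by
    have := hd2.hasFDerivAt
    rw [hasFDerivAt_iff_isLittleO_nhds_zero] at this
    exact this
  refine IsLittleO.of_bound fun ε hε => ?_
  have hε2 : 0 < ε / 2 := by positivity
  have ht1 : Tendsto (fun w : E => z + w) (𝓝 0) (𝓝 z) := by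
    have : Continuous fun w : E => z + w := by fun_prop
    simpa using this.tendsto 0
  have ht2 : Tendsto (fun w : E => z - w) (𝓝 0) (𝓝 z) := by
    have : Continuous fun w : E => z - w := by fun_prop
    simpa using this.tendsto 0
  have ht3 : Tendsto (fun w : E => -w) (𝓝 (0 : E)) (𝓝 0) := by
    have : Continuous fun w : E => -w := by fun_prop
    simpa using this.tendsto 0
  have hev : ∀ᶠ w in 𝓝 (0 : E), (DifferentiableAt ℝ u (z + w) ∧ DifferentiableAt ℝ u (z - w)) ∧
      ‖fderiv ℝ u (z + w) - fderiv ℝ u z - D2 w‖ ≤ ε / 2 * ‖w‖ ∧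
      ‖fderiv ℝ u (z + -w) - fderiv ℝ u z - D2 (-w)‖ ≤ ε / 2 * ‖-w‖ :=
    ((ht1.eventually hd1).and (ht2.eventually hd1)).and
      ((ho.def hε2).and (ht3.eventually (ho.def hε2)))
  obtain ⟨r, hr, hball⟩ := Metric.eventually_nhds_iff_ball.1 hev
  filter_upwards [Metric.ball_mem_nhds (0 : E) hr] with w hw
  set F : E → ℝ := fun w => u (z + w) + u (z - w) - 2 * u z - D2 w w with hF
  have hFd : ∀ y ∈ ball (0 : E) r, HasFDerivAt F
      (fderiv ℝ u (z + y) - fderiv ℝ u (z - y) - (2 : ℝ) • D2 y) y := by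
    intro y hy
    obtain ⟨⟨h1, h2⟩, -, -⟩ := hball y hy
    have e1 : HasFDerivAt (fun y => u (z + y)) (fderiv ℝ u (z + y)) y := by
      have := h1.hasFDerivAt.comp y ((hasFDerivAt_id y).const_add z)
      simpa [Function.comp_def] using this
    have e2 : HasFDerivAt (fun y => u (z - y)) (-fderiv ℝ u (z - y)) y := by
      have := h2.hasFDerivAt.comp y ((hasFDerivAt_id y).const_sub z)
      simpa [Function.comp_def] using this
    have e3 : HasFDerivAt (fun y : E => D2 y y) ((2 : ℝ) • D2 y) y := by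
      have := (D2.hasFDerivAt (x := y)).clm_apply (hasFDerivAt_id y)
      refine this.congr_fderiv ?_
      ext v
      have hs := hsym v y
      simp only [← hD2] at hs
      simp [hs]
      ring
    have := ((e1.add e2).sub_const (2 * u z)).sub e3
    refine this.congr_fderiv ?_
    ext v
    simp [sub_eq_add_neg]
  have hF0 : F 0 = 0 := by simp [hF]; ring
  have hbd : ∀ y ∈ ball (0 : E) r, ‖fderiv ℝ u (z + y) - fderiv ℝ u (z - y) - (2 : ℝ) • D2 y‖ ≤
      ε * ‖y‖ := by
    intro y hy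
    obtain ⟨-, h1, h2⟩ := hball y hy
    have e : fderiv ℝ u (z + y) - fderiv ℝ u (z - y) - (2 : ℝ) • D2 y =
        (fderiv ℝ u (z + y) - fderiv ℝ u z - D2 y) -
          (fderiv ℝ u (z + -y) - fderiv ℝ u z - D2 (-y)) := by
      rw [map_neg, two_smul, ← sub_eq_add_neg]; abel
    rw [e]
    refine (norm_sub_le _ _).trans ?_
    rw [norm_neg] at h2
    linarith
  -- mean value on the closed ball of radius `‖w‖`
  have hw' : ‖w‖ < r := by simpa using hw
  have hsub : closedBall (0 : E) ‖w‖ ⊆ ball 0 r := closedBall_subset_ball hw'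
  have := (convex_closedBall (0 : E) ‖w‖).norm_image_sub_le_of_norm_hasFDerivWithin_le
    (f := F) (C := ε * ‖w‖) (fun y hy => (hFd y (hsub hy)).hasFDerivWithinAt)
    (fun y hy => (hbd y (hsub hy)).trans (by
      have : ‖y‖ ≤ ‖w‖ := by simpa using hy
      gcongr)) (x := 0) (y := w) (by simp) (by simp)
  rw [hF0, sub_zero, sub_zero] at this
  rw [Real.norm_of_nonneg (by positivity : (0:ℝ) ≤ ‖w‖ ^ 2)]
  calc ‖F w‖ ≤ ε * ‖w‖ * ‖w‖ := this
    _ = ε * ‖w‖ ^ 2 := by ring

end four

/-- a `C²` function on `ℂ` has the expected four point mean -/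
theorem hasL_of_contDiffAt {u : ℂ → ℝ} {z : ℂ} (hu : ContDiffAt ℝ 2 u z) :
    HasL u z (lvE u z 1) := by
  have h1 := symm2 hu
  have ht : Tendsto (fun w : ℂ => Complex.I * w) (𝓝 0) (𝓝 0) := by
    have : Continuous fun w : ℂ => Complex.I * w := by fun_prop
    simpa using this.tendsto 0
  have h2 := h1.comp_tendsto ht
  have h3 : (fun w : ℂ => u (z + Complex.I * w) + u (z - Complex.I * w) - 2 * u z -
      fderiv ℝ (fderiv ℝ u) z (Complex.I * w) (Complex.I * w)) =o[𝓝 0] fun w : ℂ => ‖w‖ ^ 2 := by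
    refine h2.congr_right fun w => ?_
    simp
  have h4 := (h1.add h3).const_mul_left (1 / 4)
  refine h4.congr_left fun w => ?_
  set B := fderiv ℝ (fderiv ℝ u) z with hB
  have hsym : IsSymmSndFDerivAt ℝ u z := hu.isSymmSndFDerivAt (by simp)
  have hs : B 1 Complex.I = B Complex.I 1 := hsym _ _
  have hw : w = w.re • (1 : ℂ) + w.im • Complex.I := by
    apply Complex.ext <;> simp
  have hIw : Complex.I * w = (-w.im) • (1 : ℂ) + w.re • Complex.I := by
    apply Complex.ext <;> simp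
  have e1 : B w w = w.re ^ 2 * B 1 1 + 2 * w.re * w.im * B 1 Complex.I +
      w.im ^ 2 * B Complex.I Complex.I := by
    conv_lhs => rw [hw]
    simp only [map_add, map_smul, _root_.add_apply, _root_.smul_apply, smul_eq_mul, ← hs]
    ring
  have e2 : B (Complex.I * w) (Complex.I * w) = w.im ^ 2 * B 1 1 - 2 * w.re * w.im * B 1 Complex.I +
      w.re ^ 2 * B Complex.I Complex.I := by
    rw [hIw]
    simp only [map_add, map_smul, _root_.add_apply, _root_.smul_apply, smul_eq_mul, ← hs]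
    ring
  have e3 : ‖w‖ ^ 2 = w.re ^ 2 + w.im ^ 2 := by
    rw [← Complex.normSq_eq_norm_sq, Complex.normSq_apply]; ring
  rw [e1, e2]
  simp only [m4, lvE, ← hB, smul_eq_mul, mul_one]
  rw [e3]
  ring

/-! ### complex discs -/

section disc

variable {E : Type*} [NormedAddCommGroup E] [NormedSpace ℂ E] [NormedSpace ℝ E]
  [IsScalarTower ℝ ℂ E]

/-- average over the boundary of the disc `z + 𝔻 v` -/
def dav (f : E → ℝ) (z v : E) : ℝ := circleAverage (fun w : ℂ => f (z + w • v)) 0 1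

theorem contDiff_disc {k : WithTop ℕ∞} (z v : E) : ContDiff ℂ k fun w : ℂ => z + w • v :=
  contDiff_const.add (contDiff_id.smul contDiff_const)

theorem contDiffAt_comp_disc {f : E → ℝ} {z v : E} {w₀ : ℂ} {k : WithTop ℕ∞}
    (hf : ContDiffAt ℝ k f (z + w₀ • v)) :
    ContDiffAt ℝ k (fun w : ℂ => f (z + w • v)) w₀ :=
  hf.comp w₀ ((contDiff_disc z v).restrict_scalars ℝ).contDiffAt

theorem fderiv_disc (z v : E) (w₀ : ℂ) : fderiv ℂ (fun w : ℂ => z + w • v) w₀ 1 = v := by
  have : HasFDerivAt (fun w : ℂ => z + w • v) ((ContinuousLinearMap.id ℂ ℂ).smulRight v) w₀ :=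
    ((hasFDerivAt_id w₀).smul_const v).const_add z
  rw [this.fderiv]
  simp

theorem lvE_disc {f : E → ℝ} {z v : E} {w₀ : ℂ} (hf : ContDiffAt ℝ 2 f (z + w₀ • v)) :
    lvE (fun w : ℂ => f (z + w • v)) w₀ 1 = lvE f (z + w₀ • v) v := by
  have := lvE_comp (T := fun w : ℂ => z + w • v) (u := f) (z := w₀)
    (contDiff_disc z v).contDiffAt hf 1
  rw [fderiv_disc] at this
  exact this

theorem lvE_smul (f : E → ℝ) (z v : E) (s : ℝ) : lvE f z (s • v) = s ^ 2 * lvE f z v := by
  have e : Complex.I • (s • v) = s • (Complex.I • v) := smul_comm _ _ _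
  unfold lvE
  rw [e]
  simp only [map_smul, _root_.smul_apply, smul_eq_mul]
  ring

/-- continuity of the Levi form -/
theorem continuousAt_lvE {f : E → ℝ} {z : E} (hf : ContDiffAt ℝ 2 f z) (v : E) :
    ContinuousAt (fun x => lvE f x v) z := by
  have h1 : ContinuousAt (fderiv ℝ (fderiv ℝ f)) z :=
    ((hf.fderiv_right (m := 1) (by norm_num)).fderiv_right (m := 0) (by norm_num)).continuousAt
  unfold lvE
  exact ((h1.clm_apply continuousAt_const).clm_apply continuousAt_const |>.add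
    ((h1.clm_apply continuousAt_const).clm_apply continuousAt_const)).const_mul _

/-- sub-mean values on small discs imply that the Levi form is `≥ 0` -/
theorem lvE_nonneg_of_le {f : E → ℝ} {z : E} (hf : ContDiffAt ℝ 2 f z) {v : E}
    (h : ∃ r > 0, ∀ s : ℝ, 0 < s → s < r → f z ≤ dav f z (s • v)) : 0 ≤ lvE f z v := by
  by_contra hcon
  push Not at hcon
  obtain ⟨r, hr, h⟩ := h
  set c : ℝ := - lvE f z v / 2 with hc
  have hc0 : 0 < c := by rw [hc]; linarith
  have h1 : ∀ᶠ x in 𝓝 z, ContDiffAt ℝ 2 f x ∧ lvE f x v < -c :=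
    (hf.eventually (by simp)).and ((continuousAt_lvE hf v).eventually
      (gt_mem_nhds (show lvE f z v < -c by rw [hc]; linarith)))
  have h2 : ∀ᶠ s in 𝓝 (0 : ℝ), ∀ w ∈ closedBall (0 : ℂ) 1,
      ContDiffAt ℝ 2 f (z + w • (s • v)) ∧ lvE f (z + w • (s • v)) v < -c := by
    obtain ⟨δ, hδ, hb⟩ := Metric.eventually_nhds_iff_ball.1 h1
    have h3 : ∀ᶠ s in 𝓝 (0 : ℝ), ‖s • v‖ < δ := by
      have : Continuous fun s : ℝ => ‖s • v‖ := by fun_prop
      have h4 := this.tendsto 0
      simp only [zero_smul, norm_zero] at h4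
      exact h4.eventually (gt_mem_nhds hδ)
    filter_upwards [h3] with s hs w hw
    refine hb _ ?_
    rw [mem_ball, dist_eq_norm, add_sub_cancel_left, norm_smul]
    have hw1 : ‖w‖ ≤ 1 := by simpa using hw
    calc ‖w‖ * ‖s • v‖ ≤ 1 * ‖s • v‖ := by gcongr
      _ < δ := by rwa [one_mul]
  obtain ⟨δ, hδ, hb⟩ := Metric.eventually_nhds_iff_ball.1 h2
  set s : ℝ := min (r / 2) (δ / 2) with hs
  have hs0 : 0 < s := by rw [hs]; positivity
  have hsr : s < r := (min_le_left _ _).trans_lt (by linarith)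
  have hsδ : s < δ := (min_le_right _ _).trans_lt (by linarith)
  have h3 := hb s (by rw [mem_ball, dist_zero_right, Real.norm_of_nonneg hs0.le]; exact hsδ)
  have h4 := h s hs0 hsr
  set ψ : ℂ → ℝ := fun w => -f (z + w • (s • v)) with hψ
  have hψs : ∀ w ∈ closedBall (0 : ℂ) 1, ContDiffAt ℝ 2 ψ w := fun w hw =>
    (contDiffAt_comp_disc (h3 w hw).1).neg
  have hlap : ∀ w ∈ closedBall (0 : ℂ) 1, -(4 * -(s ^ 2 * c)) ≤
      fderiv ℝ (fderiv ℝ ψ) w 1 1 + fderiv ℝ (fderiv ℝ ψ) w Complex.I Complex.I := by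
    intro w hw
    have e1 : fderiv ℝ (fderiv ℝ ψ) w 1 1 + fderiv ℝ (fderiv ℝ ψ) w Complex.I Complex.I =
        4 * lvE ψ w 1 := by
      unfold lvE
      rw [smul_eq_mul, mul_one]; ring
    have e2 : lvE ψ w 1 = - lvE (fun w : ℂ => f (z + w • (s • v))) w 1 := by
      have hn : ψ = -(fun w : ℂ => f (z + w • (s • v))) := rfl
      have hn1 : fderiv ℝ ψ = -fderiv ℝ (fun w : ℂ => f (z + w • (s • v))) := by
        funext y; rw [hn, fderiv_neg]; rfl
      have hn2 : fderiv ℝ (fderiv ℝ ψ) w =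
          -fderiv ℝ (fderiv ℝ (fun w : ℂ => f (z + w • (s • v)))) w := by
        rw [hn1, fderiv_neg]
      unfold lvE
      rw [hn2]
      simp only [_root_.neg_apply]
      ring
    rw [e1, e2, lvE_disc (h3 w hw).1, lvE_smul]
    have h5 := (h3 w hw).2
    have : 0 < s ^ 2 := by positivity
    nlinarith
  have h5 := Crest.Agent.R275.FL884.le_circleAverage_of_contDiffAt hψs hlap
  have h6 : circleAverage ψ 0 1 = - dav f z (s • v) := by
    have := circleAverage_fun_smul (a := (-1 : ℝ)) (f := fun w : ℂ => f (z + w • (s • v)))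
      (c := (0 : ℂ)) (R := 1)
    simpa [dav] using this
  rw [h6] at h5
  have h7 : ψ 0 = - f z := by simp [hψ]
  rw [h7] at h5
  have : 0 < s ^ 2 * c := by positivity
  linarith

end disc

/-! ### one variable: removability of closed sets with countable trace -/

section one

/-- truncated logarithm -/
def tl (t : ℝ) (a w : ℂ) : ℝ := Real.log (max (‖w - a‖ ^ 2) t / 4)

theorem continuous_tl {t : ℝ} (ht : 0 < t) (a : ℂ) : Continuous (tl t a) := by
  unfold tl
  refine Continuous.log (by fun_prop) fun w => ?_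
  have : 0 < max (‖w - a‖ ^ 2) t := lt_max_of_lt_right ht
  positivity

theorem lge_tl {t : ℝ} (ht : 0 < t) (a z : ℂ) : LGe (tl t a) z 0 := by
  rcases le_total t (‖z - a‖ ^ 2) with h | h
  · have hza : z - a ≠ 0 := by
      intro h0; rw [h0] at h; simp at h; linarith
    have hF : ContDiffAt ℂ (⊤ : ℕ∞) (fun w : ℂ => w - a) z := contDiffAt_id.sub contDiffAt_const
    have h1 : HasL (fun w : ℂ => Real.log (‖w - a‖ ^ 2)) z 0 := by
      have := hasL_of_contDiffAt ((sm_log hF hza).of_le two_le_top)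
      rwa [lvE_log hF hza] at this
    have h2 : HasL (fun w : ℂ => Real.log (‖w - a‖ ^ 2) + (-Real.log 4)) z 0 := by
      simpa using h1.add (hasL_const (-Real.log 4) z)
    have hne : ∀ᶠ w in 𝓝 z, w - a ≠ 0 :=
      (continuousAt_id.sub continuousAt_const).eventually_ne hza
    refine h2.lge.of_le ?_ ?_
    · filter_upwards [hne] with w hw
      have h3 : 0 < ‖w - a‖ ^ 2 := by have := norm_pos_iff.2 hw; positivity
      unfold tl
      rw [Real.log_div (lt_max_of_lt_right ht).ne' (by norm_num), ← sub_eq_add_neg]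
      have := Real.log_le_log h3 (le_max_left (‖w - a‖ ^ 2) t)
      linarith
    · unfold tl
      rw [max_eq_left h, Real.log_div (by positivity) (by norm_num), ← sub_eq_add_neg]
  · refine (hasL_const (Real.log (t / 4)) z).lge.of_le ?_ ?_
    · refine Eventually.of_forall fun w => ?_
      unfold tl
      exact Real.log_le_log (by positivity) (by
        have := le_max_right (‖w - a‖ ^ 2) t
        gcongr)
    · unfold tl
      rw [max_eq_right h]

theorem tl_nonpos {t : ℝ} (ht : 0 < t) (ht4 : t ≤ 4) {a w : ℂ} (h : ‖w - a‖ ≤ 2) : tl t a w ≤ 0 := by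
  unfold tl
  have h0 : 0 < max (‖w - a‖ ^ 2) t := lt_max_of_lt_right ht
  refine Real.log_nonpos (by positivity) ?_
  have : max (‖w - a‖ ^ 2) t ≤ 4 := max_le (by nlinarith [norm_nonneg (w - a)]) ht4
  linarith

theorem tl_le_log {t s : ℝ} (ht : 0 < t) {a w : ℂ} (hts : t ≤ s) (h : ‖w - a‖ ^ 2 ≤ s) :
    tl t a w ≤ Real.log (s / 4) := by
  unfold tl
  have h0 : 0 < max (‖w - a‖ ^ 2) t := lt_max_of_lt_right ht
  exact Real.log_le_log (by positivity) (by
    have := max_le h hts
    linarith)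

theorem le_tl {t : ℝ} {a w : ℂ} (h : w ≠ a) :
    Real.log (‖w - a‖ ^ 2 / 4) ≤ tl t a w := by
  unfold tl
  have : 0 < ‖w - a‖ := norm_pos_iff.2 (sub_ne_zero.2 h)
  exact Real.log_le_log (by positivity) (by
    have := le_max_left (‖w - a‖ ^ 2) t
    linarith)

/-- a max of functions with the lower four point bound -/
theorem LGe.max {u v : ℂ → ℝ} {z : ℂ} {c : ℝ} (hu : LGe u z c) (hv : LGe v z c) :
    LGe (fun x => Max.max (u x) (v x)) z c := by
  rcases le_total (v z) (u z) with h | h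
  · exact hu.of_le (Eventually.of_forall fun x => le_max_left _ _) (max_eq_left h).symm
  · exact hv.of_le (Eventually.of_forall fun x => le_max_right _ _) (max_eq_right h).symm

/-- **Removability**: `φ` continuous on the closed unit disc, with Laplacian `≥ 0` off a closed set
whose trace is countable, satisfies the sub-mean value inequality. -/
theorem le_avg_of_countable {φ : ℂ → ℝ} {E : Set ℂ} (hφ : ContinuousOn φ (closedBall 0 1))
    (hE : IsCompact E) (hE1 : E ⊆ closedBall 0 1) (hc : E.Countable) (h0 : (0 : ℂ) ∉ E)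
    (hL : ∀ w ∈ ball (0 : ℂ) 1, w ∉ E → LGe φ w 0) : φ 0 ≤ circleAverage φ 0 1 := by
  obtain ⟨B, hB⟩ : ∃ B : ℝ, ∀ w ∈ closedBall (0 : ℂ) 1, |φ w| ≤ B := by
    obtain ⟨B, hB⟩ := (isCompact_closedBall (0 : ℂ) 1).exists_bound_of_continuousOn hφ
    exact ⟨B, fun w hw => by simpa using hB w hw⟩
  -- enumeration
  rcases E.eq_empty_or_nonempty with rfl | hne
  · exact le_circleAverage one_pos hφ fun z hz => hL z hz (by simp)
  obtain ⟨a, ha⟩ := hc.exists_eq_range hne
  have haE : ∀ j, a j ∈ E := fun j => by rw [ha]; exact mem_range_self j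
  have ha0 : ∀ j, (0 : ℂ) ≠ a j := fun j h => h0 (h ▸ haE j)
  set c : ℕ → ℝ := fun j => (1 / 2) ^ j / (1 + |Real.log (‖(0 : ℂ) - a j‖ ^ 2 / 4)|) with hcdef
  have hcpos : ∀ j, 0 < c j := fun j => by
    simp only [hcdef]; positivity
  have hcl : ∀ j, -(1 / 2 : ℝ) ^ j ≤ c j * Real.log (‖(0 : ℂ) - a j‖ ^ 2 / 4) := by
    intro j
    set l := Real.log (‖(0 : ℂ) - a j‖ ^ 2 / 4)
    have h1 : 0 < 1 + |l| := by positivity
    have h2 : 0 < (1 / 2 : ℝ) ^ j := by positivity
    simp only [hcdef]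
    rw [div_mul_eq_mul_div, le_div_iff₀ h1]
    have := neg_abs_le l
    nlinarith
  refine le_of_forall_pos_le_add fun ε hε => ?_
  -- choose the potentials
  set ε' := ε / 2 with hε'
  have hε0 : 0 < ε' := by positivity
  set K : ℝ := (2 * B + 2) / ε' with hK
  have hBnn : 0 ≤ B := (abs_nonneg _).trans (hB 0 (by simp))
  have htj : ∀ j, ∃ t : ℝ, 0 < t ∧ t ≤ 4 ∧ c j * Real.log (t / 4) ≤ -K := by
    intro j
    refine ⟨4 * Real.exp (-(K / c j)), by positivity, ?_, ?_⟩
    · have : Real.exp (-(K / c j)) ≤ 1 := Real.exp_le_one_iff.2 (by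
        have := hcpos j
        rw [neg_nonpos]; positivity)
      linarith
    · have e : 4 * Real.exp (-(K / c j)) / 4 = Real.exp (-(K / c j)) := by ring
      rw [e, Real.log_exp]
      have := hcpos j
      field_simp
      exact le_rfl
  choose tt htt htt4 httK using htj
  obtain ⟨F, hF⟩ := hE.elim_finite_subcover (fun j => {w : ℂ | ‖w - a j‖ ^ 2 < tt j})
    (fun j => isOpen_lt (by fun_prop) continuous_const) (fun w hw => by
      rw [ha] at hw
      obtain ⟨j, rfl⟩ := hw
      exact mem_iUnion.2 ⟨j, by simpa using htt j⟩)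
  obtain ⟨t, ht, ht4, htF⟩ : ∃ t : ℝ, 0 < t ∧ t ≤ 4 ∧ ∀ j ∈ F, t ≤ tt j := by
    have h1 : ∀ᶠ t in 𝓝[>] (0 : ℝ), ∀ j ∈ F, t ≤ tt j := by
      rw [Filter.eventually_all_finset]
      intro j _
      exact nhdsWithin_le_nhds (((gt_mem_nhds (htt j))).mono fun t ht => ht.le)
    have h2 : ∀ᶠ t in 𝓝[>] (0 : ℝ), t ≤ 4 :=
      nhdsWithin_le_nhds ((gt_mem_nhds (by norm_num : (0 : ℝ) < 4)).mono fun t ht => ht.le)
    obtain ⟨t, ⟨h3, h4⟩, h5⟩ := ((h1.and h2).and self_mem_nhdsWithin).exists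
    exact ⟨t, h5, h4, h3⟩
  set P : ℂ → ℝ := fun w => ∑ j ∈ F, c j * tl t (a j) w with hP
  have hPc : Continuous P := by
    refine continuous_finsetSum _ fun j _ => continuous_const.mul (continuous_tl ht _)
  have hPL : ∀ z, LGe P z 0 := by
    intro z
    have := lge_sum F (u := fun j w => c j * tl t (a j) w) (z := z) (c := fun j => c j * 0)
      fun j _ => (lge_tl ht (a j) z).const_mul (hcpos j).le
    simpa using this
  have hd : ∀ w ∈ closedBall (0 : ℂ) 1, ∀ j, ‖w - a j‖ ≤ 2 := by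
    intro w hw j
    have h1 : ‖w‖ ≤ 1 := by simpa using hw
    have h2 : ‖a j‖ ≤ 1 := by simpa using hE1 (haE j)
    exact (norm_sub_le _ _).trans (by linarith)
  have hPn : ∀ w ∈ closedBall (0 : ℂ) 1, P w ≤ 0 := fun w hw =>
    Finset.sum_nonpos fun j _ => mul_nonpos_of_nonneg_of_nonpos (hcpos j).le
      (tl_nonpos ht ht4 (hd w hw j))
  have hP0 : -2 ≤ P 0 := by
    have h1 : ∑ j ∈ F, -(1 / 2 : ℝ) ^ j ≤ P 0 := Finset.sum_le_sum fun j _ =>
      (hcl j).trans (mul_le_mul_of_nonneg_left (le_tl (ha0 j)) (hcpos j).le)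
    have h2 : ∑ j ∈ F, (1 / 2 : ℝ) ^ j ≤ 2 := by
      have := Summable.sum_le_tsum F (fun j _ => by positivity) summable_geometric_two
      rwa [tsum_geometric_two] at this
    rw [Finset.sum_neg_distrib] at h1
    linarith
  have hPK : ∀ w ∈ closedBall (0 : ℂ) 1, (∃ j ∈ F, ‖w - a j‖ ^ 2 < tt j) → P w ≤ -K := by
    rintro w hw ⟨j, hj, hjw⟩
    have h1 : P w ≤ c j * tl t (a j) w := by
      rw [hP]
      simp only
      rw [← Finset.add_sum_erase F _ hj]
      have : ∑ x ∈ F.erase j, c x * tl t (a x) w ≤ 0 :=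
        Finset.sum_nonpos fun i _ => mul_nonpos_of_nonneg_of_nonpos (hcpos i).le
          (tl_nonpos ht ht4 (hd w hw i))
      linarith
    refine h1.trans ((mul_le_mul_of_nonneg_left (tl_le_log ht (htF j hj) hjw.le)
      (hcpos j).le).trans (httK j))
  -- the comparison function
  set u : ℂ → ℝ := fun w => max (φ w + ε' * P w) (-B - 1) with hu
  have huc : ContinuousOn u (closedBall 0 1) :=
    (hφ.add (continuous_const.mul hPc).continuousOn).sup continuousOn_const
  have hεK : ε' * K = 2 * B + 2 := by rw [hK]; field_simp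
  have huL : ∀ z ∈ ball (0 : ℂ) 1, LGe u z 0 := by
    intro z hz
    by_cases hzF : ∃ j ∈ F, ‖z - a j‖ ^ 2 < tt j
    · obtain ⟨j, hj, hjz⟩ := hzF
      have h1 : ∀ᶠ w in 𝓝 z, w ∈ closedBall (0 : ℂ) 1 ∧ ‖w - a j‖ ^ 2 < tt j :=
        ((isOpen_ball.eventually_mem hz).mono fun w hw => ball_subset_closedBall hw).and
          (ContinuousAt.eventually_lt (by fun_prop) continuousAt_const hjz)
      refine (hasL_const (-B - 1) z).lge.congr ?_
      filter_upwards [h1] with w hw
      have h2 := hPK w hw.1 ⟨j, hj, hw.2⟩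
      have h3 := (abs_le.1 (hB w hw.1)).2
      have h4 : ε' * P w ≤ ε' * -K := mul_le_mul_of_nonneg_left h2 hε0.le
      simp only [hu]
      rw [max_eq_right]
      linarith
    · have hzE : z ∉ E := by
        intro h
        obtain ⟨j, hj, hjz⟩ := mem_iUnion₂.1 (hF h)
        exact hzF ⟨j, hj, hjz⟩
      have h1 := (hL z hz hzE).add ((hPL z).const_mul hε0.le)
      refine LGe.max (by simpa using h1) (hasL_const _ z).lge
  have h1 := le_circleAverage one_pos huc huL
  have h2 : circleAverage u 0 1 ≤ circleAverage φ 0 1 := by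
    refine circleAverage_mono ?_ ?_ fun w hw => ?_
    · exact (huc.mono sphere_subset_closedBall).circleIntegrable zero_le_one
    · exact (hφ.mono sphere_subset_closedBall).circleIntegrable zero_le_one
    · have hw' : w ∈ closedBall (0 : ℂ) 1 := by
        rw [abs_one] at hw; exact sphere_subset_closedBall hw
      simp only [hu]
      refine max_le ?_ ?_
      · have := mul_nonpos_of_nonneg_of_nonpos hε0.le (hPn w hw')
        linarith
      · have := (abs_le.1 (hB w hw')).1
        linarith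
  have h3 : φ 0 + ε' * P 0 ≤ u 0 := le_max_left _ _
  have h4 : ε' * -2 ≤ ε' * P 0 := mul_le_mul_of_nonneg_left hP0 hε0.le
  linarith

end one

/-! ### local sub-mean values -/

section psh

variable {E : Type*} [NormedAddCommGroup E] [NormedSpace ℂ E] [NormedSpace ℝ E]
  [IsScalarTower ℝ ℂ E]

theorem dav_congr {f g : E → ℝ} {z v : E} (h : ∀ w : ℂ, ‖w‖ = 1 → f (z + w • v) = g (z + w • v)) :
    dav f z v = dav g z v := by
  refine circleAverage_congr_sphere fun w hw => h w ?_
  simpa using hw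

theorem continuous_dav {g : E → ℝ} (hg : Continuous g) :
    Continuous fun p : E × E => dav g p.1 p.2 := by
  unfold dav Real.circleAverage
  have h1 : Continuous fun p : E × E =>
      ∫ θ in (0 : ℝ)..2 * Real.pi, g (p.1 + circleMap 0 1 θ • p.2) := by
    apply intervalIntegral.continuous_parametric_intervalIntegral_of_continuous'
    exact hg.comp ((continuous_fst.comp continuous_fst).add
      (((continuous_circleMap 0 1).comp continuous_snd).smul (continuous_snd.comp continuous_fst)))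
  exact h1.const_smul ((2 * Real.pi)⁻¹)

/-- a continuous function on an open set agrees near a point with a continuous function -/
theorem exists_cont_ext {D : Set E} (hD : IsOpen D) {f : E → ℝ} (hf : ContinuousOn f D) {z : E}
    (hz : z ∈ D) : ∃ r > 0, ball z r ⊆ D ∧ ∃ g : E → ℝ, Continuous g ∧ ∀ y ∈ ball z r, g y = f y := by
  obtain ⟨r, hr, hb⟩ := Metric.isOpen_iff.1 hD z hz
  set ρ := r / 3 with hρ
  have hρ0 : 0 < ρ := by positivity
  have hsub : closedBall z (2 * ρ) ⊆ D := (closedBall_subset_ball (by rw [hρ]; linarith)).trans hb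
  set χ : E → ℝ := fun y => max 0 (min 1 (2 - ‖y - z‖ / ρ)) with hχ
  have hχc : Continuous χ := by
    simp only [hχ]; fun_prop
  refine ⟨ρ, hρ0, (ball_subset_ball (by rw [hρ]; linarith)).trans hb, fun y => χ y * f y, ?_, ?_⟩
  · rw [continuous_iff_continuousAt]
    intro y
    by_cases hy : y ∈ closedBall z (2 * ρ)
    · exact hχc.continuousAt.mul (hf.continuousAt (hD.mem_nhds (hsub hy)))
    · have h1 : ∀ᶠ x in 𝓝 y, x ∉ closedBall z (2 * ρ) :=
        isClosed_closedBall.isOpen_compl.mem_nhds hy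
      refine (continuousAt_const (y := (0 : ℝ))).congr ?_
      filter_upwards [h1] with x hx
      have h2 : 2 * ρ < ‖x - z‖ := by
        rw [mem_closedBall, dist_eq_norm] at hx
        exact not_le.1 hx
      have h3 : 2 < ‖x - z‖ / ρ := by rwa [lt_div_iff₀ hρ0]
      have h4 : χ x = 0 := by
        simp only [hχ]
        rw [max_eq_left]
        exact (min_le_right _ _).trans (by linarith)
      rw [h4, zero_mul]
  · intro y hy
    have h2 : ‖y - z‖ / ρ < 1 := by
      rw [mem_ball, dist_eq_norm] at hy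
      rwa [div_lt_one hρ0]
    have h4 : χ y = 1 := by
      simp only [hχ]
      rw [min_eq_left (by linarith), max_eq_right zero_le_one]
    simp only [h4, one_mul]

/-- sub-mean values on all small discs, with locally uniform radius -/
def PshL (D : Set E) (f : E → ℝ) : Prop :=
  ∀ z ∈ D, ∃ r > 0, ∀ x ∈ ball z r, ∀ v : E, ‖v‖ < r → f x ≤ dav f x v

theorem PshL.mono {D D' : Set E} {f : E → ℝ} (h : PshL D f) (hD : D' ⊆ D) : PshL D' f :=
  fun z hz => h z (hD hz)

theorem disc_subset {z x v : E} {r : ℝ} (hx : x ∈ ball z r) (hv : ‖v‖ < r) {w : ℂ} (hw : ‖w‖ ≤ 1) :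
    x + w • v ∈ ball z (2 * r) := by
  rw [mem_ball, dist_eq_norm] at hx ⊢
  have h1 : ‖w • v‖ ≤ ‖v‖ := by
    rw [norm_smul]
    exact mul_le_of_le_one_left (norm_nonneg _) hw
  calc ‖x + w • v - z‖ = ‖(x - z) + w • v‖ := by congr 1; abel
    _ ≤ ‖x - z‖ + ‖w • v‖ := norm_add_le _ _
    _ < 2 * r := by linarith

/-- one disc -/
theorem le_dav_of_countable {D T : Set E} (hT : IsOpen (D \ T)) {f : E → ℝ}
    (hf : ContinuousOn f D) (hpos : ∀ z ∈ D, z ∉ T → ContDiffAt ℝ 2 f z ∧ ∀ v, 0 ≤ lvE f z v)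
    {x v : E} (hd : ∀ w : ℂ, ‖w‖ ≤ 1 → x + w • v ∈ D) (hx : x ∉ T)
    (hc : {w : ℂ | ‖w‖ ≤ 1 ∧ x + w • v ∈ D ∧ x + w • v ∈ T}.Countable) : f x ≤ dav f x v := by
  set l : ℂ → E := fun w => x + w • v with hl
  have hlc : Continuous l := by simp only [hl]; fun_prop
  set S : Set ℂ := {w : ℂ | ‖w‖ ≤ 1 ∧ x + w • v ∈ D ∧ x + w • v ∈ T} with hS
  have hSe : S = closedBall (0 : ℂ) 1 ∩ (l ⁻¹' (D \ T))ᶜ := by
    ext w
    simp only [hS, mem_ofPred_eq, mem_inter_iff, mem_closedBall, dist_zero_right, mem_compl_iff,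
      mem_preimage, Set.mem_sdiff, not_and, not_not]
    constructor
    · rintro ⟨h1, -, h3⟩
      exact ⟨h1, fun _ => h3⟩
    · rintro ⟨h1, h2⟩
      exact ⟨h1, hd w h1, h2 (hd w h1)⟩
  have hSc : IsCompact S := by
    rw [hSe]
    exact (isCompact_closedBall (0 : ℂ) 1).inter_right (hT.preimage hlc).isClosed_compl
  have h1 := le_avg_of_countable (φ := fun w : ℂ => f (x + w • v)) (E := S)
    (hf.comp hlc.continuousOn fun w hw => hd w (by simpa using hw)) hSc
    (by rw [hSe]; exact inter_subset_left) hc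
    (fun h => hx (by simpa using h.2.2)) (fun w hw hwS => ?_)
  · simpa [dav] using h1
  · have hw1 : ‖w‖ ≤ 1 := by
      have : ‖w‖ < 1 := by simpa using hw
      exact this.le
    have hwT : x + w • v ∉ T := fun h => hwS ⟨hw1, hd w hw1, h⟩
    obtain ⟨h2, h3⟩ := hpos _ (hd w hw1) hwT
    have h4 := (hasL_of_contDiffAt (contDiffAt_comp_disc h2)).lge
    rw [lvE_disc h2] at h4
    exact h4.mono (h3 v)

/-- continuous functions, `C²` with Levi form `≥ 0` off a relatively closed set meeting a dense set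
of discs in countable sets, satisfy the sub-mean value property on all small discs -/
theorem pshL_of_discs {D T : Set E} (hD : IsOpen D) (hT : IsOpen (D \ T)) {f : E → ℝ}
    (hf : ContinuousOn f D)
    (hthin : ∀ z ∈ D, ∃ r > 0, ∀ x ∈ ball z r, ∀ v : E, ‖v‖ < r → (x, v) ∈ closure
      {p : E × E | p.1 ∉ T ∧
        {w : ℂ | ‖w‖ ≤ 1 ∧ p.1 + w • p.2 ∈ D ∧ p.1 + w • p.2 ∈ T}.Countable})
    (hpos : ∀ z ∈ D, z ∉ T → ContDiffAt ℝ 2 f z ∧ ∀ v, 0 ≤ lvE f z v) : PshL D f := by
  intro z hz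
  obtain ⟨r₀, hr₀, hb, g, hg, hgf⟩ := exists_cont_ext hD hf hz
  obtain ⟨r₁, hr₁, h1⟩ := hthin z hz
  refine ⟨min (r₀ / 2) r₁, by positivity, fun x hx v hv => ?_⟩
  set r := min (r₀ / 2) r₁ with hr
  have hr2 : 2 * r ≤ r₀ := by
    have := min_le_left (r₀ / 2) r₁
    linarith
  have hrr : r ≤ r₁ := min_le_right _ _
  have hball : ∀ x ∈ ball z r, ∀ v : E, ‖v‖ < r → ∀ w : ℂ, ‖w‖ ≤ 1 → x + w • v ∈ ball z r₀ :=
    fun x hx v hv w hw => ball_subset_ball hr2 (disc_subset hx hv hw)
  have hgle : ∀ x ∈ ball z r, ∀ v : E, ‖v‖ < r → (f x ≤ dav f x v ↔ g x ≤ dav g x v) := by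
    intro x hx v hv
    have e1 : g x = f x := hgf x (by
      have := hball x hx v hv 0 (by simp)
      simpa using this)
    have e2 : dav g x v = dav f x v := dav_congr fun w hw => hgf _ (hball x hx v hv w hw.le)
    rw [e1, e2]
  rw [hgle x hx v hv]
  -- density
  set U : Set (E × E) := {p | p.1 ∈ ball z r ∧ ‖p.2‖ < r} with hU
  have hUo : IsOpen U := (isOpen_ball.preimage continuous_fst).inter
    (isOpen_lt (continuous_norm.comp continuous_snd) continuous_const)
  have hcl : IsClosed {p : E × E | g p.1 ≤ dav g p.1 p.2} :=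
    isClosed_le (hg.comp continuous_fst) (continuous_dav hg)
  have hmem := h1 x (ball_subset_ball hrr hx) v (hv.trans_le hrr)
  have h2 : (x, v) ∈ closure ({p : E × E | p.1 ∉ T ∧
        {w : ℂ | ‖w‖ ≤ 1 ∧ p.1 + w • p.2 ∈ D ∧ p.1 + w • p.2 ∈ T}.Countable} ∩ U) := by
    have h3 := hUo.inter_closure (t := {p : E × E | p.1 ∉ T ∧
        {w : ℂ | ‖w‖ ≤ 1 ∧ p.1 + w • p.2 ∈ D ∧ p.1 + w • p.2 ∈ T}.Countable})
      ⟨(⟨hx, hv⟩ : (x, v) ∈ U), hmem⟩
    rwa [inter_comm] at h3
  refine (closure_minimal ?_ hcl) h2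
  rintro ⟨y, u⟩ ⟨⟨hy1, hy2⟩, hy3, hy4⟩
  simp only at hy1 hy2 hy3 hy4
  rw [mem_ofPred_eq]
  simp only
  rw [← hgle y hy3 u hy4]
  exact le_dav_of_countable hT hf hpos (fun w hw => hb (hball y hy3 u hy4 w hw)) hy1 hy2

/-- uniform radius on compact sets -/
theorem PshL.uniform {D : Set E} {f : E → ℝ} (h : PshL D f) {K : Set E} (hK : IsCompact K)
    (hKD : K ⊆ D) : ∃ r > 0, ∀ x ∈ K, ∀ y ∈ ball x r, ∀ v : E, ‖v‖ < r → f y ≤ dav f y v := by
  refine hK.induction_on (p := fun K => ∃ r > 0, ∀ x ∈ K, ∀ y ∈ ball x r, ∀ v : E, ‖v‖ < r →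
    f y ≤ dav f y v) ⟨1, one_pos, by simp⟩ ?_ ?_ ?_
  · rintro s t hst ⟨r, hr, h1⟩
    exact ⟨r, hr, fun x hx => h1 x (hst hx)⟩
  · rintro s t ⟨r, hr, h1⟩ ⟨r', hr', h2⟩
    refine ⟨min r r', by positivity, ?_⟩
    rintro x (hx | hx) y hy v hv
    · exact h1 x hx y (ball_subset_ball (min_le_left _ _) hy) v (hv.trans_le (min_le_left _ _))
    · exact h2 x hx y (ball_subset_ball (min_le_right _ _) hy) v (hv.trans_le (min_le_right _ _))
  · intro x hx
    obtain ⟨r, hr, h1⟩ := h x (hKD hx)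
    refine ⟨ball x (r / 2), mem_nhdsWithin_of_mem_nhds (ball_mem_nhds x (by positivity)), r / 2,
      by positivity, fun y hy z hz v hv => h1 z ?_ v (by linarith)⟩
    rw [mem_ball] at hy hz ⊢
    calc dist z x ≤ dist z y + dist y x := dist_triangle _ _ _
      _ < r := by linarith

end psh

end Crest.Agent.R281.Rich_710
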