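import Mathlib
import Crest.Agent.R281.Bdd1_791
import Crest.Agent.R281.Rich1_710

/-!
# S6-BDD, part 2: ball averages of bounded plurisubharmonic functions of class `C²`
-/

set_option autoImplicit false
set_option linter.unusedSectionVars false

open Set Metric MeasureTheory Filter Topology Real
open Crest.Agent.R269.LevC_653 Crest.Agent.R269.Green_740
open Crest.Agent.R257.HoB_843 (lvE)
open Crest.Agent.R281.Rich_710 (lvE_disc contDiffAt_comp_disc)
open scoped ENNReal Pointwise

namespace Crest.Agent.R281.Bdd2_791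

open Bdd1_791

variable {E : Type*} [NormedAddCommGroup E] [NormedSpace ℂ E] [NormedSpace ℝ E]
  [IsScalarTower ℝ ℂ E] [FiniteDimensional ℝ E]
  [MeasurableSpace E] [BorelSpace E] (μ : Measure E) [μ.IsAddHaarMeasure]

theorem lev_eq (u : ℂ → ℝ) (z : ℂ) : lev u z 1 = lvE u z 1 := by
  unfold lev lvE
  ring

theorem coe_smul' (r : ℝ) (y : E) : (r : ℂ) • y = r • y :=
  (RCLike.real_smul_eq_coe_smul (K := ℂ) r y).symm

/-- multiplication by a complex number of modulus one preserves Haar measure -/
theorem rot (ζ : ℂ) (hζ : ‖ζ‖ = 1) : MeasurePreserving (fun y : E => ζ • y) μ μ := by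
  have hζ0 : ζ ≠ 0 := by rintro rfl; simp at hζ
  have : ProperSpace E := FiniteDimensional.proper ℝ E
  let L : E ≃L[ℝ] E := (ContinuousLinearEquiv.smulLeft (R₁ := ℂ) (Units.mk0 ζ hζ0)).restrictScalars ℝ
  have hL : ∀ y, L y = ζ • y := fun y => rfl
  refine ⟨(continuous_const_smul ζ).measurable, ?_⟩
  have h1 : Measure.map (fun y : E => ζ • y) μ = Measure.map L μ := rfl
  rw [h1]
  have := L.isAddHaarMeasure_map μ
  have h2 := Measure.isAddLeftInvariant_eq_smul (Measure.map L μ) μ
  have h3 : Measure.map L μ (closedBall 0 1) = μ (closedBall 0 1) := by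
    rw [Measure.map_apply L.continuous.measurable measurableSet_closedBall]
    congr 1
    ext y
    simp [hL, norm_smul, hζ]
  rw [h2, Measure.smul_apply] at h3
  have hpos : μ (closedBall (0 : E) 1) ≠ 0 := (measure_closedBall_pos μ 0 one_pos).ne'
  have hfin : μ (closedBall (0 : E) 1) ≠ ∞ := measure_closedBall_lt_top.ne
  have h4 : Measure.addHaarScalarFactor (Measure.map L μ) μ = 1 := by
    have h5 := congrArg ENNReal.toReal h3
    simp only [ENNReal.smul_def, smul_eq_mul, ENNReal.toReal_mul, ENNReal.coe_toReal] at h5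
    have h6 : (μ (closedBall (0 : E) 1)).toReal ≠ 0 := by
      rw [ne_eq, ENNReal.toReal_eq_zero_iff]; tauto
    have h7 : ((Measure.addHaarScalarFactor (Measure.map L μ) μ : NNReal) : ℝ) = 1 :=
      mul_right_cancel₀ h6 (by rw [h5, one_mul])
    exact_mod_cast h7
  rw [h2, h4, one_smul]

/-- the average over the ball of radius `r` about `x` -/
noncomputable def av (f : E → ℝ) (x : E) (r : ℝ) : ℝ :=
  (μ.real (closedBall 0 1))⁻¹ * ∫ y in closedBall (0 : E) 1, f (x + r • y) ∂μ

theorem rot_int (f : E → ℝ) (x : E) (r : ℝ) (θ : ℝ) :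
    ∫ y in closedBall (0 : E) 1, f (x + circleMap 0 r θ • y) ∂μ =
      ∫ y in closedBall (0 : E) 1, f (x + r • y) ∂μ := by
  have h := rot μ (Complex.exp (θ * Complex.I)) (norm_exp_I θ)
  have hinj : MeasurableEmbedding (fun y : E => Complex.exp (θ * Complex.I) • y) := by
    have hne : Complex.exp (θ * Complex.I) ≠ 0 := Complex.exp_ne_zero _
    exact (Homeomorph.smulOfNeZero _ hne).measurableEmbedding
  have h2 := h.setIntegral_preimage_emb hinj (fun y => f (x + r • y)) (closedBall 0 1)
  rw [← h2]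
  have h3 : (fun y : E => Complex.exp (θ * Complex.I) • y) ⁻¹' closedBall 0 1 = closedBall 0 1 := by
    ext y; simp [norm_smul]
  rw [h3]
  refine setIntegral_congr_fun measurableSet_closedBall fun y _ => ?_
  have e : circleMap 0 r θ • y = r • Complex.exp (θ * Complex.I) • y := by
    rw [circleMap_zero, mul_smul, coe_smul']
  simp only [e]

variable {f : E → ℝ} {x : E} {R C : ℝ}

theorem mem_of {r : ℝ} (hr : r < R) (h0 : 0 ≤ r) {y : E} (hy : y ∈ closedBall (0 : E) 1) {c : ℂ}
    (hc : ‖c‖ ≤ r) : x + c • y ∈ ball x R := by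
  rw [mem_ball, dist_eq_norm, add_sub_cancel_left, norm_smul]
  have hy' : ‖y‖ ≤ 1 := by simpa using hy
  calc ‖c‖ * ‖y‖ ≤ r * 1 := mul_le_mul hc hy' (norm_nonneg _) h0
    _ < R := by linarith

theorem slice_cd (hf : ContDiffOn ℝ 2 f (ball x R)) {y : E} (hy : y ∈ closedBall (0 : E) 1) :
    ContDiffOn ℝ 2 (fun c : ℂ => f (x + c • y)) (ball 0 R) := by
  refine hf.comp (t := ball x R) ?_ ?_
  · exact (contDiff_const.add (contDiff_id.smul contDiff_const)).contDiffOn
  · intro c hc
    have hc' : ‖c‖ < R := by simpa using hc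
    have hy' : ‖y‖ ≤ 1 := by simpa using hy
    rw [mem_ball, dist_eq_norm, add_sub_cancel_left, norm_smul]
    calc ‖c‖ * ‖y‖ ≤ ‖c‖ * 1 := mul_le_mul_of_nonneg_left hy' (norm_nonneg _)
      _ < R := by linarith

theorem slice_lev (hf : ContDiffOn ℝ 2 f (ball x R)) (hl : ∀ z ∈ ball x R, ∀ v, 0 ≤ lvE f z v)
    {y : E} (hy : y ∈ closedBall (0 : E) 1) :
    ∀ c ∈ ball (0 : ℂ) R, 0 ≤ lev (fun c : ℂ => f (x + c • y)) c 1 := by
  intro c hc
  have hc' : ‖c‖ < R := by simpa using hc
  have hy' : ‖y‖ ≤ 1 := by simpa using hy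
  have hz : x + c • y ∈ ball x R := by
    rw [mem_ball, dist_eq_norm, add_sub_cancel_left, norm_smul]
    calc ‖c‖ * ‖y‖ ≤ ‖c‖ * 1 := mul_le_mul_of_nonneg_left hy' (norm_nonneg _)
      _ < R := by linarith
  have hcd : ContDiffAt ℝ 2 f (x + c • y) := hf.contDiffAt (isOpen_ball.mem_nhds hz)
  have key : lev (fun c : ℂ => f (x + c • y)) c 1 = lvE f (x + c • y) y := by
    rw [lev_eq, lvE_disc hcd]
  rw [key]
  exact hl _ hz _

/-- joint continuity of the circle map family -/
theorem cont_joint (hf : ContinuousOn f (ball x R)) {r : ℝ} (h0 : 0 ≤ r) (hr : r < R) :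
    ContinuousOn (fun p : E × ℝ => f (x + circleMap 0 r p.2 • p.1)) (closedBall 0 1 ×ˢ univ) := by
  refine hf.comp (t := ball x R) ?_ ?_
  · exact (continuous_const.add (((continuous_circleMap 0 r).comp continuous_snd).smul
      continuous_fst)).continuousOn
  · rintro ⟨y, θ⟩ ⟨hy, -⟩
    exact mem_of hr h0 hy (by rw [norm_circleMap_zero, abs_of_nonneg h0])

theorem integrable_joint (hf : ContinuousOn f (ball x R)) {r : ℝ} (h0 : 0 ≤ r) (hr : r < R) :
    Integrable (fun p : E × ℝ => f (x + circleMap 0 r p.2 • p.1))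
      ((μ.restrict (closedBall 0 1)).prod (volume.restrict (Ioc 0 (2 * π)))) := by
  have : ProperSpace E := FiniteDimensional.proper ℝ E
  rw [Measure.prod_restrict]
  have h1 : IntegrableOn (fun p : E × ℝ => f (x + circleMap 0 r p.2 • p.1))
      (closedBall 0 1 ×ˢ Icc 0 (2 * π)) (μ.prod volume) :=
    ((cont_joint hf h0 hr).mono (prod_mono le_rfl (subset_univ _))).integrableOn_compact
      ((isCompact_closedBall 0 1).prod isCompact_Icc)
  exact h1.mono_set (prod_mono le_rfl Ioc_subset_Icc_self)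

/-- the ball average is the average of the circle means -/
theorem av_eq (hf : ContinuousOn f (ball x R)) {r : ℝ} (h0 : 0 ≤ r) (hr : r < R) :
    av μ f x r = (μ.real (closedBall 0 1))⁻¹ *
      ∫ y in closedBall (0 : E) 1, circleAverage (fun c : ℂ => f (x + c • y)) 0 r ∂μ := by
  have h2π : (0 : ℝ) ≤ 2 * π := by positivity
  have h1 : ∫ y in closedBall (0 : E) 1, circleAverage (fun c : ℂ => f (x + c • y)) 0 r ∂μ
      = (2 * π)⁻¹ * ∫ y in closedBall (0 : E) 1, (∫ θ in Ioc (0 : ℝ) (2 * π),
        f (x + circleMap 0 r θ • y)) ∂μ := by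
    rw [← integral_const_mul]
    refine setIntegral_congr_fun measurableSet_closedBall fun y _ => ?_
    simp only [circleAverage, smul_eq_mul, intervalIntegral.integral_of_le h2π]
  rw [h1, integral_integral_swap (integrable_joint μ hf h0 hr)]
  have h3 : ∀ θ : ℝ, ∫ y in closedBall (0 : E) 1, f (x + circleMap 0 r θ • y) ∂μ =
      ∫ y in closedBall (0 : E) 1, f (x + r • y) ∂μ := fun θ => rot_int μ f x r θ
  simp only [h3]
  rw [setIntegral_const, av]
  simp only [measureReal_def, Real.volume_Ioc, sub_zero, ENNReal.toReal_ofReal h2π, smul_eq_mul]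
  have : (2 * π) ≠ 0 := by positivity
  field_simp

theorem integrable_circ (hf : ContinuousOn f (ball x R)) {r : ℝ} (h0 : 0 ≤ r) (hr : r < R) :
    IntegrableOn (fun y : E => circleAverage (fun c : ℂ => f (x + c • y)) 0 r)
      (closedBall 0 1) μ := by
  have h2π : (0 : ℝ) ≤ 2 * π := by positivity
  have h1 := (integrable_joint μ hf h0 hr).integral_prod_left.const_mul (2 * π)⁻¹
  refine h1.congr (ae_of_all _ fun y => ?_)
  simp only [circleAverage, smul_eq_mul, intervalIntegral.integral_of_le h2π]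

/-- **Convexity in `log r`** of the ball averages. -/
theorem av_conv (hf : ContDiffOn ℝ 2 f (ball x R)) (hl : ∀ z ∈ ball x R, ∀ v, 0 ≤ lvE f z v)
    {r T S : ℝ} (h0 : 0 < r) (hrT : r ≤ T) (hTS : T ≤ S) (hS : S < R) :
    (av μ f x T - av μ f x r) * Real.log (S / T) ≤
      (av μ f x S - av μ f x T) * Real.log (T / r) := by
  have hT0 : 0 < T := h0.trans_le hrT
  have hT : T < R := hTS.trans_lt hS
  have hr : r < R := hrT.trans_lt hT
  have hc := hf.continuousOn
  rw [av_eq μ hc h0.le hr, av_eq μ hc hT0.le hT, av_eq μ hc (hT0.le.trans hTS) hS]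
  rw [← mul_sub, ← mul_sub, mul_assoc, mul_assoc]
  refine mul_le_mul_of_nonneg_left ?_ (inv_nonneg.mpr measureReal_nonneg)
  have ir := integrable_circ μ hc h0.le hr
  have iT := integrable_circ μ hc hT0.le hT
  have iS := integrable_circ μ hc (hT0.le.trans hTS) hS
  rw [← integral_sub iT ir, ← integral_sub iS iT, ← integral_mul_const, ← integral_mul_const]
  refine setIntegral_mono_on ((iT.sub ir).mul_const _) ((iS.sub iT).mul_const _)
    measurableSet_closedBall fun y hy => ?_
  exact circle_conv (slice_cd hf hy) (slice_lev hf hl hy) h0 hrT hTS hS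

/-- sub-mean value inequality on balls -/
theorem le_av (hf : ContDiffOn ℝ 2 f (ball x R)) (hl : ∀ z ∈ ball x R, ∀ v, 0 ≤ lvE f z v)
    {s : ℝ} (h0 : 0 ≤ s) (hs : s < R) : f x ≤ av μ f x s := by
  have : ProperSpace E := FiniteDimensional.proper ℝ E
  rw [av_eq μ hf.continuousOn h0 hs]
  have hpos : 0 < μ.real (closedBall (0 : E) 1) :=
    ENNReal.toReal_pos (measure_closedBall_pos μ 0 one_pos).ne' measure_closedBall_lt_top.ne
  have h1 : f x = (μ.real (closedBall 0 1))⁻¹ * ∫ _ in closedBall (0 : E) 1, f x ∂μ := by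
    rw [setIntegral_const, smul_eq_mul]
    field_simp
  rw [h1]
  refine mul_le_mul_of_nonneg_left ?_ (inv_nonneg.mpr hpos.le)
  refine setIntegral_mono_on (integrableOn_const measure_closedBall_lt_top.ne)
    (integrable_circ μ hf.continuousOn h0 hs) measurableSet_closedBall fun y hy => ?_
  have := le_circle (slice_cd hf hy) (slice_lev hf hl hy) h0 hs
  simpa using this

/-- bound for averages -/
theorem abs_av_le (hC : ∀ z ∈ ball x R, |f z| ≤ C)
    {s : ℝ} (h0 : 0 ≤ s) (hs : s < R) : |av μ f x s| ≤ C := by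
  have : ProperSpace E := FiniteDimensional.proper ℝ E
  have hpos : 0 < μ.real (closedBall (0 : E) 1) :=
    ENNReal.toReal_pos (measure_closedBall_pos μ 0 one_pos).ne' measure_closedBall_lt_top.ne
  have h1 : ‖∫ y in closedBall (0 : E) 1, f (x + s • y) ∂μ‖ ≤ C * μ.real (closedBall 0 1) := by
    refine norm_setIntegral_le_of_norm_le_const measure_closedBall_lt_top fun y hy => ?_
    refine hC _ ?_
    have := mem_of (x := x) hs h0 hy (c := (s : ℂ)) (by simp [abs_of_nonneg h0])
    rwa [coe_smul'] at this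
  rw [av, abs_mul, abs_of_pos (inv_pos.mpr hpos), inv_mul_le_iff₀ hpos, mul_comm]
  simpa using h1

/-- ball average as an integral over the ball -/
theorem av_eq_ball (f : E → ℝ) (x : E) {s : ℝ} (hs : 0 < s) :
    av μ f x s = (μ.real (closedBall x s))⁻¹ * ∫ z in closedBall x s, f z ∂μ := by
  have : ProperSpace E := FiniteDimensional.proper ℝ E
  have h1 : ∫ y in closedBall (0 : E) 1, f (x + s • y) ∂μ
      = (s ^ Module.finrank ℝ E)⁻¹ * ∫ z in closedBall x s, f z ∂μ := by
    have h2 := Measure.setIntegral_comp_smul_of_pos μ (fun z => f (x + z)) (closedBall (0 : E) 1) hs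
    rw [h2, smul_eq_mul]
    congr 1
    have h3 : s • closedBall (0 : E) 1 = closedBall 0 s := by
      rw [_root_.smul_closedBall _ _ zero_le_one]
      simp [abs_of_pos hs]
    rw [h3]
    have h4 := (measurePreserving_add_left μ x).setIntegral_preimage_emb
      (measurableEmbedding_addLeft x) f (closedBall x s)
    rw [← h4]
    congr 2
    ext z
    simp [dist_eq_norm]
  have h5 : μ.real (closedBall x s) = s ^ Module.finrank ℝ E * μ.real (closedBall (0 : E) 1) := by
    rw [measureReal_def, Measure.addHaar_closedBall' _ _ hs.le, ENNReal.toReal_mul,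
      ENNReal.toReal_ofReal (by positivity), measureReal_def]
  rw [av, h1, h5, mul_inv]
  ring

theorem ball_pos (x : E) {s : ℝ} (hs : 0 < s) : 0 < μ.real (closedBall x s) := by
  have : ProperSpace E := FiniteDimensional.proper ℝ E
  exact ENNReal.toReal_pos (measure_closedBall_pos μ x hs).ne' measure_closedBall_lt_top.ne

theorem ball_ratio (x p : E) {s t : ℝ} (hs : 0 < s) (ht : 0 < t) :
    μ.real (closedBall x t) / μ.real (closedBall p s) = (t / s) ^ Module.finrank ℝ E := by
  have : ProperSpace E := FiniteDimensional.proper ℝ E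
  have h5 : ∀ (x : E) {s : ℝ}, 0 < s →
      μ.real (closedBall x s) = s ^ Module.finrank ℝ E * μ.real (closedBall (0 : E) 1) := by
    intro x s hs
    rw [measureReal_def, Measure.addHaar_closedBall' _ _ hs.le, ENNReal.toReal_mul,
      ENNReal.toReal_ofReal (by positivity), measureReal_def]
  have h0 := (ball_pos μ (0 : E) one_pos).ne'
  rw [h5 x ht, h5 p hs, div_pow]
  field_simp

/-- the excess of the average over a shifted smaller ball -/
theorem av_shift (hf : ContinuousOn f (ball x R)) (hC : ∀ z ∈ ball x R, |f z| ≤ C) {p : E}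
    {r T : ℝ} (h0 : 0 ≤ r) (hrT : r < T) (hT : T < R) (hp : p ∈ closedBall x r) :
    av μ f p (T - r) ≤ av μ f x T + 2 * C * ((T / (T - r)) ^ Module.finrank ℝ E - 1) := by
  have : ProperSpace E := FiniteDimensional.proper ℝ E
  have hT0 : 0 < T := h0.trans_lt hrT
  have hs : 0 < T - r := by linarith
  have hsub : closedBall p (T - r) ⊆ closedBall x T :=
    closedBall_subset_closedBall' (by have := mem_closedBall.mp hp; linarith)
  have hxR : closedBall x T ⊆ ball x R := closedBall_subset_ball hT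
  have hint : IntegrableOn f (closedBall x T) μ :=
    (hf.mono hxR).integrableOn_compact (isCompact_closedBall x T)
  have hpos := ball_pos μ p hs
  have hposx := ball_pos μ x hT0
  have h1 : ∫ z in closedBall p (T - r), f z ∂μ ≤ ∫ z in closedBall x T, f z ∂μ +
      C * (μ.real (closedBall x T) - μ.real (closedBall p (T - r))) := by
    have h2 : ∫ z in closedBall x T \ closedBall p (T - r), f z ∂μ =
        ∫ z in closedBall x T, f z ∂μ - ∫ z in closedBall p (T - r), f z ∂μ :=
      setIntegral_sdiff measurableSet_closedBall hint hsub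
    have h3 : ‖∫ z in closedBall x T \ closedBall p (T - r), f z ∂μ‖ ≤
        C * μ.real (closedBall x T \ closedBall p (T - r)) := by
      refine norm_setIntegral_le_of_norm_le_const ?_ fun z hz => hC z (hxR hz.1)
      exact (measure_mono sdiff_subset).trans_lt measure_closedBall_lt_top
    have h4 : μ.real (closedBall x T \ closedBall p (T - r)) =
        μ.real (closedBall x T) - μ.real (closedBall p (T - r)) :=
      measureReal_sdiff hsub measurableSet_closedBall measure_closedBall_lt_top.ne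
    rw [h4] at h3
    have h5 := (abs_le.mp (Real.norm_eq_abs _ ▸ h3)).1
    rw [h2] at h5
    linarith
  have habs := abs_av_le (μ := μ) hC hT0.le hT
  rw [av_eq_ball μ f p hs]
  have hx : ∫ z in closedBall x T, f z ∂μ = μ.real (closedBall x T) * av μ f x T := by
    rw [av_eq_ball μ f x hT0]; field_simp
  rw [hx] at h1
  have hq : μ.real (closedBall x T) = (T / (T - r)) ^ Module.finrank ℝ E *
      μ.real (closedBall p (T - r)) := by
    rw [← ball_ratio μ x p hs hT0]; field_simp
  set q := (T / (T - r)) ^ Module.finrank ℝ E with hqdef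
  set a := av μ f x T with ha
  set V := μ.real (closedBall p (T - r)) with hV
  rw [hq] at h1
  have hq1 : 1 ≤ q := one_le_pow₀ ((one_le_div hs).mpr (by linarith))
  calc V⁻¹ * ∫ z in closedBall p (T - r), f z ∂μ
      ≤ V⁻¹ * (q * V * a + C * (q * V - V)) := mul_le_mul_of_nonneg_left h1 (inv_nonneg.mpr hpos.le)
    _ = q * a + C * (q - 1) := by field_simp
    _ ≤ a + 2 * C * (q - 1) := by nlinarith [(abs_le.mp habs).2, (abs_le.mp habs).1]

/-- the modulus -/
noncomputable def eta (D : ℕ) (C r T S : ℝ) : ℝ :=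
  2 * C * ((T / (T - r)) ^ D - 1) + 2 * C * Real.log (T / r) / Real.log (S / T)

/-- the essential upper bound -/
noncomputable def top (f : E → ℝ) (x : E) (C r T : ℝ) : ℝ :=
  av μ f x T + 2 * C * ((T / (T - r)) ^ Module.finrank ℝ E - 1)

theorem le_top (hf : ContDiffOn ℝ 2 f (ball x R)) (hl : ∀ z ∈ ball x R, ∀ v, 0 ≤ lvE f z v)
    (hC : ∀ z ∈ ball x R, |f z| ≤ C) {p : E} {r T : ℝ} (h0 : 0 ≤ r) (hrT : r < T) (hT : T < R)
    (hp : p ∈ closedBall x r) : f p ≤ top μ f x C r T := by
  have hsub : ball p (R - r) ⊆ ball x R :=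
    ball_subset_ball' (by have := mem_closedBall.mp hp; linarith)
  have h1 : f p ≤ av μ f p (T - r) :=
    le_av μ (hf.mono hsub) (fun z hz => hl z (hsub hz)) (by linarith) (by linarith)
  exact h1.trans (av_shift μ hf.continuousOn hC h0 hrT hT hp)

theorem top_sub_le (hf : ContDiffOn ℝ 2 f (ball x R)) (hl : ∀ z ∈ ball x R, ∀ v, 0 ≤ lvE f z v)
    (hC : ∀ z ∈ ball x R, |f z| ≤ C) {r T S : ℝ} (h0 : 0 < r) (hrT : r < T) (hTS : T < S)
    (hS : S < R) : top μ f x C r T - av μ f x r ≤ eta (Module.finrank ℝ E) C r T S := by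
  have hT0 : 0 < T := h0.trans hrT
  have h1 := av_conv μ hf hl h0 hrT.le hTS.le hS
  have hlog : 0 < Real.log (S / T) := Real.log_pos ((one_lt_div hT0).mpr hTS)
  have hlog2 : 0 ≤ Real.log (T / r) := Real.log_nonneg ((one_le_div h0).mpr hrT.le)
  have hT := abs_av_le (μ := μ) hC hT0.le (hTS.trans hS)
  have hS' := abs_av_le (μ := μ) hC (hT0.trans hTS).le hS
  have h2 : av μ f x T - av μ f x r ≤ 2 * C * Real.log (T / r) / Real.log (S / T) := by
    rw [le_div_iff₀ hlog]
    refine h1.trans ?_
    refine mul_le_mul_of_nonneg_right ?_ hlog2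
    linarith [(abs_le.mp hT).1, (abs_le.mp hS').2]
  rw [top, eta]
  linarith

end Crest.Agent.R281.Bdd2_791
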