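import Mathlib
import Crest.Agent.R281.Bdd2_791

/-!
# S6-BDD, part 3: two probability densities on a small ball give nearly the same integral of a
bounded plurisubharmonic function, uniformly
-/

set_option autoImplicit false
set_option linter.unusedSectionVars false

open Set Metric MeasureTheory Filter Topology Real
open Crest.Agent.R257.HoB_843 (lvE)
open scoped ENNReal Pointwise

namespace Crest.Agent.R281.Bdd3_791

open Bdd2_791

variable {E : Type*} [NormedAddCommGroup E] [NormedSpace ℂ E] [NormedSpace ℝ E]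
  [IsScalarTower ℝ ℂ E] [FiniteDimensional ℝ E]
  [MeasurableSpace E] [BorelSpace E] (μ : Measure E) [μ.IsAddHaarMeasure]

/-- `g` is a probability density on `closedBall x r`, at most `A` times the uniform one. -/
structure Dens (x : E) (r A : ℝ) (g : E → ℝ) : Prop where
  meas : AEStronglyMeasurable g μ
  nonneg : ∀ z, 0 ≤ g z
  le : ∀ z, g z ≤ A / μ.real (closedBall x r)
  supp : ∀ z ∉ closedBall x r, g z = 0
  one : ∫ z, g z ∂μ = 1

variable {μ} {f : E → ℝ} {x : E} {R C r T S A : ℝ} {g : E → ℝ}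

theorem Dens.integrable (hg : Dens μ x r A g) : Integrable g μ := by
  by_contra h
  have := hg.one
  rw [integral_undef h] at this
  exact zero_ne_one this

theorem Dens.integral_eq (hg : Dens μ x r A g) (f : E → ℝ) :
    ∫ z, g z * f z ∂μ = ∫ z in closedBall x r, g z * f z ∂μ := by
  rw [← integral_indicator measurableSet_closedBall]
  congr 1
  ext z
  by_cases hz : z ∈ closedBall x r
  · rw [indicator_of_mem hz]
  · rw [indicator_of_notMem hz, hg.supp z hz, zero_mul]

theorem Dens.one' (hg : Dens μ x r A g) : ∫ z in closedBall x r, g z ∂μ = 1 := by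
  have := hg.integral_eq (fun _ => 1)
  simp only [mul_one] at this
  rw [← this, hg.one]

/-- `∫ g f` lies between `top - A η` and `top`. -/
theorem pair_bounds (hf : ContDiffOn ℝ 2 f (ball x R)) (hl : ∀ z ∈ ball x R, ∀ v, 0 ≤ lvE f z v)
    (hC : ∀ z ∈ ball x R, |f z| ≤ C) (h0 : 0 < r) (hrT : r < T) (hTS : T < S) (hS : S < R)
    (hA : 0 ≤ A) (hg : Dens μ x r A g) :
    top μ f x C r T - A * eta (Module.finrank ℝ E) C r T S ≤ ∫ z, g z * f z ∂μ ∧
      ∫ z, g z * f z ∂μ ≤ top μ f x C r T := by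
  have : ProperSpace E := FiniteDimensional.proper ℝ E
  have hr : r < R := hrT.trans (hTS.trans hS)
  have hsub : closedBall x r ⊆ ball x R := closedBall_subset_ball hr
  have hcf : ContinuousOn f (closedBall x r) := hf.continuousOn.mono hsub
  have hif : IntegrableOn f (closedBall x r) μ := hcf.integrableOn_compact (isCompact_closedBall x r)
  have hV := ball_pos μ x h0
  set V := μ.real (closedBall x r) with hVd
  set t := top μ f x C r T with ht
  have hle : ∀ z ∈ closedBall x r, f z ≤ t := fun z hz =>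
    le_top μ hf hl hC h0.le hrT (hTS.trans hS) hz
  have htop := top_sub_le μ hf hl hC h0 hrT hTS hS
  rw [← ht] at htop
  have hgi : IntegrableOn g (closedBall x r) μ := hg.integrable.integrableOn
  have hgf : IntegrableOn (fun z => g z * f z) (closedBall x r) μ := by
    refine Integrable.mul_bdd (c := C) hgi (hcf.aestronglyMeasurable measurableSet_closedBall) ?_
    filter_upwards [ae_restrict_mem measurableSet_closedBall] with z hz
    exact hC z (hsub hz)
  have e1 : t - ∫ z, g z * f z ∂μ = ∫ z in closedBall x r, g z * (t - f z) ∂μ := by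
    have e2 : ∀ z, g z * (t - f z) = g z * t - g z * f z := fun z => by ring
    simp only [e2]
    rw [integral_sub (hgi.mul_const t) hgf, integral_mul_const, hg.one', one_mul, hg.integral_eq]
  have htc : IntegrableOn (fun _ : E => t) (closedBall x r) μ :=
    integrableOn_const measure_closedBall_lt_top.ne
  have hti : IntegrableOn (fun z => t - f z) (closedBall x r) μ := htc.sub hif
  have hgt : IntegrableOn (fun z => g z * (t - f z)) (closedBall x r) μ := by
    have e2 : (fun z => g z * (t - f z)) = fun z => g z * t - g z * f z := by ext z; ring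
    rw [e2]
    exact (hgi.mul_const t).sub hgf
  have e3 : 0 ≤ ∫ z in closedBall x r, g z * (t - f z) ∂μ :=
    setIntegral_nonneg measurableSet_closedBall fun z hz =>
      mul_nonneg (hg.nonneg z) (by linarith [hle z hz])
  have e4 : ∫ z in closedBall x r, g z * (t - f z) ∂μ ≤
      ∫ z in closedBall x r, (A / V) * (t - f z) ∂μ :=
    setIntegral_mono_on hgt (hti.const_mul _) measurableSet_closedBall fun z hz =>
      mul_le_mul_of_nonneg_right (hg.le z) (by linarith [hle z hz])
  have e5 : ∫ z in closedBall x r, (A / V) * (t - f z) ∂μ = A * (t - av μ f x r) := by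
    rw [integral_const_mul, integral_sub htc hif,
      setIntegral_const, smul_eq_mul, av_eq_ball μ f x h0, ← hVd]
    field_simp
  rw [e5] at e4
  have e6 : A * (t - av μ f x r) ≤ A * eta (Module.finrank ℝ E) C r T S :=
    mul_le_mul_of_nonneg_left htop hA
  constructor <;> linarith

theorem pair_smooth (hf : ContDiffOn ℝ 2 f (ball x R)) (hl : ∀ z ∈ ball x R, ∀ v, 0 ≤ lvE f z v)
    (hC : ∀ z ∈ ball x R, |f z| ≤ C) (h0 : 0 < r) (hrT : r < T) (hTS : T < S) (hS : S < R)
    (hA : 0 ≤ A) {g g' : E → ℝ} (hg : Dens μ x r A g) (hg' : Dens μ x r A g') :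
    |∫ z, g z * f z ∂μ - ∫ z, g' z * f z ∂μ| ≤ A * eta (Module.finrank ℝ E) C r T S := by
  have h1 := pair_bounds hf hl hC h0 hrT hTS hS hA hg
  have h2 := pair_bounds hf hl hC h0 hrT hTS hS hA hg'
  rw [abs_le]
  constructor <;> linarith [h1.1, h1.2, h2.1, h2.2]

/-- the same for limits of `C²` functions -/
theorem pair_limit {v : E → ℝ} {F : ℕ → E → ℝ} (hf : ∀ k, ContDiffOn ℝ 2 (F k) (ball x R))
    (hl : ∀ k, ∀ z ∈ ball x R, ∀ w, 0 ≤ lvE (F k) z w) (hC : ∀ k, ∀ z ∈ ball x R, |F k z| ≤ C)
    (hlim : ∀ᵐ z ∂μ, z ∈ ball x R → Tendsto (fun k => F k z) atTop (𝓝 (v z)))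
    (h0 : 0 < r) (hrT : r < T) (hTS : T < S) (hS : S < R)
    (hA : 0 ≤ A) {g g' : E → ℝ} (hg : Dens μ x r A g) (hg' : Dens μ x r A g') :
    |∫ z, g z * v z ∂μ - ∫ z, g' z * v z ∂μ| ≤ A * eta (Module.finrank ℝ E) C r T S := by
  have : ProperSpace E := FiniteDimensional.proper ℝ E
  have hr : r < R := hrT.trans (hTS.trans hS)
  have hsub : closedBall x r ⊆ ball x R := closedBall_subset_ball hr
  have key : ∀ g : E → ℝ, Dens μ x r A g →
      Tendsto (fun k => ∫ z, g z * F k z ∂μ) atTop (𝓝 (∫ z, g z * v z ∂μ)) := by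
    intro g hg
    have e : ∀ f : E → ℝ, ∫ z, g z * f z ∂μ = ∫ z in closedBall x r, g z * f z ∂μ :=
      hg.integral_eq
    simp only [e]
    refine tendsto_integral_of_dominated_convergence (fun z => g z * C) ?_ ?_ ?_ ?_
    · intro k
      exact hg.meas.restrict.mul (((hf k).continuousOn.mono hsub).aestronglyMeasurable
        measurableSet_closedBall)
    · exact hg.integrable.integrableOn.mul_const C
    · intro k
      filter_upwards [ae_restrict_mem measurableSet_closedBall] with z hz
      rw [norm_mul, Real.norm_eq_abs, Real.norm_eq_abs, abs_of_nonneg (hg.nonneg z)]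
      exact mul_le_mul_of_nonneg_left (hC k z (hsub hz)) (hg.nonneg z)
    · filter_upwards [ae_restrict_mem measurableSet_closedBall, ae_restrict_of_ae hlim] with z hz h
      exact (h (hsub hz)).const_mul _
  have h3 := ((key g hg).sub (key g' hg')).abs
  refine le_of_tendsto h3 (Eventually.of_forall fun k => ?_)
  exact pair_smooth (hf k) (hl k) (hC k) h0 hrT hTS hS hA hg hg'

/-- choice of the radii -/
theorem exists_radii (D : ℕ) (C A : ℝ) {R η : ℝ} (hC : 0 ≤ C) (hA : 0 ≤ A) (hR : 0 < R)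
    (hη : 0 < η) : ∃ r₀ > 0, ∀ r, 0 < r → r < r₀ → ∃ T S, r < T ∧ T < S ∧ S < R ∧
      A * eta D C r T S ≤ η := by
  -- choose `K`
  have hK : ∃ K : ℝ, 1 < K ∧ 2 * C * ((K / (K - 1)) ^ D - 1) * A ≤ η / 2 := by
    have h1 : Tendsto (fun K : ℝ => K / (K - 1)) atTop (𝓝 1) := by
      have h2 : Tendsto (fun K : ℝ => 1 + (K - 1)⁻¹) atTop (𝓝 (1 + 0)) :=
        (tendsto_inv_atTop_zero.comp (tendsto_atTop_add_const_right _ (-1) tendsto_id)).const_add 1
      rw [add_zero] at h2
      refine h2.congr' ?_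
      filter_upwards [eventually_gt_atTop (1 : ℝ)] with K hK
      have : K - 1 ≠ 0 := by linarith
      field_simp
      ring
    have h3 : Tendsto (fun K : ℝ => 2 * C * ((K / (K - 1)) ^ D - 1) * A) atTop
        (𝓝 (2 * C * (1 ^ D - 1) * A)) :=
      (((h1.pow D).sub_const 1).const_mul _).mul_const _
    have h4 : 2 * C * ((1 : ℝ) ^ D - 1) * A < η / 2 := by simp; positivity
    obtain ⟨K, hK1, hK2⟩ := ((h3.eventually (gt_mem_nhds h4)).and (eventually_gt_atTop 1)).exists
    exact ⟨K, hK2, hK1.le⟩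
  obtain ⟨K, hK1, hK2⟩ := hK
  have hK0 : 0 < K := by linarith
  have hlogK : 0 < Real.log K := Real.log_pos hK1
  set B : ℝ := 4 * C * A * Real.log K / η with hB
  have hB0 : 0 ≤ B := by positivity
  refine ⟨R / 2 / (K * Real.exp (B + 1)), by positivity, fun r hr0 hr => ?_⟩
  have hlt : K * r * Real.exp (B + 1) < R / 2 := by
    rw [lt_div_iff₀ (by positivity)] at hr
    linarith
  have hKr : 0 < K * r := by positivity
  have hS : Real.exp (B + 1) < R / 2 / (K * r) := by
    rw [lt_div_iff₀ hKr]; linarith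
  have hlogS : B + 1 < Real.log (R / 2 / (K * r)) := by
    rw [← Real.log_exp (B + 1)]
    exact Real.log_lt_log (Real.exp_pos _) hS
  refine ⟨K * r, R / 2, by nlinarith, ?_, by linarith, ?_⟩
  · have : 1 < Real.exp (B + 1) := Real.one_lt_exp_iff.mpr (by linarith)
    nlinarith
  · have e1 : K * r / (K * r - r) = K / (K - 1) := by
      have h1 : K - 1 ≠ 0 := by linarith
      have h2 : K * r - r ≠ 0 := by
        have : K * r - r = (K - 1) * r := by ring
        rw [this]; positivity
      rw [div_eq_div_iff h2 h1]; ring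
    have e2 : K * r / r = K := by field_simp
    rw [eta, e1, e2, mul_add]
    have e3 : A * (2 * C * Real.log K / Real.log (R / 2 / (K * r))) ≤ η / 2 := by
      have hpos : 0 < Real.log (R / 2 / (K * r)) := by linarith
      rw [← mul_div_assoc, div_le_iff₀ hpos]
      have : η * B = 4 * C * A * Real.log K := by rw [hB]; field_simp
      nlinarith
    linarith [mul_comm A (2 * C * ((K / (K - 1)) ^ D - 1))]

/-- **LEMMA BDD.** -/
theorem bdd {C A R η : ℝ} (hC : 0 ≤ C) (hA : 0 ≤ A) (hR : 0 < R) (hη : 0 < η) :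
    ∃ r₀ > 0, ∀ (x : E) (v : E → ℝ) (F : ℕ → E → ℝ),
      (∀ k, ContDiffOn ℝ 2 (F k) (ball x R)) →
      (∀ k, ∀ z ∈ ball x R, ∀ w, 0 ≤ lvE (F k) z w) →
      (∀ k, ∀ z ∈ ball x R, |F k z| ≤ C) →
      (∀ᵐ z ∂μ, z ∈ ball x R → Tendsto (fun k => F k z) atTop (𝓝 (v z))) →
      ∀ r, 0 < r → r < r₀ → ∀ g g' : E → ℝ, Dens μ x r A g → Dens μ x r A g' →
        |∫ z, g z * v z ∂μ - ∫ z, g' z * v z ∂μ| ≤ η := by
  obtain ⟨r₀, hr₀, h⟩ := exists_radii (Module.finrank ℝ E) C A hC hA hR hη
  refine ⟨r₀, hr₀, fun x v F hf hl hb hlim r h0 hr g g' hg hg' => ?_⟩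
  obtain ⟨T, S, h1, h2, h3, h4⟩ := h r h0 hr
  exact (pair_limit hf hl hb hlim h0 h1 h2 h3 hA hg hg').trans h4

end Crest.Agent.R281.Bdd3_791
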