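import Crest.Agent.R281.Rich1_710

/-!
# R281 (S0424), DIV 6, S6-RICH (helper710), file 2: smoothing by convolution

* `lvE_ge_of_le`, `le_dav_of_lvE` : Levi form versus disc averages;
* `conv_le`  : disc averages of a convolution;
* `exists_moll` : a continuous function with the local sub-mean value property on an open set `D` of a
  finite dimensional space has smooth approximations on compact sets with Levi form `≥ 0`, and
  `≥ lvE ρ - τ ‖v‖²` on compact subsets of the open set where `f - ρ` has the sub-mean value property.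
-/

set_option autoImplicit false
set_option linter.unusedSectionVars false

open Set Filter Topology Metric Real MeasureTheory
open scoped ContDiff Convolution

noncomputable section

namespace Crest.Agent.R281.Rich_710

open Crest.Agent.R269.SubM_79 Crest.Agent.R257.HoB_843 Crest.Agent.R257.Glue2_101

section lv

variable {E : Type*} [NormedAddCommGroup E] [NormedSpace ℂ E] [NormedSpace ℝ E]
  [IsScalarTower ℝ ℂ E]

theorem lap_eq_lvE (ψ : ℂ → ℝ) (w : ℂ) :
    fderiv ℝ (fderiv ℝ ψ) w 1 1 + fderiv ℝ (fderiv ℝ ψ) w Complex.I Complex.I = 4 * lvE ψ w 1 := by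
  unfold lvE
  rw [smul_eq_mul, mul_one]; ring

theorem lvE_neg' {f : E → ℝ} (z v : E) : lvE (fun x => -f x) z v = -lvE f z v := by
  have hn1 : fderiv ℝ (fun x => -f x) = -fderiv ℝ f := by
    funext y; rw [show (fun x => -f x) = -f from rfl, fderiv_neg]; rfl
  have hn2 : fderiv ℝ (fderiv ℝ (fun x => -f x)) z = -fderiv ℝ (fderiv ℝ f) z := by
    rw [hn1, fderiv_neg]
  unfold lvE
  rw [hn2]
  simp only [_root_.neg_apply]
  ring

/-- lower bound of the disc average from the Levi form -/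
theorem le_dav_of_lvE {f : E → ℝ} {z v : E} {c : ℝ}
    (h : ∀ w : ℂ, ‖w‖ ≤ 1 → ContDiffAt ℝ 2 f (z + w • v) ∧ c ≤ lvE f (z + w • v) v) :
    f z + c ≤ dav f z v := by
  have h5 := Crest.Agent.R275.FL884.le_circleAverage_of_contDiffAt
    (ψ := fun w : ℂ => f (z + w • v)) (c := -c)
    (fun w hw => contDiffAt_comp_disc (h w (by simpa using hw)).1)
    (fun w hw => by
      rw [lap_eq_lvE, lvE_disc (h w (by simpa using hw)).1]
      have := (h w (by simpa using hw)).2
      linarith)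
  simp only [zero_smul, add_zero] at h5
  unfold dav
  linarith

/-- lower bound of the Levi form from the disc averages -/
theorem lvE_ge_of_le {f : E → ℝ} {z : E} (hf : ContDiffAt ℝ 2 f z) {v : E} {c : ℝ}
    (h : ∃ r > 0, ∀ s : ℝ, 0 < s → s < r → f z + s ^ 2 * c ≤ dav f z (s • v)) :
    c ≤ lvE f z v := by
  by_contra hcon
  push Not at hcon
  obtain ⟨r, hr, h⟩ := h
  set e : ℝ := (c - lvE f z v) / 2 with he
  have he0 : 0 < e := by rw [he]; linarith
  have h1 : ∀ᶠ x in 𝓝 z, ContDiffAt ℝ 2 f x ∧ lvE f x v < c - e :=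
    (hf.eventually (by simp)).and ((continuousAt_lvE hf v).eventually
      (gt_mem_nhds (show lvE f z v < c - e by rw [he]; linarith)))
  have h2 : ∀ᶠ s in 𝓝 (0 : ℝ), ∀ w : ℂ, ‖w‖ ≤ 1 →
      ContDiffAt ℝ 2 f (z + w • (s • v)) ∧ lvE f (z + w • (s • v)) v < c - e := by
    obtain ⟨δ, hδ, hb⟩ := Metric.eventually_nhds_iff_ball.1 h1
    have h3 : ∀ᶠ s in 𝓝 (0 : ℝ), ‖s • v‖ < δ := by
      have : Continuous fun s : ℝ => ‖s • v‖ := by fun_prop
      have h4 := this.tendsto 0
      simp only [zero_smul, norm_zero] at h4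
      exact h4.eventually (gt_mem_nhds hδ)
    filter_upwards [h3] with s hs w hw1
    refine hb _ ?_
    rw [mem_ball, dist_eq_norm, add_sub_cancel_left, norm_smul]
    calc ‖w‖ * ‖s • v‖ ≤ 1 * ‖s • v‖ := by gcongr
      _ < δ := by rwa [one_mul]
  obtain ⟨δ, hδ, hb⟩ := Metric.eventually_nhds_iff_ball.1 h2
  set s : ℝ := min (r / 2) (δ / 2) with hs
  have hs0 : 0 < s := by rw [hs]; positivity
  have hsr : s < r := (min_le_left _ _).trans_lt (by linarith)
  have hsδ : s < δ := (min_le_right _ _).trans_lt (by linarith)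
  have h3 := hb s (by rw [mem_ball, dist_zero_right, Real.norm_of_nonneg hs0.le]; exact hsδ)
  have h4 := h s hs0 hsr
  have h5 := le_dav_of_lvE (f := fun x => -f x) (z := z) (v := s • v) (c := -(s ^ 2 * (c - e)))
    fun w hw => by
      refine ⟨(h3 w hw).1.neg, ?_⟩
      rw [lvE_neg', lvE_smul]
      have h6 := (h3 w hw).2
      have : 0 < s ^ 2 := by positivity
      nlinarith
  have h6 : dav (fun x => -f x) z (s • v) = - dav f z (s • v) := by
    have := circleAverage_fun_smul (a := (-1 : ℝ)) (f := fun w : ℂ => f (z + w • (s • v)))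
      (c := (0 : ℂ)) (R := 1)
    simpa [dav] using this
  rw [h6] at h5
  have : 0 < s ^ 2 * e := by positivity
  nlinarith

theorem lvE_near {ρ : E → ℝ} {x y : E} {τ : ℝ}
    (h : ‖fderiv ℝ (fderiv ℝ ρ) y - fderiv ℝ (fderiv ℝ ρ) x‖ ≤ τ) (v : E) :
    lvE ρ x v - τ * ‖v‖ ^ 2 ≤ lvE ρ y v := by
  set B := fderiv ℝ (fderiv ℝ ρ) y - fderiv ℝ (fderiv ℝ ρ) x with hB
  have h1 : ∀ u : E, |B u u| ≤ τ * ‖u‖ ^ 2 := by
    intro u
    calc |B u u| = ‖B u u‖ := rfl
      _ ≤ ‖B u‖ * ‖u‖ := (B u).le_opNorm u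
      _ ≤ (‖B‖ * ‖u‖) * ‖u‖ := by gcongr; exact B.le_opNorm u
      _ ≤ (τ * ‖u‖) * ‖u‖ := by gcongr
      _ = τ * ‖u‖ ^ 2 := by ring
  have h2 := (abs_le.1 (h1 v)).1
  have h3 := (abs_le.1 (h1 (Complex.I • v))).1
  have h4 : ‖Complex.I • v‖ = ‖v‖ := by rw [norm_smul]; simp
  rw [h4] at h3
  have h5 : 0 ≤ τ * ‖v‖ ^ 2 := (abs_nonneg _).trans (h1 v)
  have e : lvE ρ y v = lvE ρ x v + (1 / 4) * (B v v + B (Complex.I • v) (Complex.I • v)) := by
    simp only [lvE, hB, _root_.sub_apply]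
    ring
  rw [e]
  linarith

end lv

section conv

variable {E : Type*} [NormedAddCommGroup E] [NormedSpace ℂ E] [NormedSpace ℝ E]
  [IsScalarTower ℝ ℂ E] [FiniteDimensional ℝ E] [MeasurableSpace E] [BorelSpace E]
  {μ : Measure E} [μ.IsAddHaarMeasure]

theorem conv_apply (φ : ContDiffBump (0 : E)) (g : E → ℝ) (x : E) :
    (φ.normed μ ⋆[ContinuousLinearMap.lsmul ℝ ℝ, μ] g) x = ∫ t, φ.normed μ t * g (x - t) ∂μ := rfl

theorem integrable_mul_bump (φ : ContDiffBump (0 : E)) {h : E → ℝ} (hh : Continuous h) :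
    Integrable (fun t => φ.normed μ t * h t) μ := by
  refine (φ.continuous_normed.mul hh).integrable_of_hasCompactSupport ?_
  exact φ.hasCompactSupport_normed.mul_right

/-- disc averages of a convolution -/
theorem dav_conv (φ : ContDiffBump (0 : E)) {g : E → ℝ} (hg : Continuous g) (x v : E) :
    dav (φ.normed μ ⋆[ContinuousLinearMap.lsmul ℝ ℝ, μ] g) x v =
      ∫ t, φ.normed μ t * dav g (x - t) v ∂μ := by
  have e1 : dav (φ.normed μ ⋆[ContinuousLinearMap.lsmul ℝ ℝ, μ] g) x v =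
      (2 * π)⁻¹ * ∫ θ in (0 : ℝ)..2 * π, ∫ t, φ.normed μ t * g (x + circleMap 0 1 θ • v - t) ∂μ := rfl
  have e2 : ∀ t, φ.normed μ t * dav g (x - t) v = (2 * π)⁻¹ *
      ∫ θ in (0 : ℝ)..2 * π, φ.normed μ t * g (x + circleMap 0 1 θ • v - t) := by
    intro t
    rw [intervalIntegral.integral_const_mul]
    have e3 : dav g (x - t) v = (2 * π)⁻¹ * ∫ θ in (0 : ℝ)..2 * π, g (x - t + circleMap 0 1 θ • v) :=
      rfl
    rw [e3]
    have e4 : (fun θ => g (x - t + circleMap 0 1 θ • v)) =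
        fun θ => g (x + circleMap 0 1 θ • v - t) := by
      funext θ; congr 1; abel
    rw [e4]
    ring
  rw [e1]
  simp only [e2]
  rw [integral_const_mul, intervalIntegral_integral_swap]
  -- integrability on the product
  set F : ℝ × E → ℝ := fun p => φ.normed μ p.2 * g (x + circleMap 0 1 p.1 • v - p.2) with hF
  have hFc : Continuous F := by
    refine (φ.continuous_normed.comp continuous_snd).mul (hg.comp ?_)
    exact (continuous_const.add (((continuous_circleMap 0 1).comp continuous_fst).smul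
      continuous_const)).sub continuous_snd
  have hprop : ProperSpace E := FiniteDimensional.proper ℝ E
  have hK : IsCompact ((Icc 0 (2 * π)) ×ˢ closedBall (0 : E) φ.rOut) :=
    isCompact_Icc.prod (isCompact_closedBall _ _)
  have h1 : IntegrableOn F ((Icc 0 (2 * π)) ×ˢ closedBall (0 : E) φ.rOut) (volume.prod μ) :=
    hFc.continuousOn.integrableOn_compact hK
  have h2 : IntegrableOn F ((Set.uIoc 0 (2 * π)) ×ˢ (univ : Set E)) (volume.prod μ) := by
    refine h1.of_forall_sdiff_eq_zero (measurableSet_uIoc.prod MeasurableSet.univ) ?_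
    rintro ⟨θ, t⟩ ⟨⟨h3, -⟩, h4⟩
    have h5 : θ ∈ Icc 0 (2 * π) := by
      rw [uIoc_of_le (by positivity)] at h3
      exact ⟨h3.1.le, h3.2⟩
    have h6 : t ∉ closedBall (0 : E) φ.rOut := fun h => h4 ⟨h5, h⟩
    have h7 : φ.normed μ t = 0 := by
      by_contra h8
      have h9 : t ∈ Function.support (φ.normed μ) := h8
      rw [φ.support_normed_eq] at h9
      exact h6 (ball_subset_closedBall h9)
    simp only [hF, h7, zero_mul]
  rw [IntegrableOn, ← Measure.prod_restrict, Measure.restrict_univ] at h2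
  exact h2

/-- sub-mean values of a convolution -/
theorem conv_le (φ : ContDiffBump (0 : E)) {g : E → ℝ} (hg : Continuous g) {x v : E} {c : ℝ}
    (h : ∀ t ∈ ball (0 : E) φ.rOut, g (x - t) + c ≤ dav g (x - t) v) :
    (φ.normed μ ⋆[ContinuousLinearMap.lsmul ℝ ℝ, μ] g) x + c ≤
      dav (φ.normed μ ⋆[ContinuousLinearMap.lsmul ℝ ℝ, μ] g) x v := by
  rw [dav_conv φ hg, conv_apply]
  have e : ∫ t, φ.normed μ t * g (x - t) ∂μ + c =
      ∫ t, φ.normed μ t * (g (x - t) + c) ∂μ := by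
    have e1 : ∀ t, φ.normed μ t * (g (x - t) + c) = φ.normed μ t * g (x - t) + φ.normed μ t * c :=
      fun t => by ring
    simp only [e1]
    rw [integral_add (integrable_mul_bump φ (by fun_prop)) (integrable_mul_bump φ continuous_const),
      integral_mul_const, φ.integral_normed, one_mul]
  rw [e]
  refine integral_mono (integrable_mul_bump φ (by fun_prop)) (integrable_mul_bump φ ?_) fun t => ?_
  · exact (continuous_dav hg).comp ((continuous_const.sub continuous_id).prodMk continuous_const)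
  · by_cases ht : t ∈ ball (0 : E) φ.rOut
    · exact mul_le_mul_of_nonneg_left (h t ht) (φ.nonneg_normed t)
    · have h7 : φ.normed μ t = 0 := by
        by_contra h8
        have h9 : t ∈ Function.support (φ.normed μ) := h8
        rw [φ.support_normed_eq] at h9
        exact ht h9
      simp only [h7, zero_mul, le_refl]

end conv

section moll

variable {E : Type*} [NormedAddCommGroup E] [NormedSpace ℂ E] [NormedSpace ℝ E]
  [IsScalarTower ℝ ℂ E]

/-- uniform continuity near a compact set -/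
theorem unif_near {F : Type*} [PseudoMetricSpace F] {K : Set E} (hK : IsCompact K) {f : E → F}
    (hf : ∀ a ∈ K, ContinuousAt f a) {τ : ℝ} (hτ : 0 < τ) :
    ∃ r > 0, ∀ x ∈ K, ∀ y ∈ ball x r, dist (f y) (f x) ≤ τ := by
  have h := hK.uniformContinuousAt_of_continuousAt f hf (Metric.dist_mem_uniformity hτ)
  obtain ⟨r, hr, h1⟩ := Metric.mem_uniformity_dist.1 h
  refine ⟨r, hr, fun x hx y hy => ?_⟩
  have := h1 (a := x) (b := y) (by rw [dist_comm]; exact hy) hx
  rw [dist_comm]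
  exact this.le

variable [FiniteDimensional ℝ E]

/-- **smoothing by convolution** -/
theorem exists_moll {D : Set E} (hD : IsOpen D) {f : E → ℝ} (hf : ContinuousOn f D)
    (hp : PshL D f) {K : Set E} (hK : IsCompact K) (hKD : K ⊆ D) {U : Set E} (hU : IsOpen U)
    (hUD : U ⊆ D) {ρ : E → ℝ} (hρ : ∀ z ∈ U, ContDiffAt ℝ 2 ρ z)
    (hpρ : PshL U (fun z => f z - ρ z)) {C : Set E} (hC : IsCompact C) (hCU : C ⊆ U) {τ : ℝ}
    (hτ : 0 < τ) :
    ∃ g : E → ℝ, ContDiff ℝ (⊤ : ℕ∞) g ∧ (∀ x ∈ K, |g x - f x| ≤ τ) ∧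
      (∀ x ∈ K, ∀ v, 0 ≤ lvE g x v) ∧ ∀ x ∈ C, ∀ v, lvE ρ x v - τ * ‖v‖ ^ 2 ≤ lvE g x v := by
  borelize E
  have hprop : ProperSpace E := FiniteDimensional.proper ℝ E
  set μ : Measure E := Measure.addHaar with hμ
  -- compact sets
  have hK1 : IsCompact (K ∪ C) := hK.union hC
  have hK1D : K ∪ C ⊆ D := union_subset hKD (hCU.trans hUD)
  obtain ⟨r₀, hr₀, hK2⟩ := hK1.exists_cthickening_subset_open hD hK1D
  set K2 := cthickening r₀ (K ∪ C) with hK2d
  obtain ⟨g₀, hg₀⟩ := ContinuousMap.exists_restrict_eq (Y := ℝ) (isClosed_cthickening (δ := r₀)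
    (E := K ∪ C)) ⟨fun y => f y, continuousOn_iff_continuous_domRestrict.1 (hf.mono hK2)⟩
  have hgf : ∀ y ∈ K2, g₀ y = f y := fun y hy =>
    congrArg (fun F : C(_, ℝ) => F ⟨y, hy⟩) hg₀
  have hg : Continuous g₀ := g₀.continuous
  have hnear : ∀ x ∈ K ∪ C, ∀ y ∈ ball x r₀, y ∈ K2 := fun x hx y hy =>
    mem_cthickening_of_dist_le y x _ _ hx (le_of_lt hy)
  -- radii
  obtain ⟨r₁, hr₁, h1⟩ := hp.uniform hK1 hK1D
  obtain ⟨r₂, hr₂, h2⟩ := hpρ.uniform hC hCU
  obtain ⟨r₃, hr₃, h3⟩ := unif_near hK (fun a _ => hg.continuousAt) hτ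
  obtain ⟨r₄, hr₄, h4⟩ := unif_near (F := E →L[ℝ] E →L[ℝ] ℝ) (f := fderiv ℝ (fderiv ℝ ρ)) hC
    (fun a ha => (((hρ a (hCU ha)).fderiv_right (m := 1) (by norm_num)).fderiv_right
      (m := 0) (by norm_num)).continuousAt) hτ
  obtain ⟨r₅, hr₅, h5⟩ := hC.exists_cthickening_subset_open hU hCU
  have h5' : ∀ x ∈ C, ∀ y ∈ ball x r₅, y ∈ U := fun x hx y hy =>
    h5 (mem_cthickening_of_dist_le y x _ _ hx (le_of_lt hy))
  obtain ⟨η, hη, e0, e1, e2, e3, e4, e5⟩ : ∃ η : ℝ, 0 < η ∧ 2 * η < r₀ ∧ η < r₁ ∧ η < r₂ ∧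
      η < r₃ ∧ 2 * η < r₄ ∧ 2 * η < r₅ := by
    have hh : ∀ {a : ℝ}, 0 < a → ∀ᶠ η in 𝓝[>] (0 : ℝ), 2 * η < a := by
      intro a ha
      refine nhdsWithin_le_nhds ((gt_mem_nhds (by positivity : 0 < a / 2)).mono fun t ht => ?_)
      linarith
    obtain ⟨η, ⟨a0, a1, a2, a3, a4, a5⟩, a6⟩ := (((hh hr₀).and ((hh hr₁).and ((hh hr₂).and
      ((hh hr₃).and ((hh hr₄).and (hh hr₅)))))).and self_mem_nhdsWithin).exists
    have a6' : 0 < η := a6
    exact ⟨η, a6', a0, by linarith, by linarith, by linarith, a4, a5⟩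
  set φ : ContDiffBump (0 : E) := ⟨η / 2, η, half_pos hη, half_lt_self hη⟩ with hφ
  have hφr : φ.rOut = η := rfl
  set F : E → ℝ := φ.normed μ ⋆[ContinuousLinearMap.lsmul ℝ ℝ, μ] g₀ with hF
  have hFs : ContDiff ℝ (⊤ : ℕ∞) F :=
    φ.hasCompactSupport_normed.contDiff_convolution_left _ φ.contDiff_normed hg.locallyIntegrable
  have hF2 : ∀ x, ContDiffAt ℝ 2 F x := fun x => (hFs.contDiffAt).of_le two_le_top
  -- translates of the disc
  have hsub : ∀ x t v : E, t ∈ ball (0 : E) φ.rOut → ‖v‖ < η → ∀ w : ℂ, ‖w‖ ≤ 1 →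
      x - t + w • v ∈ ball x (2 * η) := by
    intro x t v ht hv w hw
    refine disc_subset ?_ hv hw
    rw [mem_ball, dist_eq_norm]
    rw [mem_ball, dist_eq_norm, sub_zero, hφr] at ht
    have : x - t - x = -t := by abel
    rw [this, norm_neg]
    exact ht
  have hsub' : ∀ x t : E, t ∈ ball (0 : E) φ.rOut → x - t ∈ ball x η := by
    intro x t ht
    rw [mem_ball, dist_eq_norm]
    rw [mem_ball, dist_eq_norm, sub_zero, hφr] at ht
    have : x - t - x = -t := by abel
    rw [this, norm_neg]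
    exact ht
  have hgd : ∀ x ∈ K ∪ C, ∀ t v : E, t ∈ ball (0 : E) φ.rOut → ‖v‖ < η →
      g₀ (x - t) = f (x - t) ∧ dav g₀ (x - t) v = dav f (x - t) v := by
    intro x hx t v ht hv
    refine ⟨hgf _ (hnear x hx _ (ball_subset_ball (by linarith) (hsub' x t ht))), dav_congr ?_⟩
    intro w hw
    exact hgf _ (hnear x hx _ (ball_subset_ball (by linarith) (hsub x t v ht hv w hw.le)))
  have hsmall : ∀ v : E, ∃ r > 0, ∀ s : ℝ, 0 < s → s < r → ‖s • v‖ < η := by
    intro v
    refine ⟨η / (‖v‖ + 1), by positivity, fun s hs hsr => ?_⟩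
    rw [norm_smul, Real.norm_of_nonneg hs.le]
    rw [lt_div_iff₀ (by positivity)] at hsr
    nlinarith [norm_nonneg v]
  refine ⟨F, hFs, fun x hx => ?_, fun x hx v => ?_, fun x hx v => ?_⟩
  · have h6 := φ.dist_normed_convolution_le (μ := μ) (g := g₀) (x₀ := x) (ε := τ)
      hg.aestronglyMeasurable (fun y hy => h3 x hx y (ball_subset_ball (by rw [hφr]; linarith) hy))
    rw [hgf x (hnear x (Or.inl hx) x (mem_ball_self hr₀))] at h6
    exact h6
  · obtain ⟨r, hr, hrs⟩ := hsmall v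
    refine lvE_ge_of_le (hF2 x) ⟨r, hr, fun s hs hsr => conv_le φ hg fun t ht => ?_⟩
    obtain ⟨a1, a2⟩ := hgd x (Or.inl hx) t (s • v) ht (hrs s hs hsr)
    rw [a1, a2, mul_zero, add_zero]
    exact h1 x (Or.inl hx) _ (ball_subset_ball e1.le (hsub' x t ht)) _ ((hrs s hs hsr).trans e1)
  · obtain ⟨r, hr, hrs⟩ := hsmall v
    refine lvE_ge_of_le (hF2 x) ⟨r, hr, fun s hs hsr => conv_le φ hg fun t ht => ?_⟩
    have hsv := hrs s hs hsr
    obtain ⟨a1, a2⟩ := hgd x (Or.inr hx) t (s • v) ht hsv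
    rw [a1, a2]
    have a3 := h2 x hx _ (ball_subset_ball e2.le (hsub' x t ht)) _ (hsv.trans e2)
    have a4 : ρ (x - t) + s ^ 2 * (lvE ρ x v - τ * ‖v‖ ^ 2) ≤ dav ρ (x - t) (s • v) := by
      refine le_dav_of_lvE fun w hw => ?_
      have b1 := hsub x t (s • v) ht hsv w hw
      refine ⟨hρ _ (h5' x hx _ (ball_subset_ball e5.le b1)), ?_⟩
      rw [lvE_smul]
      have b2 := h4 x hx _ (ball_subset_ball e4.le b1)
      rw [dist_eq_norm] at b2
      exact mul_le_mul_of_nonneg_left (lvE_near b2 v) (sq_nonneg s)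
    have hcirc : ∀ w ∈ sphere (0 : ℂ) |1|, x - t + w • (s • v) ∈ U := fun w hw => by
      have hw1 : ‖w‖ = 1 := by simpa using hw
      exact h5' x hx _ (ball_subset_ball e5.le (hsub x t (s • v) ht hsv w hw1.le))
    have hlc : Continuous fun w : ℂ => x - t + w • (s • v) := by fun_prop
    have a5 : dav (fun z => f z - ρ z) (x - t) (s • v) =
        dav f (x - t) (s • v) - dav ρ (x - t) (s • v) := by
      refine circleAverage_fun_sub ?_ ?_
      · exact ((hf.mono hUD).comp hlc.continuousOn hcirc).circleIntegrable'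
      · have hρc : ContinuousOn ρ U := fun z hz => (hρ z hz).continuousAt.continuousWithinAt
        exact (hρc.comp hlc.continuousOn hcirc).circleIntegrable'
    rw [a5] at a3
    linarith

end moll

end Crest.Agent.R281.Rich_710
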