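import Mathlib
import Crest.Agent.R281.Rich2_710
import Crest.Agent.R281.Bdd3_791

/-!
# S6-BDD, part 4: removability and convolution for bounded functions (after `Rich1/2_710`)
-/

set_option autoImplicit false
set_option linter.unusedSectionVars false

open Set Filter Topology Metric Asymptotics Real MeasureTheory
open scoped ContDiff Convolution

noncomputable section

namespace Crest.Agent.R281.Bdd4_791

open Crest.Agent.R269.SubM_79 Crest.Agent.R257.HoB_843 Crest.Agent.R257.Glue2_101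
open Crest.Agent.R281.Rich_710

section one

theorem circInt {φ : ℂ → ℝ} {B : ℝ} (hm : Measurable φ)
    (hB : ∀ w : ℂ, ‖w‖ ≤ 1 → |φ w| ≤ B) : CircleIntegrable φ 0 1 := by
  unfold CircleIntegrable
  rw [intervalIntegrable_iff_integrableOn_Ioc_of_le (by positivity)]
  refine Measure.integrableOn_of_bounded (M := B) measure_Ioc_lt_top.ne
    (hm.comp (continuous_circleMap 0 1).measurable).aestronglyMeasurable ?_
  refine ae_of_all _ fun θ => ?_
  exact hB _ (by simp)

/-- **Removability, bounded form** (after `Rich_710.le_avg_of_countable`): `φ` Borel, bounded on the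
closed unit disc, continuous and with Laplacian `≥ 0` off a compact countable set not containing `0`,
satisfies the sub-mean value inequality. -/
theorem le_avg_bdd {φ : ℂ → ℝ} {E : Set ℂ} {B : ℝ} (hci : CircleIntegrable φ 0 1)
    (hB : ∀ w ∈ closedBall (0 : ℂ) 1, |φ w| ≤ B) (hφ : ContinuousOn φ (closedBall 0 1 \ E))
    (hE : IsCompact E) (hE1 : E ⊆ closedBall 0 1) (hc : E.Countable) (h0 : (0 : ℂ) ∉ E)
    (hL : ∀ w ∈ ball (0 : ℂ) 1, w ∉ E → LGe φ w 0) : φ 0 ≤ circleAverage φ 0 1 := by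
  -- enumeration
  rcases E.eq_empty_or_nonempty with rfl | hne
  · exact le_circleAverage one_pos (by simpa using hφ) fun z hz => hL z hz (by simp)
  obtain ⟨a, ha⟩ := hc.exists_eq_range hne
  have haE : ∀ j, a j ∈ E := fun j => by rw [ha]; exact mem_range_self j
  have ha0 : ∀ j, (0 : ℂ) ≠ a j := fun j h => h0 (h ▸ haE j)
  set c : ℕ → ℝ := fun j => (1 / 2) ^ j / (1 + |Real.log (‖(0 : ℂ) - a j‖ ^ 2 / 4)|) with hcdef
  have hcpos : ∀ j, 0 < c j := fun j => by
    simp only [hcdef]; positivity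
  have hcl : ∀ j, -(1 / 2 : ℝ) ^ j ≤ c j * Real.log (‖(0 : ℂ) - a j‖ ^ 2 / 4) := by
    intro j
    set l := Real.log (‖(0 : ℂ) - a j‖ ^ 2 / 4)
    have h1 : 0 < 1 + |l| := by positivity
    have h2 : 0 < (1 / 2 : ℝ) ^ j := by positivity
    simp only [hcdef]
    rw [div_mul_eq_mul_div, le_div_iff₀ h1]
    have := neg_abs_le l
    nlinarith
  refine le_of_forall_pos_le_add fun ε hε => ?_
  -- choose the potentials
  set ε' := ε / 2 with hε'
  have hε0 : 0 < ε' := by positivity
  set K : ℝ := (2 * B + 2) / ε' with hK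
  have hBnn : 0 ≤ B := (abs_nonneg _).trans (hB 0 (by simp))
  have htj : ∀ j, ∃ t : ℝ, 0 < t ∧ t ≤ 4 ∧ c j * Real.log (t / 4) ≤ -K := by
    intro j
    refine ⟨4 * Real.exp (-(K / c j)), by positivity, ?_, ?_⟩
    · have : Real.exp (-(K / c j)) ≤ 1 := Real.exp_le_one_iff.2 (by
        have := hcpos j
        rw [neg_nonpos]; positivity)
      linarith
    · have e : 4 * Real.exp (-(K / c j)) / 4 = Real.exp (-(K / c j)) := by ring
      rw [e, Real.log_exp]
      have := hcpos j
      field_simp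
      exact le_rfl
  choose tt htt htt4 httK using htj
  obtain ⟨F, hF⟩ := hE.elim_finite_subcover (fun j => {w : ℂ | ‖w - a j‖ ^ 2 < tt j})
    (fun j => isOpen_lt (by fun_prop) continuous_const) (fun w hw => by
      rw [ha] at hw
      obtain ⟨j, rfl⟩ := hw
      exact mem_iUnion.2 ⟨j, by simpa using htt j⟩)
  obtain ⟨t, ht, ht4, htF⟩ : ∃ t : ℝ, 0 < t ∧ t ≤ 4 ∧ ∀ j ∈ F, t ≤ tt j := by
    have h1 : ∀ᶠ t in 𝓝[>] (0 : ℝ), ∀ j ∈ F, t ≤ tt j := by
      rw [Filter.eventually_all_finset]
      intro j _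
      exact nhdsWithin_le_nhds (((gt_mem_nhds (htt j))).mono fun t ht => ht.le)
    have h2 : ∀ᶠ t in 𝓝[>] (0 : ℝ), t ≤ 4 :=
      nhdsWithin_le_nhds ((gt_mem_nhds (by norm_num : (0 : ℝ) < 4)).mono fun t ht => ht.le)
    obtain ⟨t, ⟨h3, h4⟩, h5⟩ := ((h1.and h2).and self_mem_nhdsWithin).exists
    exact ⟨t, h5, h4, h3⟩
  set P : ℂ → ℝ := fun w => ∑ j ∈ F, c j * tl t (a j) w with hP
  have hPc : Continuous P := by
    refine continuous_finsetSum _ fun j _ => continuous_const.mul (continuous_tl ht _)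
  have hPL : ∀ z, LGe P z 0 := by
    intro z
    have := lge_sum F (u := fun j w => c j * tl t (a j) w) (z := z) (c := fun j => c j * 0)
      fun j _ => (lge_tl ht (a j) z).const_mul (hcpos j).le
    simpa using this
  have hd : ∀ w ∈ closedBall (0 : ℂ) 1, ∀ j, ‖w - a j‖ ≤ 2 := by
    intro w hw j
    have h1 : ‖w‖ ≤ 1 := by simpa using hw
    have h2 : ‖a j‖ ≤ 1 := by simpa using hE1 (haE j)
    exact (norm_sub_le _ _).trans (by linarith)
  have hPn : ∀ w ∈ closedBall (0 : ℂ) 1, P w ≤ 0 := fun w hw =>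
    Finset.sum_nonpos fun j _ => mul_nonpos_of_nonneg_of_nonpos (hcpos j).le
      (tl_nonpos ht ht4 (hd w hw j))
  have hP0 : -2 ≤ P 0 := by
    have h1 : ∑ j ∈ F, -(1 / 2 : ℝ) ^ j ≤ P 0 := Finset.sum_le_sum fun j _ =>
      (hcl j).trans (mul_le_mul_of_nonneg_left (le_tl (ha0 j)) (hcpos j).le)
    have h2 : ∑ j ∈ F, (1 / 2 : ℝ) ^ j ≤ 2 := by
      have := Summable.sum_le_tsum F (fun j _ => by positivity) summable_geometric_two
      rwa [tsum_geometric_two] at this
    rw [Finset.sum_neg_distrib] at h1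
    linarith
  have hPK : ∀ w ∈ closedBall (0 : ℂ) 1, (∃ j ∈ F, ‖w - a j‖ ^ 2 < tt j) → P w ≤ -K := by
    rintro w hw ⟨j, hj, hjw⟩
    have h1 : P w ≤ c j * tl t (a j) w := by
      rw [hP]
      simp only
      rw [← Finset.add_sum_erase F _ hj]
      have : ∑ x ∈ F.erase j, c x * tl t (a x) w ≤ 0 :=
        Finset.sum_nonpos fun i _ => mul_nonpos_of_nonneg_of_nonpos (hcpos i).le
          (tl_nonpos ht ht4 (hd w hw i))
      linarith
    refine h1.trans ((mul_le_mul_of_nonneg_left (tl_le_log ht (htF j hj) hjw.le)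
      (hcpos j).le).trans (httK j))
  -- the comparison function
  set u : ℂ → ℝ := fun w => max (φ w + ε' * P w) (-B - 1) with hu
  have hεK : ε' * K = 2 * B + 2 := by rw [hK]; field_simp
  have huc : ContinuousOn u (closedBall 0 1) := by
    intro z hz
    by_cases hzF : ∃ j ∈ F, ‖z - a j‖ ^ 2 < tt j
    · obtain ⟨j, hj, hjz⟩ := hzF
      have h1 : ∀ᶠ w in 𝓝[closedBall (0 : ℂ) 1] z, w ∈ closedBall (0 : ℂ) 1 ∧
          ‖w - a j‖ ^ 2 < tt j :=
        eventually_mem_nhdsWithin.and (nhdsWithin_le_nhds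
          (ContinuousAt.eventually_lt (by fun_prop) continuousAt_const hjz))
      have hval : ∀ w, w ∈ closedBall (0 : ℂ) 1 → ‖w - a j‖ ^ 2 < tt j → u w = -B - 1 := by
        intro w hw1 hw2
        have h2 := hPK w hw1 ⟨j, hj, hw2⟩
        have h3 := (abs_le.1 (hB w hw1)).2
        have h4 : ε' * P w ≤ ε' * -K := mul_le_mul_of_nonneg_left h2 hε0.le
        simp only [hu]
        rw [max_eq_right]
        linarith
      refine (continuousWithinAt_const (b := -B - 1)).congr_of_eventuallyEq ?_ (hval z hz hjz)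
      filter_upwards [h1] with w hw using hval w hw.1 hw.2
    · have hzE : z ∉ E := by
        intro h
        obtain ⟨j, hj, hjz⟩ := mem_iUnion₂.1 (hF h)
        exact hzF ⟨j, hj, hjz⟩
      have h1 : ContinuousWithinAt φ (closedBall 0 1) z := by
        refine (hφ z ⟨hz, hzE⟩).mono_of_mem_nhdsWithin ?_
        exact inter_mem self_mem_nhdsWithin
          (mem_nhdsWithin_of_mem_nhds (hE.isClosed.isOpen_compl.mem_nhds hzE))
      exact (h1.add (continuous_const.mul hPc).continuousWithinAt).sup continuousWithinAt_const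
  have huL : ∀ z ∈ ball (0 : ℂ) 1, LGe u z 0 := by
    intro z hz
    by_cases hzF : ∃ j ∈ F, ‖z - a j‖ ^ 2 < tt j
    · obtain ⟨j, hj, hjz⟩ := hzF
      have h1 : ∀ᶠ w in 𝓝 z, w ∈ closedBall (0 : ℂ) 1 ∧ ‖w - a j‖ ^ 2 < tt j :=
        ((isOpen_ball.eventually_mem hz).mono fun w hw => ball_subset_closedBall hw).and
          (ContinuousAt.eventually_lt (by fun_prop) continuousAt_const hjz)
      refine (hasL_const (-B - 1) z).lge.congr ?_
      filter_upwards [h1] with w hw
      have h2 := hPK w hw.1 ⟨j, hj, hw.2⟩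
      have h3 := (abs_le.1 (hB w hw.1)).2
      have h4 : ε' * P w ≤ ε' * -K := mul_le_mul_of_nonneg_left h2 hε0.le
      simp only [hu]
      rw [max_eq_right]
      linarith
    · have hzE : z ∉ E := by
        intro h
        obtain ⟨j, hj, hjz⟩ := mem_iUnion₂.1 (hF h)
        exact hzF ⟨j, hj, hjz⟩
      have h1 := (hL z hz hzE).add ((hPL z).const_mul hε0.le)
      refine LGe.max (by simpa using h1) (hasL_const _ z).lge
  have h1 := le_circleAverage one_pos huc huL
  have h2 : circleAverage u 0 1 ≤ circleAverage φ 0 1 := by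
    refine circleAverage_mono ?_ ?_ fun w hw => ?_
    · exact (huc.mono sphere_subset_closedBall).circleIntegrable zero_le_one
    · exact hci
    · have hw' : w ∈ closedBall (0 : ℂ) 1 := by
        rw [abs_one] at hw; exact sphere_subset_closedBall hw
      simp only [hu]
      refine max_le ?_ ?_
      · have := mul_nonpos_of_nonneg_of_nonpos hε0.le (hPn w hw')
        linarith
      · have := (abs_le.1 (hB w hw')).1
        linarith
  have h3 : φ 0 + ε' * P 0 ≤ u 0 := le_max_left _ _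
  have h4 : ε' * -2 ≤ ε' * P 0 := mul_le_mul_of_nonneg_left hP0 hε0.le
  linarith

end one

section disc

variable {E : Type*} [NormedAddCommGroup E] [NormedSpace ℂ E] [NormedSpace ℝ E]
  [IsScalarTower ℝ ℂ E]

/-- one disc: `g` bounded on the closed disc `x + 𝔻 v`, which has countable trace outside of the open
set `Ω`, on which `g` is `C²` with Levi form `≥ 0` -/
theorem le_dav_bdd {Ω : Set E} (hΩ : IsOpen Ω) {g : E → ℝ} {B : ℝ} {x v : E}
    (hci : CircleIntegrable (fun w : ℂ => g (x + w • v)) 0 1)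
    (hL : ∀ w : ℂ, ‖w‖ ≤ 1 → x + w • v ∈ Ω →
      ContDiffAt ℝ 2 g (x + w • v) ∧ 0 ≤ lvE g (x + w • v) v)
    (hB : ∀ w : ℂ, ‖w‖ ≤ 1 → |g (x + w • v)| ≤ B) (hx : x ∈ Ω)
    (hc : {w : ℂ | ‖w‖ ≤ 1 ∧ x + w • v ∉ Ω}.Countable) : g x ≤ dav g x v := by
  set l : ℂ → E := fun w => x + w • v with hl
  have hlc : Continuous l := by simp only [hl]; fun_prop
  set S : Set ℂ := {w : ℂ | ‖w‖ ≤ 1 ∧ x + w • v ∉ Ω} with hS
  have hSe : S = closedBall (0 : ℂ) 1 ∩ (l ⁻¹' Ω)ᶜ := by
    ext w
    simp [hS, hl]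
  have hSc : IsCompact S := by
    rw [hSe]
    exact (isCompact_closedBall (0 : ℂ) 1).inter_right (hΩ.preimage hlc).isClosed_compl
  have h1 := le_avg_bdd (φ := fun w : ℂ => g (x + w • v)) (E := S) (B := B)
    hci (fun w hw => hB w (by simpa using hw)) (fun w hw => ?_) hSc
    (by rw [hSe]; exact inter_subset_left) hc
    (fun h => h.2 (by simpa using hx)) (fun w hw hwS => ?_)
  · simpa [dav] using h1
  · have hw1 : ‖w‖ ≤ 1 := by simpa using hw.1
    have hwΩ : x + w • v ∈ Ω := by
      by_contra h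
      exact hw.2 ⟨hw1, h⟩
    exact (contDiffAt_comp_disc (hL w hw1 hwΩ).1).continuousAt.continuousWithinAt
  · have hw1 : ‖w‖ ≤ 1 := by
      have : ‖w‖ < 1 := by simpa using hw
      exact this.le
    have hwΩ : x + w • v ∈ Ω := by
      by_contra h
      exact hwS ⟨hw1, h⟩
    have h2 := (hL w hw1 hwΩ).1
    have h4 := (hasL_of_contDiffAt (contDiffAt_comp_disc h2)).lge
    rw [lvE_disc h2] at h4
    exact h4.mono (hL w hw1 hwΩ).2

end disc

section conv

variable {E : Type*} [NormedAddCommGroup E] [NormedSpace ℂ E] [NormedSpace ℝ E]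
  [IsScalarTower ℝ ℂ E] [FiniteDimensional ℝ E] [MeasurableSpace E] [BorelSpace E]
  {μ : Measure E} [μ.IsAddHaarMeasure]

theorem normed_zero (φ : ContDiffBump (0 : E)) {t : E} (ht : t ∉ ball (0 : E) φ.rOut) :
    φ.normed μ t = 0 := by
  by_contra h8
  have h9 : t ∈ Function.support (φ.normed μ) := h8
  rw [φ.support_normed_eq] at h9
  exact ht h9

theorem integrable_mul_bump' (φ : ContDiffBump (0 : E)) {h : E → ℝ} (hm : AEStronglyMeasurable h μ)
    {B : ℝ} (hB : ∀ t, |h t| ≤ B) : Integrable (fun t => φ.normed μ t * h t) μ :=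
  Integrable.mul_bdd (c := B) φ.integrable_normed hm (ae_of_all _ hB)

/-- integrability of the shifted product -/
theorem integrable_prod (φ : ContDiffBump (0 : E)) {g : E → ℝ} (hg : Measurable g) {B : ℝ}
    (hB : ∀ t, |g t| ≤ B) (x v : E) :
    Integrable (fun p : ℝ × E => φ.normed μ p.2 * g (x + circleMap 0 1 p.1 • v - p.2))
      ((volume.restrict (Set.uIoc 0 (2 * π))).prod μ) := by
  have hprop : ProperSpace E := FiniteDimensional.proper ℝ E
  rw [uIoc_of_le (by positivity)]
  have h1 : Integrable (fun p : ℝ × E => φ.normed μ p.2)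
      ((volume.restrict (Set.Ioc 0 (2 * π))).prod μ) := by
    have h2 : Integrable (fun _ : ℝ => (1 : ℝ)) (volume.restrict (Set.Ioc 0 (2 * π))) :=
      integrable_const _
    simpa using h2.mul_prod (φ.integrable_normed (μ := μ))
  refine Integrable.mul_bdd (c := B) h1 ?_ (ae_of_all _ fun p => hB _)
  refine (hg.comp ?_).aestronglyMeasurable
  exact ((continuous_const.add (((continuous_circleMap 0 1).comp continuous_fst).smul
      continuous_const)).sub continuous_snd).measurable

/-- disc averages of a convolution -/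
theorem dav_conv' (φ : ContDiffBump (0 : E)) {g : E → ℝ} (hg : Measurable g) {B : ℝ}
    (hB : ∀ t, |g t| ≤ B) (x v : E) :
    dav (φ.normed μ ⋆[ContinuousLinearMap.lsmul ℝ ℝ, μ] g) x v =
      ∫ t, φ.normed μ t * dav g (x - t) v ∂μ := by
  have e1 : dav (φ.normed μ ⋆[ContinuousLinearMap.lsmul ℝ ℝ, μ] g) x v =
      (2 * π)⁻¹ * ∫ θ in (0 : ℝ)..2 * π, ∫ t, φ.normed μ t * g (x + circleMap 0 1 θ • v - t) ∂μ := rfl
  have e2 : ∀ t, φ.normed μ t * dav g (x - t) v = (2 * π)⁻¹ *
      ∫ θ in (0 : ℝ)..2 * π, φ.normed μ t * g (x + circleMap 0 1 θ • v - t) := by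
    intro t
    rw [intervalIntegral.integral_const_mul]
    have e3 : dav g (x - t) v = (2 * π)⁻¹ * ∫ θ in (0 : ℝ)..2 * π, g (x - t + circleMap 0 1 θ • v) :=
      rfl
    rw [e3]
    have e4 : (fun θ => g (x - t + circleMap 0 1 θ • v)) =
        fun θ => g (x + circleMap 0 1 θ • v - t) := by
      funext θ; congr 1; abel
    rw [e4]
    ring
  rw [e1]
  simp only [e2]
  rw [integral_const_mul, intervalIntegral_integral_swap]
  exact integrable_prod φ hg hB x v

theorem integrable_dav (φ : ContDiffBump (0 : E)) {g : E → ℝ} (hg : Measurable g) {B : ℝ}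
    (hB : ∀ t, |g t| ≤ B) (x v : E) :
    Integrable (fun t => φ.normed μ t * dav g (x - t) v) μ := by
  have h1 := ((integrable_prod φ hg hB x v (μ := μ)).integral_prod_right).const_mul (2 * π)⁻¹
  refine h1.congr (ae_of_all _ fun t => ?_)
  simp only
  have e3 : dav g (x - t) v = (2 * π)⁻¹ * ∫ θ in (0 : ℝ)..2 * π, g (x - t + circleMap 0 1 θ • v) :=
    rfl
  have e4 : (fun θ => g (x - t + circleMap 0 1 θ • v)) =
      fun θ => g (x + circleMap 0 1 θ • v - t) := by
    funext θ; congr 1; abel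
  rw [e3, e4, integral_const_mul, intervalIntegral.integral_of_le (by positivity),
    uIoc_of_le (by positivity)]
  ring

/-- sub-mean values of a convolution -/
theorem conv_le' (φ : ContDiffBump (0 : E)) {g : E → ℝ} (hg : Measurable g) {B : ℝ}
    (hB : ∀ t, |g t| ≤ B) {x v : E} {c : ℝ}
    (h : ∀ᵐ t ∂μ, t ∈ ball (0 : E) φ.rOut → g (x - t) + c ≤ dav g (x - t) v) :
    (φ.normed μ ⋆[ContinuousLinearMap.lsmul ℝ ℝ, μ] g) x + c ≤
      dav (φ.normed μ ⋆[ContinuousLinearMap.lsmul ℝ ℝ, μ] g) x v := by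
  rw [dav_conv' φ hg hB, conv_apply]
  have hm : ∀ c : ℝ, Integrable (fun t => φ.normed μ t * (g (x - t) + c)) μ := fun c =>
    integrable_mul_bump' φ ((hg.comp (measurable_const.sub measurable_id)).add
      measurable_const).aestronglyMeasurable (B := B + |c|)
      fun t => (abs_add_le _ _).trans (by linarith [hB (x - t)])
  have e : ∫ t, φ.normed μ t * g (x - t) ∂μ + c =
      ∫ t, φ.normed μ t * (g (x - t) + c) ∂μ := by
    have e1 : ∀ t, φ.normed μ t * (g (x - t) + c) = φ.normed μ t * g (x - t) + φ.normed μ t * c :=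
      fun t => by ring
    have h0 := hm 0
    simp only [add_zero] at h0
    simp only [e1]
    rw [integral_add h0 (φ.integrable_normed.mul_const c), integral_mul_const, φ.integral_normed,
      one_mul]
  rw [e]
  refine integral_mono_ae (hm c) (integrable_dav φ hg hB x v) ?_
  filter_upwards [h] with t ht
  by_cases htb : t ∈ ball (0 : E) φ.rOut
  · exact mul_le_mul_of_nonneg_left (ht htb) (φ.nonneg_normed t)
  · simp [normed_zero φ htb]

end conv

end Crest.Agent.R281.Bdd4_791
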