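import Mathlib
import Crest.Agent.R281.Bdd4_791

/-!
# S6-BDD, part 5: the mollifications of a bounded function which is plurisubharmonic off a thin set

`PB μ D Ω f B` : the class; `mo μ f η` : convolution with the bump function of radii `η/2, η`;
`mo_smooth`, `mo_abs_le`, `mo_psh`, `mo_ge`, `mo_sub_le`, `mo_tendsto`.
-/

set_option autoImplicit false
set_option linter.unusedSectionVars false

open Set Filter Topology Metric Asymptotics Real MeasureTheory
open scoped ContDiff Convolution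

noncomputable section

namespace Crest.Agent.R281.Bdd5_791

open Crest.Agent.R269.SubM_79 Crest.Agent.R257.HoB_843 Crest.Agent.R257.Glue2_101
open Crest.Agent.R281.Rich_710 Bdd4_791

variable {E : Type*} [NormedAddCommGroup E] [NormedSpace ℂ E] [NormedSpace ℝ E]
  [IsScalarTower ℝ ℂ E] [FiniteDimensional ℝ E] [MeasurableSpace E] [BorelSpace E]

theorem lvE_sub2 {u v : E → ℝ} {z : E} (hu : ContDiffAt ℝ 2 u z) (hv : ContDiffAt ℝ 2 v z) (w : E) :
    lvE (fun y => u y - v y) z w = lvE u z w - lvE v z w := by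
  have e : fderiv ℝ (fun y => u y - v y) =ᶠ[𝓝 z] fun y => fderiv ℝ u y - fderiv ℝ v y := by
    have h1 : ∀ {u : E → ℝ}, ContDiffAt ℝ 2 u z → ∀ᶠ y in 𝓝 z, DifferentiableAt ℝ u y := by
      intro u hu
      have h2 : ContDiffAt ℝ 1 u z := hu.of_le (by norm_num)
      exact (h2.eventually (by simp)).mono fun y hy => hy.differentiableAt (by norm_num)
    filter_upwards [h1 hu, h1 hv] with y h1 h2
    exact fderiv_sub h1 h2
  have d1 : DifferentiableAt ℝ (fderiv ℝ u) z :=
    (hu.fderiv_right (m := 1) (by norm_num)).differentiableAt (by norm_num)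
  have d2 : DifferentiableAt ℝ (fderiv ℝ v) z :=
    (hv.fderiv_right (m := 1) (by norm_num)).differentiableAt (by norm_num)
  have e2 : fderiv ℝ (fun y => fderiv ℝ u y - fderiv ℝ v y) z =
      fderiv ℝ (fderiv ℝ u) z - fderiv ℝ (fderiv ℝ v) z := fderiv_sub d1 d2
  unfold lvE
  rw [e.fderiv_eq, e2]
  simp only [_root_.sub_apply]
  ring

/-- `f` is bounded Borel, `C²` with Levi form `≥ 0` on `Ω ⊆ D`, the complement of `Ω` in `D` being null
with countable trace on almost every complex line of every direction -/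
structure PB (μ : Measure E) (D Ω : Set E) (f : E → ℝ) (B : ℝ) : Prop where
  opD : IsOpen D
  opΩ : IsOpen Ω
  sub : Ω ⊆ D
  meas : Measurable f
  bd : ∀ z, |f z| ≤ B
  psh : ∀ z ∈ Ω, ContDiffAt ℝ 2 f z ∧ ∀ v, 0 ≤ lvE f z v
  null : μ (D \ Ω) = 0
  line : ∀ v : E, ∀ᵐ z ∂μ, {w : ℂ | z + w • v ∈ D \ Ω}.Countable

/-- the bump function with radii `η/2`, `η` -/
def bmp (η : ℝ) : ContDiffBump (0 : E) :=
  if h : 0 < η then ⟨η / 2, η, half_pos h, half_lt_self h⟩ else ⟨1, 2, one_pos, one_lt_two⟩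

theorem bmp_rOut {η : ℝ} (h : 0 < η) : (bmp η : ContDiffBump (0 : E)).rOut = η := by
  unfold bmp; rw [dif_pos h]

theorem bmp_rIn {η : ℝ} (h : 0 < η) : (bmp η : ContDiffBump (0 : E)).rIn = η / 2 := by
  unfold bmp; rw [dif_pos h]

/-- the mollification -/
def mo (μ : Measure E) (f : E → ℝ) (η : ℝ) : E → ℝ :=
  (bmp η).normed μ ⋆[ContinuousLinearMap.lsmul ℝ ℝ, μ] f

variable {μ : Measure E} [μ.IsAddHaarMeasure] {D Ω : Set E} {f : E → ℝ} {B : ℝ}

theorem mo_apply (f : E → ℝ) (η : ℝ) (x : E) :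
    mo μ f η x = ∫ t, (bmp η).normed μ t * f (x - t) ∂μ := rfl

theorem locInt (hm : Measurable f) (hB : ∀ z, |f z| ≤ B) : LocallyIntegrable f μ := by
  have hprop : ProperSpace E := FiniteDimensional.proper ℝ E
  have h1 : LocallyIntegrable (fun _ : E => B) μ := locallyIntegrable_const B
  refine h1.mono hm.aestronglyMeasurable (ae_of_all _ fun z => ?_)
  have hB0 : 0 ≤ B := (abs_nonneg _).trans (hB z)
  rw [Real.norm_eq_abs, Real.norm_eq_abs, abs_of_nonneg hB0]
  exact hB z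

theorem mo_smooth (hm : Measurable f) (hB : ∀ z, |f z| ≤ B) (η : ℝ) :
    ContDiff ℝ (⊤ : ℕ∞) (mo μ f η) := by
  have hprop : ProperSpace E := FiniteDimensional.proper ℝ E
  exact (bmp η).hasCompactSupport_normed.contDiff_convolution_left _ (bmp η).contDiff_normed
    (locInt hm hB)

theorem int_shift (hm : Measurable f) (hB : ∀ z, |f z| ≤ B) (φ : ContDiffBump (0 : E)) (x : E) :
    Integrable (fun t => φ.normed μ t * f (x - t)) μ :=
  integrable_mul_bump' φ (hm.comp (measurable_const.sub measurable_id)).aestronglyMeasurable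
    fun t => hB (x - t)

/-- a convolution lies between bounds valid a.e. on the ball -/
theorem mo_sub_le (hm : Measurable f) (hB : ∀ z, |f z| ≤ B) {η : ℝ} (hη : 0 < η) {x : E} {a b : ℝ}
    (h : ∀ᵐ t ∂μ, t ∈ ball (0 : E) η → |f (x - t) - a| ≤ b) : |mo μ f η x - a| ≤ b := by
  have hprop : ProperSpace E := FiniteDimensional.proper ℝ E
  set φ : ContDiffBump (0 : E) := bmp η with hφ
  have hφr : φ.rOut = η := bmp_rOut hη
  have e : mo μ f η x - a = ∫ t, φ.normed μ t * (f (x - t) - a) ∂μ := by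
    have e1 : ∀ t, φ.normed μ t * (f (x - t) - a) = φ.normed μ t * f (x - t) - φ.normed μ t * a :=
      fun t => by ring
    simp only [e1]
    rw [integral_sub (int_shift hm hB φ x) (φ.integrable_normed.mul_const a), integral_mul_const,
      φ.integral_normed, one_mul]
    rfl
  rw [e]
  have h2 : ‖∫ t, φ.normed μ t * (f (x - t) - a) ∂μ‖ ≤ ∫ t, φ.normed μ t * b ∂μ := by
    refine norm_integral_le_of_norm_le (φ.integrable_normed.mul_const b) ?_
    filter_upwards [h] with t ht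
    by_cases htb : t ∈ ball (0 : E) φ.rOut
    · rw [norm_mul, Real.norm_eq_abs, Real.norm_eq_abs, abs_of_nonneg (φ.nonneg_normed t)]
      exact mul_le_mul_of_nonneg_left (ht (hφr ▸ htb)) (φ.nonneg_normed t)
    · simp [normed_zero φ htb]
  rw [integral_mul_const, φ.integral_normed, one_mul] at h2
  exact h2

theorem mo_abs_le (hm : Measurable f) (hB : ∀ z, |f z| ≤ B) {η : ℝ} (hη : 0 < η) (x : E) :
    |mo μ f η x| ≤ B := by
  have := mo_sub_le (μ := μ) hm hB hη (x := x) (a := 0) (b := B)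
    (ae_of_all _ fun t _ => by simpa using hB (x - t))
  simpa using this

/-- pull back of an a.e. statement by `t ↦ x - t` -/
theorem ae_sub {P : E → Prop} (h : ∀ᵐ z ∂μ, P z) (x : E) : ∀ᵐ t ∂μ, P (x - t) := by
  have hprop : ProperSpace E := FiniteDimensional.proper ℝ E
  exact (quasiMeasurePreserving_sub_left μ x).ae h

/-- a.e. sub-mean value inequality for `f` and for `f - ρ` -/
theorem ae_le_dav (h : PB μ D Ω f B) {U : Set E} (hU : IsOpen U) (hUD : U ⊆ D) {ρ : E → ℝ}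
    (hρ : ∀ z ∈ U, ContDiffAt ℝ 2 ρ z) (hρf : ∀ z ∈ U ∩ Ω, ∀ v, lvE ρ z v ≤ lvE f z v) {x v : E}
    {η : ℝ} (hd : ∀ t ∈ ball (0 : E) η, ∀ w : ℂ, ‖w‖ ≤ 1 → x - t + w • v ∈ U) :
    ∀ᵐ t ∂μ, t ∈ ball (0 : E) η → f (x - t) - ρ (x - t) ≤ dav f (x - t) v - dav ρ (x - t) v := by
  have h1 : ∀ᵐ z ∂μ, z ∉ D \ Ω := measure_eq_zero_iff_ae_notMem.mp h.null
  filter_upwards [ae_sub h1 x, ae_sub (h.line v) x] with t ht1 ht2 ht
  have hx : x - t ∈ U := by simpa using hd t ht 0 (by simp)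
  have hxΩ : x - t ∈ Ω := by
    by_contra hc
    exact ht1 ⟨hUD hx, hc⟩
  have hlc : Continuous fun w : ℂ => x - t + w • v := by fun_prop
  have hρc : ContinuousOn (fun w : ℂ => ρ (x - t + w • v)) (closedBall 0 1) := by
    intro w hw
    exact (ContinuousAt.comp (g := ρ) (f := fun w : ℂ => x - t + w • v)
      (hρ _ (hd t ht w (by simpa using hw))).continuousAt hlc.continuousAt).continuousWithinAt
  have hciρ : CircleIntegrable (fun w : ℂ => ρ (x - t + w • v)) 0 1 :=
    (hρc.mono sphere_subset_closedBall).circleIntegrable zero_le_one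
  have hcif : CircleIntegrable (fun w : ℂ => f (x - t + w • v)) 0 1 :=
    circInt (h.meas.comp hlc.measurable) (B := B) fun w _ => h.bd _
  obtain ⟨C, hC⟩ := (isCompact_closedBall (0 : ℂ) 1).exists_bound_of_continuousOn hρc
  have key := le_dav_bdd (g := fun z => f z - ρ z) (B := B + C) (x := x - t) (v := v)
    (h.opΩ.inter hU) (hcif.sub hciρ) (fun w hw hwΩ => ?_) (fun w hw => ?_) ⟨hxΩ, hx⟩ ?_
  · have e : dav (fun z => f z - ρ z) (x - t) v = dav f (x - t) v - dav ρ (x - t) v :=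
      circleAverage_fun_sub hcif hciρ
    rw [e] at key
    exact key
  · have h2 := (h.psh _ hwΩ.1)
    have h3 := hρ _ hwΩ.2
    refine ⟨h2.1.sub h3, ?_⟩
    have h4 := hρf _ ⟨hwΩ.2, hwΩ.1⟩ v
    have h5 : lvE (fun z => f z - ρ z) (x - t + w • v) v =
        lvE f (x - t + w • v) v - lvE ρ (x - t + w • v) v := lvE_sub2 h2.1 h3 v
    rw [h5]; linarith
  · have h2 := hC w (by simpa using hw)
    rw [Real.norm_eq_abs] at h2
    calc |f (x - t + w • v) - ρ (x - t + w • v)| ≤ |f (x - t + w • v)| + |ρ (x - t + w • v)| :=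
          abs_sub _ _
      _ ≤ B + C := add_le_add (h.bd _) h2
  · refine ht2.mono ?_
    rintro w ⟨hw, hw2⟩
    have hwU := hd t ht w hw
    exact ⟨hUD hwU, fun hc => hw2 ⟨hc, hwU⟩⟩

/-- discs near a compact set -/
theorem exists_radius {K U : Set E} (hK : IsCompact K) (hU : IsOpen U) (hKU : K ⊆ U) :
    ∃ r > 0, ∀ x ∈ K, ball x r ⊆ U := by
  obtain ⟨r, hr, h⟩ := hK.exists_cthickening_subset_open hU hKU
  exact ⟨r, hr, fun x hx y hy => h (mem_cthickening_of_dist_le y x _ _ hx (le_of_lt hy))⟩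

theorem disc_mem {x t v : E} {η : ℝ} (ht : t ∈ ball (0 : E) η) (hv : ‖v‖ < η) {w : ℂ}
    (hw : ‖w‖ ≤ 1) : x - t + w • v ∈ ball x (2 * η) := by
  refine disc_subset ?_ hv hw
  rw [mem_ball, dist_eq_norm]
  rw [mem_ball, dist_eq_norm, sub_zero] at ht
  have : x - t - x = -t := by abel
  rw [this, norm_neg]
  exact ht

/-- **(iii)** lower bound `lvE ρ - τ` for the Levi form of the mollification, near compact subsets of
the open set `U` where `lvE ρ ≤ lvE f` -/
theorem mo_ge (h : PB μ D Ω f B) {U : Set E} (hU : IsOpen U) (hUD : U ⊆ D) {ρ : E → ℝ}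
    (hρ : ∀ z ∈ U, ContDiffAt ℝ 2 ρ z) (hρf : ∀ z ∈ U ∩ Ω, ∀ v, lvE ρ z v ≤ lvE f z v)
    {C : Set E} (hC : IsCompact C) (hCU : C ⊆ U) {τ : ℝ} (hτ : 0 < τ) :
    ∃ η₀ > 0, ∀ η, 0 < η → η < η₀ → ∀ x ∈ C, ∀ v, lvE ρ x v - τ * ‖v‖ ^ 2 ≤
      lvE (mo μ f η) x v := by
  obtain ⟨r₄, hr₄, h4⟩ := unif_near (F := E →L[ℝ] E →L[ℝ] ℝ) (f := fderiv ℝ (fderiv ℝ ρ)) hC
    (fun a ha => (((hρ a (hCU ha)).fderiv_right (m := 1) (by norm_num)).fderiv_right
      (m := 0) (by norm_num)).continuousAt) hτ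
  obtain ⟨r₅, hr₅, h5⟩ := exists_radius hC hU hCU
  refine ⟨min (r₄ / 2) (r₅ / 2), by positivity, fun η hη0 hη x hx v => ?_⟩
  have e4 : 2 * η < r₄ := by have := hη.trans_le (min_le_left _ _); linarith
  have e5 : 2 * η < r₅ := by have := hη.trans_le (min_le_right _ _); linarith
  have hF2 : ContDiffAt ℝ 2 (mo μ f η) x :=
    ((mo_smooth h.meas h.bd η).contDiffAt).of_le two_le_top
  have hrO : (bmp η : ContDiffBump (0 : E)).rOut = η := bmp_rOut hη0
  have hsm : ∃ r > 0, ∀ s : ℝ, 0 < s → s < r → ‖s • v‖ < η := by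
    refine ⟨η / (‖v‖ + 1), by positivity, fun s hs hsr => ?_⟩
    rw [norm_smul, Real.norm_of_nonneg hs.le]
    rw [lt_div_iff₀ (by positivity)] at hsr
    nlinarith [norm_nonneg v]
  obtain ⟨r, hr, hrs⟩ := hsm
  refine lvE_ge_of_le hF2 ⟨r, hr, fun s hs hsr => ?_⟩
  have hsv := hrs s hs hsr
  refine conv_le' (bmp η) h.meas h.bd ?_
  have h7 := ae_le_dav (x := x) (v := s • v) (η := η) h hU hUD hρ hρf fun t ht w hw =>
    h5 x hx (ball_subset_ball e5.le (disc_mem ht hsv hw))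
  filter_upwards [h7] with t ht8 ht
  rw [hrO] at ht
  have a3 := ht8 ht
  have a4 : ρ (x - t) + s ^ 2 * (lvE ρ x v - τ * ‖v‖ ^ 2) ≤ dav ρ (x - t) (s • v) := by
    refine le_dav_of_lvE fun w hw => ?_
    have b1 := disc_mem (x := x) ht hsv hw
    refine ⟨hρ _ (h5 x hx (ball_subset_ball e5.le b1)), ?_⟩
    rw [lvE_smul]
    have b2 := h4 x hx _ (ball_subset_ball e4.le b1)
    rw [dist_eq_norm] at b2
    exact mul_le_mul_of_nonneg_left (lvE_near b2 v) (sq_nonneg s)
  linarith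

/-- **(ii)** the mollifications are plurisubharmonic near compact subsets of `D` -/
theorem mo_psh (h : PB μ D Ω f B) {K : Set E} (hK : IsCompact K) (hKD : K ⊆ D) :
    ∃ η₀ > 0, ∀ η, 0 < η → η < η₀ → ∀ x ∈ K, ∀ v, 0 ≤ lvE (mo μ f η) x v := by
  obtain ⟨r₅, hr₅, h5⟩ := exists_radius hK h.opD hKD
  refine ⟨r₅ / 2, by positivity, fun η hη0 hη x hx v => ?_⟩
  have e5 : 2 * η < r₅ := by linarith
  have hF2 : ContDiffAt ℝ 2 (mo μ f η) x :=
    ((mo_smooth h.meas h.bd η).contDiffAt).of_le two_le_top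
  have hrO : (bmp η : ContDiffBump (0 : E)).rOut = η := bmp_rOut hη0
  refine lvE_ge_of_le hF2 ⟨η / (‖v‖ + 1), by positivity, fun s hs hsr => ?_⟩
  have hsv : ‖s • v‖ < η := by
    rw [norm_smul, Real.norm_of_nonneg hs.le]
    rw [lt_div_iff₀ (by positivity)] at hsr
    nlinarith [norm_nonneg v]
  refine conv_le' (bmp η) h.meas h.bd ?_
  have hl0 : ∀ z v : E, lvE (fun _ : E => (0 : ℝ)) z v = 0 := fun z v => by
    unfold lvE
    have h : fderiv ℝ (fun _ : E => (0 : ℝ)) = fun _ => 0 := by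
      funext x; exact fderiv_const_apply 0
    rw [h]; simp
  have h7 := ae_le_dav (x := x) (v := s • v) (η := η) (ρ := fun _ => 0) h h.opD le_rfl
    (fun z _ => contDiffAt_const) (fun z hz v => by rw [hl0]; exact (h.psh z hz.2).2 v)
    fun t ht w hw => h5 x hx (ball_subset_ball e5.le (disc_mem ht hsv hw))
  filter_upwards [h7] with t ht8 ht
  rw [hrO] at ht
  have a3 := ht8 ht
  have e : dav (fun _ : E => (0 : ℝ)) (x - t) (s • v) = 0 := circleAverage_const 0 0 1
  rw [e] at a3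
  linarith

/-- **(iv)**: closeness to a continuous function up to the bound of the difference -/
theorem mo_near (hm : Measurable f) (hB : ∀ z, |f z| ≤ B) {D : Set E} (hD : IsOpen D)
    {Ω : Set E} (hnull : μ (D \ Ω) = 0) {wt : E → ℝ} (hwt : ContinuousOn wt D) {b : ℝ}
    (hb : ∀ z ∈ Ω, z ∈ D → |f z - wt z| ≤ b)
    {K : Set E} (hK : IsCompact K) (hKD : K ⊆ D) {τ : ℝ} (hτ : 0 < τ) :
    ∃ η₀ > 0, ∀ η, 0 < η → η < η₀ → ∀ x ∈ K, |mo μ f η x - wt x| ≤ b + τ := by
  obtain ⟨r₁, hr₁, h1⟩ := exists_radius hK hD hKD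
  obtain ⟨r₂, hr₂, h2⟩ := unif_near hK (f := wt)
    (fun a ha => hwt.continuousAt (hD.mem_nhds (hKD ha))) hτ
  refine ⟨min r₁ r₂, by positivity, fun η hη0 hη x hx => ?_⟩
  refine mo_sub_le hm hB hη0 ?_
  have h3 : ∀ᵐ z ∂μ, z ∉ D \ Ω := measure_eq_zero_iff_ae_notMem.mp hnull
  filter_upwards [ae_sub h3 x] with t ht3 ht
  have hxt : x - t ∈ ball x η := by
    rw [mem_ball, dist_eq_norm]
    rw [mem_ball, dist_eq_norm, sub_zero] at ht
    have : x - t - x = -t := by abel
    rw [this, norm_neg]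
    exact ht
  have hD' : x - t ∈ D := h1 x hx (ball_subset_ball (hη.le.trans (min_le_left _ _)) hxt)
  have hΩ' : x - t ∈ Ω := by
    by_contra hc
    exact ht3 ⟨hD', hc⟩
  have h4 := h2 x hx _ (ball_subset_ball (hη.le.trans (min_le_right _ _)) hxt)
  rw [Real.dist_eq] at h4
  have h5 := hb _ hΩ' hD'
  have e : f (x - t) - wt x = (f (x - t) - wt (x - t)) + (wt (x - t) - wt x) := by ring
  rw [e]
  exact (abs_add_le _ _).trans (add_le_add h5 h4)

/-- convergence at points of continuity -/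
theorem mo_tendsto (hm : Measurable f) (hB : ∀ z, |f z| ≤ B) {z : E} (hz : ContinuousAt f z)
    {e : ℕ → ℝ} (he0 : ∀ k, 0 < e k) (he : Tendsto e atTop (𝓝 0)) :
    Tendsto (fun k => mo μ f (e k) z) atTop (𝓝 (f z)) := by
  rw [Metric.tendsto_nhds]
  intro ε hε
  obtain ⟨r, hr, h⟩ := Metric.continuousAt_iff.1 hz (ε / 2) (half_pos hε)
  filter_upwards [he.eventually (gt_mem_nhds hr)] with k hk
  have h2 := mo_sub_le (μ := μ) hm hB (he0 k) (x := z) (a := f z) (b := ε / 2)
    (ae_of_all _ fun t ht => by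
      have h3 : dist (z - t) z < r := by
        rw [dist_eq_norm]
        rw [mem_ball, dist_eq_norm, sub_zero] at ht
        have : z - t - z = -t := by abel
        rw [this, norm_neg]
        exact ht.trans hk
      have := h h3
      rw [Real.dist_eq] at this
      exact this.le)
  rw [Real.dist_eq]
  linarith

end Crest.Agent.R281.Bdd5_791
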