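import Mathlib
import Crest.Agent.R281.Bdd5_791

/-!
# S6-BDD, part 6: mollifications in two charts are uniformly close
-/

set_option autoImplicit false
set_option linter.unusedSectionVars false

open Set Filter Topology Metric Asymptotics Real MeasureTheory
open scoped ContDiff Convolution

noncomputable section

namespace Crest.Agent.R281.Bdd6_791

open Crest.Agent.R269.SubM_79 Crest.Agent.R257.HoB_843 Crest.Agent.R257.Glue2_101
open Crest.Agent.R281.Rich_710 Bdd4_791 Bdd5_791 Bdd3_791 Bdd2_791

variable {E : Type*} [NormedAddCommGroup E] [NormedSpace ℂ E] [NormedSpace ℝ E]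
  [IsScalarTower ℝ ℂ E] [FiniteDimensional ℝ E] [MeasurableSpace E] [BorelSpace E]
  {μ : Measure E} [μ.IsAddHaarMeasure]

/-- the convolution kernel centred at `x` is a density -/
theorem dens_self {η L M : ℝ} (hη : 0 < η) (hL : 1 ≤ L) (hM : 1 ≤ M) (x : E) :
    Dens μ x (L * η) (M * (2 * L) ^ Module.finrank ℝ E)
      (fun z => (bmp η : ContDiffBump (0 : E)).normed μ (x - z)) := by
  have hprop : ProperSpace E := FiniteDimensional.proper ℝ E
  set φ : ContDiffBump (0 : E) := bmp η with hφ
  have hLη : 0 < L * η := by positivity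
  have hbd : ∀ t, φ.normed μ t ≤ 1 / μ.real (closedBall (0 : E) (η / 2)) := by
    intro t
    have := φ.normed_le_div_measure_closedBall_rIn μ t
    rwa [hφ, bmp_rIn hη] at this
  have hr := ball_ratio μ x (0 : E) (half_pos hη) hLη
  have h0 := ball_pos μ (0 : E) (half_pos hη)
  have h1 := ball_pos μ x hLη
  have e : L * η / (η / 2) = 2 * L := by field_simp
  rw [e] at hr
  refine ⟨?_, fun z => φ.nonneg_normed _, fun z => ?_, fun z hz => ?_, ?_⟩
  · exact (φ.continuous_normed.comp (continuous_const.sub continuous_id)).aestronglyMeasurable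
  · refine (hbd _).trans ?_
    rw [div_le_div_iff₀ h0 h1, one_mul, ← hr]
    have : μ.real (closedBall x (L * η)) = 1 * (μ.real (closedBall x (L * η)) /
      μ.real (closedBall (0 : E) (η / 2)) * μ.real (closedBall (0 : E) (η / 2))) := by
      field_simp
    calc μ.real (closedBall x (L * η)) = 1 * (μ.real (closedBall x (L * η)) /
          μ.real (closedBall (0 : E) (η / 2)) * μ.real (closedBall (0 : E) (η / 2))) := this
      _ ≤ M * (μ.real (closedBall x (L * η)) /
          μ.real (closedBall (0 : E) (η / 2)) * μ.real (closedBall (0 : E) (η / 2))) := by gcongr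
      _ = _ := by ring
  · refine normed_zero φ fun hc => hz ?_
    rw [hφ, bmp_rOut hη, mem_ball, dist_zero_right] at hc
    rw [mem_closedBall, dist_comm, dist_eq_norm]
    nlinarith
  · rw [integral_sub_left_eq_self (fun t => φ.normed μ t) μ x, φ.integral_normed]

theorem mo_eq (f : E → ℝ) (η : ℝ) (x : E) :
    mo μ f η x = ∫ z, (bmp η : ContDiffBump (0 : E)).normed μ (x - z) * f z ∂μ := by
  rw [mo_apply, ← integral_sub_left_eq_self (fun t => (bmp η : ContDiffBump (0 : E)).normed μ t *
    f (x - t)) μ x]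
  simp

/-- the density in the other chart -/
def cd (μ : Measure E) (T : OpenPartialHomeomorph E E) (η : ℝ) (x : E) : E → ℝ :=
  (T.source ∩ T ⁻¹' ball (T x) η).indicator fun z =>
    |(fderiv ℝ T z).det| * (bmp η : ContDiffBump (0 : E)).normed μ (T x - T z)

/-- change of variables -/
theorem mo_change {T : OpenPartialHomeomorph E E} (hT : ContDiffOn ℝ 1 T T.source) {η : ℝ}
    (hη : 0 < η) {x : E} (hb : ball (T x) η ⊆ T.target) (f : E → ℝ) :
    mo μ f η (T x) = ∫ z, cd μ T η x z * f (T z) ∂μ := by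
  have hprop : ProperSpace E := FiniteDimensional.proper ℝ E
  set φ : ContDiffBump (0 : E) := bmp η with hφ
  set s : Set E := T.source ∩ T ⁻¹' ball (T x) η with hs
  have hso : IsOpen s := T.isOpen_inter_preimage isOpen_ball
  have him : T '' s = ball (T x) η := by
    rw [hs]
    ext y
    constructor
    · rintro ⟨z, hz, rfl⟩; exact hz.2
    · intro hy
      have hy' := hb hy
      exact ⟨T.symm y, ⟨T.map_target hy', by rw [mem_preimage, T.right_inv hy']; exact hy⟩,
        T.right_inv hy'⟩
  have hd : ∀ z ∈ s, HasFDerivWithinAt T (fderiv ℝ T z) s z := fun z hz =>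
    (((hT.contDiffAt (T.open_source.mem_nhds hz.1)).differentiableAt
      (by norm_num)).hasFDerivAt).hasFDerivWithinAt
  have hinj : InjOn T s := T.injOn.mono inter_subset_left
  have h1 := integral_image_eq_integral_abs_det_fderiv_smul μ hso.measurableSet hd hinj
    (fun y => φ.normed μ (T x - y) * f y)
  rw [him] at h1
  have h2 : mo μ f η (T x) = ∫ y in ball (T x) η, φ.normed μ (T x - y) * f y ∂μ := by
    rw [mo_eq, ← integral_indicator measurableSet_ball]
    congr 1
    ext y
    by_cases hy : y ∈ ball (T x) η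
    · rw [indicator_of_mem hy]
    · rw [indicator_of_notMem hy, normed_zero, zero_mul]
      intro hc
      rw [bmp_rOut hη, mem_ball, dist_zero_right] at hc
      refine hy ?_
      rw [mem_ball, dist_comm, dist_eq_norm]; exact hc
  rw [h2, h1, ← integral_indicator hso.measurableSet]
  congr 1
  ext z
  unfold cd
  by_cases hz : z ∈ s
  · rw [indicator_of_mem hz, indicator_of_mem (hs ▸ hz)]
    simp only [smul_eq_mul]
    ring
  · rw [indicator_of_notMem hz, indicator_of_notMem (hs ▸ hz), zero_mul]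

theorem cd_meas {T : OpenPartialHomeomorph E E} (hT : ContDiffOn ℝ 1 T T.source) {η : ℝ}
    {x : E} {f' : E → ℝ} (hm' : Measurable f') :
    AEStronglyMeasurable (fun z => cd μ T η x z * f' (T z)) μ := by
  have hprop : ProperSpace E := FiniteDimensional.proper ℝ E
  set s : Set E := T.source ∩ T ⁻¹' ball (T x) η with hs
  have hso : IsOpen s := T.isOpen_inter_preimage isOpen_ball
  have hdetc : ContinuousOn (fun z => |(fderiv ℝ T z).det|) T.source :=
    ((ContinuousLinearMap.continuous_det.comp_continuousOn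
      (hT.continuousOn_fderiv_of_isOpen T.open_source le_rfl))).abs
  have e : (fun z => cd μ T η x z * f' (T z)) = s.indicator fun z =>
      |(fderiv ℝ T z).det| * (bmp η : ContDiffBump (0 : E)).normed μ (T x - T z) * f' (T z) := by
    ext z
    unfold cd
    by_cases hz : z ∈ s
    · rw [indicator_of_mem hz, indicator_of_mem (hs ▸ hz)]
    · rw [indicator_of_notMem hz, indicator_of_notMem (hs ▸ hz), zero_mul]
  rw [e]
  refine (aestronglyMeasurable_indicator_iff hso.measurableSet).2 ?_
  refine AEStronglyMeasurable.mul ?_ ?_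
  · refine ContinuousOn.aestronglyMeasurable ?_ hso.measurableSet
    exact (hdetc.mono inter_subset_left).mul
      ((bmp η : ContDiffBump (0 : E)).continuous_normed.comp_continuousOn
      (continuousOn_const.sub (T.continuousOn.mono inter_subset_left)))
  · exact (hm'.comp_aemeasurable ((T.continuousOn.mono inter_subset_left).aemeasurable
      hso.measurableSet)).aestronglyMeasurable

/-- uniform Lipschitz bound for the inverse -/
theorem exists_lip {T : OpenPartialHomeomorph E E} (hT' : ContDiffOn ℝ 1 T.symm T.target)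
    {K : Set E} (hK : IsCompact K) (hKs : K ⊆ T.source) : ∃ L ≥ (1 : ℝ), ∃ r > 0, ∀ x ∈ K,
      ball (T x) r ⊆ T.target ∧ ∀ y ∈ ball (T x) r, dist (T.symm y) x ≤ L * dist y (T x) := by
  have hprop : ProperSpace E := FiniteDimensional.proper ℝ E
  have hK' : IsCompact (T '' K) := hK.image_of_continuousOn (T.continuousOn.mono hKs)
  have hK't : T '' K ⊆ T.target := by
    rintro y ⟨x, hx, rfl⟩; exact T.map_source (hKs hx)
  obtain ⟨r, hr, h⟩ := hK'.exists_cthickening_subset_open T.open_target hK't
  have hc : IsCompact (cthickening r (T '' K)) := hK'.cthickening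
  have hcont : ContinuousOn (fderiv ℝ T.symm) (cthickening r (T '' K)) :=
    (hT'.continuousOn_fderiv_of_isOpen T.open_target le_rfl).mono h
  obtain ⟨L, hL⟩ := hc.exists_bound_of_continuousOn hcont
  refine ⟨max 1 L, le_max_left _ _, r, hr, fun x hx => ?_⟩
  have hb : ball (T x) r ⊆ cthickening r (T '' K) := fun y hy =>
    mem_cthickening_of_dist_le y (T x) _ _ (mem_image_of_mem _ hx) (le_of_lt hy)
  refine ⟨hb.trans h, fun y hy => ?_⟩
  have h1 := (convex_ball (T x) r).norm_image_sub_le_of_norm_hasFDerivWithin_le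
    (f := T.symm) (f' := fun z => fderiv ℝ T.symm z) (C := max 1 L)
    (fun z hz => (((hT'.contDiffAt (T.open_target.mem_nhds (h (hb hz)))).differentiableAt
      (by norm_num)).hasFDerivAt).hasFDerivWithinAt)
    (fun z hz => (hL z (hb hz)).trans (le_max_right _ _)) (mem_ball_self hr) hy
  rw [T.left_inv (hKs hx)] at h1
  rw [dist_eq_norm, dist_eq_norm]
  exact h1

/-- the density in the other chart is a density -/
theorem exists_dens {T : OpenPartialHomeomorph E E} (hT : ContDiffOn ℝ 1 T T.source)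
    (hT' : ContDiffOn ℝ 1 T.symm T.target) {K : Set E} (hK : IsCompact K) (hKs : K ⊆ T.source) :
    ∃ L ≥ (1 : ℝ), ∃ A ≥ (0 : ℝ), ∃ r > 0, ∀ x ∈ K, ball (T x) r ⊆ T.target ∧ ∀ η, 0 < η → η < r →
      Dens μ x (L * η) A (cd μ T η x) ∧
      Dens μ x (L * η) A (fun z => (bmp η : ContDiffBump (0 : E)).normed μ (x - z)) := by
  have hprop : ProperSpace E := FiniteDimensional.proper ℝ E
  obtain ⟨L, hL1, r, hr, hlip⟩ := exists_lip hT' hK hKs
  obtain ⟨r₂, hr₂, h2⟩ := hK.exists_cthickening_subset_open T.open_source hKs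
  have hdetc : ContinuousOn (fun z => |(fderiv ℝ T z).det|) T.source :=
    ((ContinuousLinearMap.continuous_det.comp_continuousOn
      (hT.continuousOn_fderiv_of_isOpen T.open_source le_rfl))).abs
  obtain ⟨M₀, hM₀⟩ := (hK.cthickening (r := r₂)).exists_bound_of_continuousOn (hdetc.mono h2)
  set M : ℝ := max 1 M₀ with hM
  have hM1 : 1 ≤ M := le_max_left _ _
  refine ⟨L, hL1, M * (2 * L) ^ Module.finrank ℝ E, by positivity, min r (r₂ / L), by positivity,
    fun x hx => ⟨(ball_subset_ball (min_le_left _ _)).trans (hlip x hx).1, fun η hη0 hη => ?_⟩⟩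
  refine ⟨?_, dens_self hη0 hL1 hM1 x⟩
  have hηr : η < r := hη.trans_le (min_le_left _ _)
  have hηr2 : L * η < r₂ := by
    have := hη.trans_le (min_le_right _ _)
    rw [lt_div_iff₀ (by linarith)] at this
    linarith
  set φ : ContDiffBump (0 : E) := bmp η with hφ
  set s : Set E := T.source ∩ T ⁻¹' ball (T x) η with hs
  have hso : IsOpen s := T.isOpen_inter_preimage isOpen_ball
  have hLη : 0 < L * η := by positivity
  have hsb : ∀ z ∈ s, dist z x ≤ L * η := by
    intro z hz
    have h3 := (hlip x hx).2 (T z) (ball_subset_ball hηr.le hz.2)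
    rw [T.left_inv hz.1] at h3
    refine h3.trans ?_
    have : dist (T z) (T x) < η := hz.2
    gcongr
  have hbd : ∀ t, φ.normed μ t ≤ 1 / μ.real (closedBall (0 : E) (η / 2)) := by
    intro t
    have := φ.normed_le_div_measure_closedBall_rIn μ t
    rwa [hφ, bmp_rIn hη0] at this
  have hrt := ball_ratio μ x (0 : E) (half_pos hη0) hLη
  have h0 := ball_pos μ (0 : E) (half_pos hη0)
  have h1 := ball_pos μ x hLη
  have e : L * η / (η / 2) = 2 * L := by field_simp
  rw [e] at hrt
  have hA : M * (1 / μ.real (closedBall (0 : E) (η / 2))) =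
      M * (2 * L) ^ Module.finrank ℝ E / μ.real (closedBall x (L * η)) := by
    have e0 := h0.ne'
    have e1 := h1.ne'
    rw [← hrt]
    generalize μ.real (closedBall x (L * η)) = a at e1 ⊢
    generalize μ.real (closedBall (0 : E) (η / 2)) = b at e0 ⊢
    rw [mul_one_div, mul_div_assoc', div_div, div_eq_div_iff e0 (mul_ne_zero e0 e1)]
    ring
  refine ⟨?_, fun z => ?_, fun z => ?_, fun z hz => ?_, ?_⟩
  · refine (aestronglyMeasurable_indicator_iff hso.measurableSet).2 ?_
    refine ContinuousOn.aestronglyMeasurable ?_ hso.measurableSet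
    exact (hdetc.mono inter_subset_left).mul (φ.continuous_normed.comp_continuousOn
      (continuousOn_const.sub (T.continuousOn.mono inter_subset_left)))
  · refine indicator_nonneg (fun z _ => mul_nonneg (abs_nonneg _) (φ.nonneg_normed _)) z
  · rw [← hA]
    by_cases hz : z ∈ s
    · rw [cd, indicator_of_mem (hs ▸ hz)]
      have h3 : |(fderiv ℝ T z).det| ≤ M := by
        have h4 := hM₀ z (mem_cthickening_of_dist_le z x _ _ hx ((hsb z hz).trans hηr2.le))
        rw [Real.norm_eq_abs, abs_abs] at h4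
        exact h4.trans (le_max_right _ _)
      exact mul_le_mul h3 (hbd _) (φ.nonneg_normed _) (by linarith)
    · rw [cd, indicator_of_notMem (hs ▸ hz)]
      positivity
  · rw [cd, indicator_of_notMem]
    intro hc
    exact hz (hsb z hc)
  · have h5 := mo_change (μ := μ) hT hη0
      ((ball_subset_ball hηr.le).trans (hlip x hx).1) (fun _ => (1 : ℝ))
    simp only [mul_one] at h5
    rw [← h5, mo_apply]
    simp only [mul_one]
    exact φ.integral_normed

/-- **(v)** mollifications in two charts are uniformly close on compact sets -/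
theorem mo_cmp {D Ω : Set E} {f : E → ℝ} {B : ℝ} (h : PB μ D Ω f B) {f' : E → ℝ} {B' : ℝ}
    (hm' : Measurable f') (hB' : ∀ z, |f' z| ≤ B') {T : OpenPartialHomeomorph E E}
    (hT : ContDiffOn ℝ 1 T T.source) (hT' : ContDiffOn ℝ 1 T.symm T.target)
    (hTD : T.source ⊆ D) {θ : E → ℝ} (hθ : ContinuousOn θ T.source)
    (hff : ∀ z ∈ T.source ∩ Ω, f' (T z) = f z + θ z)
    {K : Set E} (hK : IsCompact K) (hKs : K ⊆ T.source) {τ : ℝ} (hτ : 0 < τ) :
    ∃ η₀ > 0, ∀ η, 0 < η → η < η₀ → ∀ x ∈ K, |mo μ f' η (T x) - mo μ f η x - θ x| ≤ τ := by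
  have hprop : ProperSpace E := FiniteDimensional.proper ℝ E
  obtain ⟨L, hL, A, hA, r, hr, hd⟩ := exists_dens (μ := μ) hT hT' hK hKs
  obtain ⟨R, hR, hRK⟩ := hK.exists_cthickening_subset_open h.opD (hKs.trans hTD)
  have hK2 : IsCompact (cthickening R K) := hK.cthickening
  obtain ⟨η₂, hη₂, hpsh⟩ := mo_psh h hK2 hRK
  have hB0 : 0 ≤ B := (abs_nonneg _).trans (h.bd 0)
  obtain ⟨r₀, hr₀, hbdd⟩ := bdd (μ := μ) (E := E) hB0 hA hR (half_pos hτ)
  obtain ⟨r₂, hr₂, hun⟩ := unif_near hK (f := θ)
    (fun a ha => hθ.continuousAt (T.open_source.mem_nhds (hKs ha))) (half_pos hτ)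
  obtain ⟨r₃, hr₃, hsrc⟩ := exists_radius hK T.open_source hKs
  set e : ℕ → ℝ := fun k => η₂ / (k + 2) with he
  have he0 : ∀ k, 0 < e k := fun k => by simp only [he]; positivity
  have he1 : ∀ k, e k < η₂ := fun k => by
    simp only [he]
    rw [div_lt_iff₀ (by positivity)]
    nlinarith [Nat.cast_nonneg (α := ℝ) k]
  have hel : Tendsto e atTop (𝓝 0) := by
    have h1 : Tendsto (fun k : ℕ => (k : ℝ) + 2) atTop atTop :=
      tendsto_atTop_add_const_right _ _ tendsto_natCast_atTop_atTop
    exact h1.const_div_atTop η₂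
  have hnull : ∀ᵐ z ∂μ, z ∉ D \ Ω := measure_eq_zero_iff_ae_notMem.mp h.null
  refine ⟨min r (min (r₀ / L) (min (r₂ / L) (r₃ / L))), by positivity, fun η hη0 hη x hx => ?_⟩
  obtain ⟨hηr, hη'⟩ := lt_min_iff.1 hη
  obtain ⟨hηr0, hη'⟩ := lt_min_iff.1 hη'
  obtain ⟨hηr2, hηr3⟩ := lt_min_iff.1 hη'
  have hLpos : 0 < L := by linarith
  have hr0' : L * η < r₀ := by rw [lt_div_iff₀ hLpos] at hηr0; linarith
  have hr2' : L * η < r₂ := by rw [lt_div_iff₀ hLpos] at hηr2; linarith
  have hr3' : L * η < r₃ := by rw [lt_div_iff₀ hLpos] at hηr3; linarith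
  have hLη : 0 < L * η := by positivity
  have hd1 := (hd x hx).2 η hη0 hηr
  have hbt := (ball_subset_ball hηr.le).trans (hd x hx).1
  have hxR : ball x R ⊆ cthickening R K := fun y hy =>
    mem_cthickening_of_dist_le y x _ _ hx (le_of_lt hy)
  have key := hbdd x f (fun k => mo μ f (e k))
    (fun k => ((mo_smooth h.meas h.bd _).of_le two_le_top).contDiffOn)
    (fun k z hz w => hpsh (e k) (he0 k) (he1 k) z (hxR hz) w)
    (fun k z _ => mo_abs_le h.meas h.bd (he0 k) z)
    (by
      filter_upwards [hnull] with z hz hzx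
      have hzΩ : z ∈ Ω := by
        by_contra hc
        exact hz ⟨hRK (hxR hzx), hc⟩
      exact mo_tendsto h.meas h.bd (h.psh z hzΩ).1.continuousAt he0 hel)
    (L * η) hLη hr0' _ _ hd1.1 hd1.2
  rw [← mo_eq] at key
  have hch := mo_change (μ := μ) hT hη0 hbt f'
  -- the integral of `θ`
  have hI : Integrable (cd μ T η x) μ := hd1.1.integrable
  have hIf : Integrable (fun z => cd μ T η x z * f z) μ := by
    refine (hI.norm.const_mul B).mono' (hI.aestronglyMeasurable.mul h.meas.aestronglyMeasurable) ?_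
    refine ae_of_all _ fun z => ?_
    rw [norm_mul, mul_comm]
    exact mul_le_mul_of_nonneg_right (h.bd z) (norm_nonneg _)
  have hae : ∀ᵐ z ∂μ, ‖cd μ T η x z * f' (T z) - cd μ T η x z * f z - cd μ T η x z * θ x‖ ≤
      cd μ T η x z * (τ / 2) := by
    filter_upwards [hnull] with z hz
    by_cases hzx : dist z x ≤ L * η
    · have hzs : z ∈ T.source := hsrc x hx (by rw [mem_ball]; linarith)
      have hzΩ : z ∈ Ω := by
        by_contra hc
        exact hz ⟨hTD hzs, hc⟩
      have h1 := hun x hx z (by rw [mem_ball]; linarith)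
      rw [Real.dist_eq] at h1
      rw [hff z ⟨hzs, hzΩ⟩]
      have e1 : cd μ T η x z * (f z + θ z) - cd μ T η x z * f z - cd μ T η x z * θ x =
        cd μ T η x z * (θ z - θ x) := by ring
      rw [e1, norm_mul, Real.norm_eq_abs, Real.norm_eq_abs, abs_of_nonneg (hd1.1.nonneg z)]
      exact mul_le_mul_of_nonneg_left h1 (hd1.1.nonneg z)
    · have h1 := hd1.1.supp z (fun hc => hzx (by simpa using hc))
      rw [h1]; simp
  have hIm : AEStronglyMeasurable (fun z => cd μ T η x z * f' (T z)) μ := cd_meas hT hm'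
  have hIf' : Integrable (fun z => cd μ T η x z * f' (T z)) μ := by
    refine (hI.norm.const_mul B').mono' hIm ?_
    refine ae_of_all _ fun z => ?_
    rw [norm_mul, mul_comm]
    exact mul_le_mul_of_nonneg_right (hB' _) (norm_nonneg _)
  have hint : ∫ z, (cd μ T η x z * f' (T z) - cd μ T η x z * f z - cd μ T η x z * θ x) ∂μ =
      mo μ f' η (T x) - ∫ z, cd μ T η x z * f z ∂μ - θ x := by
    have e1 : ∫ z, (cd μ T η x z * f' (T z) - cd μ T η x z * f z - cd μ T η x z * θ x) ∂μ =
        ∫ z, (cd μ T η x z * f' (T z) - cd μ T η x z * f z) ∂μ - ∫ z, cd μ T η x z * θ x ∂μ :=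
      integral_sub (hIf'.sub hIf) (hI.mul_const _)
    rw [e1, integral_sub hIf' hIf, integral_mul_const, hd1.1.one, one_mul, hch]
  have h2 := norm_integral_le_of_norm_le (hI.mul_const (τ / 2)) hae
  rw [hint, integral_mul_const, hd1.1.one, one_mul, Real.norm_eq_abs] at h2
  have e3 : mo μ f' η (T x) - mo μ f η x - θ x =
      (mo μ f' η (T x) - ∫ z, cd μ T η x z * f z ∂μ - θ x) +
      (∫ z, cd μ T η x z * f z ∂μ - mo μ f η x) := by ring
  rw [e3]
  refine (abs_add_le _ _).trans ?_
  linarith

end Crest.Agent.R281.Bdd6_791
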