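import Crest.Agent.R281.Blk6_592

/-!
# R281 (S0424), blocks of members (helper592), part 7: the total form is the sum of the block forms

* `hp_seg`      : `hp (seg Y) (seg Z) = ∏ hp (Y k) (Z k)`
* `fsh_dseg`    : `fsh (seg X) (dseg X U) (dseg X V) = ∑ fsh (X k) (U k) (V k)`
* `dRel_dec`    : a velocity of the Segre cone is `c • dseg X U + b • x`
* `fsv_seg`     : `fsv x u v = ∑ k, fsv (ext k a x) (ext k a u) (ext k a v)` on the Segre cone
* `FS_eq_sum`   : `FS.sg = ∑ k, (segB k).sg` on velocities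
* `pull_FS_sum` : `(FS.pull P).w = ∑ k, ((segB k).pull P).w`
-/

set_option autoImplicit false
set_option linter.unusedSectionVars false
set_option synthInstance.maxHeartbeats 100000

open Set Filter Topology Complex Function
open scoped ContDiff Matrix ComplexConjugate Manifold ComplexOrder

namespace Crest.Agent.R281.Blk_592

open Crest.Agent.R275.Geo Crest.Agent.R275.Core144
open Crest.Agent.R273.Defs_333 Crest.Agent.R273.Hess_333 Crest.Agent.R273.HessB_333
open Crest.Agent.R273.HM_333 Crest.Agent.R273.Kah_333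
open Crest.Agent.R281.HkR_835 Crest.Agent.R281.Ehr2_268 Crest.Agent.R281.Pe_313
open Crest.Agent.R281.Phl_655

noncomputable section

section hp

variable {T : Type} [Fintype T]

theorem hp_sum_left {κ : Type} (s : Finset κ) (f : κ → T → ℂ) (w : T → ℂ) :
    hp (∑ i ∈ s, f i) w = ∑ i ∈ s, hp (f i) w := by
  classical
  induction s using Finset.induction_on with
  | empty => simp [hp]
  | insert i s hi ih => rw [Finset.sum_insert hi, Finset.sum_insert hi, hp_add_left, ih]

theorem hp_sum_right {κ : Type} (s : Finset κ) (f : κ → T → ℂ) (w : T → ℂ) :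
    hp w (∑ i ∈ s, f i) = ∑ i ∈ s, hp w (f i) := by
  classical
  induction s using Finset.induction_on with
  | empty => simp [hp]
  | insert i s hi ih => rw [Finset.sum_insert hi, Finset.sum_insert hi, hp_add_right, ih]

theorem fsh_sum {κ κ' : Type} (s : Finset κ) (s' : Finset κ') (f : κ → T → ℂ) (g : κ' → T → ℂ)
    (x : T → ℂ) : fsh x (∑ i ∈ s, f i) (∑ j ∈ s', g j) = ∑ i ∈ s, ∑ j ∈ s', fsh x (f i) (g j) := by
  unfold fsh
  simp only [Finset.sum_sub_distrib, ← Finset.sum_div]
  congr 1
  · rw [hp_sum_left]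
    congr 1
    exact Finset.sum_congr rfl fun i _ => hp_sum_right _ _ _
  · rw [hp_sum_left, hp_sum_right, Finset.sum_mul_sum]

theorem hp_reindex {S : Type} [Fintype S] (e : S ≃ T) (v w : T → ℂ) :
    hp (fun s => v (e s)) (fun s => w (e s)) = hp v w :=
  Equiv.sum_comp e fun t => v t * conj (w t)

theorem fsh_reindex {S : Type} [Fintype S] (e : S ≃ T) (x v w : T → ℂ) :
    fsh (fun s => x (e s)) (fun s => v (e s)) (fun s => w (e s)) = fsh x v w := by
  unfold fsh
  rw [hp_reindex, hp_reindex, hp_reindex, hp_reindex]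

/-- the Fubini-Study form does not see the numbering of the coordinates -/
theorem fsv_reindex {S : Type} [Fintype S] (e : S ≃ T) (x v w : T → ℂ) :
    fsv (fun s => x (e s)) (fun s => v (e s)) (fun s => w (e s)) = fsv x v w := by
  unfold fsv
  rw [fsh_reindex]

theorem fsv_bE {K : ℕ} (e : T ≃ Fin (K + 1)) (x v w : T → ℂ) :
    fsv (bE e x) (bE e v) (bE e w) = fsv x v w := by
  have h : ∀ y : T → ℂ, (bE e y : Fin (K + 1) → ℂ) = fun s => y (e.symm s) := by
    intro y
    funext s
    exact bE_apply e y s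
  rw [h, h, h]
  exact fsv_reindex e.symm x v w

end hp

section seg

variable {ι : Type} [Fintype ι] [DecidableEq ι] {J : ι → Type} [∀ k, Fintype (J k)]

theorem hp_seg (Y Z : ∀ k, J k → ℂ) : hp (seg Y) (seg Z) = ∏ k, hp (Y k) (Z k) := by
  unfold hp
  rw [Finset.prod_univ_sum, Fintype.piFinset_univ]
  refine Finset.sum_congr rfl fun a _ => ?_
  rw [seg, seg, map_prod, Finset.prod_mul_distrib]

theorem dseg_eq (X U : ∀ k, J k → ℂ) : dseg X U = ∑ k, seg (update X k (U k)) := by
  funext a
  rw [Finset.sum_apply]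
  refine Finset.sum_congr rfl fun k _ => ?_
  rw [seg_eq (update X k (U k)) k a, update_self]
  congr 1
  refine Finset.prod_congr rfl fun l hl => ?_
  rw [update_of_ne (Finset.ne_of_mem_erase hl)]

/-- product over the blocks different from `k` -/
theorem prod_upd_left (X : ∀ k, J k → ℂ) (k : ι) (y : J k → ℂ) (Z : ∀ k, J k → ℂ) :
    ∏ m, hp (update X k y m) (Z m) = hp y (Z k) * ∏ m ∈ Finset.univ.erase k, hp (X m) (Z m) := by
  rw [← Finset.mul_prod_erase Finset.univ _ (Finset.mem_univ k), update_self]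
  congr 1
  refine Finset.prod_congr rfl fun l hl => ?_
  rw [update_of_ne (Finset.ne_of_mem_erase hl)]

theorem prod_upd_right (X : ∀ k, J k → ℂ) (k : ι) (y : J k → ℂ) (Z : ∀ k, J k → ℂ) :
    ∏ m, hp (Z m) (update X k y m) = hp (Z k) y * ∏ m ∈ Finset.univ.erase k, hp (Z m) (X m) := by
  rw [← Finset.mul_prod_erase Finset.univ _ (Finset.mem_univ k), update_self]
  congr 1
  refine Finset.prod_congr rfl fun l hl => ?_
  rw [update_of_ne (Finset.ne_of_mem_erase hl)]

/-- the form of a product on product velocities -/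
theorem fsh_dseg {X : ∀ k, J k → ℂ} (hX : ∀ k, X k ≠ 0) (U V : ∀ k, J k → ℂ) :
    fsh (seg X) (dseg X U) (dseg X V) = ∑ k, fsh (X k) (U k) (V k) := by
  have hR : ∀ m, hp (X m) (X m) ≠ 0 := fun m => hp_self_ne (hX m)
  rw [dseg_eq, dseg_eq, fsh_sum]
  refine Finset.sum_congr rfl fun k _ => ?_
  have hk : ∏ m ∈ Finset.univ.erase k, hp (X m) (X m) ≠ 0 :=
    Finset.prod_ne_zero_iff.2 fun m _ => hR m
  have eX : hp (seg X) (seg X) = hp (X k) (X k) * ∏ m ∈ Finset.univ.erase k, hp (X m) (X m) := by
    rw [hp_seg, ← Finset.mul_prod_erase Finset.univ _ (Finset.mem_univ k)]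
  have eU : hp (seg (update X k (U k))) (seg X) =
      hp (U k) (X k) * ∏ m ∈ Finset.univ.erase k, hp (X m) (X m) := by
    rw [hp_seg, prod_upd_left]
  rw [Finset.sum_eq_single k]
  · have eV : hp (seg X) (seg (update X k (V k))) =
        hp (X k) (V k) * ∏ m ∈ Finset.univ.erase k, hp (X m) (X m) := by
      rw [hp_seg, prod_upd_right]
    have eUV : hp (seg (update X k (U k))) (seg (update X k (V k))) =
        hp (U k) (V k) * ∏ m ∈ Finset.univ.erase k, hp (X m) (X m) := by
      rw [hp_seg, prod_upd_left, update_self]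
      congr 1
      refine Finset.prod_congr rfl fun m hm => ?_
      rw [update_of_ne (Finset.ne_of_mem_erase hm)]
    unfold fsh
    rw [eX, eU, eV, eUV]
    have := hR k
    field_simp
  · intro l _ hlk
    have hm : l ∈ Finset.univ.erase k := Finset.mem_erase.2 ⟨hlk, Finset.mem_univ l⟩
    have hq : ∏ m ∈ (Finset.univ.erase k).erase l, hp (X m) (X m) ≠ 0 :=
      Finset.prod_ne_zero_iff.2 fun m _ => hR m
    have eK : ∏ m ∈ Finset.univ.erase k, hp (X m) (X m) =
        hp (X l) (X l) * ∏ m ∈ (Finset.univ.erase k).erase l, hp (X m) (X m) :=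
      (Finset.mul_prod_erase (Finset.univ.erase k) (fun m => hp (X m) (X m)) hm).symm
    have hm' : k ∈ Finset.univ.erase l := Finset.mem_erase.2 ⟨hlk.symm, Finset.mem_univ k⟩
    have eV : hp (seg X) (seg (update X l (V l))) =
        hp (X l) (V l) * (hp (X k) (X k) *
          ∏ m ∈ (Finset.univ.erase k).erase l, hp (X m) (X m)) := by
      rw [hp_seg, prod_upd_right, ← Finset.mul_prod_erase (Finset.univ.erase l) _ hm',
        Finset.erase_right_comm]
    have eUV : hp (seg (update X k (U k))) (seg (update X l (V l))) =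
        hp (U k) (X k) * (hp (X l) (V l) *
          ∏ m ∈ (Finset.univ.erase k).erase l, hp (X m) (X m)) := by
      rw [hp_seg, prod_upd_left, update_of_ne hlk.symm,
        ← Finset.mul_prod_erase (Finset.univ.erase k) _ hm, update_self]
      congr 2
      refine Finset.prod_congr rfl fun m hm => ?_
      rw [update_of_ne (Finset.ne_of_mem_erase hm)]
    unfold fsh
    rw [eX, eU, eV, eUV, eK]
    have := hR k
    have := hR l
    field_simp
    ring
  · intro h
    exact absurd (Finset.mem_univ k) h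

/-! ### velocities of the Segre cone -/

theorem DRel.add {x u v : (∀ k, J k) → ℂ} (hu : DRel x u) (hv : DRel x v) : DRel x (u + v) := by
  intro k a a'
  simp only [Pi.add_apply]
  linear_combination hu k a a' + hv k a a'

theorem DRel.smul {x u : (∀ k, J k) → ℂ} (hu : DRel x u) (c : ℂ) : DRel x (c • u) := by
  intro k a a'
  simp only [Pi.smul_apply, smul_eq_mul]
  linear_combination c * hu k a a'

/-- a velocity with vanishing blocks vanishes -/
theorem DRel.zero_of {x w : (∀ k, J k) → ℂ} (hw : DRel x w) {a : ∀ k, J k} (ha : x a ≠ 0)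
    (h0 : ∀ k, ext k a w = 0) (hwa : w a = 0) : w = 0 := by
  suffices H : ∀ (s : Finset ι) (b : ∀ k, J k), (∀ k, k ∉ s → b k = a k) → w b = 0 from
    funext fun b => H Finset.univ b (by simp)
  intro s
  induction s using Finset.induction_on with
  | empty =>
    intro b hb
    have : b = a := funext fun k => hb k (by simp)
    rw [this]
    exact hwa
  | insert k s hk ih =>
    intro b hb
    have h1 := hw k b a
    have h2 : w (update b k (a k)) = 0 := ih _ fun l hl => by
      by_cases hlk : l = k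
      · subst hlk
        simp
      · rw [update_of_ne hlk]
        exact hb l (by simp [hlk, hl])
    have h3 : w (update a k (b k)) = 0 := congrFun (h0 k) (b k)
    rw [hwa, h2, h3] at h1
    simpa [ha] using h1

/-- a velocity with radial blocks is radial -/
theorem DRel.euler {x u : (∀ k, J k) → ℂ} (hx : SegRel x) (hu : DRel x u) {a : ∀ k, J k}
    (ha : x a ≠ 0) (h : ∀ k, ∃ c : ℂ, ext k a u = c • ext k a x) : u = (u a / x a) • x := by
  have h1 := hu.smul_add hx 1 (-(u a / x a))
  have h2 : (1 : ℂ) • u + (-(u a / x a)) • x = 0 := by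
    refine h1.zero_of ha (fun k => ?_) ?_
    · obtain ⟨c, hc⟩ := h k
      have h3 : u a = c * x a := by
        have h4 := congrFun hc (a k)
        rw [ext_self] at h4
        rw [h4]
        show c • ext k a x (a k) = _
        rw [ext_self, smul_eq_mul]
      rw [ext_add, ext_smul, ext_smul, hc, h3, mul_div_cancel_right₀ _ ha, one_smul, neg_smul,
        add_neg_cancel]
    · simp only [Pi.add_apply, Pi.smul_apply, smul_eq_mul]
      field_simp
      ring
  rw [one_smul, neg_smul, add_neg_eq_zero] at h2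
  exact h2

/-- **decomposition of a velocity of the Segre cone** -/
theorem dRel_dec {x u : (∀ k, J k) → ℂ} (hx : SegRel x) (hu : DRel x u) {a : ∀ k, J k}
    (ha : x a ≠ 0) : ∃ b : ℂ, u = (x a * ((x a)⁻¹) ^ Fintype.card ι) •
      dseg (fun k => ext k a x) (fun k => ext k a u) + b • x := by
  set c : ℂ := x a * ((x a)⁻¹) ^ Fintype.card ι with hc
  set X : ∀ k, J k → ℂ := fun k => ext k a x with hX
  set U : ∀ k, J k → ℂ := fun k => ext k a u with hU
  have hxc : x = c • seg X := segRel_eq hx ha
  have h1 : DRel x (dseg X U) := by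
    have h2 := (dRel_dseg X U).smul_left c
    rwa [← hxc] at h2
  have h3 : DRel x (u + (-c) • dseg X U) := hu.add (h1.smul (-c))
  have h4 := h3.euler hx ha (fun k => by
    refine ⟨(-c) * (∑ m ∈ Finset.univ.erase k, U m (a m) *
      ∏ l ∈ (Finset.univ.erase k).erase m, X l (a l)), ?_⟩
    rw [ext_add, ext_smul, ext_dseg, smul_add, smul_smul, smul_smul, ← add_assoc]
    have h5 : ∏ l ∈ Finset.univ.erase k, X l (a l) = x a ^ (Fintype.card ι - 1) := by
      rw [Finset.prod_congr rfl (fun l _ => ext_self l a x), Finset.prod_const,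
        Finset.card_erase_of_mem (Finset.mem_univ k), Finset.card_univ]
    have h6 : c * x a ^ (Fintype.card ι - 1) = 1 := by
      have h7 : Fintype.card ι = Fintype.card ι - 1 + 1 :=
        (Nat.sub_add_cancel (Fintype.card_pos_iff.2 ⟨k⟩)).symm
      have h8 : c = x a * ((x a)⁻¹) ^ (Fintype.card ι - 1 + 1) := by rw [hc, ← h7]
      rw [h8, pow_succ, inv_pow]
      have := pow_ne_zero (Fintype.card ι - 1) ha
      field_simp
    rw [h5, neg_mul, h6, neg_one_smul, add_neg_cancel, zero_add])
  refine ⟨(u + (-c) • dseg X U) a / x a, ?_⟩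
  rw [← h4, neg_smul]
  abel

theorem fsh_seg {x u v : (∀ k, J k) → ℂ} (hx : SegRel x) (hu : DRel x u) (hv : DRel x v)
    {a : ∀ k, J k} (ha : x a ≠ 0) :
    fsh x u v = ∑ k, fsh (ext k a x) (ext k a u) (ext k a v) := by
  obtain ⟨b, hb⟩ := dRel_dec hx hu ha
  obtain ⟨b', hb'⟩ := dRel_dec hx hv ha
  have hX : ∀ k, ext k a x ≠ 0 := fun k => ext_ne ha k
  have hc : x a * ((x a)⁻¹) ^ Fintype.card ι ≠ 0 :=
    mul_ne_zero ha (pow_ne_zero _ (inv_ne_zero ha))
  have hxc := segRel_eq hx ha
  set c : ℂ := x a * ((x a)⁻¹) ^ Fintype.card ι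
  have h1 : fsh x u v = fsh (c • seg fun k => ext k a x)
      (c • dseg (fun k => ext k a x) (fun k => ext k a u) +
        (b * c) • seg fun k => ext k a x)
      (c • dseg (fun k => ext k a x) (fun k => ext k a v) +
        (b' * c) • seg fun k => ext k a x) := by
    rw [mul_smul b c, mul_smul b' c, ← hxc, ← hb, ← hb']
  rw [h1, fsh_bas (seg_ne hX) _ _ hc, fsh_dseg hX]

/-- **the total form is the sum of the block forms** -/
theorem fsv_seg {x u v : (∀ k, J k) → ℂ} (hx : SegRel x) (hu : DRel x u) (hv : DRel x v)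
    {a : ∀ k, J k} (ha : x a ≠ 0) :
    fsv x u v = ∑ k, fsv (ext k a x) (ext k a u) (ext k a v) := by
  unfold fsv
  rw [fsh_seg hx hu hv ha, Finset.mul_sum, re_sum]

/-- the same with the values of `segB` -/
theorem fsv_sgv {x u v : (∀ k, J k) → ℂ} (h0 : x ≠ 0) (hx : SegRel x) (hu : DRel x u)
    (hv : DRel x v) : fsv x u v = ∑ k, sgv k x u v := by
  obtain ⟨a, ha⟩ := exists_nz h0
  rw [fsv_seg hx hu hv ha]
  exact Finset.sum_congr rfl fun k _ => (sgv_eq k hx hu hv ha).symm

theorem FS_eq_sum {x u v : (∀ k, J k) → ℂ} (hx : x ∈ segK J) (hu : V1 (segK J) x u)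
    (hv : V1 (segK J) x v) :
    (FS (∀ k, J k)).sg x u v = ∑ k, (segB k : B1 (segK J)).sg x u v :=
  fsv_sgv hx.1 hx.2 (dRel_of_V1 hu) (dRel_of_V1 hv)

end seg

/-! ### members -/

section mem

variable {M : Type} [TopologicalSpace M]
variable {V : Type} [NormedAddCommGroup V] [NormedSpace ℝ V] {C : RCh V M}
variable {ι : Type} [Fintype ι] [DecidableEq ι] {J : ι → Type} [∀ k, Fintype (J k)]
variable {P : HEmb C ((∀ k, J k) → ℂ)}

theorem vel_seg (hS : ∀ w ∈ P.cone, SegRel w) {i : C.ι} {y : V} (hy : y ∈ (C.e i).target)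
    (v : V) : V1 (segK J) (P.u i y) (fderiv ℝ (P.u i) y v) := by
  have hm : ∀ᶠ y' in 𝓝 y, P.u i y' ∈ segK J := by
    filter_upwards [(C.e i).open_target.mem_nhds hy] with y' hy'
    exact inK_seg hS i y' hy'
  exact vel_of (S := {p : ℂ × ((∀ k, J k) → ℂ) | p.2 ∈ segK J}) (c := 0) (smP P hy) hm v

/-- **on a member: the pull back of the total form is the sum of the pull backs of the block
forms** -/
theorem pull_FS_sum (hS : ∀ w ∈ P.cone, SegRel w) {i : C.ι} {y : V}
    (hy : y ∈ (C.e i).target) (v v' : V) :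
    ((FS (∀ k, J k)).pull FS_co P inK_nz).w i y v v' =
      ∑ k, ((segB k).pull segK_co P (inK_seg hS)).w i y v v' := by
  rw [B1.pull_w _ _ _ _ hy]
  rw [Finset.sum_congr rfl fun k _ => B1.pull_w (segB k) segK_co P (inK_seg hS) hy v v']
  exact FS_eq_sum (inK_seg hS i y hy) (vel_seg hS hy v) (vel_seg hS hy v')

end mem

end

end Crest.Agent.R281.Blk_592
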