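import Crest.Agent.R281.Ce6_551

/-!
# Row 281, CHART-END, part 7 (helper551): composition

* `bx F x`      : the class `b_x = -v + N x e`
* `BoxSide R`   : (A) the members of the box as moves (835)
* `EndSide R`   : (B) the members of the end as moves (151)
* `endIso_of`   : `BoxSide`, `EndSide`, `chart_side` ⇒ `EndIso R x` for `x` near `x₁`
-/

set_option autoImplicit false
set_option maxSynthPendingDepth 3
set_option linter.unusedSectionVars false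

open Set Filter Topology
open scoped ContDiff

namespace Crest.Agent.R281.Ce_551

open Crest.Agent.R260.ACM_580
open Crest.Agent.R281.HkR_835 Crest.Agent.R281.Ti_846 Crest.Agent.R281.Alg_998
open Crest.Agent.R281.Dif_268 Crest.Agent.R281.Nef_252 Crest.Agent.R281.NefO_476
open Crest.Agent.R281.Bx_557
open Crest.Agent.R281.RkD_902

noncomputable section

variable {V X : Type} [NormedAddCommGroup V] [NormedSpace ℝ V] [TopologicalSpace X]
  {C : RCh V X} {Q : F2 C →ₗ[ℝ] F2 C →ₗ[ℝ] ℝ}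

/-- the class `b_x` -/
def bx (F : Frm C Q) (x : ℝ) : F2 C := -F.v + (F.N * x) • F.e

theorem bx_eq (F : Frm C Q) (x1 x : ℝ) : bx F x = bx F x1 + (F.N * (x - x1)) • F.e := by
  unfold bx
  module

theorem bx_sq (hQ : QHk C Q) (F : Frm C Q) (x : ℝ) : Q (bx F x) (bx F x) = F.N := by
  unfold bx
  simp only [map_add, map_neg, map_smul, LinearMap.add_apply, LinearMap.neg_apply,
    LinearMap.smul_apply, smul_eq_mul, F.v_v, F.e_v, hQ.symm F.v F.e, F.e_e]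
  ring

variable {H0 : HkT C} {e : F2 C} {Alg : AlgT Q} {B : Box Q H0 e}

/-- (A) the members of the box over `a`, `c x` -/
structure BoxSide (R : Road Alg B) : Prop where
  rot : ∃ θ0 : ℝ, |θ0| < Real.pi / 2 ∧ ∀ x, R.c x ∈ B.D → ∀ K : HkT C,
    MvTo (Gt (B.H R.a (R.c R.x1)) θ0) (bx R.F x) K → SameTw K (B.H R.a (R.c x))
  cl : ∀ x, R.c x ∈ B.D → ∃ α β : ℝ, 0 < α ∧ 0 < β ∧ Cl R.A (α • (B.H R.a (R.c x)).om 1) ∧
    Cl (bx R.F x) (β • (B.H R.a (R.c x)).om 2)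

/-- (B) the members of the end -/
def EndSide (R : Road Alg B) : Prop :=
  ∃ (G' : HkT C) (r δ : ℝ), 0 < r ∧ 0 < δ ∧
    (∀ i, ∀ z ∈ (C.e i).target, ∀ v, G'.J 0 i z v = (B.H R.a (R.c R.x1)).J 0 i z v) ∧
    Eqv (G'.om 1) (r • (B.H R.a (R.c R.x1)).om 1) ∧
    Eqv (G'.om 2) (r • (B.H R.a (R.c R.x1)).om 2) ∧
    ∀ x, |x - R.x1| < δ → ∀ K' : HkT C, MvTo G' (bx R.F x) K' →
      ∃ (N' : HkT C) (α β : ℝ), 0 < α ∧ 0 < β ∧ SameTw K' N' ∧ Cl R.A (α • N'.om 1) ∧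
        Cl (bx R.F x) (β • N'.om 2) ∧
        ∃ K : ℝ → HkT C, SmH K ∧ ∀ t : ℝ, MemN R.K ⟨x, R.K.Y + Real.exp t⟩ (K t) ∧
          IsoId (ofHk N' 0) (ofHk (K t) 1)

variable [FiniteDimensional ℝ V] [CompactSpace X] [T2Space X]

/-- **chart member = end member** -/
theorem endIso_of (hQ : QHk C Q) (hI : IsoFam C) (hM : MoveFam Q) (hU : UniqMv C)
    (ht : ∀ H : HkT C, 0 < Q (H.om 0) (H.om 0) → ∀ x : F2 C, Q x (H.om 1) = 0 →
      Q x (H.om 2) = 0 → ∃ y, Cl y x ∧ T11 (ofHk H 0) y)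
    (R : Road Alg B) (hA : BoxSide R) (hB : EndSide R) :
    ∃ δ : ℝ, 0 < δ ∧ ∀ x : ℝ, |x - R.x1| < δ → EndIso R x := by
  obtain ⟨θ0, hθ0, hrot⟩ := hA.rot
  obtain ⟨G', r, δB, hr, hδB, hJ, e1, e2, hend⟩ := hB
  obtain ⟨α, β, hα, hβ, cA, cb⟩ := hA.cl R.x1 R.cD
  set M := B.H R.a (R.c R.x1) with hM'
  have hQM : 0 < Q (M.om 0) (M.om 0) := B.pos2 _ R.aB _ R.cD
  have hQb : ∀ x, Q R.A (bx R.F x) = 0 := fun x => by
    unfold bx
    simp [R.Av, R.Ae]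
  -- `e` is of type (1,1)
  have q1 : Q R.F.e (M.om 1) = 0 := by
    have k1 := hQ.cl_right cA R.F.e
    rw [hQ.symm, R.Ae, map_smul, smul_eq_mul] at k1
    exact (mul_eq_zero.1 k1.symm).resolve_left hα.ne'
  have q2 : Q R.F.e (M.om 2) = 0 := by
    have k1 := hQ.cl_right cb R.F.e
    have k2 : Q R.F.e (bx R.F R.x1) = 0 := by
      unfold bx
      simp [R.F.e_v, R.F.e_e]
    rw [k2, map_smul, smul_eq_mul] at k1
    exact (mul_eq_zero.1 k1.symm).resolve_left hβ.ne'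
  obtain ⟨Ef, hEf, hE⟩ := ht M hQM R.F.e q1 q2
  have hb : ∀ t : ℝ, bx R.F R.x1 + t • R.F.e = bx R.F (R.x1 + t / R.F.N) := fun t => by
    rw [bx_eq R.F R.x1 (R.x1 + t / R.F.N)]
    congr 2
    have := R.F.hN.ne'
    field_simp
    ring
  obtain ⟨δ, hδ, hcs⟩ := chart_side hQ hI hM hU hJ hr e1 e2 hE hEf.symm hβ cA cb R.AA
    (fun t => by rw [hb, bx_sq hQ]; exact R.F.hN) (fun t => by rw [hb, hQb]) hθ0
  -- `c x` stays in `D`
  obtain ⟨δD, hδD, hD⟩ : ∃ δ : ℝ, 0 < δ ∧ ∀ x, |x - R.x1| < δ → R.c x ∈ B.D := by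
    obtain ⟨δ, hδ, h⟩ := Metric.isOpen_iff.1 (B.oD.preimage R.c_cont) R.x1 R.cD
    exact ⟨δ, hδ, fun x hx => h (by rwa [Metric.mem_ball, Real.dist_eq])⟩
  refine ⟨min δB (min δD (δ / R.F.N)), lt_min hδB (lt_min hδD (div_pos hδ R.F.hN)), ?_⟩
  intro x hx
  have hx1 : |x - R.x1| < δB := lt_of_lt_of_le hx (min_le_left _ _)
  have hx2 : |x - R.x1| < δD := lt_of_lt_of_le hx ((min_le_right _ _).trans (min_le_left _ _))
  have hx3 : |R.F.N * (x - R.x1)| < δ := by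
    rw [abs_mul, abs_of_pos R.F.hN, mul_comm, ← lt_div_iff₀ R.F.hN]
    exact lt_of_lt_of_le hx ((min_le_right _ _).trans (min_le_right _ _))
  obtain ⟨K, K', hK, hK', hiso⟩ := hcs _ hx3
  rw [← bx_eq] at hK hK' hiso
  have hs : SameTw K (B.H R.a (R.c x)) := hrot x (hD x hx2) K hK
  obtain ⟨αx, βx, hαx, hβx, c1, c2⟩ := hA.cl x (hD x hx2)
  obtain ⟨N', α', β', hα', hβ', hs', c1', c2', N, hN, hNt⟩ := hend x hx1 K' hK'
  have hid : IsoId (ofHk (B.H R.a (R.c x)) 0) (ofHk N' 0) :=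
    hiso.isoId hQ R.AA (by rw [bx_sq hQ]; exact R.F.hN) hs hs' hαx hβx hα' hβ' c1 c2 c1' c2'
  exact ⟨N, hN, fun t => ⟨(hNt t).1, Ch_151.isoId_trans hid (hNt t).2⟩⟩

end

end Crest.Agent.R281.Ce_551
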