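import Crest.Agent.R281.Ch4_151
import Crest.Agent.R281.Ce1_551
import Crest.Agent.R281.Tw1_327

/-!
# Row 281, CHART-END (second owner, helper151), part 5: `Iso2` (551) and rotations, moves, pull backs

* `iso2_rot`, `iso2_smulP`, `iso2_heqv`, `iso2_sameTw`, `iso2_pH`
* `Mv2 L K`        : `K` is a move of `L` with fixed `J 2`;  `Has K b` : `b ∼ s om 2 + q om 0`, `s > 0`
* `Mv2.uniq`       : uniqueness up to scaling
* `isoId_of_iso2`  : chart frame `(κ, A, b)`, end frame `(A, κ, -b)`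
-/

set_option autoImplicit false
set_option maxSynthPendingDepth 3
set_option linter.unusedSectionVars false

open Set Filter Topology
open scoped ContDiff

namespace Crest.Agent.R281.Ch_151

open Crest.Agent.R260.ACM_580
open Crest.Agent.R281.Ti_846 hiding pb pb_apply symm2 sm'
open Crest.Agent.R281.Dif_268 Crest.Agent.R281.Cdr_234
open Crest.Agent.R281.HkR_835 Crest.Agent.R281.Alg_998 Crest.Agent.R281.Iso_139
open Crest.Agent.R281.NefO_476 (ofHk Pos AJ)
open Crest.Agent.R281.Nef_252 (T11 KCls Bi HolM)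
open Crest.Agent.R281.RkD_902 (IsoId MemN SameTw)
open Crest.Agent.R281.Ce_551 (Rp Iso2 QHk lin_eqv lin3_w lin3_eq cl_eqv)
open Crest.Agent.R281.Sta2_684 (smulP)

noncomputable section

variable {X : Type} [TopologicalSpace X]
variable {V : Type} [NormedAddCommGroup V] [NormedSpace ℝ V] {C : RCh V X}
variable {a b : F2 C} {G H H' : HkT C} {x y : Fin 3 → ℝ}

/-! ### rotations -/

/-- the rotated coordinates -/
def rc (R : Fin 3 → Fin 3 → ℝ) (x : Fin 3 → ℝ) : Fin 3 → ℝ := fun k => ∑ l, R k l * x l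

theorem tr_mul {R : Fin 3 → Fin 3 → ℝ} (hR : HkT.Fr R) (m l : Fin 3) :
    ∑ k, R k m * R k l = if m = l then 1 else 0 := by
  have h := congrFun (congrFun (Crest.Agent.R281.Tw_327.mulR_tr hR) m) l
  exact h

theorem lin_rot (H : HkT C) {R : Fin 3 → Fin 3 → ℝ} (hR : HkT.Fr R) (x : Fin 3 → ℝ) :
    Eqv (F2.lin (rc R x) (H.rot R hR).om) (F2.lin x H.om) := by
  intro i z hz u v
  rw [F2.lin_w, F2.lin_w]
  have e : ∀ k, ((H.rot R hR).om k).w i z u v = ∑ m, R k m * (H.om m).w i z u v := fun k =>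
    F2.lin_w _ _ _ _ _ _
  calc ∑ k, rc R x k * ((H.rot R hR).om k).w i z u v
      = ∑ k, ∑ l, ∑ m, (R k m * R k l) * (x l * (H.om m).w i z u v) := by
        refine Finset.sum_congr rfl fun k _ => ?_
        rw [e, rc, Finset.sum_mul]
        refine Finset.sum_congr rfl fun l _ => ?_
        rw [Finset.mul_sum]
        exact Finset.sum_congr rfl fun m _ => by ring
    _ = ∑ l, ∑ m, (∑ k, R k m * R k l) * (x l * (H.om m).w i z u v) := by
        rw [Finset.sum_comm]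
        refine Finset.sum_congr rfl fun l _ => ?_
        rw [Finset.sum_comm]
        exact Finset.sum_congr rfl fun m _ => by rw [Finset.sum_mul]
    _ = ∑ l, x l * (H.om l).w i z u v := by
        refine Finset.sum_congr rfl fun l _ => ?_
        simp only [tr_mul hR]
        simp

theorem iso2_rot {R : Fin 3 → Fin 3 → ℝ} (hR : HkT.Fr R) (h1 : Rp H a x) (h2 : Rp H b y) :
    Iso2 a b H (H.rot R hR) :=
  .of_eqv h1 (h1.trans (cl_eqv (lin_rot H hR x).symm)) h2
    (h2.trans (cl_eqv (lin_rot H hR y).symm)) (lin_rot H hR x) (lin_rot H hR y)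

theorem lin_smulP (H : HkT C) {t : ℝ} (ht : 0 < t) (x : Fin 3 → ℝ) :
    Eqv (F2.lin (fun k => x k / t) (smulP t ht H).om) (F2.lin x H.om) := by
  intro i z hz u v
  rw [F2.lin_w, F2.lin_w]
  refine Finset.sum_congr rfl fun k _ => ?_
  show x k / t * (t * (H.om k).w i z u v) = _
  field_simp

theorem iso2_smulP {t : ℝ} (ht : 0 < t) (h1 : Rp H a x) (h2 : Rp H b y) :
    Iso2 a b H (smulP t ht H) :=
  .of_eqv h1 (h1.trans (cl_eqv (lin_smulP H ht x).symm)) h2
    (h2.trans (cl_eqv (lin_smulP H ht y).symm)) (lin_smulP H ht x) (lin_smulP H ht y)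

theorem lin_heqv (h : HEqv H H') (x : Fin 3 → ℝ) : Eqv (F2.lin x H'.om) (F2.lin x H.om) :=
  lin_eqv x fun k i z hz u v => by rw [h.om k i z hz]

theorem iso2_heqv (h : HEqv H H') (h1 : Rp H a x) (h2 : Rp H b y) : Iso2 a b H H' :=
  .of_eqv h1 (h1.trans (cl_eqv (lin_heqv h x).symm)) h2
    (h2.trans (cl_eqv (lin_heqv h y).symm)) (lin_heqv h x) (lin_heqv h y)

/-- coordinates at the second structure -/
theorem iso2_rp (h : Iso2 a b H H') : ∃ x y, Rp H' a x ∧ Rp H' b y := by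
  obtain ⟨φ, ψ, x, x', y, y', -, -, -, h2, -, h4, -, -⟩ := h
  exact ⟨x', y', h2, h4⟩

variable {Q : F2 C →ₗ[ℝ] F2 C →ₗ[ℝ] ℝ}

theorem iso2_sameTw (hQ : QHk C Q) (ha : 0 < Q a a) (h : SameTw G H) (h1 : Rp G a x)
    (h2 : Rp G b y) : Iso2 a b G H := by
  obtain ⟨R, hR, t, ht, he⟩ := h
  have k1 := iso2_rot hR h1 h2
  obtain ⟨x', y', e1, e2⟩ := iso2_rp k1
  have k2 := iso2_smulP ht e1 e2
  obtain ⟨x'', y'', f1, f2⟩ := iso2_rp k2
  exact (k1.trans hQ ha k2).trans hQ ha (iso2_heqv he f1 f2)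

theorem lin_pH (D : DifC C) (H : HkT C) (x : Fin 3 → ℝ) :
    Eqv (F2.lin x (pH D H).om) (D.φ.pull (F2.lin x H.om)) := by
  intro j z hz u v
  obtain ⟨i, hi⟩ := D.φ.exists_dom hz
  rw [D.φ.pull_w _ hi, F2.lin_w, F2.lin_w]
  refine Finset.sum_congr rfl fun k _ => ?_
  rw [pH_om D H k j z hz, D.φ.pull_w _ hi]

theorem iso2_pH (D : DifC C) (h1 : Rp H a x) (h2 : Rp H b y) : Iso2 a b (pH D H) H := by
  refine ⟨D.φ, D.ψ, x, x, y, y, D.bi, fun w => cl_of_coh (D.cls w), ?_, h1, ?_, h2,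
    (lin_pH D H x).symm, (lin_pH D H y).symm⟩
  · exact h1.trans ((cl_of_coh (D.cls _)).symm.trans (cl_eqv (lin_pH D H x)).symm)
  · exact h2.trans ((cl_of_coh (D.cls _)).symm.trans (cl_eqv (lin_pH D H y)).symm)

/-! ### moves with fixed `J 2` -/

/-- `K` is a move of `L` with fixed `J 2` -/
def Mv2 (L K : HkT C) : Prop :=
  ∃ r : ℝ, 0 < r ∧ Eqv (K.om 0) (r • L.om 0) ∧ Eqv (K.om 1) (r • L.om 1)

/-- `b` is in the half plane of `om 2`, `om 0` -/
def Has (K : HkT C) (b : F2 C) : Prop :=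
  ∃ s q : ℝ, 0 < s ∧ Cl b (s • K.om 2 + q • K.om 0)

theorem Mv2.trans {L K M : HkT C} (h : Mv2 L K) (h' : Mv2 K M) : Mv2 L M := by
  obtain ⟨r, hr, e0, e1⟩ := h
  obtain ⟨r', hr', e0', e1'⟩ := h'
  refine ⟨r' * r, mul_pos hr' hr, ?_, ?_⟩
  · rw [mul_smul]
    exact e0'.trans (eqv_smul r' e0)
  · rw [mul_smul]
    exact e1'.trans (eqv_smul r' e1)

/-- **uniqueness of the move** -/
theorem Mv2.uniq [FiniteDimensional ℝ V] [T2Space X] [CompactSpace X] [ConnectedSpace X]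
    {d : ℕ} (hd : 2 ≤ d) (hNN : NNat V d) (hQ : QHk C Q) {L K K' : HkT C}
    (hL : Q (L.om 0) (L.om 0) ≠ 0) (h : Mv2 L K) (h' : Mv2 L K') (hb : Has K b) (hb' : Has K' b) :
    ∃ (l : ℝ) (hl : 0 < l), HEqv (scl K l hl) K' := by
  obtain ⟨r, hr, e0, e1⟩ := h
  obtain ⟨r', hr', e0', e1'⟩ := h'
  obtain ⟨s, q, hs, c⟩ := hb
  obtain ⟨s', q', hs', c'⟩ := hb'
  have o : Q (K.om 2) (L.om 0) = 0 := by
    have e := hQ.ort K 0 2 (by decide)
    rw [hQ.cl_left (cl_eqv e0), map_smul, LinearMap.smul_apply, smul_eq_mul, hQ.symm] at e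
    exact (mul_eq_zero.1 e).resolve_left hr.ne'
  have o' : Q (K'.om 2) (L.om 0) = 0 := by
    have e := hQ.ort K' 0 2 (by decide)
    rw [hQ.cl_left (cl_eqv e0'), map_smul, LinearMap.smul_apply, smul_eq_mul, hQ.symm] at e
    exact (mul_eq_zero.1 e).resolve_left hr'.ne'
  have d1 : Cl b (s • K.om 2 + (q * r) • L.om 0) := c.trans (Cl.add (Cl.refl _) (by
    rw [mul_smul]
    exact Cl.smul q (cl_eqv e0)))
  have d2 : Cl b (s' • K'.om 2 + (q' * r') • L.om 0) := c'.trans (Cl.add (Cl.refl _) (by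
    rw [mul_smul]
    exact Cl.smul q' (cl_eqv e0')))
  have e : q * r = q' * r' := by
    have f1 := hQ.cl_left d1 (L.om 0)
    have f2 := hQ.cl_left d2 (L.om 0)
    simp only [map_add, map_smul, LinearMap.add_apply, LinearMap.smul_apply, smul_eq_mul, o, o',
      mul_zero, zero_add] at f1 f2
    exact mul_right_cancel₀ hL (f1.symm.trans f2)
  have g1 : Cl (s • K.om 2) (s' • K'.om 2) := by
    have h1 := Cl.add (d1.symm.trans d2) (Cl.refl (-(q * r) • L.om 0))
    have h2 : s • K.om 2 + (q * r) • L.om 0 + -(q * r) • L.om 0 = s • K.om 2 := by module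
    have h3 : s' • K'.om 2 + (q' * r') • L.om 0 + -(q * r) • L.om 0 = s' • K'.om 2 := by
      rw [e]
      module
    rwa [h2, h3] at h1
  set l : ℝ := s / s' with hl
  have hl0 : 0 < l := div_pos hs hs'
  have g2 : Cl (K'.om 2) (l • K.om 2) := by
    have h1 := Cl.smul s'⁻¹ g1.symm
    rw [smul_smul, inv_mul_cancel₀ hs'.ne', one_smul, smul_smul] at h1
    rw [hl, div_eq_inv_mul]
    exact h1
  have hJ : ∀ i, ∀ z ∈ (C.e i).target, ∀ v, K'.J 2 i z v = K.J 2 i z v := by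
    refine J_of_om (k := 2) (l := 0) (m := 1) (Or.inr (Or.inr rfl)) (r := r' / r)
      (div_pos hr' hr).ne' ?_ ?_
    · intro i z hz u v
      have h1 := e0 i z hz u v
      have h2 := e0' i z hz u v
      show (K'.om 0).w i z u v = r' / r * (K.om 0).w i z u v
      rw [h1, h2]
      show r' * (L.om 0).w i z u v = r' / r * (r * (L.om 0).w i z u v)
      field_simp
    · intro i z hz u v
      have h1 := e1 i z hz u v
      have h2 := e1' i z hz u v
      show (K'.om 1).w i z u v = r' / r * (K.om 1).w i z u v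
      rw [h1, h2]
      show r' * (L.om 1).w i z u v = r' / r * (r * (L.om 1).w i z u v)
      field_simp
  refine ⟨l, hl0, (uniq_move2 hd hNN (scl K l hl0) K' hJ (r := r' / (r * l))
    (by positivity) ?_ ?_ g2).2⟩
  · intro i z hz u v
    have h1 := e0 i z hz u v
    have h2 := e0' i z hz u v
    show (K'.om 0).w i z u v = r' / (r * l) * (l * (K.om 0).w i z u v)
    rw [h1, h2]
    show r' * (L.om 0).w i z u v = r' / (r * l) * (l * (r * (L.om 0).w i z u v))
    field_simp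
  · intro i z hz u v
    have h1 := e1 i z hz u v
    have h2 := e1' i z hz u v
    show (K'.om 1).w i z u v = r' / (r * l) * (l * (K.om 1).w i z u v)
    rw [h1, h2]
    show r' * (L.om 1).w i z u v = r' / (r * l) * (l * (r * (L.om 1).w i z u v))
    field_simp

theorem heqv_smulP_scl (H : HkT C) {t : ℝ} (ht : 0 < t) : HEqv (smulP t ht H) (scl H t ht) :=
  ⟨fun _ _ _ _ => rfl, fun _ _ _ _ => rfl, fun _ _ _ => rfl⟩

theorem Mv2.iso2 [FiniteDimensional ℝ V] [T2Space X] [CompactSpace X] [ConnectedSpace X]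
    {d : ℕ} (hd : 2 ≤ d) (hNN : NNat V d) (hQ : QHk C Q) (ha : 0 < Q a a) {c : F2 C}
    {L K K' : HkT C}
    (hL : Q (L.om 0) (L.om 0) ≠ 0) (h : Mv2 L K) (h' : Mv2 L K') (hb : Has K c) (hb' : Has K' c)
    (h1 : Rp K a x) (h2 : Rp K b y) : Iso2 a b K K' := by
  obtain ⟨l, hl, he⟩ := Mv2.uniq hd hNN hQ hL h h' hb hb'
  have k2 := iso2_smulP hl h1 h2
  obtain ⟨x'', y'', f1, f2⟩ := iso2_rp k2
  exact k2.trans hQ ha (iso2_heqv ((heqv_smulP_scl K hl).trans he) f1 f2)

end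

end Crest.Agent.R281.Ch_151
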