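import Crest.Agent.R281.Ce5_551
import Crest.Agent.R281.Ch5_151
import Crest.Agent.R281.Tw2_327

/-!
# Row 281, CHART-END, part 7 (helper835): the box side

* `box_cl`   : the classes of `om 1`, `om 2` of the box member `H a (c x)`: positive multiples of
               `A`, `b_x`
* `frame_of` : two members of one twistor sphere with `[om 1]` positive multiples of `A` differ by
               a rotation `Rt θ` and a scaling
* `box_side` : the moves of `M.rot (Rt θ₀)`, `M = H a (c x₁)`, towards `b_x` are the box members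
-/

set_option autoImplicit false
set_option maxSynthPendingDepth 3
set_option linter.unusedSectionVars false

open Set Filter Topology
open scoped ContDiff

namespace Crest.Agent.R281.Ce7_835

open Crest.Agent.R281.HkR_835 Crest.Agent.R281.Ti_846 Crest.Agent.R281.Alg_998
open Crest.Agent.R281.Dif_268 Crest.Agent.R281.Nef_252 Crest.Agent.R281.NefO_476
open Crest.Agent.R281.RkD_902
open Crest.Agent.R281.Ce_551 (QHk MvTo UniqMv Gt Gt_om0 Gt_om1 Gt_om2 Rt Rt_fr Rp lin3_eq cl_eqv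
  heqv_om heqv_cl eqv_smul')
open Crest.Agent.R281.Ch_151 (J_of_om)
open Crest.Agent.R281.Sta2_684 (smulP)

noncomputable section

variable {V X : Type} [NormedAddCommGroup V] [NormedSpace ℝ V] [TopologicalSpace X]
  {C : RCh V X} {Q : F2 C →ₗ[ℝ] F2 C →ₗ[ℝ] ℝ}

/-! ### classes of the box members -/

theorem cl_inv {x y : F2 C} {s : ℝ} (hs : s ≠ 0) (h : Cl x (s • y)) : Cl y (s⁻¹ • x) := by
  have h1 := (h.smul s⁻¹).symm
  rwa [smul_smul, inv_mul_cancel₀ hs, one_smul] at h1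

section box

variable {H0 : HkT C} {e : F2 C} {Alg : AlgT Q} {B : Box Q H0 e}

theorem q_bx (R : Road Alg B) (x : ℝ) : Q R.A (-R.F.v + (R.F.N * x) • R.F.e) = 0 := by
  rw [map_add, map_neg, map_smul, R.Av, R.Ae]
  simp

theorem q_lco (hQ : QHk C Q) (R : Road Alg B) (x : ℝ) :
    Q (lco B.bas R.a) (lco B.bas (R.c x)) = 0 := by
  obtain ⟨r, -, hA⟩ := R.ha
  rw [hQ.cl_left hA, hQ.cl_right (R.hc x), map_smul, LinearMap.smul_apply, q_bx, smul_zero]

theorem q_a_pos (hQ : QHk C Q) (R : Road Alg B) :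
    0 < Q (lco B.bas R.a) (lco B.bas R.a) := by
  obtain ⟨r, hr, hA⟩ := R.ha
  rw [hQ.cl_left hA, hQ.cl_right hA, map_smul, map_smul, LinearMap.smul_apply, smul_eq_mul,
    smul_eq_mul]
  have := R.AA
  positivity

/-- **the classes of the box members** -/
theorem box_cl (hQ : QHk C Q) (R : Road Alg B) {x : ℝ} (hx : R.c x ∈ B.D) :
    ∃ α β : ℝ, 0 < α ∧ 0 < β ∧ Cl R.A (α • (B.H R.a (R.c x)).om 1) ∧
      Cl (-R.F.v + (R.F.N * x) • R.F.e) (β • (B.H R.a (R.c x)).om 2) := by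
  obtain ⟨r0, hr0, hA⟩ := R.ha
  obtain ⟨s, hs, h1⟩ := B.cl1 R.a R.aB (R.c x) hx
  obtain ⟨s', t', hs', h2⟩ := B.cl2 R.a R.aB (R.c x) hx
  have h3 := hQ.ort (B.H R.a (R.c x)) 1 2 (by decide)
  have ht : t' = 0 := by
    rw [hQ.cl_left h1, hQ.cl_right h2, map_smul, LinearMap.smul_apply, map_add, map_smul, map_smul,
      q_lco hQ R x, smul_zero, zero_add, smul_eq_mul, smul_eq_mul] at h3
    have h4 := (mul_eq_zero.1 h3).resolve_left hs.ne'
    exact (mul_eq_zero.1 h4).resolve_right (q_a_pos hQ R).ne'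
  rw [ht, zero_smul, add_zero] at h2
  refine ⟨(s * r0)⁻¹, s'⁻¹, by positivity, by positivity, ?_, ?_⟩
  · refine cl_inv (by positivity) (h1.trans ?_)
    rw [mul_smul]
    exact hA.smul s
  · exact (R.hc x).symm.trans (cl_inv hs'.ne' h2)

end box

/-! ### rotations -/

theorem eqv_lin3 (H : HkT C) (a : Fin 3 → ℝ) :
    Eqv (F2.lin a H.om) (a 0 • H.om 0 + a 1 • H.om 1 + a 2 • H.om 2) := by
  rw [lin3_eq]
  exact Eqv.refl _

/-- two members of one twistor sphere -/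
theorem frame_of (hQ : QHk C Q) {G M : HkT C} {R : Fin 3 → Fin 3 → ℝ} {hR : HkT.Fr R} {t : ℝ}
    {ht : 0 < t} (he : HEqv (smulP t ht (G.rot R hR)) M) {A b : F2 C} (hA : 0 < Q A A)
    {α β : ℝ} (hα : 0 < α) (hβ : 0 < β) (a1 : Cl A (α • M.om 1)) (a2 : Cl A (β • G.om 1))
    {γ s u : ℝ} (hγ : 0 < γ) (hs : 0 < s) (b1 : Cl b (γ • M.om 2))
    (b2 : Cl b (s • G.om 2 + u • G.om 0)) :
    ∃ θ : ℝ, |θ| < Real.pi / 2 ∧ ∀ k, Eqv ((Gt M θ).om k) (t • G.om k) := by
  have rpA : Rp G A ![0, β, 0] := by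
    unfold Rp
    rw [lin3_eq]
    simpa using a2
  have hG : 0 < Q (G.om 0) (G.om 0) := hQ.rp_pos rpA hA
  have hM : ∀ k, Eqv (M.om k) (t • F2.lin (R k) G.om) := fun k => (heqv_om he k).symm
  have rp' : ∀ (k : Fin 3) (x : F2 C) (c : ℝ), Cl x (c • M.om k) →
      Rp G x (fun m => c * (t * R k m)) := by
    intro k x c hc
    have h1 := hc.trans ((cl_eqv (hM k)).smul c)
    unfold Rp
    rw [lin3_eq] at h1 ⊢
    have e1 : c • t • (R k 0 • G.om 0 + R k 1 • G.om 1 + R k 2 • G.om 2) =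
        (c * (t * R k 0)) • G.om 0 + (c * (t * R k 1)) • G.om 1 + (c * (t * R k 2)) • G.om 2 := by
      module
    rwa [e1] at h1
  have u1 := hQ.rp_uniq hG rpA (rp' 1 A α a1)
  have rpb : Rp G b ![u, 0, s] := by
    unfold Rp
    rw [lin3_eq]
    have e1 : s • G.om 2 + u • G.om 0 = (![u, 0, s] : Fin 3 → ℝ) 0 • G.om 0 +
        (![u, 0, s] : Fin 3 → ℝ) 1 • G.om 1 + (![u, 0, s] : Fin 3 → ℝ) 2 • G.om 2 := by
      simp [add_comm]
    rwa [e1] at b2
  have u2 := hQ.rp_uniq hG rpb (rp' 2 b γ b1)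
  have v10 : (0 : ℝ) = α * (t * R 1 0) := congrFun u1 0
  have v11 : β = α * (t * R 1 1) := congrFun u1 1
  have v12 : (0 : ℝ) = α * (t * R 1 2) := congrFun u1 2
  have w2 : s = γ * (t * R 2 2) := congrFun u2 2
  have r10 : R 1 0 = 0 := by
    rcases mul_eq_zero.1 v10.symm with h | h
    · exact absurd h hα.ne'
    · exact (mul_eq_zero.1 h).resolve_left ht.ne'
  have r12 : R 1 2 = 0 := by
    rcases mul_eq_zero.1 v12.symm with h | h
    · exact absurd h hα.ne'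
    · exact (mul_eq_zero.1 h).resolve_left ht.ne'
  have p11 : 0 < R 1 1 := by
    rw [v11] at hβ
    exact (pos_iff_pos_of_mul_pos ((pos_iff_pos_of_mul_pos hβ).1 hα)).1 ht
  have n1 := hR.nrm 1
  rw [r10, r12] at n1
  have r11 : R 1 1 = 1 := by nlinarith
  have o := hR.ort
  rw [r10, r12, r11] at o
  have r01 : R 0 1 = 0 := by linarith
  have n0 := hR.nrm 0
  rw [r01] at n0
  have c0 : R 2 0 = R 0 1 * R 1 2 - R 0 2 * R 1 1 := by rw [hR.crs]; simp
  have c1 : R 2 1 = R 0 2 * R 1 0 - R 0 0 * R 1 2 := by rw [hR.crs]; simp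
  have c2 : R 2 2 = R 0 0 * R 1 1 - R 0 1 * R 1 0 := by rw [hR.crs]; simp
  rw [r01, r12, r11] at c0
  rw [r10, r12] at c1
  rw [r01, r10, r11] at c2
  have r20 : R 2 0 = -R 0 2 := by linarith
  have r21 : R 2 1 = 0 := by linarith
  have r22 : R 2 2 = R 0 0 := by linarith
  have p00 : 0 < R 0 0 := by
    rw [w2, r22] at hs
    exact (pos_iff_pos_of_mul_pos ((pos_iff_pos_of_mul_pos hs).1 hγ)).1 ht
  have hlt : R 0 2 ^ 2 < 1 := by nlinarith
  have habs : |R 0 2| < 1 := (sq_lt_one_iff_abs_lt_one _).1 hlt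
  obtain ⟨hl, hr⟩ := abs_lt.1 habs
  have hcos : Real.cos (-Real.arcsin (R 0 2)) = R 0 0 := by
    rw [Real.cos_neg, Real.cos_arcsin]
    have : 1 - R 0 2 ^ 2 = R 0 0 ^ 2 := by linarith
    rw [this, Real.sqrt_sq p00.le]
  have hsin : Real.sin (-Real.arcsin (R 0 2)) = -R 0 2 := by
    rw [Real.sin_neg, Real.sin_arcsin hl.le hr.le]
  refine ⟨-Real.arcsin (R 0 2), ?_, ?_⟩
  · rw [abs_neg, abs_lt]
    exact ⟨Real.neg_pi_div_two_lt_arcsin.2 hl, Real.arcsin_lt_pi_div_two.2 hr⟩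
  have m0 : Eqv (M.om 0) (t • (R 0 0 • G.om 0 + R 0 2 • G.om 2)) := by
    refine (hM 0).trans ?_
    rw [lin3_eq, r01, zero_smul, add_zero]
    exact Eqv.refl _
  have m1 : Eqv (M.om 1) (t • G.om 1) := by
    refine (hM 1).trans ?_
    rw [lin3_eq, r10, r12, r11, zero_smul, zero_smul, add_zero, zero_add, one_smul]
    exact Eqv.refl _
  have m2 : Eqv (M.om 2) (t • (-R 0 2 • G.om 0 + R 0 0 • G.om 2)) := by
    refine (hM 2).trans ?_
    rw [lin3_eq, r20, r21, r22, zero_smul, add_zero]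
    exact Eqv.refl _
  intro k
  fin_cases k
  · show Eqv ((Gt M _).om 0) (t • G.om 0)
    rw [Gt_om0, hcos, hsin]
    intro i z hz x y
    have f0 := m0 i z hz x y
    have f2 := m2 i z hz x y
    simp only [F2.add_w, F2.smul_w, add_apply, smul_apply, smul_eq_mul] at f0 f2 ⊢
    rw [f0, f2]
    linear_combination (t * (G.om 0).w i z x y) * n0
  · show Eqv ((Gt M _).om 1) (t • G.om 1)
    rw [Gt_om1]
    exact m1
  · show Eqv ((Gt M _).om 2) (t • G.om 2)
    rw [Gt_om2, hcos, hsin]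
    intro i z hz x y
    have f0 := m0 i z hz x y
    have f2 := m2 i z hz x y
    simp only [F2.add_w, F2.smul_w, add_apply, smul_apply, smul_eq_mul] at f0 f2 ⊢
    rw [f0, f2]
    linear_combination (t * (G.om 2).w i z x y) * n0

/-! ### the box side -/

section side

variable {H0 : HkT C} {e : F2 C} {Alg : AlgT Q} {B : Box Q H0 e}

/-- the second moves of the box, from `base a` -/
theorem mvc_to (hQ : QHk C Q) (R : Road Alg B) {x : ℝ} (hx : R.c x ∈ B.D) :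
    ∃ (G : HkT C) (r s u β : ℝ), 0 < r ∧ 0 < s ∧ 0 < β ∧
      Eqv (G.om 0) (r • (B.base R.a).om 0) ∧ Eqv (G.om 1) (r • (B.base R.a).om 1) ∧
      Cl R.A (β • G.om 1) ∧ Cl (-R.F.v + (R.F.N * x) • R.F.e) (s • G.om 2 + u • G.om 0) ∧
      SameTw G (B.H R.a (R.c x)) := by
  obtain ⟨r0, hr0, hA⟩ := R.ha
  obtain ⟨s', hs', h1⟩ := B.base1 R.a R.aB
  obtain ⟨G, r, s, t, u, hr, hs, e0, e1, hcl, hT⟩ := B.mvc R.a R.aB (R.c x) hx
  have hG1 : Cl (G.om 1) ((r * (s' * r0)) • R.A) := by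
    refine (cl_eqv e1).trans ?_
    rw [mul_smul, mul_smul]
    exact (h1.trans (hA.smul s')).smul r
  have hA1 : Cl R.A ((r * (s' * r0))⁻¹ • G.om 1) := cl_inv (by positivity) hG1
  have hQ1 : 0 < Q (G.om 1) (G.om 1) := by
    rw [hQ.cl_left hG1, hQ.cl_right hG1, map_smul, map_smul, LinearMap.smul_apply, smul_eq_mul,
      smul_eq_mul]
    have := R.AA
    positivity
  have hb : Cl (-R.F.v + (R.F.N * x) • R.F.e) (s • G.om 2 + t • G.om 1 + u • G.om 0) :=
    (R.hc x).symm.trans hcl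
  have ht : t = 0 := by
    have h3 := q_bx R x
    rw [hQ.cl_left hA1, hQ.cl_right hb, map_smul, LinearMap.smul_apply, map_add, map_add,
      map_smul, map_smul, map_smul, hQ.ort G 1 2 (by decide), hQ.ort G 1 0 (by decide), smul_zero,
      smul_zero, zero_add, add_zero, smul_eq_mul, smul_eq_mul] at h3
    have h4 := (mul_eq_zero.1 h3).resolve_left (by positivity)
    exact (mul_eq_zero.1 h4).resolve_right hQ1.ne'
  rw [ht, zero_smul, add_zero] at hb
  exact ⟨G, r, s, u, (r * (s' * r0))⁻¹, hr, hs, by positivity, e0, e1, hA1, hb, hT⟩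

/-- **the box side** -/
theorem box_side (hQ : QHk C Q) (hU : UniqMv C) (R : Road Alg B) :
    ∃ θ0 : ℝ, |θ0| < Real.pi / 2 ∧ ∀ x : ℝ, R.c x ∈ B.D → ∀ K : HkT C,
      MvTo (Gt (B.H R.a (R.c R.x1)) θ0) (-R.F.v + (R.F.N * x) • R.F.e) K →
      SameTw K (B.H R.a (R.c x)) := by
  obtain ⟨G1, r1, s1, u1, β1, hr1, hs1, hβ1, e0, e1, hA1, hb1, R1, hR1, t, ht, he⟩ :=
    mvc_to hQ R R.cD
  obtain ⟨α, γ, hα, hγ, a1, b1⟩ := box_cl hQ R R.cD
  obtain ⟨θ0, hθ, hG⟩ := frame_of hQ he R.AA hα hβ1 a1 hA1 hγ hs1 b1 hb1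
  refine ⟨θ0, hθ, fun x hx K hK => ?_⟩
  obtain ⟨G, r, s, u, β, hr, hs, hβ, f0, f1, hA, hb, hT⟩ := mvc_to hQ R hx
  have hbase : 0 < Q ((B.base R.a).om 0) ((B.base R.a).om 0) := by
    obtain ⟨s', hs', h1⟩ := B.base1 R.a R.aB
    rw [← hQ.nrm (B.base R.a) 1, hQ.cl_left h1, hQ.cl_right h1, map_smul, map_smul,
      LinearMap.smul_apply, smul_eq_mul, smul_eq_mul]
    have := q_a_pos hQ R
    positivity
  -- `K` as a move of `base a`
  have k0 : ∀ k, Eqv (G1.om k) (r1 • (B.base R.a).om k) →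
      Eqv ((Gt (B.H R.a (R.c R.x1)) θ0).om k) ((t * r1) • (B.base R.a).om k) := by
    intro k hk
    rw [mul_smul]
    exact (hG k).trans (eqv_smul' t hk)
  have hK' : MvTo (B.base R.a) (-R.F.v + (R.F.N * x) • R.F.e) K := by
    obtain ⟨ρ, hρ, g0, g1⟩ := hK.om
    refine ⟨fun i z hz v => ?_, ⟨ρ * (t * r1), by positivity, ?_, ?_⟩, hK.cl⟩
    · rw [hK.J i z hz]
      exact J_of_om (k := 2) (l := 0) (m := 1) (Or.inr (Or.inr rfl)) (r := t * r1)
        (by positivity) (k0 0 e0) (k0 1 e1) i z hz v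
    · rw [mul_smul]
      exact g0.trans (eqv_smul' ρ (k0 0 e0))
    · rw [mul_smul]
      exact g1.trans (eqv_smul' ρ (k0 1 e1))
  have hG' : MvTo (B.base R.a) (-R.F.v + (R.F.N * x) • R.F.e) (smulP s hs G) := by
    refine ⟨fun i z hz v => ?_, ⟨s * r, by positivity, ?_, ?_⟩, u / s, ?_⟩
    · exact J_of_om (k := 2) (l := 0) (m := 1) (Or.inr (Or.inr rfl)) (r := r) hr.ne' f0 f1 i z hz v
    · rw [mul_smul]
      exact eqv_smul' s f0
    · rw [mul_smul]
      exact eqv_smul' s f1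
    · show Cl _ (s • G.om 2 + (u / s) • s • G.om 0)
      rw [smul_smul, div_mul_cancel₀ _ hs.ne']
      exact hb
  have hKG := hK'.uniq hQ hU hbase hG'
  exact Tw_327.SameTw.trans (Tw_327.SameTw.of_heqv hKG)
    (Tw_327.SameTw.trans (Tw_327.SameTw.symm (Tw_327.sameTw_smulP G hs)) hT)

end side

end

end Crest.Agent.R281.Ce7_835
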