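import Crest.Agent.R281.Mf3_835
import Crest.Agent.R281.Ly4_457
import Crest.Agent.R281.Ce7_551
import Crest.Agent.R281.Ce7_835

/-!
# Row 281, MoveFam (helper835), part 4: unconditional forms

YAU-VAR is `Ly4_457.v0`.

* `yauVar`     : `YauVar C b`
* `moveFamBx`  : `Ctx n C Q` implies 557's `MoveFam C Q`
* `moveFamCe'` : `Ctx n C Q` implies 551's `MoveFam Q`
* `boxSide`    : 551's `BoxSide R`
-/

set_option autoImplicit false
set_option linter.unusedSectionVars false
set_option maxSynthPendingDepth 3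

open Set Filter Topology Function MeasureTheory
open scoped ContDiff

namespace Crest.Agent.R281.Mf_835

open Crest.Agent.R275.Core144 Crest.Agent.R275.EDR890 Crest.Agent.R275.GC293
open Crest.Agent.R275.Geo
open Crest.Agent.R281.HkR_835 hiding pb pb_apply
open Crest.Agent.R281.Al_830
open Crest.Agent.R281.RkD_902

noncomputable section

/-- **YAU-VAR** -/
theorem yauVar {V X : Type} [NormedAddCommGroup V] [NormedSpace ℝ V] [TopologicalSpace X]
    {C : RCh V X} {κ : Type} [Fintype κ] [DecidableEq κ] [FiniteDimensional ℝ V]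
    [MeasurableSpace V] [BorelSpace V] [CompactSpace X] [T2Space X] [ConnectedSpace X]
    (b : Module.Basis κ ℝ V) : YauVar C b :=
  have : CompleteSpace V := FiniteDimensional.complete ℝ V
  yauVar_of_V0 b (Ly4_457.v0 b)

section ctx

variable {n : ℕ} {X : Type} [TopologicalSpace X] [CompactSpace X] [T2Space X]
    [ConnectedSpace X] {C : RCh (Cn (2 * n)) X} {Q : F2 C →ₗ[ℝ] F2 C →ₗ[ℝ] ℝ}

/-- **557's `MoveFam`** -/
theorem moveFamBx (hc : Ctx n C Q) : Bx_557.MoveFam C Q :=
  moveFam hc (yauVar (Fuj7_207.bn (two_mul n)))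

/-- **551's `MoveFam`** -/
theorem moveFamCe' (hc : Ctx n C Q) : Ce_551.MoveFam Q :=
  moveFamCe hc (yauVar (Fuj7_207.bn (two_mul n)))

end ctx

/-- **551's `BoxSide`** -/
theorem boxSide {V X : Type} [NormedAddCommGroup V] [NormedSpace ℝ V] [TopologicalSpace X]
    {C : RCh V X} {Q : F2 C →ₗ[ℝ] F2 C →ₗ[ℝ] ℝ} {H0 : HkT C} {e : F2 C} {Alg : AlgT Q}
    {B : Box Q H0 e} (hQ : Ce_551.QHk C Q) (hU : Ce_551.UniqMv C) (R : Road Alg B) :
    Ce_551.BoxSide R :=
  ⟨Ce7_835.box_side hQ hU R, fun _ hx => Ce7_835.box_cl hQ R hx⟩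

end

end Crest.Agent.R281.Mf_835
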