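import Crest.Agent.R281.Bx9_557
import Crest.Agent.R281.Mf4_835

/-!
# Row 281, G9 BOX (helper557), part 10: `BoxP` without hypotheses
-/

set_option autoImplicit false

namespace Crest.Agent.R281.Bx_557

/-- **the box** -/
theorem boxP : Crest.Agent.R281.RkD_902.BoxP :=
  boxP_of_move fun _ _ _ _ _ _ _ _ hc => Crest.Agent.R281.Mf_835.moveFamBx hc

end Crest.Agent.R281.Bx_557
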