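import Crest.Agent.R281.Mf1_835
import Crest.Agent.R281.RkD_902

/-!
# Row 281, MoveFam (helper835), part 2: the family of moves in the context `Ctx`

* `Ctx.moveFam` : `Ctx n C Q` and YAU-VAR on `C` imply 557's `MoveFam C Q`
-/

set_option autoImplicit false
set_option linter.unusedSectionVars false
set_option maxSynthPendingDepth 3

open Set Filter Topology Function MeasureTheory
open scoped ContDiff

namespace Crest.Agent.R281.Mf_835

open Crest.Agent.R275.Core144 Crest.Agent.R275.EDR890 Crest.Agent.R275.GC293 Crest.Agent.R275.Geo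
open Crest.Agent.R281.HkR_835 hiding pb pb_apply
open Crest.Agent.R281.Ti_846 hiding pb pb_apply
open Crest.Agent.R281.Al_830
open Crest.Agent.R281.Bx_557
open Crest.Agent.R281.RkD_902 (Ctx)

noncomputable section

/-- **the family of moves** -/
theorem moveFam {n : ℕ} {X : Type} [TopologicalSpace X] [CompactSpace X] [T2Space X]
    [ConnectedSpace X] {C : RCh (Cn (2 * n)) X} {Q : F2 C →ₗ[ℝ] F2 C →ₗ[ℝ] ℝ} (hc : Ctx n C Q)
    {κ : Type} [Fintype κ] [DecidableEq κ] {b' : Module.Basis κ ℝ (Cn (2 * n))}
    (hY : YauVar C b') : MoveFam C Q := by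
  obtain ⟨P, q, a, ha, TI, hQ⟩ := hc.top
  exact moveFam_topI TI hY ha hQ

end

end Crest.Agent.R281.Mf_835
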