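import Crest.Agent.R281.Bx8_557
import Crest.Agent.R281.BoxB_327
import Crest.Agent.R281.Mf2_835

/-!
# Row 281, G9 BOX (helper557), part 9: `BoxFam` of 327 and `BoxP` of 902 from YAU-VAR

* `boxFam`     : `Ctx n C Q`, `MoveFam C Q` imply `Nonempty (BoxFam Q bas b0 c0 H0)`
* `boxFamP_of`, `boxP_of_move` : `BoxFamP`, `BoxP` from `MoveFam`
* `boxP_of_yau`: `BoxP` from YAU-VAR (`YauVar C b'` for one basis `b'` of every space)
-/

set_option autoImplicit false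
set_option maxSynthPendingDepth 3
set_option linter.unusedSectionVars false

open Set Filter Topology Metric
open scoped ContDiff Matrix

namespace Crest.Agent.R281.Bx_557

open Crest.Agent.R275.Geo Crest.Agent.R275.Core144 Crest.Agent.R275.GC293
open Crest.Agent.R260.ACM_580 Crest.Agent.R281.HkR_835 Crest.Agent.R281.Ti_846
open Crest.Agent.R281.NefO_476 Crest.Agent.R281.Nef_252 Crest.Agent.R281.Dif_268
open Crest.Agent.R281.Alg_998
open Crest.Agent.R281.Sta2_684 (smulP)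
open Crest.Agent.R281.RkD_902 (Ctx SameTw lco seg BoxP)
open Crest.Agent.R281.BoxB_327 (BoxFam BoxFamP boxP_of)

noncomputable section

section gen

variable {V X : Type} [NormedAddCommGroup V] [NormedSpace ℝ V] [TopologicalSpace X]
  {C : RCh V X} {Q : F2 C →ₗ[ℝ] F2 C →ₗ[ℝ] ℝ} {H0 : HkT C} {m : ℕ} {bas : Fin m → F2 C}
  {b0 c0 : Fin m → ℝ}

theorem lcb_eq_lco (b : Fin m → ℝ) : lcb bas b = lco bas b := rfl

theorem lcb_seg (b b' : Fin m → ℝ) (s : ℝ) :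
    lcb bas (seg b b' s) = (1 - s) • lcb bas b + s • lcb bas b' := by
  simp only [lcb, seg, Pi.add_apply, Pi.smul_apply, smul_eq_mul, add_smul, mul_smul,
    Finset.sum_add_distrib, Finset.smul_sum]

theorem affL_seg {y : Fin m → F2 C} (b b' : Fin m → ℝ) (s : ℝ) :
    affL (pj m) y (seg b b' s) = (1 - s) • affL (pj m) y b + s • affL (pj m) y b' := by
  rw [seg, affL_add, affL_smul, affL_smul]

theorem frA_zero (k l : Fin 3) : frA 0 0 k l = if k = l then 1 else 0 := by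
  fin_cases k <;> fin_cases l <;> simp [frA]

/-- **the two moves** -/
theorem boxFam [FiniteDimensional ℝ V] [CompactSpace X] [T2Space X] (hQ : QD Q)
    (ht : ∀ H : HkT C, 0 < Q (H.om 0) (H.om 0) → ∀ x : F2 C, Q x (H.om 1) = 0 →
      Q x (H.om 2) = 0 → ∃ y, Cl y x ∧ T11 (ofHk H 0) y)
    (hM : MoveFam C Q) (q0 : 0 < Q (H0.om 0) (H0.om 0)) (hb0 : Cl (H0.om 1) (lco bas b0))
    (hc0 : Cl (H0.om 2) (lco bas c0)) : Nonempty (BoxFam Q bas b0 c0 H0) := by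
  obtain ⟨al, ga, y, D1⟩ := Dat1.exists_y hQ q0 ht (b0 := b0) (c0 := c0) (bas := bas)
    hb0.symm hc0.symm
  obtain ⟨T, G, r, hbT, hS, hG⟩ := D1.first hM
  have Z : Dat2 Q H0 bas b0 c0 al ga y D1.y0 T G r := ⟨D1, hS, rfl, hbT, hG⟩
  obtain ⟨ε, M, r2, hε, W⟩ := Z.second hM
  refine ⟨{
    B := ball b0 ε
    D := ball c0 ε
    oB := isOpen_ball
    oD := isOpen_ball
    cB := convex_ball _ _
    cD := convex_ball _ _
    b0B := mem_ball_self hε
    c0D := mem_ball_self hε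
    G1 := G
    w1 := aff (pj m) y D1.y0
    aff1 := ?_
    J1 := fun b hb i z hz => by
      ext v
      exact hS.hJ b (W.BT hb) i z hz v
    om1 := fun b hb => ⟨r b, hS.r0 b (W.BT hb), hS.hB b (W.BT hb) 0 (by decide),
      hS.hB b (W.BT hb) 2 (by decide)⟩
    cls1 := fun b hb => hS.hc b (W.BT hb)
    L := Z.L
    tw1 := fun b hb => Tw_327.sameTw_rot (G b) _
    L0 := fun b hb => Z.cl_L0 (W.BT hb)
    L1 := fun b hb => ⟨_, by positivity, Z.cl_lcb (W.BT hb)⟩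
    M := fun b c => M (b, c)
    w2 := fun b c => lcb bas c - Z.yy 0 b c • (Z.L b).om 0 - Z.yy 1 b c • (Z.L b).om 1
    aff2 := ?_
    J2 := fun b hb c hc i z hz => by
      ext v
      exact W.J2 (b, c) ⟨hb, hc⟩ i z hz v
    om2 := fun b hb c hc => ⟨r2 (b, c), W.r2_pos (b, c) ⟨hb, hc⟩,
      W.om2 (b, c) ⟨hb, hc⟩ 0 (by decide), W.om2 (b, c) ⟨hb, hc⟩ 1 (by decide)⟩
    cls2 := fun b hb c hc => (W.cls (b, c) ⟨hb, hc⟩).trans (Z.cl_w2 (W.BT hb) c)
    tw2 := ?_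
    smM := W.M_sm
    cen := ?_
    a := fun b c => (r2 (b, c))⁻¹ * Z.yy 0 b c
    a_sm := ?_
    prj := fun b hb c hc => ⟨1, (r2 (b, c))⁻¹ * Z.yy 1 b c, one_pos, by
      rw [one_smul, one_mul]
      exact W.prj hb hc⟩
    rep := fun v => ⟨W.ps v, W.ps_sm v, fun b hb c hc => ⟨W.ps_T11 v hb hc, W.ps_Q v hb hc,
      W.ps_cl v hb hc⟩⟩ }⟩
  · intro b hb b' hb' s hs
    have e : aff (pj m) y D1.y0 (seg b b' s) = (1 - s) • aff (pj m) y D1.y0 b +
        s • aff (pj m) y D1.y0 b' := by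
      have h : ∀ b, aff (pj m) y D1.y0 b = affL (pj m) y b + D1.y0 := fun _ => rfl
      rw [h, h, h, affL_seg]
      module
    rw [e]
    exact Cl.refl _
  · intro b hb c hc c' hc' s hs
    have ey : ∀ l, Z.yy l b (seg c c' s) = (1 - s) * Z.yy l b c + s * Z.yy l b c' := by
      intro l
      have e : seg c c' s - c0 = (1 - s) • (c - c0) + s • (c' - c0) := by
        rw [seg]
        module
      rw [Dat2.yy, Dat2.yy, Dat2.yy, e, map_add, map_smul, map_smul]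
      simp only [smul_eq_mul]
      ring
    have e : lcb bas (seg c c' s) - Z.yy 0 b (seg c c' s) • (Z.L b).om 0 -
        Z.yy 1 b (seg c c' s) • (Z.L b).om 1 =
        (1 - s) • (lcb bas c - Z.yy 0 b c • (Z.L b).om 0 - Z.yy 1 b c • (Z.L b).om 1) +
        s • (lcb bas c' - Z.yy 0 b c' • (Z.L b).om 0 - Z.yy 1 b c' • (Z.L b).om 1) := by
      rw [ey, ey, lcb_seg]
      module
    rw [e]
    exact Cl.refl _
  · intro b hb
    have h := W.ini (b, c0) ⟨hb, mem_ball_self hε⟩ _ (Z.yy2_pos (W.BT hb)) (Z.w2_c0 (W.BT hb))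
    exact Tw_327.SameTw.trans (Tw_327.sameTw_smulP (Z.L b) (Z.yy2_pos (W.BT hb)))
      (Tw_327.SameTw.of_heqv h.symm)
  · have hb := mem_ball_self (x := b0) hε
    have h := W.ini (b0, c0) ⟨hb, mem_ball_self hε⟩ _ (Z.yy2_pos (W.BT hb)) (Z.w2_c0 (W.BT hb))
    refine ⟨Z.yy 2 b0 c0, Z.yy2_pos (W.BT hb), fun k => ?_⟩
    have h1 : HEqv (Z.L b0) H0 := by
      refine HEqv.trans (rot_one (G b0) _ fun k l => ?_) hG
      show frA (lf al b0 / r b0) (lf ga b0 / r b0) k l = _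
      rw [Z.al_b0, Z.ga_b0, zero_div, frA_zero]
    have h2 := h.trans (heqv_smulP h1 (Z.yy2_pos (W.BT hb)))
    exact heqv_eqv h2 k
  · have h1 : ball b0 ε ×ˢ ball c0 ε ⊆ T ×ˢ (univ : Set (Fin m → ℝ)) := fun p hp =>
      ⟨W.BT hp.1, mem_univ _⟩
    exact (W.r2_sm.inv fun p hp => (W.r2_pos p hp).ne').mul ((Z.yy_sm 0).mono h1)

end gen

theorem qd_ctx {n : ℕ} {X : Type} [TopologicalSpace X] [CompactSpace X]
    {C : RCh (Cn (2 * n)) X} {Q : F2 C →ₗ[ℝ] F2 C →ₗ[ℝ] ℝ} (hc : Ctx n C Q) : QD Q :=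
  ⟨hc.symm, hc.ex, hc.eq, hc.ort⟩

/-- **`BoxFamP` from the family of moves** -/
theorem boxFamP_of (hM : ∀ (n : ℕ) (X : Type) [TopologicalSpace X] [CompactSpace X] [T2Space X]
    [SimplyConnectedSpace X] (C : RCh (Cn (2 * n)) X) (Q : F2 C →ₗ[ℝ] F2 C →ₗ[ℝ] ℝ),
    Ctx n C Q → MoveFam C Q) : BoxFamP := by
  intro n X _ _ _ _ C Q hc H0 q0 m bas b0 c0 hb0 hc0
  exact boxFam (qd_ctx hc) hc.t11 (hM n X C Q hc) q0 hb0 hc0

/-- **`BoxP` from the family of moves** -/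
theorem boxP_of_move (hM : ∀ (n : ℕ) (X : Type) [TopologicalSpace X] [CompactSpace X]
    [T2Space X] [SimplyConnectedSpace X] (C : RCh (Cn (2 * n)) X)
    (Q : F2 C →ₗ[ℝ] F2 C →ₗ[ℝ] ℝ), Ctx n C Q → MoveFam C Q) : BoxP :=
  boxP_of (boxFamP_of hM)

/-- **`BoxP` from YAU-VAR** -/
theorem boxP_of_yau (hY : ∀ (n : ℕ) (X : Type) [TopologicalSpace X] [CompactSpace X]
    [T2Space X] [ConnectedSpace X] (C : RCh (Cn (2 * n)) X),
    ∃ (N : ℕ) (b' : Module.Basis (Fin N) ℝ (Cn (2 * n))), Al_830.YauVar C b') : BoxP :=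
  boxP_of_move fun n X _ _ _ _ C Q hc => by
    obtain ⟨N, b', hb⟩ := hY n X C
    exact Mf_835.moveFam hc hb

end

end Crest.Agent.R281.Bx_557
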