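import Crest.Agent.R281.QF3_871

/-!
# R281, QFAM (helper871): pointwise certificates

The identities of the certificate are only required at every point of the base (`PCert.OkAt (ev q)`), not
over one coefficient ring: `fam_pt`, `qfamP`, `qfamPM` (over the model `QM M`, coefficients polynomials in
the coordinates `M.pt`).
-/

set_option autoImplicit false
set_option linter.unusedSectionVars false

open Set Filter Topology

namespace Crest.Agent.R281.QF_871

open Crest.Agent.R281.Kr_488 Crest.Agent.R281.KrB1_871 Crest.Agent.R281.KrB2_871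
  Crest.Agent.R281.KrB3_871 Crest.Agent.R281.KrB4_871 Crest.Agent.R281.KrB5_871

noncomputable section

section loc

variable {P : Type*} {n N : ℕ} {R : Type*} [CommRing R] [NormedAddCommGroup P] [NormedSpace ℂ P]
  {ev : P → (R →+* ℂ)} {p0 : P}

/-- **local equations**, identities at every parameter near `p0` -/
theorem exists_loc_pt {κ : KDat n N R} {E : Set (MvPolynomial (Fin (N + 1)) R)}
    (h0 : (mapK κ (ev p0)).Good (MvPolynomial.map (ev p0) '' E))
    (h : ∀ᶠ p in 𝓝 p0, (mapK κ (ev p)).Good (MvPolynomial.map (ev p) '' E))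
    (hE : ∀ᶠ p in 𝓝 p0, ∀ F ∈ E, ∃ m, (MvPolynomial.map (ev p) F).IsHomogeneous m)
    (han : ∀ r, AnalyticAt ℂ (fun p => ev p r) p0)
    {u : EuclideanSpace ℂ (Fin (N + 1))} (hu : u ≠ 0) (hd : val ev κ.dG (p0, u) ≠ 0) :
    ∃ g : P × EuclideanSpace ℂ (Fin (N + 1)) → EuclideanSpace ℂ (Fin (cod κ (ev p0))),
      AnalyticAt ℂ g (p0, u) ∧ Function.Surjective (fderiv ℂ (fun v => g (p0, v)) u) ∧
      ∀ᶠ q in 𝓝 (p0, u), q ∈ KC ev E ↔ g q = 0 := by
  refine ⟨fun q => PiL κ (ev p0) (HV ev κ q), ?_, ?_, ?_⟩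
  · exact ((PiL κ (ev p0)).analyticAt _).comp (analyticAt_HV han κ u)
  · have hd0 : MvPolynomial.eval (fun i => u i) (mapK κ (ev p0)).dG ≠ 0 := by
      rw [dG_map]
      exact hd
    have h1 : (fun v => PiL κ (ev p0) (HV ev κ (p0, v))) =
        fun v => PiL κ (ev p0) (Hv (mapK κ (ev p0)) v) := by
      funext v
      rw [HV_eq]
    have h2 : HasFDerivAt (fun v => PiL κ (ev p0) (Hv (mapK κ (ev p0)) v))
        ((PiL κ (ev p0)).comp (fderiv ℂ (Hv (mapK κ (ev p0))) u)) u :=
      (PiL κ (ev p0)).hasFDerivAt.comp u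
        (analyticAt_Hv (mapK κ (ev p0)) u).differentiableAt.hasFDerivAt
    rw [h1, h2.fderiv]
    intro y
    obtain ⟨x, hx, hxy⟩ := PiL_surj κ (ev p0) y
    obtain ⟨z, _, hz⟩ := D_surj h0 hd0 (mem_K0.mp hx)
    exact ⟨z, by rw [ContinuousLinearMap.comp_apply, hz, hxy]⟩
  · have e1 : ∀ᶠ q in 𝓝 (p0, u), val ev κ.dG q ≠ 0 :=
      (continuousAt_val han κ.dG u).eventually_ne hd
    have e2 : ∀ᶠ q : P × EuclideanSpace ℂ (Fin (N + 1)) in 𝓝 (p0, u), q.2 ≠ 0 :=
      (show ContinuousAt (fun q : P × EuclideanSpace ℂ (Fin (N + 1)) => q.2) (p0, u) from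
        continuousAt_snd).eventually_ne hu
    have hfst : ContinuousAt (fun q : P × EuclideanSpace ℂ (Fin (N + 1)) => q.1) (p0, u) :=
      continuousAt_fst
    have e3 : ∀ᶠ q : P × EuclideanSpace ℂ (Fin (N + 1)) in 𝓝 (p0, u),
        ∀ x, TT (mapK κ (ev q.1)).lam x = 0 → PiL κ (ev p0) x = 0 → x = 0 :=
      hfst.eventually (eventually_inj han κ)
    filter_upwards [e1, e2, e3, hfst.eventually h, hfst.eventually hE] with q h1 h2 h3 hGq hEq'
    have hdq : MvPolynomial.eval (fun i => q.2 i) (mapK κ (ev q.1)).dG ≠ 0 := by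
      rw [dG_map]
      exact h1
    have hEq : ∀ F ∈ MvPolynomial.map (ev q.1) '' E, ∃ m, F.IsHomogeneous m := by
      rintro _ ⟨F, hF, rfl⟩
      exact hEq' F hF
    have key := mem_iff hGq hEq hdq
    constructor
    · intro hq
      have h4 : ∀ k, MvPolynomial.eval (fun i => q.2 i) (Hp (mapK κ (ev q.1)) k) = 0 := by
        refine key.mp ?_
        rintro _ ⟨F, hF, rfl⟩
        exact hq.2 F hF
      have h5 : HV ev κ q = 0 := by
        rw [HV_eq]
        ext k
        rw [Hv_apply]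
        exact h4 k
      show PiL κ (ev p0) (HV ev κ q) = 0
      rw [h5, map_zero]
    · intro hq
      have h5 : HV ev κ q = 0 := by
        refine h3 _ ?_ hq
        rw [HV_eq]
        exact TT_Hv hGq q.2
      refine ⟨h2, fun F hF => ?_⟩
      have h4 : ∀ k, MvPolynomial.eval (fun i => q.2 i) (Hp (mapK κ (ev q.1)) k) = 0 := by
        intro k
        have h6 : HV ev κ q k = 0 := by
          rw [h5]
          rfl
        rw [HV_eq, Hv_apply] at h6
        exact h6
      exact key.mpr h4 _ ⟨F, hF, rfl⟩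

theorem cod_good_pt {κ : KDat n N R} {φ : R →+* ℂ} {E : Set (MvPolynomial (Fin (N + 1)) ℂ)}
    (h : (mapK κ φ).Good E) : cod κ φ = N - n := by
  have h1 := cod_eq κ φ (surj_TT h)
  omega

/-- a certificate whose identities are required pointwise -/
structure PCert (n N : ℕ) (R : Type*) [CommRing R] where
  E : Set (MvPolynomial (Fin (N + 1)) R)
  ι : Type
  κ : ι → KDat n N R

/-- the identities at `φ` -/
structure PCert.OkAt (c : PCert n N R) (φ : R →+* ℂ) : Prop where
  hom : ∀ F ∈ c.E, ∃ m, (MvPolynomial.map φ F).IsHomogeneous m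
  good : ∀ a, (mapK (c.κ a) φ).Good (MvPolynomial.map φ '' c.E)
  cov : ∀ v : EuclideanSpace ℂ (Fin (N + 1)), v ≠ 0 →
    (∀ F ∈ c.E, MvPolynomial.eval (fun i => v i) (MvPolynomial.map φ F) = 0) →
    ∃ a, MvPolynomial.eval (fun i => v i) (MvPolynomial.map φ (c.κ a).dG) ≠ 0

/-- the punctured cone of the member -/
def PCert.cone (c : PCert n N R) (φ : R →+* ℂ) : Set (EuclideanSpace ℂ (Fin (N + 1))) :=
  {w | w ≠ 0 ∧ ∀ F ∈ c.E, MvPolynomial.eval (fun i => w i) (MvPolynomial.map φ F) = 0}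

theorem PCert.mem_cone {c : PCert n N R} {φ : R →+* ℂ} {w : EuclideanSpace ℂ (Fin (N + 1))} :
    w ∈ c.cone φ ↔ w ≠ 0 ∧ ∀ F ∈ c.E, MvPolynomial.eval (fun i => w i) (MvPolynomial.map φ F) = 0 :=
  Iff.rfl

/-- **461's `Fam`** from pointwise identities -/
theorem fam_pt (c : PCert n N R) (hok : ∀ p, c.OkAt (ev p))
    (han : ∀ r, AnalyticAt ℂ (fun p => ev p r) p0) : Eh3_461.Fam (KC ev c.E) p0 where
  conic := by
    rintro p u l hl ⟨h1, h2⟩
    refine ⟨smul_ne_zero hl h1, fun F hF => ?_⟩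
    obtain ⟨m, hm⟩ := (hok p).hom F hF
    have h3 := eval_smul_homog hm l (fun i => u i)
    have h4 : (fun i => (l • u) i) = l • fun i => u i := rfl
    show MvPolynomial.eval (fun i => (l • u) i) (MvPolynomial.map (ev p) F) = 0
    rw [h4, h3]
    have h5 : MvPolynomial.eval (fun i => u i) (MvPolynomial.map (ev p) F) = 0 := h2 F hF
    rw [h5, mul_zero]
  ne := fun p u h => h.1
  closed := by
    intro u hu hnot
    have h1 : ∃ F ∈ c.E, val ev F (p0, u) ≠ 0 := by
      by_contra hcon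
      push Not at hcon
      exact hnot ⟨hu, hcon⟩
    obtain ⟨F, hF, h2⟩ := h1
    filter_upwards [(continuousAt_val han F u).eventually_ne h2] with q hq hqC
    exact hq (hqC.2 F hF)
  loc := fun u hu => by
    obtain ⟨a, hd⟩ := (hok p0).cov u hu.1 hu.2
    obtain ⟨g, h1, h2, h3⟩ := exists_loc_pt (κ := c.κ a) (E := c.E) ((hok p0).good a)
      (Eventually.of_forall fun p => (hok p).good a) (Eventually.of_forall fun p => (hok p).hom)
      han hu.1 hd
    exact ⟨_, g, h1, h2, h3⟩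

end loc

/-- 268's `LocEq`, codimension `N - n`, at every point of the family -/
theorem locEq268_pt {E0 : Type} [NormedAddCommGroup E0] [NormedSpace ℂ E0] [CompleteSpace E0]
    {R : Type*} [CommRing R] {ev : E0 → (R →+* ℂ)} {n N : ℕ} (c : PCert n N R)
    (hok : ∀ p, c.OkAt (ev p)) {q : E0 × EuclideanSpace ℂ (Fin (N + 1))} (hq : q ∈ KC ev c.E)
    (han : ∀ r, AnalyticAt ℂ (fun p => ev p r) q.1) : Ehr2_268.LocEq (KC ev c.E) (N - n) q := by
  obtain ⟨a, hd⟩ := (hok q.1).cov q.2 hq.1 hq.2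
  obtain ⟨g, h1, h2, h3⟩ := exists_loc_pt (κ := c.κ a) (E := c.E) ((hok q.1).good a)
    (Eventually.of_forall fun p => (hok p).good a) (Eventually.of_forall fun p => (hok p).hom)
    han hq.1 hd
  have h4 : cod (c.κ a) (ev q.1) = N - n := cod_good_pt ((hok q.1).good a)
  revert g
  rw [h4]
  intro g h1 h2 h3
  exact (Eh4_461.locEq_of_analytic h1 h2 h3).2

universe uq

section constr

variable {Q : Type uq} [TopologicalSpace Q] {E0 : Type} [NormedAddCommGroup E0] [NormedSpace ℂ E0]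
  {n N : ℕ} {R : Type*} [CommRing R]

theorem evL_mem {u : Q → E0} (hu : IsLocalHomeomorph u) (ev : Q → (R →+* ℂ)) (q0 : Q) (p : E0) :
    ∃ q, evL hu ev q0 p = ev q := by
  unfold evL
  split
  · exact ⟨_, rfl⟩
  · exact ⟨_, rfl⟩

/-- **the constructor**, pointwise certificates -/
def qfamP [FiniteDimensional ℂ E0] {u : Q → E0} (hu : IsLocalHomeomorph u) (c : PCert n N R)
    (ev : Q → (R →+* ℂ)) (han : ∀ r, AnE u fun q => ev q r) (hok : ∀ q, c.OkAt (ev q)) :
    Ehr6_268.QFam Q E0 (EuclideanSpace ℂ (Fin (N + 1))) where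
  u := u
  S := fun q => c.cone (ev q)
  e := locE hu
  mem := mem_locE hu
  coe := fun q0 q _ => coe_locE hu q0 q
  T := fun q0 => KC (evL hu ev q0) c.E
  T_eq := fun q0 q hq w => by
    have h1 : (u q, w) ∈ KC (evL hu ev q0) c.E ↔ w ∈ c.cone (evL hu ev q0 (u q)) := Iff.rfl
    rw [h1, evL_u hu ev q0 hq]
  cm := fun q0 => Eh4_461.exists_coneMap (fam_pt c (fun p => by
    obtain ⟨q, hq⟩ := evL_mem hu ev q0 p
    rw [hq]
    exact hok q) fun r => analyticAt_evL hu (han r) q0)

@[simp] theorem qfamP_u [FiniteDimensional ℂ E0] {u : Q → E0} (hu : IsLocalHomeomorph u)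
    (c : PCert n N R) (ev : Q → (R →+* ℂ)) (han : ∀ r, AnE u fun q => ev q r)
    (hok : ∀ q, c.OkAt (ev q)) : (qfamP hu c ev han hok).u = u := rfl

@[simp] theorem qfamP_S [FiniteDimensional ℂ E0] {u : Q → E0} (hu : IsLocalHomeomorph u)
    (c : PCert n N R) (ev : Q → (R →+* ℂ)) (han : ∀ r, AnE u fun q => ev q r)
    (hok : ∀ q, c.OkAt (ev q)) (q : Q) : (qfamP hu c ev han hok).S q = c.cone (ev q) := rfl

/-- the local equations of the members (input of 268's `Mark.cx`) -/
theorem qfamP_locEq [FiniteDimensional ℂ E0] {u : Q → E0} (hu : IsLocalHomeomorph u)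
    (c : PCert n N R) (ev : Q → (R →+* ℂ)) (han : ∀ r, AnE u fun q => ev q r)
    (hok : ∀ q, c.OkAt (ev q)) (q : Q) (w : EuclideanSpace ℂ (Fin (N + 1)))
    (hw : w ∈ (qfamP hu c ev han hok).S q) :
    Ehr2_268.LocEq ((qfamP hu c ev han hok).T q) (N - n) ((qfamP hu c ev han hok).u q, w) := by
  have : CompleteSpace E0 := FiniteDimensional.complete ℂ E0
  refine locEq268_pt c (fun p => ?_) ?_ fun r => analyticAt_evL hu (han r) q
  · obtain ⟨q', hq'⟩ := evL_mem hu ev q p
    rw [hq']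
    exact hok q'
  · show w ∈ c.cone (evL hu ev q (u q))
    rw [evL_u hu ev q (mem_locE hu q)]
    exact hw

/-- the same for the certificates over a ring -/
theorem qfam_locEq [FiniteDimensional ℂ E0] {u : Q → E0} (hu : IsLocalHomeomorph u)
    (c : Cert n N R) (ev : Q → (R →+* ℂ)) (han : ∀ r, AnE u fun q => ev q r) (q : Q)
    (w : EuclideanSpace ℂ (Fin (N + 1))) (hw : w ∈ (qfam hu c ev han).S q) :
    Ehr2_268.LocEq ((qfam hu c ev han).T q) (N - n) ((qfam hu c ev han).u q, w) := by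
  have : CompleteSpace E0 := FiniteDimensional.complete ℂ E0
  refine locEq268 c.good c.hom c.cov ?_ fun r => analyticAt_evL hu (han r) q
  show w ∈ c.cone (evL hu ev q (u q))
  rw [evL_u hu ev q (mem_locE hu q)]
  exact hw

end constr

/-! ### over the model -/

section model

open Crest.Agent.R281.Sl_957 Crest.Agent.R281.Am_957

variable {k₀ ι : Type*} [Field k₀] [Algebra k₀ ℂ] {M : Fmt k₀ ι}

/-- evaluation of the polynomials in the coordinates -/
def evP (M : Fmt k₀ ι) (q : QM M) : MvPolynomial ι k₀ →+* ℂ :=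
  (MvPolynomial.aeval (M.pt q.1.1 q.1.2) : MvPolynomial ι k₀ →ₐ[k₀] ℂ).toRingHom

theorem evP_apply (M : Fmt k₀ ι) (q : QM M) (G : MvPolynomial ι k₀) :
    evP M q G = MvPolynomial.aeval (M.pt q.1.1 q.1.2) G := rfl

theorem anE_evP (h : M.Nice) (G : MvPolynomial ι k₀) : AnE (zc M) fun q => evP M q G :=
  anE_of_analytic h (F := fun p => MvPolynomial.aeval (M.pt p.1 p.2) G)
    fun q => analyticAt_aeval_pt M G q

/-- **QFam over the model**, pointwise certificates -/
def qfamPM {n N : ℕ} (h : M.Nice) (c : PCert n N (MvPolynomial ι k₀))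
    (hok : ∀ q : QM M, c.OkAt (evP M q)) :
    Ehr6_268.QFam (QM M) (Fin M.m → ℂ) (EuclideanSpace ℂ (Fin (N + 1))) :=
  qfamP (isLocalHomeomorph_zc h) c (evP M) (anE_evP h) hok

@[simp] theorem qfamPM_u {n N : ℕ} (h : M.Nice) (c : PCert n N (MvPolynomial ι k₀))
    (hok : ∀ q : QM M, c.OkAt (evP M q)) : (qfamPM h c hok).u = zc M := rfl

@[simp] theorem qfamPM_S {n N : ℕ} (h : M.Nice) (c : PCert n N (MvPolynomial ι k₀))
    (hok : ∀ q : QM M, c.OkAt (evP M q)) (q : QM M) : (qfamPM h c hok).S q = c.cone (evP M q) := rfl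

theorem qfamPM_locEq {n N : ℕ} (h : M.Nice) (c : PCert n N (MvPolynomial ι k₀))
    (hok : ∀ q : QM M, c.OkAt (evP M q)) (q : QM M) (w : EuclideanSpace ℂ (Fin (N + 1)))
    (hw : w ∈ (qfamPM h c hok).S q) :
    Ehr2_268.LocEq ((qfamPM h c hok).T q) (N - n) ((qfamPM h c hok).u q, w) :=
  qfamP_locEq (isLocalHomeomorph_zc h) c (evP M) (anE_evP h) hok q w hw

end model

end

end Crest.Agent.R281.QF_871
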