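import Crest.Agent.R281.CA4_867
import Crest.Agent.R281.QF4_871

/-!
# R281 (S0424), CERT-ASM, part 5 (helper867): the family of a code over a model

* `Code.pc`         : 871's pointwise certificate of a code; `Good.okAt`;
* `Code.qfam`       : 268's `QFam` over 957's model `QM M`, `S q = cone of the member M.pt q`;
* `Code.imp_at`     : the implications of the form data at every point of the model;
* `Good.finrank`    : tangent spaces of dimension `n + 1` at every point of every member;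
* `Good.exists_fmt` : a model through `c` all of whose points are good.
-/

set_option autoImplicit false

open MvPolynomial Set Filter Topology

namespace Crest.Agent.R281.CA_867

open Crest.Agent.R281.AF_867 Crest.Agent.R281.Kr_488 Crest.Agent.R281.Ns_476
open Crest.Agent.R281.Sl_957 Crest.Agent.R281.Am_957

noncomputable section

variable {k₀ : Type} [Field k₀] [Algebra k₀ ℂ] {n N : ℕ}

theorem mapK_eq {R S : Type*} [CommRing R] [CommRing S] (κ : KDat n N R) (φ : R →+* S) :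
    KrB1_871.mapK κ φ = κ.map φ := rfl

namespace Code

/-- the evaluation at `c` -/
def evc (k₀ : Type) [Field k₀] [Algebra k₀ ℂ] {k : ℕ} (c : Fin k → ℂ) :
    MvPolynomial (Fin k) k₀ →+* ℂ := (aeval c : MvPolynomial (Fin k) k₀ →ₐ[k₀] ℂ).toRingHom

theorem mem_eq (K : Code k₀ n N) (c : Fin K.k → ℂ) : K.mem c = K.Y.map (evc k₀ c) := rfl

/-- 871's pointwise certificate -/
def pc (K : Code k₀ n N) : QF_871.PCert n N (MvPolynomial (Fin K.k) k₀) where
  E := range K.Y.G
  ι := Fin K.Y.q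
  κ := K.Y.κ

theorem pc_E (K : Code k₀ n N) (c : Fin K.k → ℂ) :
    MvPolynomial.map (evc k₀ c) '' K.pc.E = range (K.mem c).G :=
  (K.Y.range_map (evc k₀ c)).symm

theorem pc_cone (K : Code k₀ n N) (c : Fin K.k → ℂ) : K.pc.cone (evc k₀ c) = K.cone c := by
  ext w
  rw [QF_871.PCert.mem_cone]
  unfold cone OnE
  rw [← K.pc_E c]
  constructor
  · rintro ⟨h1, h2⟩
    refine ⟨h1, ?_⟩
    rintro _ ⟨F, hF, rfl⟩
    exact h2 F hF
  · rintro ⟨h1, h2⟩
    exact ⟨h1, fun F hF => h2 _ ⟨F, hF, rfl⟩⟩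

variable {K : Code k₀ n N} {c : Fin K.k → ℂ}

theorem Good.okAt (h : K.Good c) : K.pc.OkAt (evc k₀ c) where
  hom := by
    rintro _ ⟨l, rfl⟩
    exact h.mem_ok.hom l
  good a := by
    rw [K.pc_E c]
    exact h.mem_ok.good a
  cov v hv hE := by
    have hv' : (fun i => v i) ≠ (0 : Fin (N + 1) → ℂ) := by
      intro h0
      apply hv
      ext i
      exact congrFun h0 i
    obtain ⟨a, ha⟩ := h.mem_ok.exists_dG hv' fun l => hE _ ⟨l, rfl⟩
    refine ⟨a, ?_⟩
    have h1 : ((K.mem c).κ a).dG = MvPolynomial.map (evc k₀ c) (K.pc.κ a).dG :=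
      KDat.dG_map (evc k₀ c) (K.Y.κ a)
    rw [← h1]
    exact ha

/-- the implications of the form data, 268's shape -/
theorem Good.imp_at (h : K.Good c) :
    (K.Y.D.map (evc k₀ c)).Imp (MvPolynomial.map (evc k₀ c) '' K.pc.E) := by
  rw [K.pc_E c]
  exact h.mem_ok.imp_id

theorem Good.exact_at (h : K.Good c) : (K.Y.D.map (evc k₀ c)).Exact := h.mem_ok.exact

/-- tangent spaces -/
theorem Good.finrank (h : K.Good c) {v : EuclideanSpace ℂ (Fin (N + 1))} (hv : v ∈ K.cone c) :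
    Module.finrank ℂ (TanS (range (K.mem c).G) fun i => v i) = n + 1 := by
  refine h.mem_ok.finrank ?_ hv.2
  intro h0
  apply hv.1
  ext i
  exact congrFun h0 i

/-- **a model through `c` all of whose points are good** -/
theorem Good.exists_fmt [CharZero k₀] (h : K.Good c) :
    ∃ (M : Fmt k₀ (Fin K.k)) (q0 : QM M), M.Nice ∧ M.pt q0.1.1 q0.1.2 = c ∧
      AlgebraicIndependent k₀ q0.1.1 ∧ ∀ q : QM M, K.Good (M.pt q.1.1 q.1.2) := by
  obtain ⟨M, z, b, hN, hz, hon, hpt, hsp⟩ := Fmt.exists_fmt (k₀ := k₀) c K.rr h.ne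
  refine ⟨M, ⟨(z, b), hon⟩, hN, hpt, hz, fun q => ?_⟩
  obtain ⟨h1, h2⟩ := hsp q.1.1 q.1.2 q.2
  exact h.spec h1 h2

variable {M : Fmt k₀ (Fin K.k)}

/-- **268's `QFam` over 957's model** -/
def qfam (hN : M.Nice) (hM : ∀ q : QM M, K.Good (M.pt q.1.1 q.1.2)) :
    Ehr6_268.QFam (QM M) (Fin M.m → ℂ) (EuclideanSpace ℂ (Fin (N + 1))) :=
  QF_871.qfamPM hN K.pc fun q => (hM q).okAt

@[simp] theorem qfam_u (hN : M.Nice) (hM : ∀ q : QM M, K.Good (M.pt q.1.1 q.1.2)) :
    (qfam hN hM).u = zc M := rfl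

theorem qfam_S (hN : M.Nice) (hM : ∀ q : QM M, K.Good (M.pt q.1.1 q.1.2)) (q : QM M) :
    (qfam hN hM).S q = K.cone (M.pt q.1.1 q.1.2) := K.pc_cone _

theorem qfam_locEq (hN : M.Nice) (hM : ∀ q : QM M, K.Good (M.pt q.1.1 q.1.2)) (q : QM M)
    (w : EuclideanSpace ℂ (Fin (N + 1))) (hw : w ∈ (qfam hN hM).S q) :
    Ehr2_268.LocEq ((qfam hN hM).T q) (N - n) ((qfam hN hM).u q, w) :=
  QF_871.qfamPM_locEq hN K.pc (fun q => (hM q).okAt) q w hw

end Code

end

end Crest.Agent.R281.CA_867
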