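import Crest.Agent.R281.Iso2_139
import Crest.Agent.R281.Dif2_268
import Crest.Agent.R281.Nef1_252

/-!
# Row 281, HK-ISO, part 3 (helper139): isotopies, classes, transport of the Kaehler cone

* `pull_congr`     : equal maps have equal pull backs
* `DifC C`         : diffeomorphism acting trivially on classes (`refl`, `symm`, `trans`)
* `dif B s t`      : the flow of a time-dependent vector field is one (268's homotopy formula)
* `Holo D J J'`    : `D φ ∘ J = J' ∘ D φ`
* `KCls.pull`, `NefC.pull` : Kaehler and nef classes are transported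
* `PRIMVar`, `DDCVar` : the two inputs of HK-ISO
* `HSF.exists_iso` : **HK-ISO** : constant class ⟹ isotopic
-/

set_option autoImplicit false
set_option linter.unusedSectionVars false

open Set Filter Topology
open scoped ContDiff

namespace Crest.Agent.R281.Iso_139

open Crest.Agent.R281.HkR_835 Crest.Agent.R260.ACM_580
open Crest.Agent.R281.Dif_268 Crest.Agent.R281.Flo_222
open Crest.Agent.R281.NefO_476 Crest.Agent.R281.Nef_252
open Crest.Agent.R281.Ti_846 hiding pb pb_apply symm2 sm'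

noncomputable section

variable {V X : Type} [NormedAddCommGroup V] [NormedSpace ℝ V] [TopologicalSpace X]
  {C : RCh V X}

/-- equal maps have equal pull backs -/
theorem pull_congr {V' X' : Type} [NormedAddCommGroup V'] [NormedSpace ℝ V'] [TopologicalSpace X']
    {C' : RCh V' X'} {g g' : SMap C' C} (h : ∀ x, g.f x = g'.f x) (w : F2 C) :
    Eqv (g.pull w) (g'.pull w) := by
  intro j z hz u v
  have hf : g'.f = g.f := (funext h).symm
  obtain ⟨i, hi⟩ := g.exists_dom hz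
  have hi' : z ∈ dom C C' g'.f i j := by rw [hf]; exact hi
  rw [g.pull_w w hi, g'.pull_w w hi', hf]

theorem coh_sub {w w' : F2 C} : Coh w w' ↔ Ex (w - w') := by
  constructor
  · rintro ⟨η, hη⟩
    exact ⟨η, fun i z hz u v => by rw [← hη i z hz u v]; simp⟩
  · rintro ⟨η, hη⟩
    exact ⟨η, fun i z hz u v => by rw [← hη i z hz u v]; simp⟩

/-- diffeomorphism acting trivially on the classes of closed 2-forms -/
structure DifC (C : RCh V X) where
  φ : SMap C C
  ψ : SMap C C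
  lr : ∀ x, ψ.f (φ.f x) = x
  rl : ∀ x, φ.f (ψ.f x) = x
  cls : ∀ w : F2 C, Coh (φ.pull w) w

namespace DifC

variable (D : DifC C)

theorem cls' (w : F2 C) : Coh (D.ψ.pull w) w := by
  have h1 : Coh (D.ψ.pull (D.φ.pull w)) (D.ψ.pull w) := (D.cls w).pull D.ψ
  have h2 : Eqv ((D.φ.comp D.ψ).pull w) (D.ψ.pull (D.φ.pull w)) := pull_comp D.φ D.ψ w
  have h3 : Eqv ((D.φ.comp D.ψ).pull w) ((SMap.id C).pull w) := pull_congr (fun x => D.rl x) w
  exact (h1.symm.trans h2.symm.coh).trans (h3.coh.trans (pull_id w).coh)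

/-- the inverse -/
def symm : DifC C := ⟨D.ψ, D.φ, D.rl, D.lr, D.cls'⟩

/-- the identity -/
def refl (C : RCh V X) : DifC C :=
  ⟨SMap.id C, SMap.id C, fun _ => rfl, fun _ => rfl, fun w => (pull_id w).coh⟩

/-- composition: first `D`, then `D'` -/
def trans (D' : DifC C) : DifC C where
  φ := D'.φ.comp D.φ
  ψ := D.ψ.comp D'.ψ
  lr x := by
    show D.ψ.f (D'.ψ.f (D'.φ.f (D.φ.f x))) = x
    rw [D'.lr, D.lr]
  rl x := by
    show D'.φ.f (D.φ.f (D.ψ.f (D'.ψ.f x))) = x
    rw [D.rl, D'.rl]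
  cls w := ((pull_comp D'.φ D.φ w).coh.trans ((D'.cls w).pull D.φ)).trans (D.cls w)

/-- the differential is injective -/
theorem inj {i j : C.ι} {z : V} (hz : z ∈ dom C C D.φ.f i j) (v : V)
    (h0 : fderiv ℝ (loc C C D.φ.f i j) z v = 0) : v = 0 := by
  have hzj : z ∈ (C.e j).target := hz.1
  have hid : ∀ x, (D.ψ.f ∘ D.φ.f) x = x := D.lr
  have hz' : z ∈ dom C C (D.ψ.f ∘ D.φ.f) j j := ⟨hzj, by
    rw [hid]; exact (C.e j).map_target hzj⟩
  have h1 := D.ψ.dloc_comp D.φ hz hz' v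
  have h2 : loc C C (D.ψ.f ∘ D.φ.f) j j =ᶠ[𝓝 z] _root_.id := by
    filter_upwards [(C.e j).open_target.mem_nhds hzj] with y hy
    show C.e j ((D.ψ.f ∘ D.φ.f) ((C.e j).symm y)) = y
    rw [hid]
    exact (C.e j).right_inv hy
  rw [h2.fderiv_eq, h0, map_zero] at h1
  simpa using h1

theorem surj [FiniteDimensional ℝ V] {i j : C.ι} {z : V} (hz : z ∈ dom C C D.φ.f i j) (u : V) :
    ∃ v, fderiv ℝ (loc C C D.φ.f i j) z v = u := by
  have h1 : Function.Injective (fderiv ℝ (loc C C D.φ.f i j) z : V →ₗ[ℝ] V) := by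
    intro a b hab
    rw [← sub_eq_zero]
    refine D.inj hz _ ?_
    rw [map_sub, sub_eq_zero]
    exact hab
  exact (LinearMap.injective_iff_surjective.1 h1) u

end DifC

/-! ### the flow -/

section flow

variable [CompleteSpace V] [CompactSpace X] [T2Space X]

/-- the isotopy `(r, x) ↦ Fl s (s + r (t - s)) x` -/
def hom (B : TVF C) (s t : ℝ) : SMap (prodR C) C where
  f p := B.Fl s (s + p.1 * (t - s)) p.2
  cont := (TVF.Fl_continuous B).comp
    (f := fun p : ℝ × X => (s, s + p.1 * (t - s), p.2)) (by fun_prop)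
  sm i j := by
    rintro ⟨r, y⟩ hz
    have hy : y ∈ (C.e j).target := (prodR_target (C := C) j (r, y)).1 hz.1
    have h1 : (C.e j).symm y ∈ (C.e j).source := (C.e j).map_target hy
    have h2 := B.rd_contDiffAt h1 hz.2
    rw [(C.e j).right_inv hy] at h2
    have h3 : ContDiffAt ℝ ∞ (fun q : ℝ × V => (s, s + q.1 * (t - s), q.2)) (r, y) := by fun_prop
    exact (ContDiffAt.comp (g := B.rd j i)
      (f := fun q : ℝ × V => (s, s + q.1 * (t - s), q.2)) (r, y) h2 h3).contDiffWithinAt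

/-- the flow acts trivially on classes -/
theorem coh_fl (B : TVF C) (s t : ℝ) (w : F2 C) : Coh ((B.flS s t).pull w) w := by
  have h := coh_homotopy (hom B s t) w
  have h1 : Eqv (((hom B s t).comp (slice C 1)).pull w) ((B.flS s t).pull w) :=
    pull_congr (fun x => by
      show B.Fl s (s + 1 * (t - s)) x = B.Fl s t x
      congr 1
      ring) w
  have h0 : Eqv (((hom B s t).comp (slice C 0)).pull w) ((SMap.id C).pull w) :=
    pull_congr (fun x => by
      show B.Fl s (s + 0 * (t - s)) x = x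
      rw [zero_mul, add_zero]
      exact TVF.Fl_self s x) w
  exact ((h1.symm.coh.trans h).trans h0.coh).trans (pull_id w).coh

/-- the flow as a class preserving diffeomorphism -/
def dif (B : TVF C) (s t : ℝ) : DifC C where
  φ := B.flS s t
  ψ := B.flS t s
  lr x := TVF.Fl_inv s t x
  rl x := TVF.Fl_inv t s x
  cls := coh_fl B s t

end flow

/-! ### holomorphic diffeomorphisms -/

/-- `D φ ∘ J = J' ∘ D φ` -/
def Holo (D : DifC C) (J J' : AJ C) : Prop :=
  ∀ i j, ∀ z ∈ dom C C D.φ.f i j, ∀ v, fderiv ℝ (loc C C D.φ.f i j) z (J.J j z v) =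
    J'.J i (loc C C D.φ.f i j z) (fderiv ℝ (loc C C D.φ.f i j) z v)

theorem Holo.refl (J : AJ C) : Holo (DifC.refl C) J J := by
  intro i j z hz v
  exact J.tr j i z hz v

theorem T11.pull {D : DifC C} {J J' : AJ C} (h : Holo D J J') {w : F2 C} (hw : T11 J' w) :
    T11 J (D.φ.pull w) := by
  intro j z hz u v
  obtain ⟨i, hi⟩ := D.φ.exists_dom hz
  rw [D.φ.pull_w w hi, D.φ.pull_w w hi, h i j z hi, h i j z hi, hw i _ (D.φ.loc_mem hi)]

theorem Pos.pull {D : DifC C} {J J' : AJ C} (h : Holo D J J') {w : F2 C} (hw : Pos J' w) :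
    Pos J (D.φ.pull w) := by
  intro j z hz v hv
  obtain ⟨i, hi⟩ := D.φ.exists_dom hz
  rw [D.φ.pull_w w hi, h i j z hi]
  exact hw i _ (D.φ.loc_mem hi) _ fun h0 => hv (D.inj hi v h0)

/-- **Kaehler classes are transported by a class preserving biholomorphic map** -/
theorem KCls.pull {D : DifC C} {J J' : AJ C} (h : Holo D J J') {w : F2 C} (hw : KCls J' w) :
    KCls J w := by
  obtain ⟨w', he, h1, h2⟩ := hw
  refine ⟨D.φ.pull w', ?_, T11.pull h h1, Pos.pull h h2⟩
  have h3 := ex_add (coh_sub.1 (D.cls w')) he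
  rwa [sub_add_sub_cancel] at h3

theorem NefC.pull {D : DifC C} {J J' : AJ C} (h : Holo D J J') {om w : F2 C}
    (hw : NefC J' om w) : NefC J om w := fun N => KCls.pull h (hw N)

/-- the inverse is holomorphic -/
theorem Holo.symm [FiniteDimensional ℝ V] {D : DifC C} {J J' : AJ C} (h : Holo D J J') :
    Holo D.symm J' J := by
  intro i j z hz v
  have hz2 : z ∈ dom C C D.ψ.f i j := hz
  -- `y = ψ z` in the chart `i`
  set y := loc C C D.ψ.f i j z with hy
  have hyt : y ∈ (C.e i).target := D.ψ.loc_mem hz2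
  have hys : (C.e i).symm y = D.ψ.f ((C.e j).symm z) := D.ψ.symm_loc hz2
  have hyd : y ∈ dom C C D.φ.f j i := ⟨hyt, by
    rw [hys, D.rl]; exact (C.e j).map_target hz2.1⟩
  have hly : loc C C D.φ.f j i y = z := by
    show C.e j (D.φ.f ((C.e i).symm y)) = z
    rw [hys, D.rl, (C.e j).right_inv hz2.1]
  have hcomp : ∀ v, fderiv ℝ (loc C C D.φ.f j i) y (fderiv ℝ (loc C C D.ψ.f i j) z v) = v := by
    intro v
    have hid : ∀ x, (D.φ.f ∘ D.ψ.f) x = x := D.rl
    have hz' : z ∈ dom C C (D.φ.f ∘ D.ψ.f) j j := ⟨hz2.1, by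
      rw [hid]; exact (C.e j).map_target hz2.1⟩
    have h1 := D.φ.dloc_comp D.ψ hz2 hz' v
    have h2 : loc C C (D.φ.f ∘ D.ψ.f) j j =ᶠ[𝓝 z] _root_.id := by
      filter_upwards [(C.e j).open_target.mem_nhds hz2.1] with x hx
      show C.e j ((D.φ.f ∘ D.ψ.f) ((C.e j).symm x)) = x
      rw [hid]
      exact (C.e j).right_inv hx
    rw [h2.fderiv_eq] at h1
    simpa using h1.symm
  have key : fderiv ℝ (loc C C D.φ.f j i) y (fderiv ℝ (loc C C D.ψ.f i j) z (J'.J j z v) -
      J.J i y (fderiv ℝ (loc C C D.ψ.f i j) z v)) = 0 := by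
    rw [map_sub, hcomp, h j i y hyd, hcomp, hly, sub_self]
  exact sub_eq_zero.1 (D.inj hyd _ key)

theorem Holo.trans {D D' : DifC C} {J J' J'' : AJ C} (h : Holo D J J') (h' : Holo D' J' J'') :
    Holo (D.trans D') J J'' := by
  intro i k z hz v
  obtain ⟨j, hj⟩ := D.φ.exists_dom hz.1
  have hz' : z ∈ dom C C (D'.φ.f ∘ D.φ.f) i k := hz
  have hm := D'.φ.dom_comp D.φ hj hz'
  have e1 := D'.φ.dloc_comp D.φ hj hz' (J.J k z v)
  have e2 := D'.φ.dloc_comp D.φ hj hz' v
  have e3 := D'.φ.loc_comp D.φ (i := i) hj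
  show fderiv ℝ (loc C C (D'.φ.f ∘ D.φ.f) i k) z (J.J k z v) =
    J''.J i (loc C C (D'.φ.f ∘ D.φ.f) i k z) (fderiv ℝ (loc C C (D'.φ.f ∘ D.φ.f) i k) z v)
  rw [e1, e2, e3, h j k z hj, h' i j _ hm]

/-! ### the theorem -/

/-- **input PRIM-VAR**: a jointly smooth family of exact forms has a jointly smooth primitive -/
def PRIMVar (C : RCh V X) : Prop :=
  ∀ w : ℝ → F2 C, JS2 w → (∀ t, Ex (w t)) → ∃ η : ℝ → F1 C, JS1 η ∧ ∀ t, IsD (w t) (η t)

namespace HSF

variable (H : HSF C)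

/-- the complex structure at the time `t` -/
def aj (t : ℝ) : AJ C where
  J := H.J t
  sm i := H.J_sm t i
  tr _ _ _ hz v := H.J_tr hz v

theorem cx (t : ℝ) : Cx (H.aj t) := ⟨fun _ _ hz v => H.J_sq hz v, fun _ _ hz v w => H.nij hz v w⟩

/-- **input DDC-VAR**: the `dd^c`-lemma for `dγ_t`, jointly smooth -/
def DDCVar : Prop :=
  ∀ γ : ℝ → F1 C, JS1 γ → (∀ t i, ∀ z ∈ (C.e i).target, ∀ u v,
      d1 ((γ t).η i) z (H.J t i z u) (H.J t i z v) = d1 ((γ t).η i) z u v) →
    ∃ p : ℝ → X → ℝ, JS0 C p ∧ ∀ t i, ∀ z ∈ (C.e i).target, ∀ u v,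
      d1 ((γ t).η i) z u v = d1 (cJ (dX C (p t) i) (H.J t i)) z u v

/-- a diffeomorphism transporting `(w₁ t, w₂ t)` to `(w₁ s, w₂ s)` is holomorphic -/
theorem holo [FiniteDimensional ℝ V] {s t : ℝ} {D : DifC C}
    (h1 : Eqv (D.φ.pull (H.w1 t)) (H.w1 s)) (h2 : Eqv (D.φ.pull (H.w2 t)) (H.w2 s)) :
    Holo D (H.aj s) (H.aj t) := by
  intro i j z hz v
  have hzj : z ∈ (C.e j).target := hz.1
  have hli := D.φ.loc_mem hz
  rw [← sub_eq_zero]
  refine H.nd t i _ hli _ fun u' => ?_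
  obtain ⟨u, rfl⟩ := D.surj hz u'
  have e1 := h1 j z hzj (H.J s j z v) u
  have e2 := h2 j z hzj v u
  rw [D.φ.pull_w _ hz] at e1 e2
  show (H.w1 t).w i (loc C C D.φ.f i j z) (fderiv ℝ (loc C C D.φ.f i j) z (H.J s j z v) -
    H.J t i (loc C C D.φ.f i j z) (fderiv ℝ (loc C C D.φ.f i j) z v)) _ = 0
  rw [map_sub, sub_apply, e1, H.r1 t i _ hli, e2, H.r1 s j z hzj]
  ring

variable [FiniteDimensional ℝ V] [CompactSpace X] [T2Space X]

/-- **HK-ISO**: a jointly smooth family of holomorphic symplectic structures of constant class on a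
compact space is isotopically trivial, by diffeomorphisms acting trivially on classes -/
theorem exists_iso (hP : PRIMVar C) (hD : H.DDCVar) (h1 : ∀ t, Coh (H.w1 t) (H.w1 0))
    (h2 : ∀ t, Coh (H.w2 t) (H.w2 0)) (s t : ℝ) :
    ∃ D : DifC C, Eqv (D.φ.pull (H.w1 t)) (H.w1 s) ∧ Eqv (D.φ.pull (H.w2 t)) (H.w2 s) ∧
      Holo D (H.aj s) (H.aj t) := by
  have : CompleteSpace V := FiniteDimensional.complete ℝ V
  -- primitives
  have prim : ∀ w : ℝ → F2 C, JS2 w → (∀ t, Coh (w t) (w 0)) → ∃ b : ℝ → F1 C, JS1 b ∧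
      ∀ t i, ∀ z ∈ (C.e i).target, ∀ u v,
        HasDerivAt (fun s => (w s).w i z u v) (d1 ((b t).η i) z u v) t := by
    intro w hw hc
    obtain ⟨η, hη, hd⟩ := hP (fun t => F2.lin ![1, -1] ![w t, w 0])
      (fun i => by
        have e : (fun p : ℝ × V => (F2.lin ![1, -1] ![w p.1, w 0]).w i p.2) =
            fun p : ℝ × V => (w p.1).w i p.2 - (w 0).w i p.2 := by
          funext p
          ext u v
          rw [F2.lin_w]
          simp [Fin.sum_univ_two]
          ring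
        rw [e]
        exact (hw i).sub (((w 0).sm i).comp contDiffOn_snd fun q hq => hq.2))
      (fun t => (coh_iff_ex _ _).1 (hc t))
    refine ⟨dotF η hη, dotF_js hη, fun t i z hz u v => ?_⟩
    have h3 := dotF_hd hη (t := t) hz u v
    have h4 : (fun s => (w s).w i z u v) = fun s => d1 ((η s).η i) z u v + (w 0).w i z u v := by
      funext s
      have h5 := hd s i z hz u v
      rw [F2.lin_w] at h5
      simp only [Fin.sum_univ_two, Matrix.cons_val_zero, Matrix.cons_val_one, one_mul,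
        neg_mul] at h5
      rw [d1a]
      linarith
    rw [h4]
    exact h3.add_const _
  obtain ⟨b1, hb1, e1⟩ := prim H.w1 H.js1 h1
  obtain ⟨b2, hb2, e2⟩ := prim H.w2 H.js2 h2
  obtain ⟨p, hp, hd⟩ := hD (H.gam b1 b2) (H.gam_js hb1 hb2)
    (fun t i z hz u v => H.gam_inv e1 e2 hz u v)
  obtain ⟨k1, k2⟩ := H.iso hb1 e1 e2 hp hd s t
  exact ⟨dif _ s t, k1, k2, H.holo (D := dif _ s t) k1 k2⟩

end HSF

end

end Crest.Agent.R281.Iso_139
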