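import Crest.Agent.R281.Hdg7_850
import Crest.Agent.R281.Iso3_139
import Crest.Agent.R281.AlgDefs_998
import Crest.Agent.R281.HkM5_835
import Crest.Agent.R281.KpU_487
import Crest.Agent.R281.Ti9_846

/-!
# Row 281, CHART-END (second owner, helper151), part 1: uniqueness of the Yau move

* `HkT.scl H c`  : the triple scaled by `c > 0` (same complex structures)
* `cp_congr`     : the holomorphic atlases depend on `J k` on the chart targets only
* `heqv_of`      : equal `J 0` and equal forms: equal triples (`HEqv`)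
* `uniq_move`    : same `J 0`, `om 1`, `om 2` multiplied by `r > 0`, cohomologous `om 0` : `HEqv`
* `uniq_moveK`   : the same for `om k`, with a scaling factor
-/

set_option autoImplicit false
set_option maxSynthPendingDepth 3
set_option linter.unusedSectionVars false

open Set Filter Topology Complex
open scoped ContDiff Matrix ComplexConjugate ComplexOrder InnerProductSpace

namespace Crest.Agent.R281.Ch_151

open Crest.Agent.R275.Geo Crest.Agent.R275.Core144 Crest.Agent.R275.EDR890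
open Crest.Agent.R275.GC293
open Crest.Agent.R273.Defs_333
open Crest.Agent.R273.Kah_333 Crest.Agent.R273.Hess_333 Crest.Agent.R281.Defs_273
open Crest.Agent.R273.NoHVF_376
open Crest.Agent.R260.ACM_580 Crest.Agent.R260.NNB_580
open Crest.Agent.R281.HkP1_508 Crest.Agent.R281.HkP2_508 Crest.Agent.R281.HkP3_508
open Crest.Agent.R281.Ti_846 Crest.Agent.R281.Dif_268 Crest.Agent.R281.Cdr_234
open Crest.Agent.R281.HkR_835 Crest.Agent.R281.Alg_998
open Crest.Agent.R281.NefO_476 (ofHk Pos AJ)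
open Crest.Agent.R281.Nef_252 (T11 KCls)

noncomputable section

variable {d : ℕ} {X : Type} [TopologicalSpace X] {A : Atl d X}
variable {V : Type} [NormedAddCommGroup V] [NormedSpace ℝ V] {C : RCh V X}

/-- the triple scaled by `c > 0` -/
def scl (H : HkT C) (c : ℝ) (hc : 0 < c) : HkT C where
  om k := c • H.om k
  J := H.J
  g i z := c • H.g i z
  J_sm := H.J_sm
  J_sq := H.J_sq
  J_01 := H.J_01
  g_symm i z hz u v := by
    show c * H.g i z u v = c * H.g i z v u
    rw [H.g_symm i z hz]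
  g_pos i z hz v hv := mul_pos hc (H.g_pos i z hz v hv)
  om_eq k i z hz u v := by
    show c * (H.om k).w i z u v = c * H.g i z (H.J k i z u) v
    rw [H.om_eq k i z hz]

theorem cp_congr {H H' : HkT C} {k : Fin 3}
    (hJ : ∀ i, ∀ z ∈ (C.e i).target, ∀ v, H'.J k i z v = H.J k i z v)
    (hA : Cp (H.acm k) A) : Cp (H'.acm k) A := fun a => by
  refine ⟨(hA a).sm, (hA a).sm', fun i z hz v => ?_⟩
  have h1 := (hA a).lin i z hz v
  have h2 : (H'.acm k).J i z v = (H.acm k).J i z v := hJ i z hz.1 v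
  rw [h2]
  exact h1

/-- equal `J 0` and equal forms: equal triples -/
theorem heqv_of {H H' : HkT C}
    (hJ : ∀ i, ∀ z ∈ (C.e i).target, ∀ v, H'.J 0 i z v = H.J 0 i z v)
    (ho : ∀ k, Eqv (H'.om k) (H.om k)) : HEqv H H' := by
  have hg : ∀ i, ∀ z ∈ (C.e i).target, ∀ u v, H'.g i z u v = H.g i z u v := by
    intro i z hz u v
    rw [H'.g_eq 0 hz, H.g_eq 0 hz, ho 0 i z hz, hJ i z hz]
  refine ⟨fun k i z hz => ?_, fun k i z hz => ?_, fun i z hz => ?_⟩
  · ext u v
    exact (ho k i z hz u v).symm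
  · ext v
    rw [← sub_eq_zero]
    by_contra hne
    have h1 := H.g_pos i z hz _ hne
    have h2 := H.om_eq k i z hz v (H.J k i z v - H'.J k i z v)
    have h3 := H'.om_eq k i z hz v (H.J k i z v - H'.J k i z v)
    rw [ho k i z hz, hg i z hz] at h3
    have h4 : H.g i z (H.J k i z v - H'.J k i z v) (H.J k i z v - H'.J k i z v) = 0 := by
      have h5 := congrArg (fun T : V →L[ℝ] ℝ => T (H.J k i z v - H'.J k i z v))
        (map_sub (H.g i z) (H.J k i z v) (H'.J k i z v))
      simp only [sub_apply] at h5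
      rw [h5, ← h2, ← h3, sub_self]
    exact h1.ne' h4
  · ext u v
    exact (hg i z hz u v).symm

theorem hsf_zero' (i : A.ι) {x : X} (hx : x ∈ (A.e i).source) :
    hsf A (fun _ => (0 : ℝ)) i x = 0 := by
  have hs : A.Sm fun _ : X => (0 : ℝ) := fun i => contDiffOn_const
  have h := Crest.Agent.R281.KpU_487.C2f.hsf_sub
    (Crest.Agent.R281.KpU_487.C2f.of_sm hs) (Crest.Agent.R281.KpU_487.C2f.of_sm hs) i hx
  simpa using h

/-- **uniqueness of the move** -/
theorem uniq_move [FiniteDimensional ℝ V] [T2Space X] [CompactSpace X] [ConnectedSpace X]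
    (hd : 2 ≤ d) (hNN : NNat V d) (H H' : HkT C)
    (hJ : ∀ i, ∀ z ∈ (C.e i).target, ∀ v, H'.J 0 i z v = H.J 0 i z v) {r : ℝ} (hr : 0 < r)
    (e1 : Eqv (H'.om 1) (r • H.om 1)) (e2 : Eqv (H'.om 2) (r • H.om 2))
    (h0 : Ex (H'.om 0 - H.om 0)) : r = 1 ∧ HEqv H H' := by
  obtain ⟨A, hf, -, ⟨P⟩, -, -, hA⟩ := exists_rot hNN H
  have hA' : Cp (H'.acm 0) A := cp_congr hJ hA
  set h := cmp_of_cp hA with hh
  obtain ⟨Pr, -⟩ := exists_RPart (ofAtl A) (fun _ => univ) (fun _ => univ_mem)
  set K := H.kah hA with hK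
  set K' := H'.kah hA' with hK'
  have f0 : Eqv (ofKah K).f2 (h.F (H.om 0)) := eqvA fun i z hz u v => by
    rw [hK]
    show (ofKah ((H.onA hA).K0 _)).f2.w i z u v = _
    rw [K0_om0 (H.onA hA) (onA_J H hA) hz]
    rfl
  have f0' : Eqv (ofKah K').f2 (h.F (H'.om 0)) := eqvA fun i z hz u v => by
    rw [hK']
    show (ofKah ((H'.onA hA').K0 _)).f2.w i z u v = _
    rw [K0_om0 (H'.onA hA') (onA_J H' hA') hz]
    rfl
  -- the difference is `i∂∂̄ v`
  have hy : (ofKah K').f2 - (ofKah K).f2 ∈ Hdg_850.E11 A :=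
    (Hdg_850.E11 A).sub_mem (Hdg_850.f2_mem_E11 _) (Hdg_850.f2_mem_E11 _)
  have hex : (ofKah K').f2 - (ofKah K).f2 ∈ Ti_846.exS (ofAtl A) := by
    have k1 : Ex (h.F (H'.om 0 - H.om 0)) := ex_F h h0
    have k2 : Ex (h.F (H'.om 0) - h.F (H.om 0)) := (F_sub h _ _).ex k1
    refine Eqv.ex ?_ k2
    intro i z hz u v
    show (h.F (H'.om 0)).w i z u v - (h.F (H.om 0)).w i z u v = _
    rw [← f0 i z hz u v, ← f0' i z hz u v]
    rfl
  obtain ⟨v, hv, hvk⟩ := (Hdg_850.ddbar hd P Pr K _ hy).1 hex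
  have hkk : ∀ i, ∀ x ∈ (A.e i).source, K'.g i x = K.g i x + hsf A v i x := by
    intro i x hx
    have k1 := Hdg_850.k11_sub _ _ (Hdg_850.f2_mem_E11 (ofKah K')) (Hdg_850.f2_mem_E11 (ofKah K)) hy
      hx
    rw [hvk i x hx] at k1
    have k2 := K11.f2_k11 (ofKah K') hx
    have k3 := K11.f2_k11 (ofKah K) hx
    have k4 : (ofKah K').g i x = K'.g i x := rfl
    have k5 : (ofKah K).g i x = K.g i x := rfl
    rw [← k4, ← k5, ← k2, ← k3, k1]
    abel
  -- the determinants
  have hS : ∀ i, ∀ x ∈ (A.e i).source, (H'.sig hA').s i x = (r : ℂ) • (H.sig hA).s i x := by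
    intro i x hx
    set z := A.e i x with hzd
    have hz : z ∈ (A.e i).target := (A.e i).map_source hx
    have a1 : sl (H'.sig hA').toH2 i z = (H'.sig hA').s i x := by
      show (H'.sig hA').s i ((A.e i).symm (A.e i x)) = _
      rw [(A.e i).left_inv hx]
    have a2 : sl (H.sig hA).toH2 i z = (H.sig hA).s i x := by
      show (H.sig hA).s i ((A.e i).symm (A.e i x)) = _
      rw [(A.e i).left_inv hx]
    rw [← a1, ← a2]
    refine sb_ext fun u v => ?_
    have b1 := (F_eqv e1 (h := h)).trans (F_smul h r (H.om 1)) i z hz u v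
    have b2 := (F_eqv e2 (h := h)).trans (F_smul h r (H.om 2)) i z hz u v
    have b1' : (h.F (H'.om 1)).w i z u v = r * (h.F (H.om 1)).w i z u v := b1
    have b2' : (h.F (H'.om 2)).w i z u v = r * (h.F (H.om 2)).w i z u v := b2
    rw [sb_smul, sig_sb H' hA' hz, sig_sb H hA hz, ← hh, b1', b2']
    push_cast
    ring
  have hdet : ∀ i, ∀ x ∈ (A.e i).source, (K'.g i x).det = ((r ^ d : ℝ) : ℂ) * (K.g i x).det := by
    intro i x hx
    have c1 := det0 (H'.onA hA') (onA_J H' hA') i x hx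
    have c2 := det0 (H.onA hA) (onA_J H hA) i x hx
    have c3 : (K'.g i x).det = ((‖((H'.sig hA').s i x).det‖ : ℝ) : ℂ) := c1
    have c4 : (K.g i x).det = ((‖((H.sig hA).s i x).det‖ : ℝ) : ℂ) := c2
    rw [c3, c4, hS i x hx, Matrix.det_smul, Fintype.card_fin, norm_mul, norm_pow,
      Complex.norm_real, Real.norm_of_nonneg hr.le]
    push_cast
    ring
  obtain ⟨u1, -, u3⟩ := Crest.Agent.R281.KpU_487.unique_kah K K' K
    (Crest.Agent.R281.KpU_487.C2f.of_sm hv)
    (Crest.Agent.R281.KpU_487.C2f.of_sm (A := A) (u := fun _ => (0 : ℝ))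
      fun i => contDiffOn_const) hkk (fun i x hx => by
      rw [hsf_zero' i hx, add_zero]) hdet
  have hr1 : r = 1 := by
    have h2 : r ^ d = 1 ^ d := by rw [u1, one_pow]
    exact (pow_left_inj₀ hr.le zero_le_one (by omega)).1 h2
  refine ⟨hr1, heqv_of hJ fun k => ?_⟩
  have key : Eqv (H'.om 0) (H.om 0) := by
    have k1 : Eqv (ofKah K').f2 (ofKah K).f2 := eqvA fun i z hz u v => by
      rw [K11.f2_w _ hz, K11.f2_w _ hz]
      have := u3 i _ ((A.e i).map_target hz)
      show (I * hb (K'.g i ((A.e i).symm z)) u v).re = (I * hb (K.g i ((A.e i).symm z)) u v).re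
      rw [this]
    have k2 : Eqv (h.F (H'.om 0)) (h.F (H.om 0)) := (f0'.symm.trans k1).trans f0
    exact ((F_F h _).symm.trans (F_eqv k2 (h := h.symm))).trans (F_F h _)
  subst hr1
  fin_cases k
  · exact key
  · exact e1.trans fun i z hz u v => one_mul _
  · exact e2.trans fun i z hz u v => one_mul _

end

end Crest.Agent.R281.Ch_151
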