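import Crest.Agent.R281.Ce1_551
import Crest.Agent.R281.Bx1_557
import Crest.Agent.R281.Ch1_151

/-!
# Row 281, CHART-END, part 2 (helper551): jointly smooth families

* `SmF.comp'`, `SmHk.comp'`, `SmHk.rot'`, `SmHk.scl'` : reparametrisation, rotation, scaling
* `isOpen_posF`   : positivity is open in the parameter (compactness of `X`)
* `exists_unif`   : uniform positivity of `w s + c • ψ s`, `s` in a compact set, `c` small
* `IsoFam C`      : HK-ISO (139) as a Prop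
* `iso2_fam`      : in a jointly smooth family of triples whose planes contain the fixed orthogonal
                    positive classes `a`, `b`, the structures `⟨a, b⟩` are isotopic
-/

set_option autoImplicit false
set_option maxSynthPendingDepth 3
set_option linter.unusedSectionVars false

open Set Filter Topology
open scoped ContDiff

namespace Crest.Agent.R281.Ce_551

open Crest.Agent.R281.HkR_835 Crest.Agent.R281.Ti_846 Crest.Agent.R281.Alg_998
open Crest.Agent.R281.Dif_268 Crest.Agent.R281.Nef_252 Crest.Agent.R281.NefO_476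
open Crest.Agent.R281.Bx_557 Crest.Agent.R281.Ch_151

noncomputable section

variable {V X : Type} [NormedAddCommGroup V] [NormedSpace ℝ V] [TopologicalSpace X]
  {C : RCh V X} {E : Type} [NormedAddCommGroup E] [NormedSpace ℝ E]
  {E' : Type} [NormedAddCommGroup E'] [NormedSpace ℝ E']

/-! ### families -/

theorem SmF.comp' {T : Set E} {w : E → F2 C} (hw : SmF T w) {T' : Set E'} {g : E' → E}
    (hg : ContDiffOn ℝ ∞ g T') (h : MapsTo g T' T) : SmF T' fun p => w (g p) := fun i =>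
  (hw i).comp (f := fun q : E' × V => (g q.1, q.2))
    ((hg.comp contDiff_fst.contDiffOn fun _ hq => hq.1).prodMk contDiff_snd.contDiffOn)
    fun _ hq => ⟨h hq.1, hq.2⟩

theorem SmHk.comp' {T : Set E} {H : E → HkT C} (hH : SmHk T H) {T' : Set E'} {g : E' → E}
    (hg : ContDiffOn ℝ ∞ g T') (h : MapsTo g T' T) : SmHk T' fun p => H (g p) where
  om k := SmF.comp' (hH.om k) hg h
  J k i := (hH.J k i).comp (f := fun q : E' × V => (g q.1, q.2))
    ((hg.comp contDiff_fst.contDiffOn fun _ hq => hq.1).prodMk contDiff_snd.contDiffOn)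
    fun _ hq => ⟨h hq.1, hq.2⟩

theorem SmF.lin' {T : Set E} {w : E → Fin 3 → F2 C} (hw : ∀ k, SmF T fun p => w p k)
    {x : E → Fin 3 → ℝ} (hx : ∀ k, ContDiffOn ℝ ∞ (fun p => x p k) T) :
    SmF T fun p => F2.lin (x p) (w p) := by
  have h1 : (fun p => F2.lin (x p) (w p)) =
      fun p => x p 0 • w p 0 + x p 1 • w p 1 + x p 2 • w p 2 := funext fun p => lin3_eq _ _
  rw [h1]
  exact (((hw 0).smul (hx 0)).add ((hw 1).smul (hx 1))).add ((hw 2).smul (hx 2))

/-- rotation by smooth frames -/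
theorem SmHk.rot' {T : Set E} {H : E → HkT C} (hH : SmHk T H) {R : E → Fin 3 → Fin 3 → ℝ}
    (hR : ∀ p, HkT.Fr (R p)) (hs : ∀ k l, ContDiffOn ℝ ∞ (fun p => R p k l) T) :
    SmHk T fun p => (H p).rot (R p) (hR p) where
  om k := SmF.lin' hH.om (hs k)
  J k i := by
    have h1 : ∀ l, ContDiffOn ℝ ∞ (fun q : E × V => R q.1 k l • (H q.1).J l i q.2)
        (T ×ˢ (C.e i).target) := fun l =>
      ContDiffOn.smul ((hs k l).comp contDiff_fst.contDiffOn fun _ hq => hq.1) (hH.J l i)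
    show ContDiffOn ℝ ∞ (fun q : E × V => ∑ l, R q.1 k l • (H q.1).J l i q.2) _
    exact ContDiffOn.sum fun l _ => h1 l

/-- scaling by a smooth function -/
theorem SmHk.scl' {T : Set E} {H : E → HkT C} (hH : SmHk T H) {c : E → ℝ} (hc : ∀ p, 0 < c p)
    (hs : ContDiffOn ℝ ∞ c T) : SmHk T fun p => scl (H p) (c p) (hc p) where
  om k := (hH.om k).smul hs
  J k := hH.J k

theorem smHk_const (T : Set E) (H : HkT C) : SmHk T fun _ : E => H where
  om k := SmF.const T (H.om k)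
  J k i := (H.J_sm k i).comp contDiff_snd.contDiffOn fun _ hq => hq.2

theorem SmHk.mono' {T T' : Set E} {H : E → HkT C} (hH : SmHk T H) (h : T' ⊆ T) : SmHk T' H where
  om k := (hH.om k).mono h
  J k i := (hH.J k i).mono (prod_mono h Subset.rfl)

/-! ### positivity -/

/-- positivity is open in the parameter -/
theorem isOpen_posF [FiniteDimensional ℝ V] [CompactSpace X] {P : Type*} [TopologicalSpace P]
    {T : Set P} (hT : IsOpen T) {J : P → AJ C}
    (hJ : ∀ i, ContinuousOn (fun q : P × V => (J q.1).J i q.2) (T ×ˢ (C.e i).target))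
    {b : P → F2 C}
    (hb : ∀ i, ContinuousOn (fun q : P × V => (b q.1).w i q.2) (T ×ˢ (C.e i).target)) :
    IsOpen {p | p ∈ T ∧ Pos (J p) (b p)} := by
  rw [isOpen_iff_mem_nhds]
  rintro p₀ ⟨hp₀, hpos⟩
  have : ProperSpace V := FiniteDimensional.proper ℝ V
  let _ : MeasurableSpace V := borel V
  have : BorelSpace V := ⟨rfl⟩
  -- local step
  have key : ∀ x : X, ∃ (i : C.ι) (N : Set P) (W : Set V), x ∈ (C.e i).source ∧ N ∈ 𝓝 p₀ ∧
      IsOpen W ∧ C.e i x ∈ W ∧ W ⊆ (C.e i).target ∧ ∀ p ∈ N, ∀ z ∈ W, ∀ v : V, ‖v‖ = 1 →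
        0 < (b p).w i z v ((J p).J i z v) := by
    intro x
    obtain ⟨i, hi⟩ := C.cover x
    have hz0 : C.e i x ∈ (C.e i).target := (C.e i).map_source hi
    set f : (P × V) × V → ℝ := fun q => (b q.1.1).w i q.1.2 q.2 ((J q.1.1).J i q.1.2 q.2) with hf
    have hopen : IsOpen ((T ×ˢ (C.e i).target : Set (P × V)) ×ˢ (univ : Set V)) :=
      (hT.prod (C.e i).open_target).prod isOpen_univ
    have m1 : MapsTo (fun q : (P × V) × V => q.1) ((T ×ˢ (C.e i).target) ×ˢ univ)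
        (T ×ˢ (C.e i).target) := fun q hq => hq.1
    have c1 : ContinuousOn (fun q : (P × V) × V => q.1) ((T ×ˢ (C.e i).target) ×ˢ univ) :=
      continuous_fst.continuousOn
    have cv : ContinuousOn (fun q : (P × V) × V => q.2) ((T ×ˢ (C.e i).target) ×ˢ univ) :=
      continuous_snd.continuousOn
    have g1 := (hb i).comp c1 m1
    have g2 := (hJ i).comp c1 m1
    simp only [Function.comp_def] at g1 g2
    have hfc : ContinuousOn f ((T ×ˢ (C.e i).target) ×ˢ univ) :=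
      (g1.clm_apply cv).clm_apply (g2.clm_apply cv)
    have hO : IsOpen (((T ×ˢ (C.e i).target : Set (P × V)) ×ˢ (univ : Set V)) ∩
        f ⁻¹' Ioi 0) := hfc.isOpen_inter_preimage hopen isOpen_Ioi
    have hsub : ({(p₀, C.e i x)} : Set (P × V)) ×ˢ Metric.sphere (0 : V) 1 ⊆
        ((T ×ˢ (C.e i).target : Set (P × V)) ×ˢ (univ : Set V)) ∩ f ⁻¹' Ioi 0 := by
      rintro ⟨⟨p, z⟩, v⟩ ⟨hpz, hv⟩
      simp only [mem_singleton_iff, Prod.mk.injEq] at hpz
      obtain ⟨rfl, rfl⟩ := hpz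
      refine ⟨⟨⟨hp₀, hz0⟩, mem_univ _⟩, ?_⟩
      show 0 < f ((p, C.e i x), v)
      refine hpos i _ hz0 v fun h0 => ?_
      simp [h0] at hv
    obtain ⟨A, B, hA, hB, hA', hB', hAB⟩ := generalized_tube_lemma isCompact_singleton
      (isCompact_sphere (0 : V) 1) hO hsub
    have hA'' : A ∈ 𝓝 (p₀, C.e i x) := hA.mem_nhds (hA' rfl)
    rw [nhds_prod_eq] at hA''
    obtain ⟨N, hN, W, hW, hNW⟩ := mem_prod_iff.1 hA''
    obtain ⟨W', hW'sub, hW'o, hW'x⟩ := mem_nhds_iff.1 hW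
    refine ⟨i, N, W' ∩ (C.e i).target, hi, hN, hW'o.inter (C.e i).open_target,
      ⟨hW'x, hz0⟩, inter_subset_right, fun p hp z hz v hv => ?_⟩
    have h1 := hAB (mk_mem_prod (hNW (mk_mem_prod hp (hW'sub hz.1))) (hB' (by simp [hv] :
      v ∈ Metric.sphere (0 : V) 1)))
    exact h1.2
  choose ci N W hsrc hN hW hx hWt hP using key
  obtain ⟨t, -, ht⟩ := isCompact_univ.elim_nhds_subcover
    (fun x => (C.e (ci x)).source ∩ C.e (ci x) ⁻¹' W x) fun x _ =>
      ((C.e (ci x)).isOpen_inter_preimage (hW x)).mem_nhds ⟨hsrc x, hx x⟩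
  have hNN : (⋂ x ∈ t, N x) ∩ T ∈ 𝓝 p₀ :=
    inter_mem ((biInter_finset_mem t).2 fun x _ => hN x) (hT.mem_nhds hp₀)
  refine mem_of_superset hNN fun p hp => ⟨hp.2, fun i z hz v hv => ?_⟩
  obtain ⟨x, hxt, hxs, hxW⟩ := mem_iUnion₂.1 (ht (mem_univ ((C.e i).symm z)))
  have hov : z ∈ C.ov i (ci x) := ⟨hz, hxs⟩
  refine pos_tr hov (fun v' hv' => ?_) v hv
  have hn : 0 < ‖v'‖ := norm_pos_iff.2 hv'
  have h1 := hP x p (mem_iInter₂.1 hp.1 x hxt) (C.t i (ci x) z) hxW (‖v'‖⁻¹ • v') (by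
    rw [norm_smul, norm_inv, norm_norm, inv_mul_cancel₀ hn.ne'])
  simp only [map_smul, smul_apply, smul_eq_mul] at h1
  have h2 : 0 < ‖v'‖⁻¹ * ‖v'‖⁻¹ := by positivity
  rw [← mul_assoc] at h1
  exact (mul_pos_iff_of_pos_left h2).1 h1

theorem SmHk.isOpen_pos [FiniteDimensional ℝ V] [CompactSpace X] {T : Set E} (hT : IsOpen T)
    {H : E → HkT C} (hH : SmHk T H) (k : Fin 3) {w : E → F2 C} (hw : SmF T w) :
    IsOpen {p | p ∈ T ∧ Pos (ofHk (H p) k) (w p)} :=
  isOpen_posF hT (fun i => (hH.J k i).continuousOn) fun i => (hw i).continuousOn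

/-- uniform positivity over a compact set of parameters -/
theorem exists_unif [FiniteDimensional ℝ V] [CompactSpace X] {T : Set E} (hT : IsOpen T)
    {H : E → HkT C} (hH : SmHk T H) (k : Fin 3) {w : E × ℝ → F2 C} (hw : SmF (T ×ˢ univ) w)
    {K : Set E} (hK : IsCompact K) (hKT : K ⊆ T)
    (hp : ∀ s ∈ K, Pos (ofHk (H s) k) (w (s, 0))) :
    ∃ δ : ℝ, 0 < δ ∧ ∀ s ∈ K, ∀ c : ℝ, |c| < δ → Pos (ofHk (H s) k) (w (s, c)) := by
  have hTU : IsOpen (T ×ˢ (univ : Set ℝ)) := hT.prod isOpen_univ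
  have hH' : SmHk (T ×ˢ (univ : Set ℝ)) fun p : E × ℝ => H p.1 :=
    SmHk.comp' hH contDiff_fst.contDiffOn fun _ hp => hp.1
  have hO := SmHk.isOpen_pos hTU hH' k hw
  obtain ⟨U, W, -, hW, hU', hW', hUW⟩ := generalized_tube_lemma hK (isCompact_singleton (x := (0 : ℝ)))
    hO (by
      rintro ⟨s, c⟩ ⟨hs, hc⟩
      obtain rfl : c = 0 := hc
      exact ⟨⟨hKT hs, mem_univ _⟩, hp s hs⟩)
  obtain ⟨δ, hδ, hb⟩ := Metric.isOpen_iff.1 hW 0 (hW' rfl)
  refine ⟨δ, hδ, fun s hs c hc => ?_⟩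
  exact (hUW (mk_mem_prod (hU' hs) (hb (by rwa [Metric.mem_ball, Real.dist_eq, sub_zero])))).2

/-! ### isotopy of a family -/

/-- HK-ISO (139) -/
def IsoFam (C : RCh V X) : Prop :=
  ∀ H : ℝ → HkT C, SmHk univ H → (∀ t, Cl ((H t).om 1) ((H 0).om 1)) →
    (∀ t, Cl ((H t).om 2) ((H 0).om 2)) →
    ∃ φ ψ : SMap C C, Bi φ ψ ∧ (∀ w : F2 C, Cl (φ.pull w) w) ∧
      Eqv (φ.pull ((H 1).om 1)) ((H 0).om 1) ∧ Eqv (φ.pull ((H 1).om 2)) ((H 0).om 2)

/-- the frame `(u × v, u, v)` -/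
def frm (u v : Fin 3 → ℝ) : Fin 3 → Fin 3 → ℝ :=
  ![![u 1 * v 2 - u 2 * v 1, u 2 * v 0 - u 0 * v 2, u 0 * v 1 - u 1 * v 0], u, v]

theorem fr_frm {u v : Fin 3 → ℝ} (hu : u 0 * u 0 + u 1 * u 1 + u 2 * u 2 = 1)
    (hv : v 0 * v 0 + v 1 * v 1 + v 2 * v 2 = 1) (h : u 0 * v 0 + u 1 * v 1 + u 2 * v 2 = 0) :
    HkT.Fr (frm u v) where
  nrm k := by
    fin_cases k
    · show (u 1 * v 2 - u 2 * v 1) * (u 1 * v 2 - u 2 * v 1) +
        (u 2 * v 0 - u 0 * v 2) * (u 2 * v 0 - u 0 * v 2) +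
        (u 0 * v 1 - u 1 * v 0) * (u 0 * v 1 - u 1 * v 0) = 1
      have e : (u 1 * v 2 - u 2 * v 1) * (u 1 * v 2 - u 2 * v 1) +
        (u 2 * v 0 - u 0 * v 2) * (u 2 * v 0 - u 0 * v 2) +
        (u 0 * v 1 - u 1 * v 0) * (u 0 * v 1 - u 1 * v 0) =
        (u 0 * u 0 + u 1 * u 1 + u 2 * u 2) * (v 0 * v 0 + v 1 * v 1 + v 2 * v 2) -
          (u 0 * v 0 + u 1 * v 1 + u 2 * v 2) ^ 2 := by ring
      rw [e, hu, hv, h]
      ring
    · exact hu
    · exact hv
  ort := by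
    show (u 1 * v 2 - u 2 * v 1) * u 0 + (u 2 * v 0 - u 0 * v 2) * u 1 +
      (u 0 * v 1 - u 1 * v 0) * u 2 = 0
    ring
  crs := by
    funext k
    fin_cases k
    · show v 0 = (u 2 * v 0 - u 0 * v 2) * u 2 - (u 0 * v 1 - u 1 * v 0) * u 1
      linear_combination (-(v 0)) * hu + u 0 * h
    · show v 1 = (u 0 * v 1 - u 1 * v 0) * u 0 - (u 1 * v 2 - u 2 * v 1) * u 2
      linear_combination (-(v 1)) * hu + u 1 * h
    · show v 2 = (u 1 * v 2 - u 2 * v 1) * u 1 - (u 2 * v 0 - u 0 * v 2) * u 0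
      linear_combination (-(v 2)) * hu + u 2 * h

/-- squared length -/
def sq (x : Fin 3 → ℝ) : ℝ := x 0 * x 0 + x 1 * x 1 + x 2 * x 2

variable {Q : F2 C →ₗ[ℝ] F2 C →ₗ[ℝ] ℝ}

/-- **in a jointly smooth family of triples whose planes contain the orthogonal positive classes
`a`, `b`, the structures `⟨a, b⟩` are isotopic** -/
theorem iso2_fam (hQ : QHk C Q) (hI : IsoFam C) {H : ℝ → HkT C} (hH : SmHk univ H) {a b : F2 C}
    (ha : 0 < Q a a) (hb : 0 < Q b b) (hab : Q a b = 0) {x y : ℝ → Fin 3 → ℝ}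
    (hx : ∀ k, ContDiff ℝ ∞ fun s => x s k) (hy : ∀ k, ContDiff ℝ ∞ fun s => y s k)
    (h1 : ∀ s, Rp (H s) a (x s)) (h2 : ∀ s, Rp (H s) b (y s)) : Iso2 a b (H 0) (H 1) := by
  have h0 : ∀ s, 0 < Q ((H s).om 0) ((H s).om 0) := fun s => hQ.rp_pos (h1 s) ha
  have va : ∀ s, Q a a = sq (x s) * Q ((H s).om 0) ((H s).om 0) := fun s =>
    hQ.rp_val (h1 s) (h1 s)
  have vb : ∀ s, Q b b = sq (y s) * Q ((H s).om 0) ((H s).om 0) := fun s =>
    hQ.rp_val (h2 s) (h2 s)
  have vab : ∀ s, x s 0 * y s 0 + x s 1 * y s 1 + x s 2 * y s 2 = 0 := fun s => by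
    have := hQ.rp_val (h1 s) (h2 s)
    rw [hab] at this
    exact (mul_eq_zero.1 this.symm).resolve_right (h0 s).ne'
  have px : ∀ s, 0 < sq (x s) := fun s => by
    have := va s
    rw [this] at ha
    exact (mul_pos_iff_of_pos_right (h0 s)).1 ha
  have py : ∀ s, 0 < sq (y s) := fun s => by
    have := vb s
    rw [this] at hb
    exact (mul_pos_iff_of_pos_right (h0 s)).1 hb
  have sx : ContDiff ℝ ∞ fun s => sq (x s) :=
    (((hx 0).mul (hx 0)).add ((hx 1).mul (hx 1))).add ((hx 2).mul (hx 2))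
  have sy : ContDiff ℝ ∞ fun s => sq (y s) :=
    (((hy 0).mul (hy 0)).add ((hy 1).mul (hy 1))).add ((hy 2).mul (hy 2))
  set nx : ℝ → ℝ := fun s => √(sq (x s)) with hnx
  set ny : ℝ → ℝ := fun s => √(sq (y s)) with hny
  have nxp : ∀ s, 0 < nx s := fun s => Real.sqrt_pos.2 (px s)
  have nyp : ∀ s, 0 < ny s := fun s => Real.sqrt_pos.2 (py s)
  have nx2 : ∀ s, nx s * nx s = sq (x s) := fun s => Real.mul_self_sqrt (px s).le
  have ny2 : ∀ s, ny s * ny s = sq (y s) := fun s => Real.mul_self_sqrt (py s).le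
  have snx : ContDiff ℝ ∞ nx := sx.sqrt fun s => (px s).ne'
  have sny : ContDiff ℝ ∞ ny := sy.sqrt fun s => (py s).ne'
  set u : ℝ → Fin 3 → ℝ := fun s k => x s k / nx s with hu
  set v : ℝ → Fin 3 → ℝ := fun s k => y s k / ny s with hv
  have su : ∀ k, ContDiff ℝ ∞ fun s => u s k := fun k => (hx k).div snx fun s => (nxp s).ne'
  have sv : ∀ k, ContDiff ℝ ∞ fun s => v s k := fun k => (hy k).div sny fun s => (nyp s).ne'
  have uu : ∀ s, u s 0 * u s 0 + u s 1 * u s 1 + u s 2 * u s 2 = 1 := fun s => by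
    have h3 := (nxp s).ne'
    have h4 : u s 0 * u s 0 + u s 1 * u s 1 + u s 2 * u s 2 = sq (x s) / (nx s * nx s) := by
      simp only [hu, sq]
      field_simp
    rw [h4, nx2, div_self (px s).ne']
  have vv : ∀ s, v s 0 * v s 0 + v s 1 * v s 1 + v s 2 * v s 2 = 1 := fun s => by
    have h3 := (nyp s).ne'
    have h4 : v s 0 * v s 0 + v s 1 * v s 1 + v s 2 * v s 2 = sq (y s) / (ny s * ny s) := by
      simp only [hv, sq]
      field_simp
    rw [h4, ny2, div_self (py s).ne']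
  have uv : ∀ s, u s 0 * v s 0 + u s 1 * v s 1 + u s 2 * v s 2 = 0 := fun s => by
    have h3 := (nxp s).ne'
    have h4 := (nyp s).ne'
    have h5 : u s 0 * v s 0 + u s 1 * v s 1 + u s 2 * v s 2 =
        (x s 0 * y s 0 + x s 1 * y s 1 + x s 2 * y s 2) / (nx s * ny s) := by
      simp only [hu, hv]
      field_simp
    rw [h5, vab, zero_div]
  have hR : ∀ s, HkT.Fr (frm (u s) (v s)) := fun s => fr_frm (uu s) (vv s) (uv s)
  have sR : ∀ k l, ContDiffOn ℝ ∞ (fun s => frm (u s) (v s) k l) univ := by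
    intro k l
    refine ContDiff.contDiffOn ?_
    fin_cases k
    · fin_cases l
      · exact ((su 1).mul (sv 2)).sub ((su 2).mul (sv 1))
      · exact ((su 2).mul (sv 0)).sub ((su 0).mul (sv 2))
      · exact ((su 0).mul (sv 1)).sub ((su 1).mul (sv 0))
    · exact su l
    · exact sv l
  -- the normalised family
  set α : ℝ := √(Q a a) with hα
  set β : ℝ := √(Q b b) with hβ
  have αp : 0 < α := Real.sqrt_pos.2 ha
  have βp : 0 < β := Real.sqrt_pos.2 hb
  have tp : ∀ s, 0 < nx s / α := fun s => div_pos (nxp s) αp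
  have hrat : ∀ s, nx s * β = ny s * α := fun s => by
    have h3 : (nx s * β) ^ 2 = (ny s * α) ^ 2 := by
      have e1 : β ^ 2 = Q b b := Real.sq_sqrt hb.le
      have e2 : α ^ 2 = Q a a := Real.sq_sqrt ha.le
      rw [mul_pow, mul_pow, e1, e2, pow_two, pow_two, nx2, ny2, va s, vb s]
      ring
    exact (pow_left_inj₀ (mul_pos (nxp s) βp).le (mul_pos (nyp s) αp).le two_ne_zero).1 h3
  have hG : SmHk univ fun s => scl ((H s).rot (frm (u s) (v s)) (hR s)) (nx s / α) (tp s) :=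
    SmHk.scl' (SmHk.rot' hH hR sR) tp (snx.div_const α).contDiffOn
  have e1 : ∀ s, (scl ((H s).rot (frm (u s) (v s)) (hR s)) (nx s / α) (tp s)).om 1 =
      α⁻¹ • F2.lin (x s) (H s).om := fun s => by
    show (nx s / α) • F2.lin (u s) (H s).om = _
    have h3 := (nxp s).ne'
    have h5 : ∀ k, nx s / α * u s k = α⁻¹ * x s k := fun k => by
      simp only [hu]
      field_simp
    rw [lin3_eq, lin3_eq]
    simp only [smul_add, smul_smul, h5]
  have e2 : ∀ s, (scl ((H s).rot (frm (u s) (v s)) (hR s)) (nx s / α) (tp s)).om 2 =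
      β⁻¹ • F2.lin (y s) (H s).om := fun s => by
    show (nx s / α) • F2.lin (v s) (H s).om = _
    have h3 := (nyp s).ne'
    have h4 : nx s / α = ny s / β := by
      rw [div_eq_div_iff αp.ne' βp.ne']
      exact hrat s
    have h5 : ∀ k, ny s / β * v s k = β⁻¹ * y s k := fun k => by
      simp only [hv]
      field_simp
    rw [h4, lin3_eq, lin3_eq]
    simp only [smul_add, smul_smul, h5]
  obtain ⟨φ, ψ, hbi, hcl, f1, f2⟩ := hI _ hG
    (fun t => by
      rw [e1, e1]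
      exact Cl.smul _ ((h1 t).symm.trans (h1 0)))
    (fun t => by
      rw [e2, e2]
      exact Cl.smul _ ((h2 t).symm.trans (h2 0)))
  refine ⟨φ, ψ, x 0, x 1, y 0, y 1, hbi, hcl, h1 0, h1 1, h2 0, h2 1, ?_, ?_⟩
  · rw [e1, e1] at f1
    intro i z hz p q
    have k1 := f1 i z hz p q
    have k2 := pull_smul φ α⁻¹ (F2.lin (x 1) (H 1).om) i z hz p q
    rw [k2] at k1
    have k3 : α⁻¹ * (φ.pull (F2.lin (x 1) (H 1).om)).w i z p q =
        α⁻¹ * (F2.lin (x 0) (H 0).om).w i z p q := k1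
    exact mul_left_cancel₀ (inv_ne_zero αp.ne') k3
  · rw [e2, e2] at f2
    intro i z hz p q
    have k1 := f2 i z hz p q
    have k2 := pull_smul φ β⁻¹ (F2.lin (y 1) (H 1).om) i z hz p q
    rw [k2] at k1
    have k3 : β⁻¹ * (φ.pull (F2.lin (y 1) (H 1).om)).w i z p q =
        β⁻¹ * (F2.lin (y 0) (H 0).om).w i z p q := k1
    exact mul_left_cancel₀ (inv_ne_zero βp.ne') k3

end

end Crest.Agent.R281.Ce_551
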