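import Crest.Agent.R281.Ce2_551

/-!
# Row 281, CHART-END, part 3 (helper551): moves along a family

* `MoveFam Q`  : one Yau move along a jointly smooth family (222), as a Prop
* `UniqMv C`   : uniqueness of the move (151), as a Prop
* `MvTo L b K` : `K` is the move of `L` (complex structure `J 2` fixed) whose plane contains `b`
* `mi`         : the moves of a jointly smooth family towards a fixed class are isotopic
-/

set_option autoImplicit false
set_option maxSynthPendingDepth 3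
set_option linter.unusedSectionVars false

open Set Filter Topology
open scoped ContDiff

namespace Crest.Agent.R281.Ce_551

open Crest.Agent.R281.HkR_835 Crest.Agent.R281.Ti_846 Crest.Agent.R281.Alg_998
open Crest.Agent.R281.Dif_268 Crest.Agent.R281.Nef_252 Crest.Agent.R281.NefO_476
open Crest.Agent.R281.Bx_557 Crest.Agent.R281.Ch_151

noncomputable section

variable {V X : Type} [NormedAddCommGroup V] [NormedSpace ℝ V] [TopologicalSpace X]
  {C : RCh V X}

/-- **MOVE-FAM** (222) -/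
def MoveFam (Q : F2 C →ₗ[ℝ] F2 C →ₗ[ℝ] ℝ) : Prop :=
  ∀ (E : Type) [NormedAddCommGroup E] [NormedSpace ℝ E] [FiniteDimensional ℝ E] (T : Set E),
    IsOpen T → ∀ (k : Fin 3) (H : E → HkT C) (w : E → F2 C), SmHk T H → SmF T w →
    (∀ p ∈ T, 0 < Q ((H p).om 0) ((H p).om 0)) →
    (∀ p ∈ T, T11 (ofHk (H p) k) (w p)) → (∀ p ∈ T, Pos (ofHk (H p) k) (w p)) →
    ∃ (H' : E → HkT C) (r : E → ℝ), SmHk T H' ∧ ContDiffOn ℝ ∞ r T ∧ ∀ p ∈ T, 0 < r p ∧
      (∀ i, ∀ z ∈ (C.e i).target, ∀ v, (H' p).J k i z v = (H p).J k i z v) ∧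
      (∀ l, l ≠ k → Eqv ((H' p).om l) (r p • (H p).om l)) ∧ Cl ((H' p).om k) (w p)

/-- **uniqueness of the move** (151) -/
def UniqMv (C : RCh V X) : Prop :=
  ∀ (k : Fin 3) (H H' : HkT C) (r : ℝ), 0 < r →
    (∀ i, ∀ z ∈ (C.e i).target, ∀ v, H'.J k i z v = H.J k i z v) →
    (∀ l, l ≠ k → Eqv (H'.om l) (r • H.om l)) → Cl (H'.om k) (H.om k) → HEqv H H'

/-- `K` is the move of `L`, with the complex structure `J 2` fixed, whose plane contains `b` -/
structure MvTo (L : HkT C) (b : F2 C) (K : HkT C) : Prop where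
  J : ∀ i, ∀ z ∈ (C.e i).target, ∀ v, K.J 2 i z v = L.J 2 i z v
  om : ∃ r : ℝ, 0 < r ∧ Eqv (K.om 0) (r • L.om 0) ∧ Eqv (K.om 1) (r • L.om 1)
  cl : ∃ q : ℝ, Cl b (K.om 2 + q • K.om 0)

theorem eqv_smul' {w w' : F2 C} (r : ℝ) (h : Eqv w w') : Eqv (r • w) (r • w') :=
  fun i z hz u v => by
    show r * w.w i z u v = r * w'.w i z u v
    rw [h i z hz]

theorem eqv_smul_smul (r s : ℝ) (w : F2 C) : Eqv (r • s • w) ((r * s) • w) := by
  rw [smul_smul]
  exact Eqv.refl _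

theorem heqv_om {H H' : HkT C} (h : HEqv H H') (k : Fin 3) : Eqv (H.om k) (H'.om k) :=
  fun i z hz u v => by rw [h.om k i z hz]

theorem heqv_cl {H H' : HkT C} (h : HEqv H H') (k : Fin 3) : Cl (H.om k) (H'.om k) :=
  cl_eqv (heqv_om h k)

namespace MvTo

variable {L L' K K' : HkT C} {b : F2 C}

theorem heqv_left (h : MvTo L b K) (e : HEqv L L') : MvTo L' b K := by
  obtain ⟨r, hr, e0, e1⟩ := h.om
  exact ⟨fun i z hz v => by rw [h.J i z hz, e.J 2 i z hz], ⟨r, hr,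
    e0.trans (eqv_smul' r (heqv_om e 0)), e1.trans (eqv_smul' r (heqv_om e 1))⟩, h.cl⟩

/-- same base up to `Mv2` -/
theorem base (h : MvTo L b K) {s : ℝ} (hs : 0 < s)
    (hJ : ∀ i, ∀ z ∈ (C.e i).target, ∀ v, L'.J 2 i z v = L.J 2 i z v)
    (e0 : Eqv (L'.om 0) (s • L.om 0)) (e1 : Eqv (L'.om 1) (s • L.om 1)) : MvTo L' b K := by
  obtain ⟨r, hr, f0, f1⟩ := h.om
  have key : ∀ k, Eqv (L'.om k) (s • L.om k) → Eqv (K.om k) (r • L.om k) →
      Eqv (K.om k) ((r / s) • L'.om k) := by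
    intro k g1 g2
    refine g2.trans ?_
    have g3 := eqv_smul' (r / s) g1
    have g4 : Eqv ((r / s) • s • L.om k) (r • L.om k) := by
      rw [smul_smul, div_mul_cancel₀ _ hs.ne']
      exact Eqv.refl _
    exact (g3.trans g4).symm
  exact ⟨fun i z hz v => by rw [h.J i z hz, hJ i z hz], ⟨r / s, div_pos hr hs, key 0 e0 f0,
    key 1 e1 f1⟩, h.cl⟩

variable {Q : F2 C →ₗ[ℝ] F2 C →ₗ[ℝ] ℝ}

/-- **uniqueness of the move** -/
theorem uniq (hQ : QHk C Q) (hU : UniqMv C) (hL : 0 < Q (L.om 0) (L.om 0)) (h : MvTo L b K)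
    (h' : MvTo L b K') : HEqv K K' := by
  obtain ⟨r, hr, e0, e1⟩ := h.om
  obtain ⟨q, hq⟩ := h.cl
  obtain ⟨r', hr', e0', e1'⟩ := h'.om
  obtain ⟨q', hq'⟩ := h'.cl
  have key : ∀ k, Eqv (K.om k) (r • L.om k) → Eqv (K'.om k) (r' • L.om k) →
      Eqv (K'.om k) ((r' / r) • K.om k) := by
    intro k g1 g2
    refine g2.trans ?_
    have g3 := eqv_smul' (r' / r) g1
    have g4 : Eqv ((r' / r) • r • L.om k) (r' • L.om k) := by
      rw [smul_smul, div_mul_cancel₀ _ hr.ne']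
      exact Eqv.refl _
    exact (g3.trans g4).symm
  -- the classes of `om 2`
  have c1 : Cl b (K.om 2 + (q * r) • L.om 0) := by
    refine hq.trans (Cl.add (Cl.refl _) ?_)
    have := Cl.smul q (cl_eqv e0)
    rwa [smul_smul] at this
  have c2 : Cl b (K'.om 2 + (q' * r') • L.om 0) := by
    refine hq'.trans (Cl.add (Cl.refl _) ?_)
    have := Cl.smul q' (cl_eqv e0')
    rwa [smul_smul] at this
  have v1 : ∀ (K : HkT C) (r q : ℝ), 0 < r → Eqv (K.om 0) (r • L.om 0) →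
      Cl b (K.om 2 + (q * r) • L.om 0) → Q b (L.om 0) = (q * r) * Q (L.om 0) (L.om 0) := by
    intro K r q hr e hc
    have k1 : Q (K.om 2) (L.om 0) = 0 := by
      have k2 : Cl (K.om 0) (r • L.om 0) := cl_eqv e
      have k3 := hQ.cl_right k2 (K.om 2)
      rw [hQ.ort K 2 0 (by decide), map_smul, smul_eq_mul] at k3
      exact (mul_eq_zero.1 k3.symm).resolve_left hr.ne'
    rw [hQ.cl_left hc, map_add, map_smul, LinearMap.add_apply, LinearMap.smul_apply, k1,
      smul_eq_mul, zero_add]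
  have hqq : q * r = q' * r' := by
    have k1 := v1 K r q hr e0 c1
    have k2 := v1 K' r' q' hr' e0' c2
    rw [k1] at k2
    exact mul_right_cancel₀ hL.ne' k2
  have c3 : Cl (K'.om 2) (K.om 2) := by
    have k1 : Cl (K'.om 2 + (q' * r') • L.om 0) (K.om 2 + (q' * r') • L.om 0) := by
      rw [← hqq]
      rw [← hqq] at c2
      exact c2.symm.trans c1
    have k2 := k1.add (Cl.refl (-((q' * r') • L.om 0)))
    simpa using k2
  refine hU 2 K K' (r' / r) (div_pos hr' hr) (fun i z hz v => by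
    rw [h'.J i z hz, h.J i z hz]) (fun l hl => ?_) c3
  fin_cases l
  · exact key 0 e0 e0'
  · exact key 1 e1 e1'
  · exact absurd rfl hl

end MvTo

variable {Q : F2 C →ₗ[ℝ] F2 C →ₗ[ℝ] ℝ}

/-- **moves of a jointly smooth family towards a fixed class `b`**: the structures `⟨A, b⟩` of the
moved triples are isotopic -/
theorem mi (hQ : QHk C Q) (hI : IsoFam C) (hM : MoveFam Q) {h : ℝ → HkT C} (hh : SmHk univ h)
    {ψ : ℝ → F2 C} (hψ : SmF univ ψ) (hT : ∀ s, T11 (ofHk (h s) 2) (ψ s)) {A b : F2 C}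
    (hA : 0 < Q A A) (hb : 0 < Q b b) (hAb : Q A b = 0) {a p q : ℝ → ℝ} (sa : ContDiff ℝ ∞ a)
    (sp : ContDiff ℝ ∞ p) (sq' : ContDiff ℝ ∞ q)
    (hpos : ∀ s, Pos (ofHk (h s) 2) (p s • (h s).om 2 + ψ s))
    (cA : ∀ s, Cl A (a s • (h s).om 1))
    (cb : ∀ s, Cl b (p s • (h s).om 2 + ψ s + q s • (h s).om 0)) :
    ∃ K : ℝ → HkT C, (∀ s, MvTo (h s) b (K s)) ∧ Iso2 A b (K 0) (K 1) := by
  have rpA : ∀ s, Rp (h s) A ![0, a s, 0] := fun s => by
    unfold Rp
    rw [lin3_eq]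
    simpa using cA s
  have hQ0 : ∀ s, 0 < Q ((h s).om 0) ((h s).om 0) := fun s => hQ.rp_pos (rpA s) hA
  have hw : SmF univ fun s => p s • (h s).om 2 + ψ s :=
    ((hh.om 2).smul sp.contDiffOn).add hψ
  obtain ⟨K, r, hK, sr, hKr⟩ := hM ℝ univ isOpen_univ 2 h _ hh hw (fun s _ => hQ0 s)
    (fun s _ => ((T11_hk (h s) 2).smul (p s)).add (hT s)) fun s _ => hpos s
  have rp : ∀ s, 0 < r s := fun s => (hKr s (mem_univ _)).1
  have e0 : ∀ s, Eqv ((K s).om 0) (r s • (h s).om 0) := fun s =>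
    (hKr s (mem_univ _)).2.2.1 0 (by decide)
  have e1 : ∀ s, Eqv ((K s).om 1) (r s • (h s).om 1) := fun s =>
    (hKr s (mem_univ _)).2.2.1 1 (by decide)
  have c2 : ∀ s, Cl ((K s).om 2) (p s • (h s).om 2 + ψ s) := fun s =>
    (hKr s (mem_univ _)).2.2.2
  have sr' : ContDiff ℝ ∞ r := contDiffOn_univ.1 sr
  have inv : ∀ s k, Eqv ((K s).om k) (r s • (h s).om k) → ∀ c : ℝ,
      Cl (c • (h s).om k) ((c / r s) • (K s).om k) := by
    intro s k hk c
    have k1 := Cl.smul (c / r s) (cl_eqv hk)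
    rw [smul_smul, div_mul_cancel₀ _ (rp s).ne'] at k1
    exact k1.symm
  have cb' : ∀ s, Cl b ((K s).om 2 + (q s / r s) • (K s).om 0) := fun s =>
    (cb s).trans ((c2 s).symm.add (inv s 0 (e0 s) (q s)))
  refine ⟨K, fun s => ⟨(hKr s (mem_univ _)).2.1, ⟨r s, rp s, e0 s, e1 s⟩, q s / r s, cb' s⟩, ?_⟩
  refine iso2_fam hQ hI hK hA hb hAb (x := fun s => ![0, a s / r s, 0])
    (y := fun s => ![q s / r s, 0, 1]) (fun k => ?_) (fun k => ?_) (fun s => ?_) fun s => ?_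
  · fin_cases k
    · exact contDiff_const
    · exact sa.div sr' fun s => (rp s).ne'
    · exact contDiff_const
  · fin_cases k
    · exact sq'.div sr' fun s => (rp s).ne'
    · exact contDiff_const
    · exact contDiff_const
  · unfold Rp
    rw [lin3_eq]
    have k1 := (cA s).trans (inv s 1 (e1 s) (a s))
    simpa using k1
  · unfold Rp
    rw [lin3_eq]
    have k1 := cb' s
    rw [add_comm] at k1
    simpa using k1

end

end Crest.Agent.R281.Ce_551
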