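import Crest.Agent.R281.Ce3_551
import Crest.Agent.R281.Bx2_557
import Crest.Agent.R281.Iso4_139

/-!
# Row 281, CHART-END, part 4 (helper551): the segment of Kaehler forms on one complex manifold

* `exists_seg` : `G`, `G'` with the same `J 0` and proportional `om 1`, `om 2`, `Ef` a closed form of
  type (1,1) for `J 0`. Then there is a jointly smooth path `h` of triples from `G` to `G'`, with the
  same `J 0`, and jointly smooth forms `ψ s`, of type (1,1) for ALL complex structures of `h s`,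
  with `Ef ~ ψ s + lam s • (h s).om 0`.
-/

set_option autoImplicit false
set_option maxSynthPendingDepth 3
set_option linter.unusedSectionVars false

open Set Filter Topology
open scoped ContDiff

namespace Crest.Agent.R281.Ce_551

open Crest.Agent.R281.HkR_835 Crest.Agent.R281.Ti_846 Crest.Agent.R281.Alg_998
open Crest.Agent.R281.Dif_268 Crest.Agent.R281.Nef_252 Crest.Agent.R281.NefO_476
open Crest.Agent.R281.Bx_557 Crest.Agent.R281.Ch_151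

noncomputable section

variable {V X : Type} [NormedAddCommGroup V] [NormedSpace ℝ V] [TopologicalSpace X]
  {C : RCh V X} {Q : F2 C →ₗ[ℝ] F2 C →ₗ[ℝ] ℝ}

/-- the direction of the segment -/
def yS (G G' : HkT C) (Ef : F2 C) : Fin 2 → F2 C := ![G'.om 0 - G.om 0, Ef]

/-- the coordinates -/
def cS : Fin 2 → (ℝ × ℝ →L[ℝ] ℝ) :=
  ![ContinuousLinearMap.fst ℝ ℝ ℝ, ContinuousLinearMap.snd ℝ ℝ ℝ]

/-- the Kaehler forms `(1 - s) om 0 + s om' 0 + ε Ef` -/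
def wS (G G' : HkT C) (Ef : F2 C) (p : ℝ × ℝ) : F2 C :=
  ∑ k, cS k p • yS G G' Ef k + G.om 0

theorem wS_eq (G G' : HkT C) (Ef : F2 C) (p : ℝ × ℝ) :
    wS G G' Ef p = (1 - p.1) • G.om 0 + p.1 • G'.om 0 + p.2 • Ef := by
  unfold wS
  rw [Fin.sum_univ_two]
  show p.1 • (G'.om 0 - G.om 0) + p.2 • Ef + G.om 0 = _
  module

theorem wS_sm (G G' : HkT C) (Ef : F2 C) (T : Set (ℝ × ℝ)) : SmF T (wS G G' Ef) := by
  have h1 : wS G G' Ef = fun p : ℝ × ℝ => (1 - p.1) • G.om 0 + p.1 • G'.om 0 + p.2 • Ef :=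
    funext fun p => wS_eq G G' Ef p
  rw [h1]
  have s1 : ContDiffOn ℝ ∞ (fun p : ℝ × ℝ => 1 - p.1) T :=
    (contDiff_const.sub contDiff_fst).contDiffOn
  exact (((SmF.const T (G.om 0)).smul s1).add ((SmF.const T (G'.om 0)).smul
    contDiff_fst.contDiffOn)).add ((SmF.const T Ef).smul contDiff_snd.contDiffOn)

theorem T11_congrJ {J J' : AJ C} (h : ∀ i, ∀ z ∈ (C.e i).target, ∀ v, J'.J i z v = J.J i z v)
    {w : F2 C} (hw : T11 J w) : T11 J' w := fun i z hz u v => by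
  rw [h i z hz, h i z hz]
  exact hw i z hz u v

theorem Pos_congrJ {J J' : AJ C} (h : ∀ i, ∀ z ∈ (C.e i).target, ∀ v, J'.J i z v = J.J i z v)
    {w : F2 C} (hw : Pos J w) : Pos J' w := fun i z hz v hv => by
  rw [h i z hz]
  exact hw i z hz v hv

variable [FiniteDimensional ℝ V] [CompactSpace X] [T2Space X]

/-- **the segment** -/
theorem exists_seg (hM : MoveFam Q) (hU : UniqMv C) {G G' : HkT C}
    (hG : 0 < Q (G.om 0) (G.om 0))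
    (hJ : ∀ i, ∀ z ∈ (C.e i).target, ∀ v, G'.J 0 i z v = G.J 0 i z v) {r : ℝ} (hr : 0 < r)
    (e1 : Eqv (G'.om 1) (r • G.om 1)) (e2 : Eqv (G'.om 2) (r • G.om 2)) {Ef : F2 C}
    (hE : T11 (ofHk G 0) Ef) :
    ∃ (h : ℝ → HkT C) (ρ lam : ℝ → ℝ) (ψ : ℝ → F2 C), SmHk univ h ∧ ContDiff ℝ ∞ ρ ∧
      ContDiff ℝ ∞ lam ∧ SmF univ ψ ∧ (∀ s, 0 < ρ s) ∧ (∀ s l, T11 (ofHk (h s) l) (ψ s)) ∧
      (∀ s, Eqv ((h s).om 1) (ρ s • G.om 1)) ∧ (∀ s, Eqv ((h s).om 2) (ρ s • G.om 2)) ∧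
      (∀ s, Cl Ef (ψ s + lam s • (h s).om 0)) ∧ HEqv G (h 0) ∧ HEqv G' (h 1) ∧
      ∀ c : ℝ, 0 < c → ∃ δ : ℝ, 0 < δ ∧ ∀ t : ℝ, |t| < δ → ∀ s,
        Pos (ofHk (h s) 2) ((c / ρ s) • (h s).om 2 + t • ψ s) := by
  set w := wS G G' Ef with hw
  have hwsm : ∀ T, SmF T w := fun T => wS_sm G G' Ef T
  set T : Set (ℝ × ℝ) := {p | p ∈ univ ∧ Pos (ofHk G 0) (w p)} with hTd
  have hT : IsOpen T :=
    SmHk.isOpen_pos (E := ℝ × ℝ) isOpen_univ (smHk_const univ G) 0 (hwsm univ)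
  have hP' : Pos (ofHk G 0) (G'.om 0) :=
    Pos_congrJ (J := ofHk G' 0) (fun i z hz v => (hJ i z hz v).symm) (Pos_hk G' 0)
  have hT' : T11 (ofHk G 0) (G'.om 0) :=
    T11_congrJ (J := ofHk G' 0) (fun i z hz v => (hJ i z hz v).symm) (T11_hk G' 0)
  have hseg : ∀ s ∈ Icc (0 : ℝ) 1, ((s, 0) : ℝ × ℝ) ∈ T := by
    intro s hs
    refine ⟨mem_univ _, ?_⟩
    rw [hw, wS_eq]
    show Pos (ofHk G 0) ((1 - s) • G.om 0 + s • G'.om 0 + (0 : ℝ) • Ef)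
    rw [zero_smul, add_zero]
    rcases eq_or_lt_of_le hs.1 with rfl | h0
    · simpa using Pos_hk G 0
    · rcases eq_or_lt_of_le hs.2 with rfl | h1
      · simpa using hP'
      · exact Pos.add (Pos.smul (by linarith) (Pos_hk G 0)) (Pos.smul h0 hP')
  have hT11 : ∀ p ∈ T, T11 (ofHk G 0) (w p) := by
    intro p _
    rw [hw, wS_eq]
    exact (((T11_hk G 0).smul _).add (hT'.smul _)).add (hE.smul _)
  obtain ⟨M, ρ, hMs, hρ, hMr⟩ := hM (ℝ × ℝ) T hT 0 (fun _ => G) w (smHk_const T G) (hwsm T)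
    (fun _ _ => hG) hT11 fun p hp => hp.2
  have ρp : ∀ p ∈ T, 0 < ρ p := fun p hp => (hMr p hp).1
  have MJ : ∀ p ∈ T, ∀ i, ∀ z ∈ (C.e i).target, ∀ v, (M p).J 0 i z v = (ofHk G 0).J i z v :=
    fun p hp => (hMr p hp).2.1
  have Mo : ∀ p ∈ T, ∀ l, l ≠ 0 → Eqv ((M p).om l) (ρ p • G.om l) :=
    fun p hp => (hMr p hp).2.2.1
  have Mc : ∀ p ∈ T, Cl ((M p).om 0) (w p) := fun p hp => (hMr p hp).2.2.2
  have hρi : ContDiffOn ℝ ∞ (fun p => (ρ p)⁻¹) T := hρ.inv fun p hp => (ρp p hp).ne'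
  have hm : SmF T fun p => (ρ p)⁻¹ • (M p).om 0 := (hMs.om 0).smul hρi
  have hm' : SmF T fun p => (ρ p)⁻¹ • w p := (hwsm T).smul hρi
  have hmw : ∀ p ∈ T, Ex ((ρ p)⁻¹ • (M p).om 0 - (ρ p)⁻¹ • w p) := fun p hp =>
    Cl.smul _ (Mc p hp)
  set ψ0 : ℝ × ℝ → F2 C := dF T hT (fun p => (ρ p)⁻¹ • (M p).om 0) hm ((0, 1) : ℝ × ℝ) with hψ0
  have hψs : SmF T ψ0 := dF_sm hT hm _
  have hψT : ∀ p ∈ T, ∀ l, T11 (ofHk (M p) l) (ψ0 p) := fun p hp l =>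
    dF_inv hT hMs MJ ρp Mo hm _ hp l
  set κ : ℝ × ℝ → ℝ := fun p => fderiv ℝ (fun p => (ρ p)⁻¹) p ((0, 1) : ℝ × ℝ) with hκ
  have hκs : ContDiffOn ℝ ∞ κ T :=
    (hρi.fderiv_of_isOpen hT (by simp)).clm_apply contDiffOn_const
  have hψc : ∀ p ∈ T, Cl (ψ0 p) (κ p • w p + (ρ p)⁻¹ • Ef) := by
    intro p hp
    have k1 : Cl (ψ0 p) (dF T hT (fun p => (ρ p)⁻¹ • w p) hm' ((0, 1) : ℝ × ℝ) p) :=
      ex_dF_sub hT hm hm' hmw _ hp
    have k2 : Cl (dF T hT (fun p => (ρ p)⁻¹ • w p) hm' ((0, 1) : ℝ × ℝ) p)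
        (κ p • w p + (ρ p)⁻¹ • ∑ k, cS k ((0, 1) : ℝ × ℝ) • yS G G' Ef k) :=
      cl_eqv (dF_smul_lin hT hρi (c := cS) (y := yS G G' Ef) (y0 := G.om 0) hm' _ hp)
    have k3 : ∑ k, cS k ((0, 1) : ℝ × ℝ) • yS G G' Ef k = Ef := by
      rw [Fin.sum_univ_two]
      show (0 : ℝ) • (G'.om 0 - G.om 0) + (1 : ℝ) • Ef = Ef
      rw [zero_smul, one_smul, zero_add]
    rw [k3] at k2
    exact k1.trans k2
  -- reparametrisation
  obtain ⟨θ, hθ, θ0, θ1, hθI⟩ := Iso_139.exists_theta (0 : ℝ) 1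
  have hθI' : ∀ s, θ s ∈ Icc (0 : ℝ) 1 := fun s => by
    have := hθI s
    rwa [uIcc_of_le zero_le_one] at this
  have hg : ContDiff ℝ ∞ fun s : ℝ => ((θ s, 0) : ℝ × ℝ) := hθ.prodMk contDiff_const
  have hgT : ∀ s, ((θ s, 0) : ℝ × ℝ) ∈ T := fun s => hseg _ (hθI' s)
  have hgm : MapsTo (fun s : ℝ => ((θ s, 0) : ℝ × ℝ)) univ T := fun s _ => hgT s
  have cps : ∀ {f : ℝ × ℝ → ℝ}, ContDiffOn ℝ ∞ f T → ContDiff ℝ ∞ fun s => f (θ s, 0) :=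
    fun hf => contDiffOn_univ.1 (hf.comp hg.contDiffOn hgm)
  refine ⟨fun s => M (θ s, 0), fun s => ρ (θ s, 0), fun s => -(ρ (θ s, 0) * κ (θ s, 0)),
    fun s => ρ (θ s, 0) • ψ0 (θ s, 0), SmHk.comp' hMs hg.contDiffOn hgm, cps hρ,
    (cps (hρ.mul hκs)).neg, SmF.comp' (hψs.smul hρ) hg.contDiffOn hgm, fun s => ρp _ (hgT s),
    fun s l => (hψT _ (hgT s) l).smul _, fun s => Mo _ (hgT s) 1 (by decide),
    fun s => Mo _ (hgT s) 2 (by decide), fun s => ?_, ?_, ?_, ?_⟩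
  · -- the class of `Ef`
    have k0 := ρp _ (hgT s)
    have k1 := (hψc _ (hgT s)).smul (ρ (θ s, 0))
    rw [smul_add, smul_smul, smul_smul, mul_inv_cancel₀ k0.ne', one_smul] at k1
    have k2 := ((Mc _ (hgT s)).smul (-(ρ (θ s, 0) * κ (θ s, 0))))
    have k3 := k1.add k2
    have k4 : (ρ (θ s, 0) * κ (θ s, 0)) • w (θ s, 0) + Ef + -(ρ (θ s, 0) * κ (θ s, 0)) • w (θ s, 0)
        = Ef := by module
    rw [k4] at k3
    exact k3.symm
  · -- the start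
    show HEqv G (M (θ 0, 0))
    rw [θ0]
    have h0 := hseg 0 ⟨le_rfl, zero_le_one⟩
    refine hU 0 G (M (0, 0)) (ρ (0, 0)) (ρp _ h0) (MJ _ h0) (Mo _ h0) ?_
    have k1 := Mc _ h0
    have k2 : w (0, 0) = G.om 0 := by rw [hw, wS_eq]; simp
    rwa [k2] at k1
  · show HEqv G' (M (θ 1, 0))
    rw [θ1]
    have h0 := hseg 1 ⟨zero_le_one, le_rfl⟩
    refine hU 0 G' (M (1, 0)) (ρ (1, 0) / r) (div_pos (ρp _ h0) hr) (fun i z hz v => ?_)
      (fun l hl => ?_) ?_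
    · rw [hJ i z hz]
      exact MJ _ h0 i z hz v
    · have k1 := Mo _ h0 l hl
      have k2 : Eqv (G'.om l) (r • G.om l) := by
        fin_cases l
        · exact absurd rfl hl
        · exact e1
        · exact e2
      refine k1.trans ?_
      have k3 := eqv_smul' (ρ (1, 0) / r) k2
      rw [smul_smul, div_mul_cancel₀ _ hr.ne'] at k3
      exact k3.symm
    · have k1 := Mc _ h0
      have k2 : w (1, 0) = G'.om 0 := by rw [hw, wS_eq]; simp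
      rwa [k2] at k1
  · -- uniform positivity
    intro c hc
    have hS : IsOpen {s : ℝ | ((s, 0) : ℝ × ℝ) ∈ T} :=
      hT.preimage (continuous_id.prodMk continuous_const)
    have hg' : ContDiff ℝ ∞ fun s : ℝ => ((s, 0) : ℝ × ℝ) := contDiff_id.prodMk contDiff_const
    have hgm' : MapsTo (fun s : ℝ => ((s, 0) : ℝ × ℝ)) {s : ℝ | ((s, 0) : ℝ × ℝ) ∈ T} T :=
      fun s hs => hs
    have hMS : SmHk {s : ℝ | ((s, 0) : ℝ × ℝ) ∈ T} fun s => M (s, 0) :=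
      SmHk.comp' hMs hg'.contDiffOn hgm'
    have hg2 : ContDiff ℝ ∞ fun p : ℝ × ℝ => ((p.1, 0) : ℝ × ℝ) :=
      contDiff_fst.prodMk contDiff_const
    have hgm2 : MapsTo (fun p : ℝ × ℝ => ((p.1, 0) : ℝ × ℝ))
        ({s : ℝ | ((s, 0) : ℝ × ℝ) ∈ T} ×ˢ univ) T := fun p hp => hp.1
    have hW : SmF ({s : ℝ | ((s, 0) : ℝ × ℝ) ∈ T} ×ˢ univ) fun p : ℝ × ℝ =>
        (c / ρ (p.1, 0)) • (M (p.1, 0)).om 2 + p.2 • (ρ (p.1, 0) • ψ0 (p.1, 0)) := by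
      have s1 : SmF T fun p => (c / ρ p) • (M p).om 2 :=
        (hMs.om 2).smul (contDiffOn_const.div hρ fun p hp => (ρp p hp).ne')
      have s2 : SmF T fun p => ρ p • ψ0 p := hψs.smul hρ
      exact (SmF.comp' s1 hg2.contDiffOn hgm2).add
        ((SmF.comp' s2 hg2.contDiffOn hgm2).smul contDiff_snd.contDiffOn)
    obtain ⟨δ, hδ, hδ'⟩ := exists_unif hS hMS 2 hW (isCompact_Icc (a := (0 : ℝ)) (b := 1))
      (fun s hs => hseg s hs) (fun s hs => by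
        show Pos (ofHk (M (s, 0)) 2) ((c / ρ (s, 0)) • (M (s, 0)).om 2 + (0 : ℝ) • _)
        rw [zero_smul, add_zero]
        exact Pos.smul (div_pos hc (ρp _ (hseg s hs))) (Pos_hk _ 2))
    exact ⟨δ, hδ, fun t ht s => hδ' (θ s) (hθI' s) t ht⟩

end

end Crest.Agent.R281.Ce_551
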