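import Crest.Agent.R281.Ce4_551
import Crest.Agent.R281.Bx3_557

/-!
# Row 281, CHART-END, part 5 (helper551): the chart side

* `T11_rot`    : a form of type (1,1) for all complex structures of `H` is so for those of a rotation
* `Rt θ`       : rotation about `om 1`
* `rot_seg`    : the segment of the angles: moves of `G.rot (Rt θ)` towards `b`
* `chart_side` : moves of `G.rot (Rt θ₀)` and of `G'` towards `b₀ + t e` are isotopic, `t` small
-/

set_option autoImplicit false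
set_option maxSynthPendingDepth 3
set_option linter.unusedSectionVars false

open Set Filter Topology
open scoped ContDiff

namespace Crest.Agent.R281.Ce_551

open Crest.Agent.R281.HkR_835 Crest.Agent.R281.Ti_846 Crest.Agent.R281.Alg_998
open Crest.Agent.R281.Dif_268 Crest.Agent.R281.Nef_252 Crest.Agent.R281.NefO_476
open Crest.Agent.R281.Bx_557 Crest.Agent.R281.Ch_151

noncomputable section

variable {V X : Type} [NormedAddCommGroup V] [NormedSpace ℝ V] [TopologicalSpace X]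
  {C : RCh V X} {Q : F2 C →ₗ[ℝ] F2 C →ₗ[ℝ] ℝ}

/-! ### rotations -/

theorem T11_rot {H : HkT C} {w : F2 C} (h : ∀ l, T11 (ofHk H l) w) {R : Fin 3 → Fin 3 → ℝ}
    (hR : HkT.Fr R) (k : Fin 3) : T11 (ofHk (H.rot R hR) k) w := by
  intro i z hz u v
  have e : ∀ u, (ofHk (H.rot R hR) k).J i z u =
      R k 0 • H.J 0 i z u + R k 1 • H.J 1 i z u + R k 2 • H.J 2 i z u := fun u => by
    show (H.rot R hR).J k i z u = _
    rw [HkT.rot_J, Jv3]
    rfl
  have c0 : ∀ u v, w.w i z (H.J 0 i z u) (H.J 0 i z v) = w.w i z u v := h 0 i z hz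
  have c1 : ∀ u v, w.w i z (H.J 1 i z u) (H.J 1 i z v) = w.w i z u v := h 1 i z hz
  have c2 : ∀ u v, w.w i z (H.J 2 i z u) (H.J 2 i z v) = w.w i z u v := h 2 i z hz
  have c01 : w.w i z (H.J 0 i z u) (H.J 1 i z v) = -w.w i z u (H.J 2 i z v) := by
    rw [← c0, H.J_sq 0 i z hz, H.J_01 i z hz, map_neg, neg_apply]
  have c10 : w.w i z (H.J 1 i z u) (H.J 0 i z v) = w.w i z u (H.J 2 i z v) := by
    rw [← c1, H.J_sq 1 i z hz, H.J_10 hz, map_neg, map_neg, neg_apply, neg_neg]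
  have c02 : w.w i z (H.J 0 i z u) (H.J 2 i z v) = w.w i z u (H.J 1 i z v) := by
    rw [← c0, H.J_sq 0 i z hz, H.J_02 hz, map_neg, map_neg, neg_apply, neg_neg]
  have c20 : w.w i z (H.J 2 i z u) (H.J 0 i z v) = -w.w i z u (H.J 1 i z v) := by
    rw [← c2, H.J_sq 2 i z hz, H.J_20 hz, map_neg, neg_apply]
  have c12 : w.w i z (H.J 1 i z u) (H.J 2 i z v) = -w.w i z u (H.J 0 i z v) := by
    rw [← c1, H.J_sq 1 i z hz, H.J_12 hz, map_neg, neg_apply]
  have c21 : w.w i z (H.J 2 i z u) (H.J 1 i z v) = w.w i z u (H.J 0 i z v) := by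
    rw [← c2, H.J_sq 2 i z hz, H.J_21 hz, map_neg, map_neg, neg_apply, neg_neg]
  have n := hR.nrm k
  rw [e, e]
  simp only [map_add, map_smul, add_apply, smul_apply, smul_eq_mul, c0, c1, c2, c01, c10, c02,
    c20, c12, c21]
  linear_combination (w.w i z u v) * n

/-- rotation about `om 1` -/
def Rt (θ : ℝ) : Fin 3 → Fin 3 → ℝ :=
  ![![Real.cos θ, 0, Real.sin θ], ![0, 1, 0], ![-Real.sin θ, 0, Real.cos θ]]

theorem Rt_fr (θ : ℝ) : HkT.Fr (Rt θ) where
  nrm k := by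
    have h := Real.sin_sq_add_cos_sq θ
    fin_cases k
    · show Real.cos θ * Real.cos θ + 0 * 0 + Real.sin θ * Real.sin θ = 1
      linear_combination h
    · show (0 : ℝ) * 0 + 1 * 1 + 0 * 0 = 1
      norm_num
    · show -Real.sin θ * -Real.sin θ + 0 * 0 + Real.cos θ * Real.cos θ = 1
      linear_combination h
  ort := by
    show Real.cos θ * 0 + 0 * 1 + Real.sin θ * 0 = 0
    ring
  crs := by
    funext k
    fin_cases k
    · show -Real.sin θ = 0 * 0 - Real.sin θ * 1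
      ring
    · show (0 : ℝ) = Real.sin θ * 0 - Real.cos θ * 0
      ring
    · show Real.cos θ = Real.cos θ * 1 - 0 * 0
      ring

theorem Rt_sm {E : Type} [NormedAddCommGroup E] [NormedSpace ℝ E] {T : Set E} {θ : E → ℝ}
    (h : ContDiffOn ℝ ∞ θ T) (k l : Fin 3) : ContDiffOn ℝ ∞ (fun p => Rt (θ p) k l) T := by
  fin_cases k
  · fin_cases l
    · exact Real.contDiff_cos.comp_contDiffOn h
    · exact contDiffOn_const
    · exact Real.contDiff_sin.comp_contDiffOn h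
  · fin_cases l <;> exact contDiffOn_const
  · fin_cases l
    · exact (Real.contDiff_sin.comp_contDiffOn h).neg
    · exact contDiffOn_const
    · exact Real.contDiff_cos.comp_contDiffOn h

/-- `G` rotated about `om 1` -/
def Gt (G : HkT C) (θ : ℝ) : HkT C := G.rot (Rt θ) (Rt_fr θ)

theorem Gt_om0 (G : HkT C) (θ : ℝ) :
    (Gt G θ).om 0 = Real.cos θ • G.om 0 + Real.sin θ • G.om 2 := by
  show F2.lin (Rt θ 0) G.om = _
  rw [lin3_eq]
  show Real.cos θ • G.om 0 + (0 : ℝ) • G.om 1 + Real.sin θ • G.om 2 = _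
  rw [zero_smul, add_zero]

theorem Gt_om1 (G : HkT C) (θ : ℝ) : (Gt G θ).om 1 = G.om 1 := by
  show F2.lin (Rt θ 1) G.om = _
  rw [lin3_eq]
  show (0 : ℝ) • G.om 0 + (1 : ℝ) • G.om 1 + (0 : ℝ) • G.om 2 = _
  rw [zero_smul, zero_smul, add_zero, one_smul, zero_add]

theorem Gt_om2 (G : HkT C) (θ : ℝ) :
    (Gt G θ).om 2 = -Real.sin θ • G.om 0 + Real.cos θ • G.om 2 := by
  show F2.lin (Rt θ 2) G.om = _
  rw [lin3_eq]
  show -Real.sin θ • G.om 0 + (0 : ℝ) • G.om 1 + Real.cos θ • G.om 2 = _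
  rw [zero_smul, add_zero]

theorem om0_Gt (G : HkT C) (θ : ℝ) :
    Real.cos θ • (Gt G θ).om 0 + -Real.sin θ • (Gt G θ).om 2 = G.om 0 := by
  have h := Real.sin_sq_add_cos_sq θ
  rw [Gt_om0, Gt_om2]
  have e : Real.cos θ • (Real.cos θ • G.om 0 + Real.sin θ • G.om 2) +
      -Real.sin θ • (-Real.sin θ • G.om 0 + Real.cos θ • G.om 2) =
      (Real.sin θ ^ 2 + Real.cos θ ^ 2) • G.om 0 := by module
  rw [e, h, one_smul]

theorem om2_Gt (G : HkT C) (θ : ℝ) :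
    Real.sin θ • (Gt G θ).om 0 + Real.cos θ • (Gt G θ).om 2 = G.om 2 := by
  have h := Real.sin_sq_add_cos_sq θ
  rw [Gt_om0, Gt_om2]
  have e : Real.sin θ • (Real.cos θ • G.om 0 + Real.sin θ • G.om 2) +
      Real.cos θ • (-Real.sin θ • G.om 0 + Real.cos θ • G.om 2) =
      (Real.sin θ ^ 2 + Real.cos θ ^ 2) • G.om 2 := by module
  rw [e, h, one_smul]

theorem Gt_zero (G : HkT C) : HEqv (Gt G 0) G := by
  refine rot_one G _ fun k l => ?_
  fin_cases k <;> fin_cases l <;> simp [Rt]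

theorem SmHk.gt {T : Set ℝ} (G : HkT C) {θ : ℝ → ℝ} (h : ContDiffOn ℝ ∞ θ T) :
    SmHk T fun s => Gt G (θ s) :=
  SmHk.rot' (smHk_const T G) (fun s => Rt_fr (θ s)) fun k l => Rt_sm h k l

/-! ### equal triples -/

theorem Iso2.of_heqv {a b : F2 C} {H H' : HkT C} (h : HEqv H H') {x y : Fin 3 → ℝ}
    (h1 : Rp H a x) (h3 : Rp H b y) : Iso2 a b H H' := by
  have e : ∀ x : Fin 3 → ℝ, Eqv (F2.lin x H.om) (F2.lin x H'.om) := fun x =>
    lin_eqv x fun k => heqv_om h k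
  exact .of_eqv h1 (h1.trans (cl_eqv (e x))) h3 (h3.trans (cl_eqv (e y))) (e x).symm (e y).symm

theorem Iso2.heqv_right {a b : F2 C} {H K K' : HkT C} (hQ : QHk C Q) (ha : 0 < Q a a)
    (h : Iso2 a b H K) (e : HEqv K K') : Iso2 a b H K' := by
  have h' := h
  obtain ⟨φ, ψ, x, x', y, y', hb, hc, h1, h2, h3, h4, e1, e2⟩ := h'
  exact h.trans hQ ha (Iso2.of_heqv e h2 h4)

theorem MvTo.heqv_right {L K K' : HkT C} {b : F2 C} (h : MvTo L b K) (e : HEqv K K') :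
    MvTo L b K' := by
  obtain ⟨r, hr, e0, e1⟩ := h.om
  obtain ⟨q, hq⟩ := h.cl
  exact ⟨fun i z hz v => by rw [← e.J 2 i z hz, h.J i z hz], ⟨r, hr,
    (heqv_om e 0).symm.trans e0, (heqv_om e 1).symm.trans e1⟩, q,
    hq.trans ((heqv_cl e 2).add ((heqv_cl e 0).smul q))⟩

variable [FiniteDimensional ℝ V] [CompactSpace X] [T2Space X]

/-- **the segment of the angles** -/
theorem rot_seg (hQ : QHk C Q) (hI : IsoFam C) (hM : MoveFam Q) {G : HkT C} {ψ : F2 C}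
    (hψ : ∀ l, T11 (ofHk G l) ψ) {lam : ℝ} {A b0 e : F2 C}
    (he : Cl e (ψ + lam • G.om 0)) {a c : ℝ} (hc : 0 < c) (cA : Cl A (a • G.om 1))
    (cb : Cl b0 (c • G.om 2)) (hA : 0 < Q A A)
    (hb : ∀ t : ℝ, 0 < Q (b0 + t • e) (b0 + t • e)) (hAb : ∀ t : ℝ, Q A (b0 + t • e) = 0)
    {θ0 : ℝ} (hθ0 : |θ0| < Real.pi / 2) :
    ∃ δ : ℝ, 0 < δ ∧ ∀ t : ℝ, |t| < δ → ∃ K K' : HkT C, MvTo (Gt G θ0) (b0 + t • e) K ∧
      MvTo G (b0 + t • e) K' ∧ Iso2 A (b0 + t • e) K K' := by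
  have hcos : ∀ θ ∈ uIcc θ0 0, 0 < Real.cos θ := by
    intro θ hθ
    rw [abs_lt] at hθ0
    have h1 : -(Real.pi / 2) < θ ∧ θ < Real.pi / 2 := by
      rcases le_total θ0 0 with h | h
      · rw [uIcc_of_le h] at hθ
        exact ⟨by linarith [hθ.1], by linarith [hθ.2, Real.pi_pos]⟩
      · rw [uIcc_of_ge h] at hθ
        exact ⟨by linarith [hθ.1, Real.pi_pos], by linarith [hθ.2]⟩
    exact Real.cos_pos_of_mem_Ioo h1
  -- uniform positivity
  have hw : SmF ((univ : Set ℝ) ×ˢ (univ : Set ℝ)) fun p : ℝ × ℝ =>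
      (c * Real.cos p.1 - p.2 * lam * Real.sin p.1) • (Gt G p.1).om 2 + p.2 • ψ := by
    have s1 : SmHk ((univ : Set ℝ) ×ˢ (univ : Set ℝ)) fun p : ℝ × ℝ => Gt G p.1 :=
      SmHk.comp' (SmHk.gt (T := univ) G (θ := fun s => s) contDiffOn_id)
        contDiff_fst.contDiffOn fun _ _ => mem_univ _
    have s2 : ContDiff ℝ ∞ fun p : ℝ × ℝ => c * Real.cos p.1 - p.2 * lam * Real.sin p.1 :=
      (contDiff_const.mul (Real.contDiff_cos.comp contDiff_fst)).sub
        ((contDiff_snd.mul contDiff_const).mul (Real.contDiff_sin.comp contDiff_fst))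
    exact ((s1.om 2).smul s2.contDiffOn).add ((SmF.const _ ψ).smul contDiff_snd.contDiffOn)
  obtain ⟨δ, hδ, hδ'⟩ := exists_unif (T := (univ : Set ℝ)) isOpen_univ
    (SmHk.gt (T := univ) G (θ := fun s => s) contDiffOn_id) 2 hw (isCompact_uIcc (a := θ0) (b := 0))
    (subset_univ _) fun θ hθ => by
      show Pos (ofHk (Gt G θ) 2) ((c * Real.cos θ - 0 * lam * Real.sin θ) • (Gt G θ).om 2 +
        (0 : ℝ) • ψ)
      rw [zero_smul, add_zero, zero_mul, zero_mul, sub_zero]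
      exact Pos.smul (mul_pos hc (hcos θ hθ)) (Pos_hk _ 2)
  refine ⟨δ, hδ, fun t ht => ?_⟩
  obtain ⟨θ, hθ, hθa, hθb, hθI⟩ := Iso_139.exists_theta θ0 0
  obtain ⟨K, hK, hiso⟩ := mi hQ hI hM (h := fun s => Gt G (θ s))
    (SmHk.gt G hθ.contDiffOn) (ψ := fun _ => t • ψ) (SmF.const _ _)
    (fun s => (T11_rot hψ (Rt_fr _) 2).smul t) hA (hb t) (hAb t) (a := fun _ => a)
    (p := fun s => c * Real.cos (θ s) - t * lam * Real.sin (θ s))
    (q := fun s => c * Real.sin (θ s) + t * lam * Real.cos (θ s)) contDiff_const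
    ((contDiff_const.mul (Real.contDiff_cos.comp hθ)).sub
      (contDiff_const.mul (Real.contDiff_sin.comp hθ)))
    ((contDiff_const.mul (Real.contDiff_sin.comp hθ)).add
      (contDiff_const.mul (Real.contDiff_cos.comp hθ)))
    (fun s => hδ' (θ s) (hθI s) t ht)
    (fun s => by
      show Cl A (a • (Gt G (θ s)).om 1)
      rw [Gt_om1]
      exact cA)
    (fun s => by
      have k1 : (c * Real.cos (θ s) - t * lam * Real.sin (θ s)) • (Gt G (θ s)).om 2 + t • ψ +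
          (c * Real.sin (θ s) + t * lam * Real.cos (θ s)) • (Gt G (θ s)).om 0 =
          c • (Real.sin (θ s) • (Gt G (θ s)).om 0 + Real.cos (θ s) • (Gt G (θ s)).om 2) +
          t • (ψ + lam • (Real.cos (θ s) • (Gt G (θ s)).om 0 +
            -Real.sin (θ s) • (Gt G (θ s)).om 2)) := by module
      show Cl (b0 + t • e) ((c * Real.cos (θ s) - t * lam * Real.sin (θ s)) •
        (Gt G (θ s)).om 2 + t • ψ +
        (c * Real.sin (θ s) + t * lam * Real.cos (θ s)) • (Gt G (θ s)).om 0)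
      rw [k1, om0_Gt, om2_Gt]
      exact cb.add (he.smul t))
  refine ⟨K 0, K 1, ?_, ?_, hiso⟩
  · have := hK 0
    simp only [hθa] at this
    exact this
  · have := hK 1
    simp only [hθb] at this
    exact this.heqv_left (Gt_zero G)

/-- **the chart side** -/
theorem chart_side (hQ : QHk C Q) (hI : IsoFam C) (hM : MoveFam Q) (hU : UniqMv C)
    {G G' : HkT C}
    (hJ : ∀ i, ∀ z ∈ (C.e i).target, ∀ v, G'.J 0 i z v = G.J 0 i z v) {r : ℝ} (hr : 0 < r)
    (e1 : Eqv (G'.om 1) (r • G.om 1)) (e2 : Eqv (G'.om 2) (r • G.om 2)) {Ef : F2 C}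
    (hE : T11 (ofHk G 0) Ef) {A b0 e : F2 C} (he : Cl e Ef) {a c : ℝ} (hc : 0 < c)
    (cA : Cl A (a • G.om 1)) (cb : Cl b0 (c • G.om 2)) (hA : 0 < Q A A)
    (hb : ∀ t : ℝ, 0 < Q (b0 + t • e) (b0 + t • e)) (hAb : ∀ t : ℝ, Q A (b0 + t • e) = 0)
    {θ0 : ℝ} (hθ0 : |θ0| < Real.pi / 2) :
    ∃ δ : ℝ, 0 < δ ∧ ∀ t : ℝ, |t| < δ → ∃ K K' : HkT C, MvTo (Gt G θ0) (b0 + t • e) K ∧
      MvTo G' (b0 + t • e) K' ∧ Iso2 A (b0 + t • e) K K' := by
  have hG : 0 < Q (G.om 0) (G.om 0) := by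
    have rpA : Rp G A ![0, a, 0] := by
      unfold Rp
      rw [lin3_eq]
      simpa using cA
    exact hQ.rp_pos rpA hA
  obtain ⟨h, ρ, lam, ψ, hh, sρ, slam, sψ, ρp, hψ, o1, o2, hEl, hh0, hh1, hpos⟩ :=
    exists_seg hM hU hG hJ hr e1 e2 hE
  obtain ⟨δ1, hδ1, hd1⟩ := hpos c hc
  -- the angles
  have hψG : ∀ l, T11 (ofHk G l) (ψ 0) := fun l =>
    T11_congrJ (J := ofHk (h 0) l) (fun i z hz v => by
      show G.J l i z v = (h 0).J l i z v
      rw [hh0.J l i z hz]) (hψ 0 l)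
  have hEG : Cl e (ψ 0 + lam 0 • G.om 0) :=
    he.trans ((hEl 0).trans ((Cl.refl _).add ((heqv_cl hh0 0).symm.smul _)))
  obtain ⟨δ2, hδ2, hd2⟩ := rot_seg hQ hI hM hψG hEG hc cA cb hA hb hAb hθ0
  refine ⟨min δ1 δ2, lt_min hδ1 hδ2, fun t ht => ?_⟩
  obtain ⟨K, K1, hK, hK1, i1⟩ := hd2 t (lt_of_lt_of_le ht (min_le_right _ _))
  have inv : ∀ s k, Eqv ((h s).om k) (ρ s • G.om k) → ∀ c : ℝ,
      Cl (c • G.om k) ((c / ρ s) • (h s).om k) := by
    intro s k hk c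
    have k1 := Cl.smul (c / ρ s) (cl_eqv hk)
    rw [smul_smul, div_mul_cancel₀ _ (ρp s).ne'] at k1
    exact k1.symm
  obtain ⟨K2, hK2, i2⟩ := mi hQ hI hM hh (ψ := fun s => t • ψ s)
    (sψ.smul contDiffOn_const) (fun s => (hψ s 2).smul t) hA (hb t) (hAb t)
    (a := fun s => a / ρ s) (p := fun s => c / ρ s) (q := fun s => t * lam s)
    (contDiff_const.div sρ fun s => (ρp s).ne') (contDiff_const.div sρ fun s => (ρp s).ne')
    (contDiff_const.mul slam) (fun s => hd1 t (lt_of_lt_of_le ht (min_le_left _ _)) s)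
    (fun s => cA.trans (inv s 1 (o1 s) a))
    (fun s => by
      have k1 := (cb.trans (inv s 2 (o2 s) c)).add ((he.trans (hEl s)).smul t)
      rw [smul_add, smul_smul, ← add_assoc] at k1
      exact k1)
  have hK20 : MvTo G (b0 + t • e) (K2 0) := (hK2 0).heqv_left hh0.symm
  have hu : HEqv K1 (K2 0) := hK1.uniq hQ hU hG hK20
  exact ⟨K, K2 1, hK, (hK2 1).heqv_left hh1.symm, (i1.heqv_right hQ hA hu).trans hQ hA i2⟩

end

end Crest.Agent.R281.Ce_551
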