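import Crest.Agent.R281.Ch3_151
import Crest.Agent.R281.Iso4_139
import Crest.Agent.R281.Nef4_252
import Crest.Agent.R281.NefRay3_326
import Crest.Agent.R281.RkD_902

/-!
# Row 281, CHART-END (second owner, helper151), part 4: the end side

* `IsoId.of_difc`, `IsoId.difc`, `IsoId.trans`, `IsoId.congr`
* `IsoF C`       : HK-ISO in the form which is used here (139's `exists_iso_hk`)
* `nr H z hz`    : the member rotated about `om 0` : `om 1 + i om 2 = |z| σ`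
* `end_ray`      : the vertical ray through a member
* `end_move`     : the members over the circle `|τ - x₁| = y₁`: up to a diffeomorphism (trivial on
                   classes) they are moves of the first one (with fixed `J 2`)
-/

set_option autoImplicit false
set_option maxSynthPendingDepth 3
set_option linter.unusedSectionVars false

open Set Filter Topology
open scoped ContDiff

namespace Crest.Agent.R281.Ch_151

open Crest.Agent.R260.ACM_580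
open Crest.Agent.R281.Ti_846 hiding pb pb_apply symm2 sm'
open Crest.Agent.R281.Dif_268 Crest.Agent.R281.Cdr_234
open Crest.Agent.R281.HkR_835 Crest.Agent.R281.Alg_998 Crest.Agent.R281.Iso_139
open Crest.Agent.R281.NefO_476 (ofHk Pos AJ)
open Crest.Agent.R281.Nef_252 (T11 KCls Bi HolM)
open Crest.Agent.R281.RkD_902 (IsoId MemN)
open Crest.Agent.R281.NefRay_326 (rI rI_om0 rI_om1 nz2 Sc zS sc_of_at zS_sm smH_rot IsoHk QHk HEqv_rot
  Rz)

noncomputable section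

variable {X : Type} [TopologicalSpace X]
variable {V : Type} [NormedAddCommGroup V] [NormedSpace ℝ V] {C : RCh V X}

/-! ### isomorphisms which are trivial on classes -/

section isoid

variable {J J' J'' : AJ C}

theorem isoId_of {D : DifC C} (h : Holo D J J') : IsoId J J' :=
  ⟨D.φ, D.ψ, D.bi, h.holM, fun w => cl_of_coh (D.cls w)⟩

theorem isoId_dif (h : IsoId J J') : ∃ D : DifC C, Holo D J J' := by
  obtain ⟨g, k, hb, hg, hw⟩ := h
  exact ⟨⟨g, k, hb.2, hb.1, fun w => coh_sub.2 (hw w)⟩, hg.h⟩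

theorem isoId_congr {J₁ J₁' : AJ C} (h : IsoId J J')
    (e : ∀ i, ∀ z ∈ (C.e i).target, ∀ v, J₁.J i z v = J.J i z v)
    (e' : ∀ i, ∀ z ∈ (C.e i).target, ∀ v, J₁'.J i z v = J'.J i z v) : IsoId J₁ J₁' := by
  obtain ⟨g, k, hb, hg, hw⟩ := h
  refine ⟨g, k, hb, ⟨fun i j z hz v => ?_⟩, hw⟩
  rw [e j z hz.1 v, e' i _ (g.loc_mem hz) _]
  exact hg.h i j z hz v

end isoid

theorem isoId_trans {J J' J'' : AJ C} (h : IsoId J J') (h' : IsoId J' J'') : IsoId J J'' := by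
  obtain ⟨D, hD⟩ := isoId_dif h
  obtain ⟨D', hD'⟩ := isoId_dif h'
  exact isoId_of (hD.trans hD')

/-- the pull back is isomorphic -/
theorem isoId_pH (D : DifC C) (H : HkT C) (k : Fin 3) : IsoId (ofHk (pH D H) k) (ofHk H k) :=
  isoId_of (pH_holo D H k)

/-! ### HK-ISO -/

/-- HK-ISO in the form used here -/
def IsoF (C : RCh V X) : Prop :=
  ∀ K : ℝ → HkT C, SmH K → ∀ k l m : Fin 3, Cyc k l m → (∀ t, Cl ((K t).om l) ((K 0).om l)) →
    (∀ t, Cl ((K t).om m) ((K 0).om m)) →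
    ∃ D : DifC C, Eqv (D.φ.pull ((K 1).om l)) ((K 0).om l) ∧
      Eqv (D.φ.pull ((K 1).om m)) ((K 0).om m) ∧ Holo D (ofHk (K 0) k) (ofHk (K 1) k)

theorem isoF_of [FiniteDimensional ℝ V] [MeasurableSpace V] [BorelSpace V] [CompactSpace X]
    [T2Space X] [SimplyConnectedSpace X] {d : ℕ} (hNN : NNat V d) (hd : 2 ≤ d)
    (hP : PRIMVar C) (hD : DDCV C) : IsoF C := by
  intro K hK k l m hc h1 h2
  have hJ : JSH univ K := ⟨hK.om, hK.J⟩
  obtain ⟨D, e1, e2, e3⟩ := exists_iso_hk hP hD hJ (a := 0) (b := 1) (subset_univ _) hc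
    (fun t _ => Crest.Agent.R281.Nef_252.ddb_hk hNN hd (K t) k)
    (fun t _ => coh_sub.2 (h1 t)) (fun t _ => coh_sub.2 (h2 t))
  exact ⟨D, e1, e2, e3.h⟩

theorem isoHk_of (h : IsoF C) : IsoHk C := by
  intro K hK h1 h2 s t
  have hφ : ContDiff ℝ ∞ fun u : ℝ => s + u * (t - s) :=
    contDiff_const.add (contDiff_id.mul contDiff_const)
  obtain ⟨D, -, -, e3⟩ := h (fun u => K (s + u * (t - s))) (hK.reparam hφ) 0 1 2 (Or.inl rfl)
    (fun u => h1 _ _) (fun u => h2 _ _)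
  have e3' : Holo D (ofHk (K (s + 0 * (t - s))) 0) (ofHk (K (s + 1 * (t - s))) 0) := e3
  rw [zero_mul, add_zero, one_mul, add_sub_cancel] at e3'
  exact ⟨D.φ, D.ψ, D.bi, e3'.holM, fun w => cl_of_coh (D.cls w)⟩

/-! ### normalised members -/

/-- the member rotated about `om 0` by the angle of `z` -/
def nr (H : HkT C) (z : ℂ) (hz : z ≠ 0) : HkT C := rt H (z.re / ‖z‖) (z.im / ‖z‖) (nz2 hz)

section nr

variable (H : HkT C) {z : ℂ} (hz : z ≠ 0)

theorem nr_om0 : (nr H z hz).om 0 = H.om 0 := rt_om0 _ _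

theorem nr_om1 : (nr H z hz).om 1 = (rI H z hz).om 0 := by
  rw [rI_om0]
  exact rt_om1 _ _

theorem nr_om2 : (nr H z hz).om 2 = (rI H z hz).om 1 := by
  rw [rI_om1]
  exact rt_om2 _ _

theorem nr_J1 (i : C.ι) (y v : V) : (nr H z hz).J 1 i y v = (rI H z hz).J 0 i y v := by
  have e1 : (nr H z hz).J 1 i y v = (z.re / ‖z‖) • H.J 1 i y v + (z.im / ‖z‖) • H.J 2 i y v :=
    rt_J1 _ _ _ _ _
  have e2 : (rI H z hz).J 0 i y v =
      Rz z 0 0 • H.J 0 i y v + Rz z 0 1 • H.J 1 i y v + Rz z 0 2 • H.J 2 i y v := by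
    show H.Jv (Rz z 0) i y v = _
    rw [HkT.Jv_apply]
  rw [e1, e2]
  simp [Rz]

end nr

variable {Q : F2 C →ₗ[ℝ] F2 C →ₗ[ℝ] ℝ} {F : Frm C Q} {A : F2 C}

theorem heqv_rt {H H' : HkT C} (h : HEqv H H') {c s c' s' : ℝ} (k : c * c + s * s = 1)
    (k' : c' * c' + s' * s' = 1) (ec : c = c') (es : s = s') :
    HEqv (rt H c s k) (rt H' c' s' k') := by
  subst ec es
  exact HEqv_rot h _ _

theorem heqv_nr {H H' : HkT C} (h : HEqv H H') {z z' : ℂ} (hz : z ≠ 0) (hz' : z' ≠ 0)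
    (e : z = z') : HEqv (nr H z hz) (nr H' z' hz') := by
  subst e
  exact heqv_rt h _ _ rfl rfl

/-- normalised members are `MemN` -/
theorem memN_nr {K : Cusp F A} {τ : ℂ} {H : HkT C} (hM : K.Mem τ H) {z : ℂ} (h : Sc F H τ z) :
    MemN K τ (nr H z h.nz) := by
  refine ⟨⟨H, R0 (z.re / ‖z‖) (z.im / ‖z‖), fr_R0 (nz2 h.nz), hM, rfl, HEqv.refl _⟩, ‖z‖,
    norm_pos_iff.2 h.nz, ?_, ?_⟩
  · rw [nr_om1]
    exact h.cl0
  · rw [nr_om2]
    exact h.cl1

theorem smH_rt {K : ℝ → HkT C} (hK : SmH K) {c s : ℝ → ℝ} (h : ∀ t, c t * c t + s t * s t = 1)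
    (hc : ContDiff ℝ ∞ c) (hs : ContDiff ℝ ∞ s) : SmH fun t => rt (K t) (c t) (s t) (h t) := by
  refine smH_rot hK (fun t => fr_R0 (h t)) fun k l => ?_
  fin_cases k <;> fin_cases l
  · exact contDiff_const
  · exact contDiff_const
  · exact contDiff_const
  · exact contDiff_const
  · exact hc
  · exact hs
  · exact contDiff_const
  · exact hs.neg
  · exact hc

theorem smH_nr {K : ℝ → HkT C} (hK : SmH K) {a : ℝ → ℂ} (ha : ContDiff ℝ ∞ a)
    (h0 : ∀ t, a t ≠ 0) : SmH fun t => nr (K t) (a t) (h0 t) := by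
  have hn : ContDiff ℝ ∞ fun t => ‖a t‖ := ha.norm ℝ h0
  exact smH_rt hK (fun t => nz2 (h0 t))
    ((Complex.reCLM.contDiff.comp ha).div hn fun t => norm_ne_zero_iff.2 (h0 t))
    ((Complex.imCLM.contDiff.comp ha).div hn fun t => norm_ne_zero_iff.2 (h0 t))

/-! ### the vertical ray -/

/-- the vertical ray through a member, all heights `> Y` -/
theorem end_ray (hiso : IsoHk C) (hQ : QHk Q) (K : Cusp F A) {τ z : ℂ} {H : HkT C}
    (hM : K.Mem τ H) (h : Sc F H τ z) : ∃ N : ℝ → HkT C, SmH N ∧ ∀ t : ℝ,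
      MemN K ⟨τ.re, K.Y + Real.exp t⟩ (N t) ∧ IsoId (ofHk (nr H z h.nz) 1) (ofHk (N t) 1) := by
  have hY := K.mem_im _ _ hM
  obtain ⟨M, L, hsm, -, hmem, hL, h0, hR⟩ := NefRay_326.exists_ray hQ K hM h
  have hsc : ∀ t, Sc F (M t) ⟨τ.re, NefRay_326.hgt K.Y τ.im t⟩ (zS Q F (M t)) := fun t =>
    sc_of_at hQ (K.mem_at _ _ (hmem t))
  have hφ : ContDiff ℝ ∞ fun t : ℝ => t - Real.log (τ.im - K.Y) := contDiff_id.sub contDiff_const
  refine ⟨fun t => nr (M (t - Real.log (τ.im - K.Y))) (zS Q F (M (t - Real.log (τ.im - K.Y))))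
    (hsc _).nz, (smH_nr hsm (zS_sm hQ hsm) fun t => (hsc t).nz).reparam hφ, fun t => ?_⟩
  set u : ℝ := t - Real.log (τ.im - K.Y) with hu
  have hh : NefRay_326.hgt K.Y τ.im u = K.Y + Real.exp t := by
    unfold NefRay_326.hgt
    rw [hu, Real.exp_sub, Real.exp_log (by linarith)]
    field_simp [show τ.im - K.Y ≠ 0 by linarith]
  refine ⟨?_, ?_⟩
  · have h1 : ∀ hz, MemN K ⟨τ.re, NefRay_326.hgt K.Y τ.im u⟩ (nr (M u) (zS Q F (M u)) hz) :=
      fun hz => memN_nr (hmem u) (hsc u)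
    rw [hh] at h1
    exact h1 _
  · obtain ⟨g, k, hb, hg, hw⟩ := hR.iso hiso 0 u
    obtain ⟨a, ha, haL⟩ := hL u
    have h1 : IsoId (ofHk (L 0) 0) (ofHk (L u) 0) := ⟨g, k, hb, hg, hw⟩
    have hza : a = zS Q F (M u) := ha.eq_zS hQ
    refine isoId_congr h1 (fun i y hy v => ?_) (fun i y hy v => ?_)
    · show (nr H z h.nz).J 1 i y v = (L 0).J 0 i y v
      rw [nr_J1, h0.J 0 i y hy]
    · show (nr (M u) (zS Q F (M u)) (hsc u).nz).J 1 i y v = (L u).J 0 i y v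
      subst hza
      rw [nr_J1, haL]

/-! ### the circle -/

section circle

variable (x1 y1 x : ℝ)

def cx (u : ℝ) : ℝ := x1 + stp u * (x - x1)

def cy (u : ℝ) : ℝ := Real.sqrt (y1 ^ 2 - (cx x1 x u - x1) ^ 2)

theorem cx_sm : ContDiff ℝ ∞ (cx x1 x) := contDiff_const.add (stp_contDiff.mul contDiff_const)

theorem cx_sq (u : ℝ) : (cx x1 x u - x1) ^ 2 ≤ (x - x1) ^ 2 := by
  have h0 : 0 ≤ stp u := Real.smoothTransition.nonneg _
  have h1 : stp u ≤ 1 := Real.smoothTransition.le_one _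
  have e : cx x1 x u - x1 = stp u * (x - x1) := by unfold cx; ring
  rw [e, mul_pow]
  have h2 : stp u ^ 2 ≤ 1 := by nlinarith
  nlinarith [sq_nonneg (x - x1)]

variable {x1 y1 x} {Y : ℝ} (h : (x - x1) ^ 2 < y1 ^ 2 - Y ^ 2)

include h

theorem rad_gt (u : ℝ) : Y ^ 2 < y1 ^ 2 - (cx x1 x u - x1) ^ 2 := by
  have := cx_sq x1 x u
  linarith

theorem rad_pos (u : ℝ) : 0 < y1 ^ 2 - (cx x1 x u - x1) ^ 2 :=
  (sq_nonneg Y).trans_lt (rad_gt h u)

theorem cy_sm : ContDiff ℝ ∞ (cy x1 y1 x) :=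
  (contDiff_const.sub (((cx_sm x1 x).sub contDiff_const).pow 2)).sqrt fun u => (rad_pos h u).ne'

theorem cy_sq (u : ℝ) : cy x1 y1 x u ^ 2 = y1 ^ 2 - (cx x1 x u - x1) ^ 2 :=
  Real.sq_sqrt (rad_pos h u).le

theorem cy_pos (u : ℝ) : 0 < cy x1 y1 x u := Real.sqrt_pos.2 (rad_pos h u)

theorem cy_gt (u : ℝ) : Y < cy x1 y1 x u := by
  unfold cy
  exact Real.lt_sqrt_of_sq_lt (rad_gt h u)

end circle

/-- the path -/
def gam (x1 y1 x u : ℝ) : ℂ := ⟨cx x1 x u, cy x1 y1 x u⟩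

theorem gam_sm {x1 y1 x Y : ℝ} (h : (x - x1) ^ 2 < y1 ^ 2 - Y ^ 2) :
    ContDiff ℝ ∞ (gam x1 y1 x) := by
  have h3 : (gam x1 y1 x) = fun t => ((cx x1 x t : ℝ) : ℂ) + ((cy x1 y1 x t : ℝ) : ℂ) * Complex.I := by
    funext t
    exact (Complex.re_add_im (gam x1 y1 x t)).symm
  rw [h3]
  exact (Complex.ofRealCLM.contDiff.comp (cx_sm x1 x)).add
    ((Complex.ofRealCLM.contDiff.comp (cy_sm h)).mul contDiff_const)

/-- the geodesic: `Re σ_{τ'} + (x₁ - x') (v - N x' e) = Re σ_{τ₁}` for `|τ' - x₁| = y₁` -/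
theorem sre_circle {x1 y1 x' y' : ℝ} (h : y' ^ 2 = y1 ^ 2 - (x' - x1) ^ 2) :
    y' • F.sre ⟨x', y'⟩ - (x' - x1) • F.sim ⟨x', y'⟩ = y' • F.sre ⟨x1, y1⟩ := by
  unfold Frm.sre Frm.sim
  simp only [h]
  module

theorem circle_one {x1 y1 x' y' : ℝ} (h : y' ^ 2 = y1 ^ 2 - (x' - x1) ^ 2) (hy : 0 < y1) :
    y' / y1 * (y' / y1) + -(x' - x1) / y1 * (-(x' - x1) / y1) = 1 := by
  field_simp
  linarith

/-- **the members over the circle are moves of the first one**, up to a diffeomorphism -/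
theorem end_move (hiso : IsoF C) (hQ : QHk Q) (K : Cusp F A) {τ1 z1 : ℂ} {H1 : HkT C}
    (hM : K.Mem τ1 H1) (h1 : Sc F H1 τ1 z1) {x : ℝ}
    (hx : (x - τ1.re) ^ 2 < τ1.im ^ 2 - K.Y ^ 2) :
    ∃ (M : HkT C) (y : ℝ) (z : ℂ) (hz : Sc F M ⟨x, y⟩ z) (D : DifC C), K.Mem ⟨x, y⟩ M ∧
      MvN (nr H1 z1 h1.nz) (F.v - (F.N * x) • F.e) (pH D (nr M z hz.nz)) := by
  have hy1 : 0 < τ1.im := K.hY.trans (K.mem_im _ _ hM)
  have hg0 : gam τ1.re τ1.im x 0 = τ1 := by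
    apply Complex.ext
    · show cx τ1.re x 0 = τ1.re
      unfold cx
      rw [stp_zero (by norm_num)]
      ring
    · show cy τ1.re τ1.im x 0 = τ1.im
      unfold cy cx
      rw [stp_zero (by norm_num), zero_mul, add_zero, sub_self]
      simpa using Real.sqrt_sq hy1.le
  have hx1 : cx τ1.re x 1 = x := by
    unfold cx
    rw [stp_one (by norm_num)]
    ring
  obtain ⟨M, hsm, h0, hmem⟩ := K.lift τ1 H1 hM (gam τ1.re τ1.im x) (gam_sm hx)
    (fun u => cy_gt hx u) hg0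
  have hsc : ∀ u, Sc F (M u) (gam τ1.re τ1.im x u) (zS Q F (M u)) := fun u =>
    sc_of_at hQ (K.mem_at _ _ (hmem u))
  have hat : ∀ u, AtTau F A (M u) (gam τ1.re τ1.im x u) := fun u => K.mem_at _ _ (hmem u)
  have hcs : ∀ u, cy τ1.re τ1.im x u / τ1.im * (cy τ1.re τ1.im x u / τ1.im) +
      -(cx τ1.re x u - τ1.re) / τ1.im * (-(cx τ1.re x u - τ1.re) / τ1.im) = 1 := fun u =>
    circle_one (cy_sq hx u) hy1
  set N : ℝ → HkT C := fun u => nr (M u) (zS Q F (M u)) (hsc u).nz with hN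
  have hNs : SmH N := smH_nr hsm (zS_sm hQ hsm) fun u => (hsc u).nz
  set P : ℝ → HkT C := fun u => rt (N u) (cy τ1.re τ1.im x u / τ1.im)
    (-(cx τ1.re x u - τ1.re) / τ1.im) (hcs u) with hP
  have hPs : SmH P := smH_rt hNs hcs ((cy_sm hx).div_const _)
    (((cx_sm _ _).sub contDiff_const).neg.div_const _)
  have c0 : ∀ u, Cl ((P u).om 0) A := fun u => by
    have e : (P u).om 0 = (M u).om 0 := (rt_om0 _ _).trans (nr_om0 _ _)
    rw [e]
    exact (hat u).om0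
  have n1 : ∀ u, Cl ((N u).om 1) (‖zS Q F (M u)‖ • F.sre (gam τ1.re τ1.im x u)) := fun u => by
    have e : (N u).om 1 = (rI (M u) _ (hsc u).nz).om 0 := nr_om1 _ _
    rw [e]
    exact (hsc u).cl0
  have n2 : ∀ u, Cl ((N u).om 2) (‖zS Q F (M u)‖ • F.sim (gam τ1.re τ1.im x u)) := fun u => by
    have e : (N u).om 2 = (rI (M u) _ (hsc u).nz).om 1 := nr_om2 _ _
    rw [e]
    exact (hsc u).cl1
  have c1 : ∀ u, Cl ((P u).om 1) ((Real.sqrt (Q A A / F.N) / τ1.im) • F.sre ⟨τ1.re, τ1.im⟩) := by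
    intro u
    have e : (P u).om 1 = (cy τ1.re τ1.im x u / τ1.im) • (N u).om 1 +
        (-(cx τ1.re x u - τ1.re) / τ1.im) • (N u).om 2 := rt_om1 _ _
    rw [e]
    refine (((n1 u).smul _).add ((n2 u).smul _)).trans (NefRay_326.cl_of_eq ?_)
    have e1 := sre_circle (F := F) (cy_sq hx u)
    have e2 : ‖zS Q F (M u)‖ * cy τ1.re τ1.im x u = Real.sqrt (Q A A / F.N) :=
      (hsc u).norm_z hQ (hat u).om0 (cy_pos hx u)
    have e3 : (cy τ1.re τ1.im x u / τ1.im) • (‖zS Q F (M u)‖ • F.sre (gam τ1.re τ1.im x u)) +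
        (-(cx τ1.re x u - τ1.re) / τ1.im) • (‖zS Q F (M u)‖ • F.sim (gam τ1.re τ1.im x u)) =
        (‖zS Q F (M u)‖ / τ1.im) • (cy τ1.re τ1.im x u • F.sre (gam τ1.re τ1.im x u) -
          (cx τ1.re x u - τ1.re) • F.sim (gam τ1.re τ1.im x u)) := by
      module
    rw [e3]
    show (‖zS Q F (M u)‖ / τ1.im) • (cy τ1.re τ1.im x u • F.sre ⟨cx τ1.re x u, cy τ1.re τ1.im x u⟩ -
          (cx τ1.re x u - τ1.re) • F.sim ⟨cx τ1.re x u, cy τ1.re τ1.im x u⟩) = _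
    rw [e1, smul_smul, ← e2]
    congr 1
    ring
  obtain ⟨D, d0, d1, -⟩ := hiso P hPs 2 0 1 (Or.inr (Or.inr rfl))
    (fun u => (c0 u).trans (c0 0).symm) (fun u => (c1 u).trans (c1 0).symm)
  -- the start
  have hP0 : HEqv (P 0) (nr H1 z1 h1.nz) := by
    have hz : zS Q F (M 0) = z1 := by
      have e2 := h1.eq_zS hQ
      rw [e2]
      have hc : ∀ k, Cl ((M 0).om k) (H1.om k) := fun k =>
        Cl.of_eq_on fun i y hy => h0.om k i y hy
      apply Complex.ext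
      · exact hQ.cl (hc 1) F.e
      · exact hQ.cl (hc 2) F.e
    have e1 : cy τ1.re τ1.im x 0 = τ1.im := congrArg Complex.im hg0
    have e2 : cx τ1.re x 0 = τ1.re := congrArg Complex.re hg0
    have h2 : HEqv (N 0) (nr H1 z1 h1.nz) := heqv_nr h0 _ _ hz
    refine (heqv_rt h2 (c' := 1) (s' := 0) _ (by norm_num) ?_ ?_).trans ?_
    · rw [e1, div_self hy1.ne']
    · rw [e2, sub_self, neg_zero, zero_div]
    · refine ⟨fun k i y _ => ?_, fun k i y _ => ?_, fun i y _ => rfl⟩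
      · have e : (rt (nr H1 z1 h1.nz) 1 0 (by norm_num)).om k = (nr H1 z1 h1.nz).om k := by
          fin_cases k
          · exact rt_om0 _ _
          · exact (rt_om1 _ _).trans (by rw [one_smul, zero_smul, add_zero]; rfl)
          · exact (rt_om2 _ _).trans (by rw [one_smul, neg_zero, zero_smul, zero_add]; rfl)
        rw [e]
      · ext v
        fin_cases k
        · exact rt_J0 _ _ _ _ _
        · exact (rt_J1 _ _ _ _ _).trans (by rw [one_smul, zero_smul, add_zero]; rfl)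
        · exact (rt_J2 _ _ _ _ _).trans (by rw [one_smul, neg_zero, zero_smul, zero_add]; rfl)
  have q0 : Eqv ((P 0).om 0) ((nr H1 z1 h1.nz).om 0) := fun i y hy u v => by
    rw [hP0.om 0 i y hy]
  have q1 : Eqv ((P 0).om 1) ((nr H1 z1 h1.nz).om 1) := fun i y hy u v => by
    rw [hP0.om 1 i y hy]
  -- the end
  have hg1 : gam τ1.re τ1.im x 1 = ⟨x, cy τ1.re τ1.im x 1⟩ := by
    apply Complex.ext
    · exact hx1
    · rfl
  have hm1 := hmem 1
  have hs1 := hsc 1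
  rw [hg1] at hm1 hs1
  have o1 : Eqv ((rt (pH D (N 1)) _ _ (hcs 1)).om 0) ((nr H1 z1 h1.nz).om 0) :=
    ((rt_pH D (N 1) (hcs 1) 0).trans d0).trans q0
  have o2 : Eqv ((rt (pH D (N 1)) _ _ (hcs 1)).om 1) ((nr H1 z1 h1.nz).om 1) :=
    ((rt_pH D (N 1) (hcs 1) 1).trans d1).trans q1
  refine ⟨M 1, cy τ1.re τ1.im x 1, zS Q F (M 1), hs1, D, hm1, cy τ1.re τ1.im x 1 / τ1.im,
    -(cx τ1.re x 1 - τ1.re) / τ1.im, 1, Real.sqrt (Q A A / F.N), hcs 1,
    div_pos (cy_pos hx 1) hy1, one_pos, ?_, ?_, ?_, ?_, ?_⟩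
  · rw [← (hsc 1).norm_z hQ (hat 1).om0 (cy_pos hx 1)]
    exact mul_pos (norm_pos_iff.2 (hsc 1).nz) (cy_pos hx 1)
  · exact J_of_om (k := 2) (l := 0) (m := 1) (Or.inr (Or.inr rfl)) (r := 1) one_ne_zero
      (o1.trans (eqv_of_eq (one_smul ℝ _).symm)) (o2.trans (eqv_of_eq (one_smul ℝ _).symm))
  · exact o1.trans (eqv_of_eq (one_smul ℝ _).symm)
  · exact o2.trans (eqv_of_eq (one_smul ℝ _).symm)
  · refine (pH_cl D (N 1) 2).trans ?_
    have e : (N 1).om 2 = (rI (M 1) _ hs1.nz).om 1 := nr_om2 _ _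
    rw [e]
    exact hs1.cl1' hQ (hat 1).om0 (cy_pos hx 1)

end

end Crest.Agent.R281.Ch_151
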