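import Crest.Agent.R281.Ce5_551
import Crest.Agent.R281.Ch4_151
import Crest.Agent.R281.Bx4_557
import Crest.Agent.R281.RkD_902

/-!
# Row 281, CHART-END, part 6 (helper551): isotopic structures are isomorphic; instances

* `Iso2.isoId`  : `Iso2 A b K K'`, `N`, `N'` in the twistor spheres of `K`, `K'` with `[om 1]`,
                  `[om 2]` positive multiples of `A`, `b` ⇒ `(X, N.J 0)`, `(X, N'.J 0)` isomorphic
* `isoFam_of`   : `IsoFam` from 151's `IsoF`
* `moveFam_of`  : `MoveFam` from 557's `MoveFam` and positivity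
* `uniqMv_of`   : `UniqMv` from 151's `uniq_move`
-/

set_option autoImplicit false
set_option maxSynthPendingDepth 3
set_option linter.unusedSectionVars false

open Set Filter Topology
open scoped ContDiff

namespace Crest.Agent.R281.Ce_551

open Crest.Agent.R260.ACM_580
open Crest.Agent.R281.HkR_835 Crest.Agent.R281.Ti_846 Crest.Agent.R281.Alg_998
open Crest.Agent.R281.Dif_268 Crest.Agent.R281.Nef_252 Crest.Agent.R281.NefO_476
open Crest.Agent.R281.Bx_557
open Crest.Agent.R281.Iso_139 (DifC)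
open Crest.Agent.R281.Ch_151 (pH pH_om IsoF isoId_pH isoId_congr J_of_om uniq_move heqv_cyc)
open Crest.Agent.R281.RkD_902 (IsoId SameTw)
open Crest.Agent.R281.Sta2_684 (smulP)

noncomputable section

variable {V X : Type} [NormedAddCommGroup V] [NormedSpace ℝ V] [TopologicalSpace X]
  {C : RCh V X} {Q : F2 C →ₗ[ℝ] F2 C →ₗ[ℝ] ℝ}

/-! ### isomorphisms -/

theorem lin_smul3 (c : ℝ) (x : Fin 3 → ℝ) (om : Fin 3 → F2 C) :
    F2.lin (fun k => c * x k) om = c • F2.lin x om := by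
  rw [lin3_eq, lin3_eq]
  module

/-- the forms of a triple in the same twistor sphere -/
theorem sameTw_om {K N : HkT C} (h : SameTw K N) (k : Fin 3) :
    ∃ r : Fin 3 → ℝ, Eqv (N.om k) (F2.lin r K.om) := by
  obtain ⟨R, hR, t, ht, e⟩ := h
  refine ⟨fun l => t * R k l, ?_⟩
  rw [lin_smul3]
  exact (heqv_om e k).symm

theorem rp_same (hQ : QHk C Q) {K N : HkT C} (h0 : 0 < Q (K.om 0) (K.om 0)) (hN : SameTw K N)
    {a : F2 C} {x : Fin 3 → ℝ} (h : Rp K a x) {α : ℝ} {k : Fin 3} (c : Cl a (α • N.om k)) :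
    Eqv (F2.lin x K.om) (α • N.om k) := by
  obtain ⟨r, hr⟩ := sameTw_om hN k
  have h1 : Rp K a fun l => α * r l := by
    unfold Rp
    rw [lin_smul3]
    exact c.trans ((cl_eqv hr).smul α)
  rw [hQ.rp_uniq h0 h h1, lin_smul3]
  exact (eqv_smul' α hr).symm

/-- **isotopic structures are isomorphic** -/
theorem Iso2.isoId (hQ : QHk C Q) {A b : F2 C} (hA : 0 < Q A A) (hb : 0 < Q b b)
    {K K' N N' : HkT C} (h : Iso2 A b K K') (hN : SameTw K N) (hN' : SameTw K' N')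
    {α β α' β' : ℝ} (hα : 0 < α) (hβ : 0 < β) (hα' : 0 < α') (hβ' : 0 < β')
    (c1 : Cl A (α • N.om 1)) (c2 : Cl b (β • N.om 2)) (c1' : Cl A (α' • N'.om 1))
    (c2' : Cl b (β' • N'.om 2)) : IsoId (ofHk N 0) (ofHk N' 0) := by
  obtain ⟨φ, ψ, x, x', y, y', hbi, hcl, h1, h2, h3, h4, f1, f2⟩ := h
  have k0 := hQ.rp_pos h1 hA
  have k0' := hQ.rp_pos h2 hA
  have g1 : Eqv (α' • φ.pull (N'.om 1)) (α • N.om 1) :=
    (Ch_151.pull_smul' φ α' (N'.om 1)).symm.trans
      (((rp_same hQ k0' hN' h2 c1').symm.pull φ).trans (f1.trans (rp_same hQ k0 hN h1 c1)))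
  have g2 : Eqv (β' • φ.pull (N'.om 2)) (β • N.om 2) :=
    (Ch_151.pull_smul' φ β' (N'.om 2)).symm.trans
      (((rp_same hQ k0' hN' h4 c2').symm.pull φ).trans (f2.trans (rp_same hQ k0 hN h3 c2)))
  let D : DifC C := ⟨φ, ψ, hbi.kg, hbi.gk, fun w => Iso_139.coh_sub.2 (hcl w)⟩
  -- the factors agree
  set q := Q (N.om 0) (N.om 0) with hq
  set q' := Q (N'.om 0) (N'.om 0) with hq'
  have v1 : Q A A = α * α * q := by
    rw [hQ.cl_left c1, hQ.cl_right c1, map_smul, map_smul, LinearMap.smul_apply, smul_eq_mul,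
      smul_eq_mul, hQ.nrm]
    ring
  have v2 : Q b b = β * β * q := by
    rw [hQ.cl_left c2, hQ.cl_right c2, map_smul, map_smul, LinearMap.smul_apply, smul_eq_mul,
      smul_eq_mul, hQ.nrm]
    ring
  have v1' : Q A A = α' * α' * q' := by
    rw [hQ.cl_left c1', hQ.cl_right c1', map_smul, map_smul, LinearMap.smul_apply, smul_eq_mul,
      smul_eq_mul, hQ.nrm]
    ring
  have v2' : Q b b = β' * β' * q' := by
    rw [hQ.cl_left c2', hQ.cl_right c2', map_smul, map_smul, LinearMap.smul_apply, smul_eq_mul,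
      smul_eq_mul, hQ.nrm]
    ring
  have qp : 0 < q := by
    rw [v1] at hA
    exact (mul_pos_iff_of_pos_left (mul_pos hα hα)).1 hA
  have qp' : 0 < q' := by
    rw [v1'] at hA
    exact (mul_pos_iff_of_pos_left (mul_pos hα' hα')).1 hA
  have hrat : α / α' = β / β' := by
    rw [div_eq_div_iff hα'.ne' hβ'.ne']
    have e1 : (α * β') ^ 2 * (q * q') = (β * α') ^ 2 * (q * q') := by
      have k1 : α * α * q * (β' * β' * q') = α' * α' * q' * (β * β * q) := by
        rw [← v1, ← v2', ← v1', ← v2]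
      linarith
    have e2 := mul_right_cancel₀ (mul_pos qp qp').ne' e1
    exact (pow_left_inj₀ (mul_pos hα hβ').le (mul_pos hβ hα').le two_ne_zero).1 e2
  have key : ∀ (k : Fin 3) (c c' : ℝ), 0 < c' → Eqv (c' • φ.pull (N'.om k)) (c • N.om k) →
      Eqv ((pH D N').om k) ((c / c') • N.om k) := by
    intro k c c' hc' g i z hz u v
    have e1 := pH_om D N' k i z hz u v
    have e2 : c' * (φ.pull (N'.om k)).w i z u v = c * (N.om k).w i z u v := g i z hz u v
    rw [e1]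
    show (φ.pull (N'.om k)).w i z u v = c / c' * (N.om k).w i z u v
    rw [div_mul_eq_mul_div, ← e2, mul_div_cancel_left₀ _ hc'.ne']
  have o1 := key 1 α α' hα' g1
  have o2 := key 2 β β' hβ' g2
  rw [← hrat] at o2
  exact isoId_congr (isoId_pH D N' 0)
    (fun i z hz v => (J_of_om (k := 0) (l := 1) (m := 2) (Or.inl rfl)
      (div_pos hα hα').ne' o1 o2 i z hz v).symm) fun i z hz v => rfl

/-! ### instances -/

theorem smH_of {H : ℝ → HkT C} (h : SmHk univ H) : SmH H := ⟨h.om, h.J, h.g⟩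

theorem isoFam_of (h : IsoF C) : IsoFam C := by
  intro H hH h1 h2
  obtain ⟨D, e1, e2, -⟩ := h H (smH_of hH) 0 1 2 (Or.inl rfl) h1 h2
  exact ⟨D.φ, D.ψ, ⟨D.rl, D.lr⟩, fun w => Ch_151.cl_of_coh (D.cls w), e1, e2⟩

/-- a positive (1,1)-class is of positive square (474, 846) -/
def QPos (Q : F2 C →ₗ[ℝ] F2 C →ₗ[ℝ] ℝ) : Prop :=
  ∀ (H : HkT C) (k : Fin 3) (w : F2 C), 0 < Q (H.om 0) (H.om 0) → T11 (ofHk H k) w →
    Pos (ofHk H k) w → 0 < Q w w

theorem moveFam_of (hQ : QHk C Q) (hM : Bx_557.MoveFam C Q) (hp : QPos Q) : MoveFam Q := by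
  intro E _ _ _ T hT k H w hH hw h0 ht hpos
  have hk : ∀ p ∈ T, 0 < Q (((H p).cyc k).om 0) (((H p).cyc k).om 0) := by
    intro p hpT
    have e : Cl (((H p).cyc k).om 0) ((H p).om k) := by
      have e1 := cyc_om (H p) k 0
      rw [zero_add] at e1
      exact cl_eqv e1
    rw [hQ.cl_left e, hQ.cl_right e, hQ.nrm]
    exact h0 p hpT
  obtain ⟨H', r, a1, a2, a3⟩ := moveFam_k hM k hT hH hk hw ht hpos fun p hpT =>
    hp (H p) k (w p) (h0 p hpT) (ht p hpT) (hpos p hpT)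
  exact ⟨H', r, a1, a2, fun p hpT => ⟨(a3 p hpT).1, (a3 p hpT).2.1, (a3 p hpT).2.2.1,
    (a3 p hpT).2.2.2.1⟩⟩

theorem uniqMv_of [FiniteDimensional ℝ V] [T2Space X] [CompactSpace X] [ConnectedSpace X] {d : ℕ}
    (hd : 2 ≤ d) (hNN : NNat V d) : UniqMv C := by
  intro k H H' r hr hJ he hc
  have c0 : ∀ H : HkT C, Eqv ((H.cyc k).om 0) (H.om k) := fun H => by
    have e1 := cyc_om H k 0
    rw [zero_add] at e1
    exact e1
  have hne1 : (1 : Fin 3) + k ≠ k := by fin_cases k <;> decide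
  have hne2 : (2 : Fin 3) + k ≠ k := by fin_cases k <;> decide
  refine heqv_cyc k (uniq_move hd hNN (H.cyc k) (H'.cyc k) (fun i z hz v => ?_) hr ?_ ?_ ?_).2
  · rw [cyc_J, cyc_J, zero_add]
    exact hJ i z hz v
  · exact (cyc_om H' k 1).trans ((he _ hne1).trans (eqv_smul' r (cyc_om H k 1).symm))
  · exact (cyc_om H' k 2).trans ((he _ hne2).trans (eqv_smul' r (cyc_om H k 2).symm))
  · exact (cl_eqv (c0 H')).trans (hc.trans (cl_eqv (c0 H)).symm)

end

end Crest.Agent.R281.Ce_551
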