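import Crest.Agent.R281.Iso4_139
import Crest.Agent.R281.Tt3_476
import Crest.Agent.R281.Prim4_377

/-!
# Row 281, HK-ISO, part 5 (helper139): the two inputs

* `pos_open`      : positivity is open in jointly continuous families
* `densOf`        : the squared density `det (w (x, J y))`
* `ddc_var`       : **`u_p` is jointly smooth if `dd^c_{J_p} u_p` is** (from `V0 C (SolMA b)`)
* `ddcv_of_V0`    : `V0 C (SolMA b) → DDCV C`
* `primVar`       : `PRIMVar C` (377)
* `iso_hk`, `kcls_hk` : HK-ISO with the only input `V0 C (SolMA b)`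
-/

set_option autoImplicit false
set_option maxSynthPendingDepth 3
set_option linter.unusedSectionVars false

open Set Filter Topology
open scoped ContDiff

namespace Crest.Agent.R281.Iso_139

open Crest.Agent.R281.HkR_835 Crest.Agent.R260.ACM_580
open Crest.Agent.R281.Dif_268 Crest.Agent.R281.Flo_222
open Crest.Agent.R281.NefO_476 Crest.Agent.R281.Nef_252
open Crest.Agent.R281.Ti_846 hiding pb pb_apply symm2 sm'

noncomputable section

variable {V X : Type} [NormedAddCommGroup V] [NormedSpace ℝ V] [TopologicalSpace X]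
  {C : RCh V X}

section pos

variable {P : Type*} [TopologicalSpace P] [FiniteDimensional ℝ V] [CompactSpace X]
  [MeasurableSpace V] [BorelSpace V]

/-- positivity is open in jointly continuous families -/
theorem pos_open {J : P → AJ C} {b : P → F2 C}
    (hJ : ∀ i, ContinuousOn (fun q : P × V => (J q.1).J i q.2) (univ ×ˢ (C.e i).target))
    (hb : ContF b) : IsOpen {p | Pos (J p) (b p)} := by
  rw [isOpen_iff_mem_nhds]
  intro p₀ hpos
  have : ProperSpace V := FiniteDimensional.proper ℝ V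
  have hcont : ∀ i, ContinuousOn (fun q : (P × V) × V =>
      (b q.1.1).w i q.1.2 q.2 ((J q.1.1).J i q.1.2 q.2)) ((univ ×ˢ (C.e i).target) ×ˢ univ) := by
    intro i
    have m1 : MapsTo (fun q : (P × V) × V => q.1) ((univ ×ˢ (C.e i).target) ×ˢ univ)
        (univ ×ˢ (C.e i).target) := fun q hq => hq.1
    have c1 : ContinuousOn (fun q : (P × V) × V => q.1) ((univ ×ˢ (C.e i).target) ×ˢ univ) :=
      continuous_fst.continuousOn
    have cv : ContinuousOn (fun q : (P × V) × V => q.2) ((univ ×ˢ (C.e i).target) ×ˢ univ) :=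
      continuous_snd.continuousOn
    have hb' := (hb i).comp c1 m1
    have hJ0 := (hJ i).comp c1 m1
    simp only [Function.comp_def] at hb' hJ0
    exact (hb'.clm_apply cv).clm_apply (hJ0.clm_apply cv)
  have key : ∀ x : X, ∃ (i : C.ι) (N : Set P) (W : Set V), x ∈ (C.e i).source ∧ N ∈ 𝓝 p₀ ∧
      IsOpen W ∧ C.e i x ∈ W ∧ W ⊆ (C.e i).target ∧ ∀ p ∈ N, ∀ z ∈ W, ∀ v : V, ‖v‖ = 1 →
        0 < (b p).w i z v ((J p).J i z v) := by
    intro x
    obtain ⟨i, hi⟩ := C.cover x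
    have hz0 : C.e i x ∈ (C.e i).target := (C.e i).map_source hi
    have hopen : IsOpen ((univ ×ˢ (C.e i).target : Set (P × V)) ×ˢ (univ : Set V)) :=
      (isOpen_univ.prod (C.e i).open_target).prod isOpen_univ
    have hO : IsOpen (((univ ×ˢ (C.e i).target : Set (P × V)) ×ˢ (univ : Set V)) ∩
        (fun q : (P × V) × V => (b q.1.1).w i q.1.2 q.2 ((J q.1.1).J i q.1.2 q.2)) ⁻¹' Ioi 0) :=
      (hcont i).isOpen_inter_preimage hopen isOpen_Ioi
    have hsub : ({(p₀, C.e i x)} : Set (P × V)) ×ˢ Metric.sphere (0 : V) 1 ⊆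
        ((univ ×ˢ (C.e i).target : Set (P × V)) ×ˢ (univ : Set V)) ∩
        (fun q : (P × V) × V => (b q.1.1).w i q.1.2 q.2 ((J q.1.1).J i q.1.2 q.2)) ⁻¹' Ioi 0 := by
      rintro ⟨⟨p, z⟩, v⟩ ⟨hpz, hv⟩
      simp only [mem_singleton_iff, Prod.mk.injEq] at hpz
      obtain ⟨rfl, rfl⟩ := hpz
      refine ⟨⟨⟨mem_univ _, hz0⟩, mem_univ _⟩, ?_⟩
      refine hpos i _ hz0 v fun h0 => ?_
      simp [h0] at hv
    obtain ⟨A, B, hA, hB, hA', hB', hAB⟩ := generalized_tube_lemma isCompact_singleton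
      (isCompact_sphere (0 : V) 1) hO hsub
    have hA'' : A ∈ 𝓝 (p₀, C.e i x) := hA.mem_nhds (hA' rfl)
    rw [nhds_prod_eq] at hA''
    obtain ⟨N, hN, W, hW, hNW⟩ := mem_prod_iff.1 hA''
    obtain ⟨W', hW'sub, hW'o, hW'x⟩ := mem_nhds_iff.1 hW
    refine ⟨i, N, W' ∩ (C.e i).target, hi, hN, hW'o.inter (C.e i).open_target,
      ⟨hW'x, hz0⟩, inter_subset_right, fun p hp z hz v hv => ?_⟩
    have h1 := hAB (mk_mem_prod (hNW (mk_mem_prod hp (hW'sub hz.1))) (hB' (by simp [hv] :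
      v ∈ Metric.sphere (0 : V) 1)))
    exact h1.2
  choose ci N W hsrc hN hW hx hWt hP using key
  obtain ⟨t, -, ht⟩ := isCompact_univ.elim_nhds_subcover
    (fun x => (C.e (ci x)).source ∩ C.e (ci x) ⁻¹' W x) fun x _ =>
      ((C.e (ci x)).isOpen_inter_preimage (hW x)).mem_nhds ⟨hsrc x, hx x⟩
  have hNN : (⋂ x ∈ t, N x) ∈ 𝓝 p₀ := (biInter_finset_mem t).2 fun x _ => hN x
  refine mem_of_superset hNN fun p hp => fun i z hz v hv => ?_
  obtain ⟨x, hxt, hxs, hxW⟩ := mem_iUnion₂.1 (ht (mem_univ ((C.e i).symm z)))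
  have hov : z ∈ C.ov i (ci x) := ⟨hz, hxs⟩
  refine pos_tr hov (fun v' hv' => ?_) v hv
  have hn : 0 < ‖v'‖ := norm_pos_iff.2 hv'
  have h1 := hP x p (mem_iInter₂.1 hp x hxt) (C.t i (ci x) z) hxW (‖v'‖⁻¹ • v') (by
    rw [norm_smul, norm_inv, norm_norm, inv_mul_cancel₀ hn.ne'])
  simp only [map_smul, smul_apply, smul_eq_mul] at h1
  have h2 : 0 < ‖v'‖⁻¹ * ‖v'‖⁻¹ := by positivity
  rw [← mul_assoc] at h1
  exact (mul_pos_iff_of_pos_left h2).1 h1

end pos

/-! ### densities -/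

section dens

variable [FiniteDimensional ℝ V] [MeasurableSpace V] [BorelSpace V] {κ : Type} [Fintype κ]
  [DecidableEq κ] (bs : Module.Basis κ ℝ V)

theorem contDiffOn_detB {W : Type*} [NormedAddCommGroup W] [NormedSpace ℝ W] {S : Set W}
    {n : ℕ∞ω} {B : W → Bil V} {J : W → V →L[ℝ] V} (hB : ContDiffOn ℝ n B S)
    (hJ : ContDiffOn ℝ n J S) :
    ContDiffOn ℝ n (fun q => Tt_476.detB bs (fun x y => B q x (J q y))) S := by
  have h : (fun q => Tt_476.detB bs (fun x y => B q x (J q y))) = fun q =>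
      ∑ σ : Equiv.Perm κ, ((Equiv.Perm.sign σ : ℤ) : ℝ) * ∏ k, B q (bs (σ k)) (J q (bs k)) := by
    funext q
    unfold Tt_476.detB
    rw [Matrix.det_apply']
    rfl
  rw [h]
  exact ContDiffOn.sum fun σ _ => contDiffOn_const.mul (contDiffOn_prod fun k _ =>
    (hB.clm_apply contDiffOn_const).clm_apply (hJ.clm_apply contDiffOn_const))

/-- the squared density `det (w (x, J y))` -/
def densOf (J : AJ C) (w : F2 C) : Tt_476.Dens C where
  r i z := Tt_476.detB bs (fun x y => w.w i z x (J.J i z y))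
  sm i := contDiffOn_detB bs (w.sm i) (J.sm i)
  tr i j z hz := by
    have h : (fun x y => w.w i z x (J.J i z y)) = fun x y =>
        ((w.w j (C.t i j z)).bilinearComp (ContinuousLinearMap.id ℝ V) (J.J j (C.t i j z)))
          (fderiv ℝ (C.t i j) z x) (fderiv ℝ (C.t i j) z y) := by
      funext x y
      rw [w.tr i j z hz, J.tr i j z hz]
      rfl
    rw [h, Tt_476.detB_pull]
    rfl

theorem ddc_smul (J : AJ C) {u : X → ℝ} (hu : Sm C u) (c : ℝ)
    (hu' : Sm C fun x => c * u x) {i : C.ι} {z : V} (hz : z ∈ (C.e i).target) (a b : V) :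
    (ddc J (fun x => c * u x) hu').w i z a b = c * (ddc J u hu).w i z a b := by
  have h1 : fderiv ℝ (uc C (fun x => c * u x) i) = c • fderiv ℝ (uc C u i) := by
    have : uc C (fun x => c * u x) i = c • uc C u i := rfl
    rw [this]
    exact fderiv_const_smul_field c
  have h2 : fderiv ℝ (c • fderiv ℝ (uc C u i)) z = c • fderiv ℝ (fderiv ℝ (uc C u i)) z :=
    congrFun (fderiv_const_smul_field c) z
  rw [ddc_w J _ hu' hz, ddc_w J u hu hz]
  unfold ddcF
  rw [h1, h2]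
  simp only [Pi.smul_apply, smul_apply, smul_eq_mul]
  ring

end dens

/-! ### `dd^c u` jointly smooth ⟹ `u` jointly smooth -/

section ddcvar

variable [FiniteDimensional ℝ V] [CompleteSpace V] [MeasurableSpace V] [BorelSpace V] {κ : Type}
  [Fintype κ] [DecidableEq κ] {bs : Module.Basis κ ℝ V} [CompactSpace X] [T2Space X]

/-- **if `dd^c_{J_p} u_p` is jointly smooth, so is `u_p`** (normalised at a point) -/
theorem ddc_var (hV : Tt_476.V0 C (Tt_476.SolMA (C := C) bs)) {E : Type} [NormedAddCommGroup E]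
    [NormedSpace ℝ E] [FiniteDimensional ℝ E] {T : Set E} (hT : IsOpen T) {J : E → AJ C}
    (hJ : Tt_476.JSJ T J) {om w : E → F2 C} (hom : Tt_476.JS2 T om) (hw : Tt_476.JS2 T w)
    (hcx : ∀ p ∈ T, Cx (J p)) (h11 : ∀ p ∈ T, T11 (J p) (om p)) (hpos : ∀ p ∈ T, Pos (J p) (om p))
    {u : E → X → ℝ} (hu : ∀ p ∈ T, Sm C (u p)) {x1 : X} (h1 : ∀ p ∈ T, u p x1 = 0)
    (he : ∀ p (hp : p ∈ T), Eqv (w p) (ddc (J p) (u p) (hu p hp))) : Tt_476.JS0 C T u := by
  intro i
  rintro ⟨p0, z0⟩ ⟨hp0, hz0⟩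
  -- positivity
  have hJc : ∀ i, ContinuousOn (fun q : (T × ℝ) × V => (J q.1.1).J i q.2)
      (univ ×ˢ (C.e i).target) := by
    intro i
    exact (hJ i).continuousOn.comp (f := fun q : (T × ℝ) × V => ((q.1.1 : E), q.2))
      (by fun_prop) fun q hq => ⟨q.1.1.2, hq.2⟩
  have hbc : ContF fun q : T × ℝ => om q.1 + q.2 • w q.1 := by
    intro i
    have c1 : ContinuousOn (fun q : (T × ℝ) × V => ((q.1.1 : E), q.2))
      (univ ×ˢ (C.e i).target) := by fun_prop
    have c2 : ContinuousOn (fun q : (T × ℝ) × V => q.1.2) (univ ×ˢ (C.e i).target) := by fun_prop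
    exact ((hom i).continuousOn.comp c1 fun q hq => ⟨q.1.1.2, hq.2⟩).add
      (c2.smul ((hw i).continuousOn.comp c1 fun q hq => ⟨q.1.1.2, hq.2⟩))
  have hO := pos_open (P := T × ℝ) (J := fun q => J q.1) hJc hbc
  have hm : ((⟨p0, hp0⟩, 0) : T × ℝ) ∈ {q : T × ℝ | Pos (J q.1) (om q.1 + q.2 • w q.1)} := by
    intro i z hz v hv
    have := hpos p0 hp0 i z hz v hv
    simpa [F2.add_w, F2.smul_w] using this
  obtain ⟨A, hA, B, hB, hAB⟩ := mem_nhds_prod_iff.1 (hO.mem_nhds hm)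
  obtain ⟨s, hs, hs0⟩ : ∃ s : ℝ, s ∈ B ∧ 0 < s := by
    have h2 : ∀ᶠ s : ℝ in 𝓝[>] 0, s ∈ B := nhdsWithin_le_nhds hB
    obtain ⟨s, hs1, hs2⟩ := (h2.and self_mem_nhdsWithin).exists
    exact ⟨s, hs1, hs2⟩
  obtain ⟨A', hA', hAA⟩ := mem_nhds_subtype T ⟨p0, hp0⟩ A |>.1 hA
  obtain ⟨N0, hN0, hN0o, hN0p⟩ := mem_nhds_iff.1 hA'
  have hNo : IsOpen (N0 ∩ T) := hN0o.inter hT
  have hP : ∀ p ∈ N0 ∩ T, Pos (J p) (om p + s • w p) := fun p hp =>
    hAB (mk_mem_prod (hAA (show (⟨p, hp.2⟩ : T) ∈ Subtype.val ⁻¹' A' from hN0 hp.1)) hs)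
  -- the data
  let D : E → Tt_476.Dat C := fun p =>
    { J := J p
      om := om p
      r := densOf bs (J p) (om p + s • w p)
      f := fun _ => 0
      fs := fun _ => contDiffOn_const }
  have hsub : ∀ i, (N0 ∩ T) ×ˢ (C.e i).target ⊆ T ×ˢ (C.e i).target := fun i =>
    prod_mono inter_subset_right subset_rfl
  have hD : Tt_476.JSDat (N0 ∩ T) D := by
    refine ⟨fun i => (hJ i).mono (hsub i), fun i => (hom i).mono (hsub i), fun i => ?_,
      fun i => contDiffOn_const⟩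
    have hb : ContDiffOn ℝ ∞ (fun q : E × V => (om q.1 + s • w q.1).w i q.2)
        ((N0 ∩ T) ×ˢ (C.e i).target) :=
      ((hom i).mono (hsub i)).add (((hw i).mono (hsub i)).const_smul s)
    exact contDiffOn_detB bs hb ((hJ i).mono (hsub i))
  have hsu : ∀ p ∈ T, Sm C fun x => s * u p x := fun p hp i => contDiffOn_const.mul (hu p hp i)
  have heq : ∀ p ∈ N0 ∩ T, ∀ (h : Sm C fun x => s * u p x) i, ∀ z ∈ (C.e i).target, ∀ x y,
      (om p + ddc (J p) (fun x => s * u p x) h).w i z x y = (om p + s • w p).w i z x y := by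
    intro p hp h i z hz x y
    simp only [F2.add_w, F2.smul_w, add_apply, smul_apply, smul_eq_mul]
    rw [ddc_smul (J p) (hu p hp.2) s h hz, he p hp.2 i z hz]
  have hsol : ∀ p ∈ N0 ∩ T, Tt_476.SolMA bs (D p) fun x => s * u p x := by
    intro p hp
    refine ⟨hcx p hp.2, h11 p hp.2, hpos p hp.2, hsu p hp.2, fun i z hz v hv => ?_, 1,
      fun i z hz => ?_⟩
    · show 0 < (om p + ddc (J p) (fun x => s * u p x) (hsu p hp.2)).w i z v ((J p).J i z v)
      rw [heq p hp _ i z hz]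
      exact hP p hp i z hz v hv
    · show Tt_476.detB bs (fun x y => (om p + ddc (J p) (fun x => s * u p x) (hsu p hp.2)).w i z x
        ((J p).J i z y)) = 1 * Tt_476.detB bs (fun x y => (om p + s • w p).w i z x ((J p).J i z y))
      rw [one_mul]
      congr 1
      funext x y
      exact heq p hp _ i z hz _ _
  have hj := Tt_476.joint_MA hV hNo hD hsol (x1 := x1) fun p hp => by
    show s * u p x1 = 0
    rw [h1 p hp.2, mul_zero]
  have hat : ContDiffAt ℝ ∞ (fun q : E × V => s * u q.1 ((C.e i).symm q.2)) (p0, z0) :=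
    (hj i).contDiffAt ((hNo.prod (C.e i).open_target).mem_nhds ⟨⟨hN0p, hp0⟩, hz0⟩)
  have h3 : (fun q : E × V => u q.1 ((C.e i).symm q.2)) = fun q : E × V =>
      s⁻¹ * (s * u q.1 ((C.e i).symm q.2)) := by
    funext q
    rw [← mul_assoc, inv_mul_cancel₀ hs0.ne', one_mul]
  rw [h3]
  exact (contDiffAt_const.mul hat).contDiffWithinAt

/-- `V0 C (SolMA b)` gives the `dd^c`-lemma with parameters -/
theorem ddcv_of_V0 (hV : Tt_476.V0 C (Tt_476.SolMA (C := C) bs)) : DDCV C := by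
  intro H om hom h11 hpos hdd γ hγ hinv
  rcases isEmpty_or_nonempty X with hX | ⟨⟨x1⟩⟩
  · exact ⟨fun _ _ => 0, fun i => contDiffOn_const, fun t i z hz => (hX.false ((C.e i).symm z)).elim⟩
  have hex : ∀ t, ∃ (u : X → ℝ) (hu : Sm C u), u x1 = 0 ∧ Eqv ((γ t).d) (ddc (H.aj t) u hu) := by
    intro t
    obtain ⟨v, hv, h3⟩ := hdd t (γ t).d ⟨γ t, (γ t).isD⟩ fun i z hz a b => hinv t i z hz a b
    have hu : Sm C fun x => v x - v x1 := fun i => (hv i).sub contDiffOn_const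
    refine ⟨fun x => v x - v x1, hu, sub_self _, fun i z hz a b => ?_⟩
    rw [h3 i z hz, ← Tt_476.ddc_congr (H.aj t) hu hv (c := -v x1) (fun x => by ring) hz]
  choose u hu h0 he using hex
  have hw : Tt_476.JS2 (univ : Set ℝ) fun t => (γ t).d := by
    intro i
    have h4 := dx_sm (hγ i)
    have h5 : ContDiff ℝ ∞ (fun T : V →L[ℝ] V →L[ℝ] ℝ => T - T.flip) := by
      have : (fun T : V →L[ℝ] V →L[ℝ] ℝ => T - T.flip) =
        fun T => T - ContinuousLinearMap.flipₗᵢ ℝ V V ℝ T := rfl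
      rw [this]
      fun_prop
    exact h5.comp_contDiffOn h4
  have hj : Tt_476.JS0 C univ u :=
    ddc_var hV isOpen_univ (J := H.aj) H.jsJ hom hw (fun t _ => H.cx t) (fun t _ => h11 t)
      (fun t _ => hpos t) (fun t _ => hu t) (fun t _ => h0 t) fun t _ => he t
  refine ⟨fun t x => -u t x, fun i => (hj i).neg, fun t i z hz a b => ?_⟩
  have h6 : cJ (dX C (fun x => -u t x) i) (H.J t i) = (dc (H.aj t) (u t) (hu t)).η i := by
    funext y
    ext v
    have : fderiv ℝ (fun y => -u t ((C.e i).symm y)) y = -fderiv ℝ (uc C (u t) i) y := fderiv_neg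
    simp [dX, dc, this, HSF.aj]
  rw [h6]
  exact he t i z hz a b

end ddcvar

/-- **PRIM-VAR** (helper377) -/
theorem primVar [FiniteDimensional ℝ V] [CompactSpace X] [T2Space X] : PRIMVar C :=
  fun _ hw hex => Prim_377.prim_var hw hex

/-! ### HK-ISO with the only input `V0 C (SolMA bs)` -/

section final

variable [FiniteDimensional ℝ V] [CompleteSpace V] [MeasurableSpace V] [BorelSpace V] {κ : Type}
  [Fintype κ] [DecidableEq κ] {bs : Module.Basis κ ℝ V} [CompactSpace X] [T2Space X]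

/-- **HK-ISO for hyperkaehler triples** -/
theorem iso_hk (hV : Tt_476.V0 C (Tt_476.SolMA (C := C) bs)) {T : Set ℝ} {H : ℝ → HkT C}
    (hH : JSH T H) {a b : ℝ} (hT : uIcc a b ⊆ T) {k l m : Fin 3} (hc : Cyc k l m)
    (hdd : ∀ t ∈ uIcc a b, DDb (ofHk (H t) k))
    (h1 : ∀ t ∈ uIcc a b, Coh ((H t).om l) ((H a).om l))
    (h2 : ∀ t ∈ uIcc a b, Coh ((H t).om m) ((H a).om m)) :
    ∃ D : DifC C, Eqv (D.φ.pull ((H b).om l)) ((H a).om l) ∧
      Eqv (D.φ.pull ((H b).om m)) ((H a).om m) ∧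
      HolM D.φ (ofHk (H a) k) (ofHk (H b) k) :=
  exists_iso_hk primVar (ddcv_of_V0 hV) hH hT hc hdd h1 h2

/-- the Kaehler classes `om k (t)` are Kaehler classes of one complex structure -/
theorem kcls_hk (hV : Tt_476.V0 C (Tt_476.SolMA (C := C) bs)) {T : Set ℝ} {H : ℝ → HkT C}
    (hH : JSH T H) {a b : ℝ} (hT : uIcc a b ⊆ T) {k l m : Fin 3} (hc : Cyc k l m)
    (hdd : ∀ t ∈ uIcc a b, DDb (ofHk (H t) k))
    (h1 : ∀ t ∈ uIcc a b, Coh ((H t).om l) ((H a).om l))
    (h2 : ∀ t ∈ uIcc a b, Coh ((H t).om m) ((H a).om m)) :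
    KCls (ofHk (H a) k) ((H b).om k) :=
  KCls_iso primVar (ddcv_of_V0 hV) hH hT hc hdd h1 h2

end final

end

end Crest.Agent.R281.Iso_139
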