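import Crest.Agent.R281.RkD_902
import Crest.Agent.R281.Al4_830

/-!
# Row 281, QPOS (helper846, for 551): positive (1,1)-forms have positive square

* `TopI.q_pos11` : `om`, `w` positive (1,1)-forms of `J`, `0 < q om ⟹ 0 < q w`
* `qpos`         : the version of `RkD_902.Ctx`
-/

set_option autoImplicit false
set_option linter.unusedSectionVars false
set_option maxSynthPendingDepth 3

open Set Filter Topology MeasureTheory
open scoped ContDiff

namespace Crest.Agent.R281.Qpos_846

open Crest.Agent.R275.Geo Crest.Agent.R275.Core144 Crest.Agent.R275.EDR890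
open Crest.Agent.R281.Defs_273 Crest.Agent.R281.HKA_799
open Crest.Agent.R281.HkR_835 Crest.Agent.R281.Ti_846
open Crest.Agent.R281.NefO_476 Crest.Agent.R281.Nef_252
open Crest.Agent.R281.Al_830 Crest.Agent.R281.RkD_902

noncomputable section

/-- a continuous function on `[0, 1]` without zeros, positive at `0`, is positive -/
theorem pos_of_ne {f : ℝ → ℝ} (hf : Continuous f) (h : ∀ s ∈ Icc (0 : ℝ) 1, f s ≠ 0)
    (h0 : 0 < f 0) : ∀ s ∈ Icc (0 : ℝ) 1, 0 < f s := by
  intro s hs
  by_contra hn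
  have h1 : f s ≤ 0 := not_lt.1 hn
  obtain ⟨t, ht, h2⟩ := intermediate_value_Icc' hs.1 hf.continuousOn ⟨h1, h0.le⟩
  exact h t ⟨ht.1, ht.2.trans hs.2⟩ h2

section

variable {V X : Type} [NormedAddCommGroup V] [NormedSpace ℝ V] [TopologicalSpace X]
  {C : RCh V X} [FiniteDimensional ℝ V] [MeasurableSpace V] [BorelSpace V] {μ : Measure V}
  [μ.IsAddHaarMeasure] [CompactSpace X] {n : ℕ} {b : Module.Basis (Fin (n + n) × Fin 2) ℝ V}
  {P : RPart C} {q : QuadraticForm ℝ (F2 C)}

theorem T11_comb {J : AJ C} {om w : F2 C} (h1 : T11 J om) (h2 : T11 J w) (s t : ℝ) :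
    T11 J (s • om + t • w) := by
  intro i z hz u v
  simp only [F2.add_w, F2.smul_w, add_apply, smul_apply]
  rw [h1 i z hz, h2 i z hz]

theorem Pos_comb {J : AJ C} {om w : F2 C} (h1 : Pos J om) (h2 : Pos J w) {s : ℝ}
    (hs : s ∈ Icc (0 : ℝ) 1) : Pos J ((1 - s) • om + s • w) := by
  intro i z hz v hv
  simp only [F2.add_w, F2.smul_w, add_apply, smul_apply, smul_eq_mul]
  have a1 := h1 i z hz v hv
  have a2 := h2 i z hz v hv
  rcases eq_or_lt_of_le hs.1 with h | h
  · rw [← h]; linarith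
  · have : 0 ≤ (1 - s) * (om.w i z v) (J.J i z v) := mul_nonneg (by linarith [hs.2]) a1.le
    have := mul_pos h a2
    linarith

/-- **positive (1,1)-forms** -/
theorem q_pos11 [T2Space X] [ConnectedSpace X] (T : TopI μ b P q) {J : AJ C} (hJ : Cx J)
    {om w : F2 C} (h11 : T11 J om) (hpos : Pos J om) (hq : 0 < q om) (ht : T11 J w)
    (hp : Pos J w) : 0 < q w := by
  have hfr : Module.finrank ℝ V = 2 * (n + n) := by
    rw [Module.finrank_eq_card_basis b]
    simp
    ring
  obtain ⟨A, -, -, -, h, hI⟩ := exists_atlas hfr hJ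
  have hn := T.npos
  let W : ℝ → F2 C := fun s => (1 - s) • om + s • w
  have hne : ∀ s ∈ Icc (0 : ℝ) 1, ∀ i, ∀ z ∈ (C.e i).target,
      TP b (fun _ : Fin (n + n) => (W s).w i z) ≠ 0 := fun s hs =>
    TP_om_ne b hI h (T11_comb h11 ht (1 - s) s) (Pos_comb hpos hp hs)
  have hW0 : W 0 = om := by simp [W]
  have hW1 : W 1 = w := by simp [W]
  have ho := sign_pos μ b P T.ori T.nn (TP_om_ne b hI h h11 hpos)
    (by rw [T.fuj]; exact pow_pos hq n)
  have hcont : ∀ i z, Continuous fun s => TP b (fun _ : Fin (n + n) => (W s).w i z) := by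
    intro i z
    have : ∀ s u v, (W s).w i z u v = (1 - s) * om.w i z u v + s * w.w i z u v := by
      intro s u v
      simp only [W, F2.add_w, F2.smul_w, add_apply, smul_apply, smul_eq_mul]
    unfold TP
    simp only [this]
    fun_prop
  have hall : ∀ s ∈ Icc (0 : ℝ) 1, ∀ i, ∀ z ∈ (C.e i).target,
      0 < TP b (fun _ : Fin (n + n) => (W s).w i z) := by
    intro s hs i z hz
    refine pos_of_ne (hcont i z) (fun s hs => hne s hs i z hz) ?_ s hs
    rw [hW0]
    exact ho i z hz
  have hIM : ∀ s ∈ Icc (0 : ℝ) 1, 0 < IM μ b P (fun _ => W s) := by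
    intro s hs
    have h1 : 0 ≤ IM μ b P (fun _ => W s) :=
      intT_nonneg μ P T.nn fun i z hz => (hall s hs i z hz).le
    refine lt_of_le_of_ne h1 fun h0 => ?_
    obtain ⟨x⟩ := (inferInstance : Nonempty X)
    obtain ⟨i, hi⟩ := C.cover x
    have h2 := intT_eq_zero μ P T.nn (fun i z hz => (hall s hs i z hz).le) h0.symm i _
      ((C.e i).map_source hi)
    exact (hall s hs i _ ((C.e i).map_source hi)).ne' h2
  have hqc : Continuous fun s => q (W s) := by
    have : ∀ s, q (W s) = (1 - s) * (1 - s) * q om + s * s * q w +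
        (1 - s) * (s * QuadraticMap.polar q om w) := by
      intro s
      show q ((1 - s) • om + s • w) = _
      rw [QuadraticMap.map_add q, QuadraticMap.map_smul q, QuadraticMap.map_smul q,
        QuadraticMap.polar_smul_left, QuadraticMap.polar_smul_right]
      simp only [smul_eq_mul]
    simp only [this]
    fun_prop
  have hfin := pos_of_ne hqc (fun s hs h0 => by
    have h1 := hIM s hs
    rw [T.fuj, h0, zero_pow hn.ne'] at h1
    exact lt_irrefl _ h1) (by rw [hW0]; exact hq) 1 ⟨zero_le_one, le_refl _⟩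
  rw [hW1] at hfin
  exact hfin

end

section ctx

variable {n : ℕ} {X : Type} [TopologicalSpace X] [CompactSpace X] [T2Space X] [ConnectedSpace X]
  {C : RCh (Cn (2 * n)) X} {Q : F2 C →ₗ[ℝ] F2 C →ₗ[ℝ] ℝ}

/-- **QPOS** -/
theorem qpos (hc : Ctx n C Q) (H : HkT C) (h0 : 0 < Q (H.om 0) (H.om 0)) {w : F2 C} {k : Fin 3}
    (ht : T11 (ofHk H k) w) (hp : Pos (ofHk H k) w) : 0 < Q w w := by
  obtain ⟨P, q, κ, hκ, T, hQ⟩ := hc.top
  have hself : ∀ x, Q x x = κ * (2 * q x) := by
    intro x
    rw [hQ, QuadraticMap.polar_self]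
    simp
  have h1 : 0 < q (H.om k) := by
    have h2 := hself (H.om k)
    rw [hc.eq H k] at h2
    rw [h2] at h0
    have := (mul_pos_iff_of_pos_left hκ).1 h0
    linarith
  have h3 := q_pos11 T (cx_ofHk H k) (T11_hk H k) (Pos_hk H k) h1 ht hp
  rw [hself]
  positivity

end ctx

end

end Crest.Agent.R281.Qpos_846
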