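import Crest.Agent.R281.Ly5_457
import Crest.Agent.R281.Ce6_551
import Crest.Agent.R281.Mf2_835
import Crest.Agent.R281.Iso5_139
import Crest.Agent.R281.Qpos_846

/-!
# Row 281 (helper457): consequences of YAU-VAR, without hypotheses

* `yauVar`   : 830's `YauVar C b`
* `isoF`     : 151's `IsoF C` (HK-ISO)
* `isoHk`    : 326's `IsoHk C`
* `isoFam`   : 551's `IsoFam C`
* `moveFam0` : 557's `MoveFam C Q`
* `qPos`     : 551's `QPos Q`
* `moveFam`  : 551's `MoveFam Q` (every `k`)
* `uniqMv`   : 551's `UniqMv C`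
-/

set_option autoImplicit false
set_option maxSynthPendingDepth 3
set_option linter.unusedSectionVars false

open Set Filter Topology
open scoped ContDiff

namespace Crest.Agent.R281.Ce8_457

open Crest.Agent.R275.Geo Crest.Agent.R275.Core144
open Crest.Agent.R260.ACM_580
open Crest.Agent.R281.HkR_835 Crest.Agent.R281.Ti_846 Crest.Agent.R281.Alg_998
open Crest.Agent.R281.Iso_139 (DDCV)
open Crest.Agent.R281.Ch_151 (IsoF)
open Crest.Agent.R281.RkD_902 (Ctx)

noncomputable section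

section gen

variable {V X : Type} [NormedAddCommGroup V] [NormedSpace ℝ V] [TopologicalSpace X]
  {C : RCh V X} {κ : Type} [Fintype κ] [DecidableEq κ] [FiniteDimensional ℝ V]
  [MeasurableSpace V] [BorelSpace V] [CompactSpace X] [T2Space X] [ConnectedSpace X]

/-- **YAU-VAR** in the shape of 830 -/
theorem yauVar (b : Module.Basis κ ℝ V) : Al_830.YauVar C b := by
  have : CompleteSpace V := FiniteDimensional.complete ℝ V
  exact Al_830.yauVar_of_V0 b (Ly4_457.v0 b)

end gen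

variable {n : ℕ} {X : Type} [TopologicalSpace X] [CompactSpace X] [T2Space X]
  {C : RCh (Cn (2 * n)) X} {Q : F2 C →ₗ[ℝ] F2 C →ₗ[ℝ] ℝ}

theorem fin_Cn (m : ℕ) : Module.finrank ℝ (Cn m) = 2 * m := by
  rw [← Module.finrank_mul_finrank ℝ ℂ (Cn m)]
  simp

theorem nnCn (m : ℕ) : NNat (Cn m) m := Crest.Agent.R260.NN6_900.nnat m (Cn m) (fin_Cn m)

/-- **HK-ISO** in the shape of 151 -/
theorem isoF [SimplyConnectedSpace X] (hc : Ctx n C Q) : IsoF C :=
  Ch_151.isoF_of (nnCn (2 * n)) (by have := hc.n1; omega) Iso_139.primVar Ly5_457.ddcv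

theorem isoHk [SimplyConnectedSpace X] (hc : Ctx n C Q) : NefRay_326.IsoHk C :=
  Ch_151.isoHk_of (isoF hc)

/-- **HK-ISO** in the shape of 551 -/
theorem isoFam [SimplyConnectedSpace X] (hc : Ctx n C Q) : Ce_551.IsoFam C :=
  Ce_551.isoFam_of (isoF hc)

/-- **MOVE-FAM** in the shape of 557 -/
theorem moveFam0 [ConnectedSpace X] (hc : Ctx n C Q) : Bx_557.MoveFam C Q :=
  Mf_835.moveFam hc (yauVar (Module.finBasis ℝ (Cn (2 * n))))

theorem qPos [ConnectedSpace X] (hc : Ctx n C Q) : Ce_551.QPos Q :=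
  fun H _ _ h0 ht hp => Qpos_846.qpos hc H h0 ht hp

theorem qhk (hc : Ctx n C Q) : Ce_551.QHk C Q := ⟨hc.symm, hc.ex, hc.ort, hc.eq⟩

/-- **MOVE-FAM** in the shape of 551 -/
theorem moveFam [ConnectedSpace X] (hc : Ctx n C Q) : Ce_551.MoveFam Q :=
  Ce_551.moveFam_of (qhk hc) (moveFam0 hc) (qPos hc)

/-- **uniqueness of the move** in the shape of 551 -/
theorem uniqMv [ConnectedSpace X] (hc : Ctx n C Q) : Ce_551.UniqMv C :=
  Ce_551.uniqMv_of (by have := hc.n1; omega) (nnCn (2 * n))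

end

end Crest.Agent.R281.Ce8_457
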