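import Crest.Agent.R281.Iso4_139
import Crest.Agent.R281.Tt3_476

/-!
# Row 281, DDC-VAR as a corollary of YAU-VAR, part 1 (helper457)

* `pos_near`     : positivity of a continuous family of 2-forms is an open condition
* `contDiffOn_detB`, `densJ` : the density `det (ω (b k, J b l))`
* `ddcv_of_v0`   : **`V0 C (SolMA b) → DDCV C`**
-/

set_option autoImplicit false
set_option maxSynthPendingDepth 3
set_option linter.unusedSectionVars false

open Set Filter Topology
open scoped ContDiff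

namespace Crest.Agent.R281.Dy_457

open Crest.Agent.R281.HkR_835 Crest.Agent.R260.ACM_580
open Crest.Agent.R281.Dif_268
open Crest.Agent.R281.NefO_476 Crest.Agent.R281.Nef_252
open Crest.Agent.R281.Ti_846 hiding pb pb_apply symm2 sm'
open Crest.Agent.R281.Iso_139 (HSF cJ dX DDCV dx_sm)
open Crest.Agent.R281.Tt_476 (Dens Dat V0 SolMA detB detB_pull joint_MA JSDat)

noncomputable section

variable {V X : Type} [NormedAddCommGroup V] [NormedSpace ℝ V] [TopologicalSpace X]
  {C : RCh V X}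

section pos

variable [FiniteDimensional ℝ V] [MeasurableSpace V] [BorelSpace V] {P : Type*}
  [TopologicalSpace P]

/-- **openness of positivity** -/
theorem pos_near [CompactSpace X] {J : P → AJ C}
    (hJ : ∀ i, ContinuousOn (fun q : P × V => (J q.1).J i q.2) (univ ×ˢ (C.e i).target))
    {b : P → F2 C} (hb : ContF b) {p₀ : P} (hpos : Pos (J p₀) (b p₀)) :
    ∀ᶠ p in 𝓝 p₀, Pos (J p) (b p) := by
  have : ProperSpace V := FiniteDimensional.proper ℝ V
  have hc : ∀ i, ContinuousOn (fun q : (P × V) × V => (b q.1.1).w i q.1.2 q.2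
      ((J q.1.1).J i q.1.2 q.2)) ((univ ×ˢ (C.e i).target) ×ˢ univ) := by
    intro i
    have m1 : MapsTo (fun q : (P × V) × V => q.1) ((univ ×ˢ (C.e i).target) ×ˢ univ)
        (univ ×ˢ (C.e i).target) := fun q hq => hq.1
    have c1 : ContinuousOn (fun q : (P × V) × V => q.1) ((univ ×ˢ (C.e i).target) ×ˢ univ) :=
      continuous_fst.continuousOn
    have cv : ContinuousOn (fun q : (P × V) × V => q.2) ((univ ×ˢ (C.e i).target) ×ˢ univ) :=
      continuous_snd.continuousOn
    have hb' := (hb i).comp c1 m1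
    have hJ0 := (hJ i).comp c1 m1
    simp only [Function.comp_def] at hb' hJ0
    exact (hb'.clm_apply cv).clm_apply (hJ0.clm_apply cv)
  -- local step
  have key : ∀ x : X, ∃ (i : C.ι) (N : Set P) (W : Set V), x ∈ (C.e i).source ∧ N ∈ 𝓝 p₀ ∧
      IsOpen W ∧ C.e i x ∈ W ∧ W ⊆ (C.e i).target ∧ ∀ p ∈ N, ∀ z ∈ W, ∀ v : V, ‖v‖ = 1 →
        0 < (b p).w i z v ((J p).J i z v) := by
    intro x
    obtain ⟨i, hi⟩ := C.cover x
    have hz0 : C.e i x ∈ (C.e i).target := (C.e i).map_source hi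
    have hopen : IsOpen ((univ ×ˢ (C.e i).target : Set (P × V)) ×ˢ (univ : Set V)) :=
      (isOpen_univ.prod (C.e i).open_target).prod isOpen_univ
    have hO : IsOpen (((univ ×ˢ (C.e i).target : Set (P × V)) ×ˢ (univ : Set V)) ∩
        (fun q : (P × V) × V => (b q.1.1).w i q.1.2 q.2
      ((J q.1.1).J i q.1.2 q.2)) ⁻¹' Ioi 0) :=
      (hc i).isOpen_inter_preimage hopen isOpen_Ioi
    have hsub : ({(p₀, C.e i x)} : Set (P × V)) ×ˢ Metric.sphere (0 : V) 1 ⊆
        ((univ ×ˢ (C.e i).target : Set (P × V)) ×ˢ (univ : Set V)) ∩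
        (fun q : (P × V) × V => (b q.1.1).w i q.1.2 q.2
      ((J q.1.1).J i q.1.2 q.2)) ⁻¹' Ioi 0 := by
      rintro ⟨⟨p, z⟩, v⟩ ⟨hpz, hv⟩
      simp only [mem_singleton_iff, Prod.mk.injEq] at hpz
      obtain ⟨rfl, rfl⟩ := hpz
      refine ⟨⟨⟨mem_univ _, hz0⟩, mem_univ _⟩, ?_⟩
      refine hpos i _ hz0 v fun h0 => ?_
      simp [h0] at hv
    obtain ⟨A, B, hA, hB, hA', hB', hAB⟩ := generalized_tube_lemma isCompact_singleton
      (isCompact_sphere (0 : V) 1) hO hsub
    have hA'' : A ∈ 𝓝 (p₀, C.e i x) := hA.mem_nhds (hA' rfl)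
    rw [nhds_prod_eq] at hA''
    obtain ⟨N, hN, W, hW, hNW⟩ := mem_prod_iff.1 hA''
    obtain ⟨W', hW'sub, hW'o, hW'x⟩ := mem_nhds_iff.1 hW
    refine ⟨i, N, W' ∩ (C.e i).target, hi, hN, hW'o.inter (C.e i).open_target,
      ⟨hW'x, hz0⟩, inter_subset_right, fun p hp z hz v hv => ?_⟩
    have h1 := hAB (mk_mem_prod (hNW (mk_mem_prod hp (hW'sub hz.1))) (hB' (by simp [hv] :
      v ∈ Metric.sphere (0 : V) 1)))
    exact h1.2
  choose ci N W hsrc hN hW hx hWt hP using key
  obtain ⟨t, -, ht⟩ := isCompact_univ.elim_nhds_subcover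
    (fun x => (C.e (ci x)).source ∩ C.e (ci x) ⁻¹' W x) fun x _ =>
      ((C.e (ci x)).isOpen_inter_preimage (hW x)).mem_nhds ⟨hsrc x, hx x⟩
  have hNN : (⋂ x ∈ t, N x) ∈ 𝓝 p₀ := (biInter_finset_mem t).2 fun x _ => hN x
  refine mem_of_superset hNN fun p hp => ?_
  show Pos (J p) (b p)
  intro i z hz v hv
  obtain ⟨x, hxt, hxs, hxW⟩ := mem_iUnion₂.1 (ht (mem_univ ((C.e i).symm z)))
  have hov : z ∈ C.ov i (ci x) := ⟨hz, hxs⟩
  refine pos_tr hov (fun v' hv' => ?_) v hv
  have hn : 0 < ‖v'‖ := norm_pos_iff.2 hv'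
  have h1 := hP x p (mem_iInter₂.1 hp x hxt) (C.t i (ci x) z) hxW (‖v'‖⁻¹ • v') (by
    rw [norm_smul, norm_inv, norm_norm, inv_mul_cancel₀ hn.ne'])
  simp only [map_smul, smul_apply, smul_eq_mul] at h1
  have h2 : 0 < ‖v'‖⁻¹ * ‖v'‖⁻¹ := by positivity
  rw [← mul_assoc] at h1
  exact (mul_pos_iff_of_pos_left h2).1 h1

end pos

/-! ### densities -/

section dens

variable [FiniteDimensional ℝ V] [MeasurableSpace V] [BorelSpace V]
  {κ : Type} [Fintype κ] [DecidableEq κ] (b : Module.Basis κ ℝ V)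

theorem contDiffOn_detB {E : Type*} [NormedAddCommGroup E] [NormedSpace ℝ E] {S : Set E}
    {w : E → Bil V} {T : E → V →L[ℝ] V} (hw : ContDiffOn ℝ ∞ w S) (hT : ContDiffOn ℝ ∞ T S) :
    ContDiffOn ℝ ∞ (fun q => detB b (fun x y => w q x (T q y))) S := by
  have h : ∀ q, detB b (fun x y => w q x (T q y)) = ∑ σ : Equiv.Perm κ,
      ((Equiv.Perm.sign σ : ℤ) : ℝ) * ∏ k, w q (b (σ k)) (T q (b k)) := by
    intro q
    unfold detB
    rw [Matrix.det_apply']
    simp
  simp_rw [h]
  refine ContDiffOn.sum fun σ _ => contDiffOn_const.mul (contDiffOn_prod fun k _ => ?_)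
  exact (hw.clm_apply contDiffOn_const).clm_apply (hT.clm_apply contDiffOn_const)

/-- the density `det (ω (b k, J b l))` -/
def densJ (w : F2 C) (J : AJ C) : Dens C where
  r i z := detB b (fun x y => w.w i z x (J.J i z y))
  sm i := contDiffOn_detB b (w.sm i) (J.sm i)
  tr i j z hz := by
    have h1 : ∀ x y, w.w i z x (J.J i z y) =
        ((w.w j (C.t i j z)).bilinearComp (ContinuousLinearMap.id ℝ V) (J.J j (C.t i j z)))
          (fderiv ℝ (C.t i j) z x) (fderiv ℝ (C.t i j) z y) := by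
      intro x y
      rw [w.tr i j z hz, J.tr i j z hz]
      rfl
    have h2 : detB b (fun x y => w.w i z x (J.J i z y)) =
        detB b (fun x y => ((w.w j (C.t i j z)).bilinearComp (ContinuousLinearMap.id ℝ V)
          (J.J j (C.t i j z))) (fderiv ℝ (C.t i j) z x) (fderiv ℝ (C.t i j) z y)) := by
      unfold detB
      congr 1
      ext x y
      exact h1 _ _
    rw [h2, detB_pull]
    rfl

end dens

/-! ### the theorem -/

section main

variable [FiniteDimensional ℝ V] [MeasurableSpace V] [BorelSpace V]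
  {κ : Type} [Fintype κ] [DecidableEq κ] {b : Module.Basis κ ℝ V}

theorem d_T11 {H : HSF C} {γ : F1 C} {t : ℝ} (h : ∀ i, ∀ z ∈ (C.e i).target, ∀ u v,
      d1 (γ.η i) z (H.J t i z u) (H.J t i z v) = d1 (γ.η i) z u v) : T11 (H.aj t) γ.d :=
  fun i z hz u v => h i z hz u v

theorem d_Ex (γ : F1 C) : Ex γ.d := ⟨γ, fun _ _ _ _ _ => rfl⟩

/-- joint smoothness of `dγ` -/
theorem js_d {γ : ℝ → F1 C} (hγ : Iso_139.JS1 γ) (i : C.ι) :
    ContDiffOn ℝ ∞ (fun p : ℝ × V => (γ p.1).d.w i p.2) (univ ×ˢ (C.e i).target) := by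
  have h1 : ContDiffOn ℝ ∞ (fun p : ℝ × V => fderiv ℝ ((γ p.1).η i) p.2)
      (univ ×ˢ (C.e i).target) := dx_sm (hγ i)
  have h2 : ContDiff ℝ ∞ (fun T : V →L[ℝ] V →L[ℝ] ℝ => T - T.flip) := by
    have : (fun T : V →L[ℝ] V →L[ℝ] ℝ => T - T.flip) =
      fun T => T - ContinuousLinearMap.flipₗᵢ ℝ V V ℝ T := rfl
    rw [this]
    fun_prop
  exact h2.comp_contDiffOn h1

/-- **DDC-VAR is a corollary of YAU-VAR** -/
theorem ddcv_of_v0 [CompactSpace X] [T2Space X] [CompleteSpace V]
    (hV : V0 C (SolMA (C := C) b)) : DDCV C := by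
  intro H om hom h11 hpos hdd γ hγ hinv
  rcases isEmpty_or_nonempty X with hX | ⟨⟨x1⟩⟩
  · refine ⟨fun _ _ => 0, fun i => contDiffOn_const, fun t i z hz => ?_⟩
    exact (hX.false ((C.e i).symm z)).elim
  have hT : ∀ t, T11 (H.aj t) (γ t).d := fun t => d_T11 (hinv t)
  choose φ hφ hφe using fun t => hdd t (γ t).d (d_Ex (γ t)) (hT t)
  -- the key local statement
  have key : ∀ t0 : ℝ, ∃ T : Set ℝ, IsOpen T ∧ t0 ∈ T ∧
      Tt_476.JS0 C T (fun t x => φ t x - φ t x1) := by
    intro t0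
    -- positivity near `(t0, 0)`
    have hJc : ∀ i, ContinuousOn (fun q : (ℝ × ℝ) × V => (H.aj q.1.1).J i q.2)
        (univ ×ˢ (C.e i).target) := fun i =>
      (H.jsJ i).continuousOn.comp (f := fun q : (ℝ × ℝ) × V => (q.1.1, q.2))
        (by fun_prop) fun q hq => ⟨mem_univ _, hq.2⟩
    have hbc : ContF (fun q : ℝ × ℝ => om q.1 + q.2 • (γ q.1).d) := by
      intro i
      have e1 : ContinuousOn (fun q : (ℝ × ℝ) × V => (om q.1.1).w i q.2)
          (univ ×ˢ (C.e i).target) :=
        (hom i).continuousOn.comp (f := fun q : (ℝ × ℝ) × V => (q.1.1, q.2))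
          (by fun_prop) fun q hq => ⟨mem_univ _, hq.2⟩
      have e2 : ContinuousOn (fun q : (ℝ × ℝ) × V => (γ q.1.1).d.w i q.2)
          (univ ×ˢ (C.e i).target) :=
        (js_d hγ i).continuousOn.comp (f := fun q : (ℝ × ℝ) × V => (q.1.1, q.2))
          (by fun_prop) fun q hq => ⟨mem_univ _, hq.2⟩
      have e3 : ContinuousOn (fun q : (ℝ × ℝ) × V => q.1.2) (univ ×ˢ (C.e i).target) := by
        fun_prop
      exact e1.add (e3.smul e2)
    have h0 : Pos (H.aj ((t0, (0 : ℝ)) : ℝ × ℝ).1)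
        (om ((t0, (0 : ℝ)) : ℝ × ℝ).1 + ((t0, (0 : ℝ)) : ℝ × ℝ).2 •
          (γ ((t0, (0 : ℝ)) : ℝ × ℝ).1).d) := by
      intro i z hz v hv
      have := hpos t0 i z hz v hv
      simpa using this
    have hn := pos_near (J := fun q : ℝ × ℝ => H.aj q.1) hJc hbc h0
    rw [nhds_prod_eq] at hn
    obtain ⟨A, hA, S, hS, hAS⟩ := mem_prod_iff.1 hn
    obtain ⟨T, hTA, hTo, ht0⟩ := mem_nhds_iff.1 hA
    -- a positive `s`
    obtain ⟨ε, hε, hεS⟩ := Metric.mem_nhds_iff.1 hS
    obtain ⟨s, hs, hsε⟩ := exists_between hε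
    have hsS : s ∈ S := hεS (by simpa [abs_of_pos hs] using hsε)
    have hP : ∀ t ∈ T, Pos (H.aj t) (om t + s • (γ t).d) := fun t ht =>
      hAS (mk_mem_prod (hTA ht) hsS)
    refine ⟨T, hTo, ht0, ?_⟩
    -- the data
    let D : ℝ → Dat C := fun t => ⟨H.aj t, om t + s • (γ t).d, densJ b (om t) (H.aj t),
      fun _ => 0, fun i => contDiffOn_const⟩
    have sub : ∀ i, T ×ˢ (C.e i).target ⊆ (univ : Set ℝ) ×ˢ (C.e i).target := fun i =>
      prod_mono (subset_univ _) le_rfl
    have hD : JSDat T D := by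
      refine ⟨fun i => (H.jsJ i).mono (sub i), fun i => ?_, fun i => ?_, fun i => ?_⟩
      · exact ((hom i).mono (sub i)).add (((js_d hγ i).mono (sub i)).const_smul s)
      · exact contDiffOn_detB b ((hom i).mono (sub i)) ((H.jsJ i).mono (sub i))
      · exact contDiffOn_const
    -- the solutions
    have husm : ∀ t, Sm C (fun x => -s * (φ t x - φ t x1)) := fun t i =>
      contDiffOn_const.mul ((hφ t i).sub contDiffOn_const)
    have hval : ∀ t i, ∀ z ∈ (C.e i).target, ∀ x y,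
        (om t + s • (γ t).d + ddc (H.aj t) (fun x => -s * (φ t x - φ t x1)) (husm t)).w i z x y =
          (om t).w i z x y := by
      intro t i z hz x y
      have h1 := hφe t i z hz x y
      have h2 : (ddc (H.aj t) (fun x => -s * (φ t x - φ t x1)) (husm t)).w i z x y =
          -s * (ddc (H.aj t) (φ t) (hφ t)).w i z x y := by
        rw [ddc_w _ _ _ hz, ddc_w _ _ _ hz]
        have e1 : ∀ y ∈ (C.e i).target, fderiv ℝ (uc C (fun x => -s * (φ t x - φ t x1)) i) y =
            (-s) • fderiv ℝ (uc C (φ t) i) y := by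
          intro y hy
          have h3 : DifferentiableAt ℝ (uc C (φ t) i) y :=
            (Sm.at (hφ t) hy).differentiableAt (by simp)
          have h4 : uc C (fun x => -s * (φ t x - φ t x1)) i =
              fun y => -s * (uc C (φ t) i y - φ t x1) := rfl
          rw [h4, fderiv_const_mul (h3.sub_const _), fderiv_sub_const]
        have e2 : fderiv ℝ (uc C (fun x => -s * (φ t x - φ t x1)) i) =ᶠ[𝓝 z]
            fun y => (-s) • fderiv ℝ (uc C (φ t) i) y := by
          filter_upwards [(C.e i).open_target.mem_nhds hz] with y hy using e1 y hy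
        have h5 : DifferentiableAt ℝ (fderiv ℝ (uc C (φ t) i)) z :=
          (((hφ t i).fderiv_of_isOpen (C.e i).open_target (m := ∞) (by simp)).contDiffAt
            ((C.e i).open_target.mem_nhds hz)).differentiableAt (by simp)
        unfold ddcF
        rw [e2.fderiv_eq, e1 z hz, fderiv_fun_const_smul h5]
        simp only [smul_apply, smul_eq_mul]
        ring
      simp only [F2.add_w, F2.smul_w, add_apply, smul_apply, smul_eq_mul]
      rw [h2, h1]
      ring
    have hu : ∀ t ∈ T, SolMA b (D t) (fun x => -s * (φ t x - φ t x1)) := by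
      intro t ht
      refine ⟨H.cx t, (h11 t).add ((hT t).smul s), hP t ht, husm t, fun i z hz v hv => ?_,
        1, fun i z hz => ?_⟩
      · show 0 < (om t + s • (γ t).d + ddc (H.aj t) (fun x => -s * (φ t x - φ t x1))
          (husm t)).w i z v ((H.aj t).J i z v)
        rw [hval t i z hz]
        exact hpos t i z hz v hv
      · rw [one_mul]
        show detB b (fun x y => (om t + s • (γ t).d + ddc (H.aj t)
          (fun x => -s * (φ t x - φ t x1)) (husm t)).w i z x ((H.aj t).J i z y)) =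
          detB b (fun x y => (om t).w i z x ((H.aj t).J i z y))
        unfold detB
        congr 1
        ext k l
        exact hval t i z hz _ _
    have hjs := joint_MA hV hTo hD hu (x1 := x1) (fun t _ => by simp)
    intro i
    have h6 : ContDiffOn ℝ ∞ (fun q : ℝ × V => (-s)⁻¹ *
        (-s * (φ q.1 ((C.e i).symm q.2) - φ q.1 x1))) (T ×ˢ (C.e i).target) :=
      contDiffOn_const.mul (hjs i)
    refine h6.congr fun q _ => ?_
    rw [inv_mul_cancel_left₀ (neg_ne_zero.2 hs.ne')]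
  -- the conclusion
  refine ⟨fun t x => -(φ t x - φ t x1), fun i => ?_, fun t i z hz u v => ?_⟩
  · rintro ⟨t, z⟩ ⟨-, hz⟩
    obtain ⟨T, hTo, ht, hj⟩ := key t
    exact ((hj i).neg.contDiffAt ((hTo.prod (C.e i).open_target).mem_nhds ⟨ht, hz⟩)
      ).contDiffWithinAt
  · have h1 := hφe t i z hz u v
    have h2 : cJ (dX C (fun x => -(φ t x - φ t x1)) i) (H.J t i) =
        (dc (H.aj t) (φ t) (hφ t)).η i := by
      funext y
      have h3 : dX C (fun x => -(φ t x - φ t x1)) i y = -fderiv ℝ (uc C (φ t) i) y := by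
        show fderiv ℝ (fun y => -(φ t ((C.e i).symm y) - φ t x1)) y = _
        rw [fderiv_fun_neg, fderiv_sub_const]
        rfl
      show (dX C (fun x => -(φ t x - φ t x1)) i y).comp (H.J t i y) =
        -(fderiv ℝ (uc C (φ t) i) y).comp ((H.aj t).J i y)
      rw [h3]
      rfl
    rw [h2]
    exact h1

end main

end

end Crest.Agent.R281.Dy_457
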