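import Crest.Agent.R281.Ly4_457
import Crest.Agent.R281.Dy1_457

/-!
# Row 281, DDC-VAR (helper457): `DDCV C` without hypotheses
-/

set_option autoImplicit false
set_option maxSynthPendingDepth 3
set_option linter.unusedSectionVars false

open Set Filter Topology
open scoped ContDiff

namespace Crest.Agent.R281.Ly5_457

open Crest.Agent.R260.ACM_580 Crest.Agent.R281.HkR_835 Crest.Agent.R281.Iso_139

noncomputable section

variable {V X : Type} [NormedAddCommGroup V] [NormedSpace ℝ V] [TopologicalSpace X]
  {C : RCh V X} [FiniteDimensional ℝ V] [MeasurableSpace V] [BorelSpace V] [CompactSpace X]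
  [T2Space X] [ConnectedSpace X]

/-- **DDC-VAR** -/
theorem ddcv : DDCV C := by
  have : CompleteSpace V := FiniteDimensional.complete ℝ V
  exact Dy_457.ddcv_of_v0 (Ly4_457.v0 (C := C) (Module.finBasis ℝ V))

end

end Crest.Agent.R281.Ly5_457
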