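import Crest.Agent.R281.Ch8_151
import Crest.Agent.R281.Mf4_835
import Crest.Agent.R281.Ly5_457
import Crest.Agent.R281.Iso5_139

/-!
# Row 281, CHART-END (helper551): the node `ChartEndP` of `RkD_902`, without hypotheses
-/

set_option autoImplicit false
set_option maxSynthPendingDepth 3
set_option linter.unusedSectionVars false

open Set Filter Topology
open scoped ContDiff

namespace Crest.Agent.R281.Ce_551

open Crest.Agent.R275.Geo Crest.Agent.R275.Core144
open Crest.Agent.R260.ACM_580 Crest.Agent.R281.HkR_835 Crest.Agent.R281.Ti_846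
open Crest.Agent.R281.RkD_902

noncomputable section

/-- **HK-ISO**, unconditional -/
theorem isoF {X : Type} [TopologicalSpace X] [CompactSpace X] [T2Space X]
    [SimplyConnectedSpace X] {d : ℕ} (hd : 2 ≤ d) {C : RCh (Cn d) X} : Ch_151.IsoF C := by
  let _ : MeasurableSpace (Cn d) := borel _
  have : BorelSpace (Cn d) := ⟨rfl⟩
  exact Ch_151.isoF_of
    (Crest.Agent.R260.NN6_900.nnat d (Cn d) (Ch_151.finrank_cn d)) hd Iso_139.primVar
    Ly5_457.ddcv

/-- **chart member = end member** -/
theorem chartEndP (Alg : AlgTT) : ChartEndP Alg := by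
  intro n X _ _ _ _ C Q hc H0 L0 e hg B R
  have hd : 2 ≤ 2 * n := by have := hc.n1; omega
  exact Ch_151.chartEnd_of hc hg R (isoF hd) (Mf_835.moveFamCe' hc)

end

end Crest.Agent.R281.Ce_551
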