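import Crest.Agent.R281.Ch1_151

/-!
# Row 281, CHART-END (second owner, helper151), part 2: the member over a class

* `uniq_moveK`   : uniqueness of the move of `om k`
* `rt H c s`     : rotation about `om 0` : `(om 0, c om 1 + s om 2, -s om 1 + c om 2)`
* `QQ Q`         : what is used of the Fujiki form
* `MvN L b G`    : `G` is in normal form (`[om 2] = t b`, `t > 0`) and, rotated about `om 0`, it is
                   a move of `L` with fixed `J 2`
* `MvN.uniq`     : `G` is unique up to scaling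
-/

set_option autoImplicit false
set_option maxSynthPendingDepth 3
set_option linter.unusedSectionVars false

open Set Filter Topology Complex
open scoped ContDiff

namespace Crest.Agent.R281.Ch_151

open Crest.Agent.R260.ACM_580
open Crest.Agent.R281.Ti_846 Crest.Agent.R281.Dif_268 Crest.Agent.R281.Cdr_234
open Crest.Agent.R281.HkR_835 Crest.Agent.R281.Alg_998
open Crest.Agent.R281.NefO_476 (ofHk Pos AJ)
open Crest.Agent.R281.Nef_252 (T11 KCls)

noncomputable section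

variable {d : ℕ} {X : Type} [TopologicalSpace X]
variable {V : Type} [NormedAddCommGroup V] [NormedSpace ℝ V] {C : RCh V X}

theorem eqv_of_eq {w w' : F2 C} (h : w = w') : Eqv w w' := h ▸ Eqv.refl w

theorem eqv_smul {a a' : F2 C} (c : ℝ) (h : Eqv a a') : Eqv (c • a) (c • a') :=
  fun i z hz u v => by
    show c * a.w i z u v = c * a'.w i z u v
    rw [h i z hz]

theorem eqv_add {a a' b b' : F2 C} (h : Eqv a a') (h' : Eqv b b') : Eqv (a + b) (a' + b') :=
  fun i z hz u v => by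
    show a.w i z u v + b.w i z u v = a'.w i z u v + b'.w i z u v
    rw [h i z hz, h' i z hz]

theorem cl_of_eqv {w w' : F2 C} (h : Eqv w w') : Cl w w' :=
  Cl.of_eq_on fun i z hz => by ext u v; exact h i z hz u v

theorem heqv_cyc {H H' : HkT C} (k : Fin 3) (h : HEqv (H.cyc k) (H'.cyc k)) : HEqv H H' := by
  refine ⟨fun l i z hz => ?_, fun l i z hz => ?_, fun i z hz => h.g i z hz⟩
  · ext u v
    have h1 := congrArg (fun T : Bil V => T u v) (h.om (l - k) i z hz)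
    have h2 := cyc_om H k (l - k) i z hz u v
    have h3 := cyc_om H' k (l - k) i z hz u v
    rw [sub_add_cancel] at h2 h3
    rw [← h2, ← h3]
    exact h1
  · ext v
    have h1 := congrArg (fun T : V →L[ℝ] V => T v) (h.J (l - k) i z hz)
    have h2 := cyc_J H k (l - k) i z v
    have h3 := cyc_J H' k (l - k) i z v
    rw [sub_add_cancel] at h2 h3
    rw [← h2, ← h3]
    exact h1

/-- **uniqueness of the move of `om 2`** -/
theorem uniq_move2 [FiniteDimensional ℝ V] [T2Space X] [CompactSpace X] [ConnectedSpace X]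
    (hd : 2 ≤ d) (hNN : NNat V d) (H H' : HkT C)
    (hJ : ∀ i, ∀ z ∈ (C.e i).target, ∀ v, H'.J 2 i z v = H.J 2 i z v) {r : ℝ} (hr : 0 < r)
    (e0 : Eqv (H'.om 0) (r • H.om 0)) (e1 : Eqv (H'.om 1) (r • H.om 1))
    (h2 : Ex (H'.om 2 - H.om 2)) : r = 1 ∧ HEqv H H' := by
  have c0 : ∀ H : HkT C, Eqv ((H.cyc 2).om 0) (H.om 2) := fun H => cyc_om H 2 0
  have c1 : ∀ H : HkT C, Eqv ((H.cyc 2).om 1) (H.om 0) := fun H => cyc_om H 2 1
  have c2 : ∀ H : HkT C, Eqv ((H.cyc 2).om 2) (H.om 1) := fun H => cyc_om H 2 2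
  obtain ⟨h1, h3⟩ := uniq_move hd hNN (H.cyc 2) (H'.cyc 2) (fun i z hz v => by
      rw [cyc_J, cyc_J]
      exact hJ i z hz v) hr
    ((c1 H').trans (e0.trans (eqv_smul r (c1 H).symm)))
    ((c2 H').trans (e1.trans (eqv_smul r (c2 H).symm)))
    (by
      refine Eqv.ex ?_ h2
      intro i z hz u v
      show (H'.om 2).w i z u v - (H.om 2).w i z u v =
        ((H'.cyc 2).om 0).w i z u v - ((H.cyc 2).om 0).w i z u v
      rw [c0 H' i z hz, c0 H i z hz])
  exact ⟨h1, heqv_cyc 2 h3⟩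

/-! ### rotation about `om 0` -/

/-- the frame -/
def R0 (c s : ℝ) : Fin 3 → Fin 3 → ℝ := ![![1, 0, 0], ![0, c, s], ![0, -s, c]]

theorem fr_R0 {c s : ℝ} (h : c * c + s * s = 1) : HkT.Fr (R0 c s) where
  nrm k := by
    fin_cases k
    · simp [R0]
    · simpa [R0] using h
    · simp [R0]; linarith
  ort := by simp [R0]
  crs := by
    funext k
    fin_cases k <;> simp [R0]

/-- the rotated triple -/
def rt (H : HkT C) (c s : ℝ) (h : c * c + s * s = 1) : HkT C := H.rot (R0 c s) (fr_R0 h)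

section rt

variable (H : HkT C) {c s : ℝ} (h : c * c + s * s = 1)

theorem rt_om0 : (rt H c s h).om 0 = H.om 0 := by
  show F2.lin (R0 c s 0) H.om = _
  rw [F2.lin_eq, Fin.sum_univ_three]
  simp [R0]

theorem rt_om1 : (rt H c s h).om 1 = c • H.om 1 + s • H.om 2 := by
  show F2.lin (R0 c s 1) H.om = _
  rw [F2.lin_eq, Fin.sum_univ_three]
  simp [R0]

theorem rt_om2 : (rt H c s h).om 2 = (-s) • H.om 1 + c • H.om 2 := by
  show F2.lin (R0 c s 2) H.om = _
  rw [F2.lin_eq, Fin.sum_univ_three]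
  simp [R0]

theorem rt_J0 (i : C.ι) (z v : V) : (rt H c s h).J 0 i z v = H.J 0 i z v := by
  show H.Jv (R0 c s 0) i z v = _
  rw [HkT.Jv_apply]
  simp [R0]

theorem rt_J1 (i : C.ι) (z v : V) :
    (rt H c s h).J 1 i z v = c • H.J 1 i z v + s • H.J 2 i z v := by
  show H.Jv (R0 c s 1) i z v = _
  rw [HkT.Jv_apply]
  simp [R0]

theorem rt_J2 (i : C.ι) (z v : V) :
    (rt H c s h).J 2 i z v = (-s) • H.J 1 i z v + c • H.J 2 i z v := by
  show H.Jv (R0 c s 2) i z v = _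
  rw [HkT.Jv_apply]
  simp [R0]

include h in
/-- rotating back -/
theorem rt_back1 (i : C.ι) (z v : V) :
    H.J 1 i z v = c • (rt H c s h).J 1 i z v - s • (rt H c s h).J 2 i z v := by
  rw [rt_J1, rt_J2]
  have e : c • (c • H.J 1 i z v + s • H.J 2 i z v) - s • ((-s) • H.J 1 i z v + c • H.J 2 i z v) =
      (c * c + s * s) • H.J 1 i z v := by module
  rw [e, h, one_smul]

include h in
theorem rt_back2 (i : C.ι) (z v : V) :
    H.J 2 i z v = s • (rt H c s h).J 1 i z v + c • (rt H c s h).J 2 i z v := by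
  rw [rt_J1, rt_J2]
  have e : s • (c • H.J 1 i z v + s • H.J 2 i z v) + c • ((-s) • H.J 1 i z v + c • H.J 2 i z v) =
      (c * c + s * s) • H.J 2 i z v := by module
  rw [e, h, one_smul]

theorem rt_bom2 : H.om 2 = s • (rt H c s h).om 1 + c • (rt H c s h).om 2 := by
  rw [rt_om1, rt_om2]
  have e : s • (c • H.om 1 + s • H.om 2) + c • ((-s) • H.om 1 + c • H.om 2) =
      (c * c + s * s) • H.om 2 := by module
  rw [e, h, one_smul]

theorem rt_bom1 : H.om 1 = c • (rt H c s h).om 1 - s • (rt H c s h).om 2 := by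
  rw [rt_om1, rt_om2]
  have e : c • (c • H.om 1 + s • H.om 2) - s • ((-s) • H.om 1 + c • H.om 2) =
      (c * c + s * s) • H.om 1 := by module
  rw [e, h, one_smul]

end rt

/-- the same complex structures on the targets -/
def JEq (G G' : HkT C) : Prop := ∀ k i, ∀ z ∈ (C.e i).target, G.J k i z = G'.J k i z

theorem JEq.symm {G G' : HkT C} (h : JEq G G') : JEq G' G := fun k i z hz => (h k i z hz).symm

theorem JEq.trans {G G' G'' : HkT C} (h : JEq G G') (h' : JEq G' G'') : JEq G G'' :=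
  fun k i z hz => (h k i z hz).trans (h' k i z hz)

/-- what is used of the Fujiki form -/
structure QQ (Q : F2 C →ₗ[ℝ] F2 C →ₗ[ℝ] ℝ) : Prop where
  symm : ∀ x y, Q x y = Q y x
  ex : ∀ x y, Ex x → Q x y = 0
  eq : ∀ (H : HkT C) (k : Fin 3), Q (H.om k) (H.om k) = Q (H.om 0) (H.om 0)
  ort : ∀ (H : HkT C) (k l : Fin 3), k ≠ l → Q (H.om k) (H.om l) = 0

variable {Q : F2 C →ₗ[ℝ] F2 C →ₗ[ℝ] ℝ}

namespace QQ

variable (hQ : QQ Q)

include hQ

theorem cl1 {x x' : F2 C} (h : Cl x x') (y : F2 C) : Q x y = Q x' y := by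
  have h1 := hQ.ex _ y h
  rw [map_sub, LinearMap.sub_apply, sub_eq_zero] at h1
  exact h1

theorem cl2 {x x' y y' : F2 C} (h : Cl x x') (h' : Cl y y') : Q x y = Q x' y' := by
  rw [hQ.cl1 h y, hQ.symm x' y, hQ.cl1 h' x', hQ.symm]

theorem eqv1 {x x' : F2 C} (h : Eqv x x') (y : F2 C) : Q x y = Q x' y := hQ.cl1 (cl_of_eqv h) y

end QQ

/-- `G` is in normal form with respect to `b` and, rotated about `om 0`, it is a move of `L` with
fixed `J 2` -/
def MvN (L : HkT C) (b : F2 C) (G : HkT C) : Prop :=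
  ∃ (c s r t : ℝ) (h : c * c + s * s = 1), 0 < c ∧ 0 < r ∧ 0 < t ∧
    (∀ i, ∀ z ∈ (C.e i).target, ∀ v, (rt G c s h).J 2 i z v = L.J 2 i z v) ∧
    Eqv ((rt G c s h).om 0) (r • L.om 0) ∧ Eqv ((rt G c s h).om 1) (r • L.om 1) ∧
    Cl (G.om 2) (t • b)

/-- **the member over the class `b` is unique** -/
theorem MvN.uniq [FiniteDimensional ℝ V] [T2Space X] [CompactSpace X] [ConnectedSpace X]
    (hd : 2 ≤ d) (hNN : NNat V d) (hQ : QQ Q) {L : HkT C} (hL : Q (L.om 0) (L.om 0) ≠ 0)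
    {b : F2 C} {G₁ G₂ : HkT C} (h₁ : MvN L b G₁) (h₂ : MvN L b G₂) : JEq G₁ G₂ := by
  obtain ⟨c₁, s₁, r₁, t₁, k₁, hc₁, hr₁, ht₁, hJ₁, a₁, b₁, cl₁⟩ := h₁
  obtain ⟨c₂, s₂, r₂, t₂, k₂, hc₂, hr₂, ht₂, hJ₂, a₂, b₂, cl₂⟩ := h₂
  set M₁ := rt G₁ c₁ s₁ k₁ with hM₁
  set M₂ := rt G₂ c₂ s₂ k₂ with hM₂
  have hL1 : Q (L.om 1) (L.om 1) ≠ 0 := by rw [hQ.eq L 1]; exact hL
  -- orthogonality
  have o₁ : Q (M₁.om 2) (L.om 1) = 0 := by
    have e := hQ.ort M₁ 1 2 (by decide)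
    rw [hQ.eqv1 b₁, map_smul, LinearMap.smul_apply, smul_eq_mul, hQ.symm] at e
    exact (mul_eq_zero.1 e).resolve_left hr₁.ne'
  have o₂ : Q (M₂.om 2) (L.om 1) = 0 := by
    have e := hQ.ort M₂ 1 2 (by decide)
    rw [hQ.eqv1 b₂, map_smul, LinearMap.smul_apply, smul_eq_mul, hQ.symm] at e
    exact (mul_eq_zero.1 e).resolve_left hr₂.ne'
  -- the class `b`
  have g₁ : Cl (G₁.om 2) ((s₁ * r₁) • L.om 1 + c₁ • M₁.om 2) := by
    rw [rt_bom2 G₁ k₁, ← hM₁]
    refine Cl.add ?_ (Cl.refl _)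
    rw [mul_smul]
    exact Cl.smul _ (cl_of_eqv b₁)
  have g₂ : Cl (G₂.om 2) ((s₂ * r₂) • L.om 1 + c₂ • M₂.om 2) := by
    rw [rt_bom2 G₂ k₂, ← hM₂]
    refine Cl.add ?_ (Cl.refl _)
    rw [mul_smul]
    exact Cl.smul _ (cl_of_eqv b₂)
  have f₁ : Cl (t₂ • ((s₁ * r₁) • L.om 1 + c₁ • M₁.om 2))
      (t₁ • ((s₂ * r₂) • L.om 1 + c₂ • M₂.om 2)) := by
    have q₁ := Cl.smul t₂ (g₁.symm.trans cl₁)
    have q₂ := Cl.smul t₁ (g₂.symm.trans cl₂)
    rw [smul_smul] at q₁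
    rw [smul_smul, mul_comm t₁ t₂] at q₂
    exact q₁.trans q₂.symm
  have e1 : t₂ * (s₁ * r₁) = t₁ * (s₂ * r₂) := by
    have e := hQ.cl1 f₁ (L.om 1)
    simp only [map_smul, map_add, LinearMap.smul_apply, LinearMap.add_apply, smul_eq_mul, o₁, o₂,
      mul_zero, add_zero] at e
    have e' : (t₂ * (s₁ * r₁)) * Q (L.om 1) (L.om 1) = (t₁ * (s₂ * r₂)) * Q (L.om 1) (L.om 1) := by
      linarith
    exact mul_right_cancel₀ hL1 e'
  set l : ℝ := t₂ * c₁ / (t₁ * c₂) with hl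
  have hl0 : 0 < l := by positivity
  have e2 : Cl (M₂.om 2) (l • M₁.om 2) := by
    have q := Cl.add f₁ (Cl.refl (-(t₂ * (s₁ * r₁)) • L.om 1))
    have q1 : t₂ • ((s₁ * r₁) • L.om 1 + c₁ • M₁.om 2) + -(t₂ * (s₁ * r₁)) • L.om 1 =
        (t₂ * c₁) • M₁.om 2 := by module
    have q2 : t₁ • ((s₂ * r₂) • L.om 1 + c₂ • M₂.om 2) + -(t₂ * (s₁ * r₁)) • L.om 1 =
        (t₁ * c₂) • M₂.om 2 := by rw [e1]; module
    rw [q1, q2] at q
    have q3 := Cl.smul (t₁ * c₂)⁻¹ q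
    rw [smul_smul, smul_smul, inv_mul_cancel₀ (by positivity), one_smul] at q3
    have q4 : (t₁ * c₂)⁻¹ * (t₂ * c₁) = l := by rw [hl]; ring
    rw [q4] at q3
    exact q3.symm
  obtain ⟨u1, u2⟩ := uniq_move2 hd hNN (scl M₁ l hl0) M₂ (fun i z hz v => by
      rw [hJ₂ i z hz, ← hJ₁ i z hz]
      rfl) (r := r₂ / (r₁ * l)) (by positivity)
    (a₂.trans fun i z hz u v => by
      have e := a₁ i z hz u v
      show r₂ * (L.om 0).w i z u v = r₂ / (r₁ * l) * (l * (M₁.om 0).w i z u v)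
      rw [e]
      show r₂ * (L.om 0).w i z u v = r₂ / (r₁ * l) * (l * (r₁ * (L.om 0).w i z u v))
      field_simp)
    (b₂.trans fun i z hz u v => by
      have e := b₁ i z hz u v
      show r₂ * (L.om 1).w i z u v = r₂ / (r₁ * l) * (l * (M₁.om 1).w i z u v)
      rw [e]
      show r₂ * (L.om 1).w i z u v = r₂ / (r₁ * l) * (l * (r₁ * (L.om 1).w i z u v))
      field_simp) e2
  -- the angles agree
  have hrl : r₂ = r₁ * l := by
    have h0 : r₁ * l ≠ 0 := by positivity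
    field_simp at u1
    linarith
  have e3 : c₁ * r₁ * t₂ = c₂ * r₂ * t₁ := by
    rw [hrl, hl]
    field_simp
  have hcs : c₁ = c₂ ∧ s₁ = s₂ := by
    set m : ℝ := r₂ * t₁ / (r₁ * t₂) with hm
    have hm0 : 0 < m := by positivity
    have q1 : c₁ = m * c₂ := by
      rw [hm]; field_simp; linarith
    have q2 : s₁ = m * s₂ := by
      rw [hm]; field_simp; linarith
    have q3 : m = 1 := by
      rw [q1, q2] at k₁
      have q4 : m ^ 2 * (c₂ * c₂ + s₂ * s₂) = 1 := by linarith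
      rw [k₂, mul_one] at q4
      have q5 : (m - 1) * (m + 1) = 0 := by linarith
      rcases mul_eq_zero.1 q5 with h | h
      · linarith
      · linarith
    rw [q3, one_mul] at q1 q2
    exact ⟨q1, q2⟩
  obtain ⟨rfl, rfl⟩ := hcs
  have hJ : ∀ k i, ∀ z ∈ (C.e i).target, M₁.J k i z = M₂.J k i z := fun k i z hz => u2.J k i z hz
  intro k i z hz
  ext v
  fin_cases k
  · show G₁.J 0 i z v = G₂.J 0 i z v
    rw [← rt_J0 G₁ k₁, ← rt_J0 G₂ k₂, ← hM₁, ← hM₂, hJ 0 i z hz]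
  · show G₁.J 1 i z v = G₂.J 1 i z v
    rw [rt_back1 G₁ k₁, rt_back1 G₂ k₂, ← hM₁, ← hM₂, hJ 1 i z hz, hJ 2 i z hz]
  · show G₁.J 2 i z v = G₂.J 2 i z v
    rw [rt_back2 G₁ k₁, rt_back2 G₂ k₂, ← hM₁, ← hM₂, hJ 1 i z hz, hJ 2 i z hz]

end

end Crest.Agent.R281.Ch_151
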