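import Crest.Agent.R281.Ch2_151

/-!
# Row 281, CHART-END (second owner, helper151), part 3: pull back of a triple by a diffeomorphism

* `pH D H`       : the pull back `D^* H` (charts `C.e i ∘ D`, then `Cmp.hk` of 835)
* `pH_om`, `pH_J`, `pH_holo`, `pH_cl`
* `J_of_om`      : the third complex structure is determined by two forms, up to a common factor
* `MvN.pull`     : naturality
-/

set_option autoImplicit false
set_option maxSynthPendingDepth 3
set_option linter.unusedSectionVars false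

open Set Filter Topology Complex
open scoped ContDiff

namespace Crest.Agent.R281.Ch_151

open Crest.Agent.R260.ACM_580
open Crest.Agent.R281.Ti_846 hiding pb pb_apply symm2 sm'
open Crest.Agent.R281.Dif_268 Crest.Agent.R281.Cdr_234
open Crest.Agent.R281.HkR_835 Crest.Agent.R281.Alg_998 Crest.Agent.R281.Iso_139
open Crest.Agent.R281.NefO_476 (ofHk Pos AJ)
open Crest.Agent.R281.Nef_252 (T11 KCls)

noncomputable section

variable {d : ℕ} {X : Type} [TopologicalSpace X]
variable {V : Type} [NormedAddCommGroup V] [NormedSpace ℝ V] {C : RCh V X}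

section pull

variable (D : DifC C)

/-- the homeomorphism -/
def homeo : X ≃ₜ X where
  toFun := D.φ.f
  invFun := D.ψ.f
  left_inv := D.lr
  right_inv := D.rl
  continuous_toFun := D.φ.cont
  continuous_invFun := D.ψ.cont

theorem tt (i j : C.ι) (z : V) :
    C.e j (D.φ.f (D.ψ.f ((C.e i).symm z))) = C.t i j z := by
  rw [D.rl]
  rfl

/-- the charts `C.e i ∘ D` -/
def pc : RCh V X where
  ι := C.ι
  e i := (homeo D).transOpenPartialHomeomorph (C.e i)
  cover x := by
    obtain ⟨i, hi⟩ := C.cover (D.φ.f x)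
    exact ⟨i, hi⟩
  sm i j := by
    refine ((C.sm i j).mono ?_).congr ?_
    · rintro z ⟨h1, h2⟩
      refine ⟨h1, ?_⟩
      have h3 : D.φ.f (D.ψ.f ((C.e i).symm z)) ∈ (C.e j).source := h2
      rwa [D.rl] at h3
    · rintro z ⟨h1, h2⟩
      exact tt D i j z

theorem pc_ov {i j : C.ι} {z : V} (hz : z ∈ (pc D).ov i j) : z ∈ C.ov i j := by
  refine ⟨hz.1, ?_⟩
  have h3 : D.φ.f (D.ψ.f ((C.e i).symm z)) ∈ (C.e j).source := hz.2
  rwa [D.rl] at h3

theorem pc_t (i j : C.ι) : (pc D).t i j = C.t i j := funext fun z => tt D i j z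

/-- a triple of `C`, read on the charts `C.e i ∘ D` -/
def hpc (H : HkT C) : HkT (pc D) where
  om k :=
    { w := (H.om k).w
      sm := (H.om k).sm
      alt := (H.om k).alt
      tr := fun i j z hz u v => by
        have h := (H.om k).tr i j z (pc_ov D hz) u v
        rw [← pc_t D] at h
        exact h
      closed := (H.om k).closed }
  J := H.J
  g := H.g
  J_sm := H.J_sm
  J_sq := H.J_sq
  J_01 := H.J_01
  g_symm := H.g_symm
  g_pos := H.g_pos
  om_eq := H.om_eq

theorem cmpD : Cmp (pc D) C := ⟨fun i j => D.φ.sm i j, fun i j => D.ψ.sm j i⟩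

/-- **the pull back `D^* H`** -/
def pH (H : HkT C) : HkT C := (cmpD D).hk (hpc D H)

variable (H : HkT C)

theorem pH_om (k : Fin 3) : Eqv ((pH D H).om k) (D.φ.pull (H.om k)) := by
  intro j z hz u v
  obtain ⟨i, hi⟩ := D.φ.exists_dom hz
  rw [D.φ.pull_w _ hi]
  have h := (cmpD D).F_w ((hpc D H).om k) (i := i) (j := j) (z := z) hi u v
  exact h

theorem pH_J (k : Fin 3) {i j : C.ι} {z : V} (hz : z ∈ dom C C D.φ.f i j) (v : V) :
    fderiv ℝ (loc C C D.φ.f i j) z ((pH D H).J k j z v) =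
      H.J k i (loc C C D.φ.f i j z) (fderiv ℝ (loc C C D.φ.f i j) z v) :=
  Cmp.hk_J (hpc D H) (cmpD D) k (i := i) (j := j) (z := z) hz v

theorem pH_holo (k : Fin 3) : Holo D (ofHk (pH D H) k) (ofHk H k) :=
  fun _ _ _ hz v => pH_J D H k hz v

theorem cl_of_coh {w w' : F2 C} (h : Dif_268.Coh w w') : Cl w w' := coh_sub.1 h

theorem pH_cl (k : Fin 3) : Cl ((pH D H).om k) (H.om k) :=
  (cl_of_eqv (pH_om D H k)).trans (cl_of_coh (D.cls (H.om k)))

end pull

/-- the complex structure `J k` is determined by `om l`, `om m`, up to a common factor -/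
theorem J_of_om {H H' : HkT C} {k l m : Fin 3}
    (hk : (k, l, m) = (0, 1, 2) ∨ (k, l, m) = (1, 2, 0) ∨ (k, l, m) = (2, 0, 1)) {r : ℝ}
    (hr : r ≠ 0) (el : Eqv (H'.om l) (r • H.om l)) (em : Eqv (H'.om m) (r • H.om m)) :
    ∀ i, ∀ z ∈ (C.e i).target, ∀ v, H'.J k i z v = H.J k i z v := by
  intro i z hz v
  rw [← sub_eq_zero]
  refine H.nondeg l hz _ fun u => ?_
  have h1 := (H.om_J hk hz v u).1
  have h2 := (H'.om_J hk hz v u).1
  have h3 : (H'.om l).w i z (H'.J k i z v) u = r * (H.om l).w i z (H'.J k i z v) u := el i z hz _ _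
  have h4 : (H'.om m).w i z v u = r * (H.om m).w i z v u := em i z hz _ _
  rw [h3, h4] at h2
  rw [map_sub, sub_apply, h1]
  have h5 : r * ((H.om l).w i z (H'.J k i z v) u - -(H.om m).w i z v u) = 0 := by linarith
  exact (mul_eq_zero.1 h5).resolve_left hr

theorem pull_smul' (g : SMap C C) (c : ℝ) (a : F2 C) : Eqv (g.pull (c • a)) (c • g.pull a) := by
  intro j z hz u v
  obtain ⟨i, hi⟩ := g.exists_dom hz
  show _ = c * (g.pull a).w j z u v
  rw [g.pull_w _ hi, g.pull_w _ hi]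
  rfl

theorem rt_pH (D : DifC C) (G : HkT C) {c s : ℝ} (h : c * c + s * s = 1) (k : Fin 3) :
    Eqv ((rt (pH D G) c s h).om k) (D.φ.pull ((rt G c s h).om k)) := by
  intro j z hz u v
  obtain ⟨i, hi⟩ := D.φ.exists_dom hz
  rw [D.φ.pull_w _ hi]
  have e : ∀ l : Fin 3, ((pH D G).om l).w j z u v = (G.om l).w i (loc C C D.φ.f i j z)
      (fderiv ℝ (loc C C D.φ.f i j) z u) (fderiv ℝ (loc C C D.φ.f i j) z v) := by
    intro l
    rw [pH_om D G l j z hz, D.φ.pull_w _ hi]
  have k1 : ((rt (pH D G) c s h).om k).w j z u v = ∑ l, R0 c s k l * ((pH D G).om l).w j z u v :=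
    F2.lin_w _ _ _ _ _ _
  have k2 : ((rt G c s h).om k).w i (loc C C D.φ.f i j z)
      (fderiv ℝ (loc C C D.φ.f i j) z u) (fderiv ℝ (loc C C D.φ.f i j) z v) =
      ∑ l, R0 c s k l * (G.om l).w i (loc C C D.φ.f i j z)
      (fderiv ℝ (loc C C D.φ.f i j) z u) (fderiv ℝ (loc C C D.φ.f i j) z v) :=
    F2.lin_w _ _ _ _ _ _
  rw [k1, k2]
  exact Finset.sum_congr rfl fun l _ => by rw [e l]

/-- **naturality of the member over `b`** -/
theorem MvN.pull (D : DifC C) {L : HkT C} {b : F2 C} {G : HkT C} (hG : MvN L b G) :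
    MvN (pH D L) b (pH D G) := by
  obtain ⟨c, s, r, t, h, hc, hr, ht, hJ, a0, a1, a2⟩ := hG
  refine ⟨c, s, r, t, h, hc, hr, ht, fun j z hz v => ?_, ?_, ?_, (pH_cl D G 2).trans a2⟩
  · obtain ⟨i, hi⟩ := D.φ.exists_dom hz
    rw [← sub_eq_zero]
    refine D.inj hi _ ?_
    rw [map_sub, pH_J D L 2 hi, rt_J2, map_add, map_smul, map_smul, pH_J D G 1 hi, pH_J D G 2 hi,
      ← rt_J2 G h, hJ i _ (D.φ.loc_mem hi), sub_self]
  · refine (rt_pH D G h 0).trans ((a0.pull D.φ).trans ((pull_smul' _ _ _).trans ?_))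
    exact eqv_smul r (pH_om D L 0).symm
  · refine (rt_pH D G h 1).trans ((a1.pull D.φ).trans ((pull_smul' _ _ _).trans ?_))
    exact eqv_smul r (pH_om D L 1).symm

end

end Crest.Agent.R281.Ch_151
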