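import Crest.Agent.R281.Ch5_151

/-!
# Row 281, CHART-END (second owner, helper151), part 6

* `isoId_of_iso2`  : `Iso2 A b` between a chart member `(κ, A, b)` and an end member `(A, κ, -b)`
                     gives `IsoId` of `J 0` and `J 1`
* `sw H`           : the frame `(om 1, om 0, -om 2)`
* `leg_iso`        : a leg of constant real part is isotopic (fixed `om 0`, `om 2`)
* `end_half`       : the member over `x` is (Iso2) the move of `sw (D^* L¹)`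
-/

set_option autoImplicit false
set_option maxSynthPendingDepth 3
set_option linter.unusedSectionVars false

open Set Filter Topology
open scoped ContDiff

namespace Crest.Agent.R281.Ch_151

open Crest.Agent.R260.ACM_580
open Crest.Agent.R281.Ti_846 hiding pb pb_apply symm2 sm'
open Crest.Agent.R281.Dif_268 Crest.Agent.R281.Cdr_234
open Crest.Agent.R281.HkR_835 Crest.Agent.R281.Alg_998 Crest.Agent.R281.Iso_139
open Crest.Agent.R281.NefO_476 (ofHk Pos AJ)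
open Crest.Agent.R281.Nef_252 (T11 KCls Bi HolM)
open Crest.Agent.R281.RkD_902 (IsoId MemN SameTw)
open Crest.Agent.R281.Ce_551 (Rp Iso2 lin_eqv lin3_w lin3_eq cl_eqv)
open Crest.Agent.R281.Sta2_684 (smulP)
open Crest.Agent.R281.NefRay_326 (rI rI_om0 rI_om1 nz2 Sc zS sc_of_at zS_sm smH_rot IsoHk HEqv_rot)

noncomputable section

variable {X : Type} [TopologicalSpace X]
variable {V : Type} [NormedAddCommGroup V] [NormedSpace ℝ V] {C : RCh V X}
variable {a b : F2 C} {Q : F2 C →ₗ[ℝ] F2 C →ₗ[ℝ] ℝ}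

theorem rp3 {H : HkT C} {c : F2 C} {x0 x1 x2 : ℝ}
    (h : Cl c (x0 • H.om 0 + x1 • H.om 1 + x2 • H.om 2)) : Rp H c ![x0, x1, x2] := by
  unfold Rp
  rw [lin3_eq]
  exact h

/-- the class `s a` in one slot -/
theorem rp_one {H : HkT C} {c : F2 C} {k : Fin 3} {s : ℝ} (hs : s ≠ 0) (h : Cl (H.om k) (s • c)) :
    Rp H c (Pi.single k s⁻¹) := by
  unfold Rp
  have e : F2.lin (Pi.single k s⁻¹) H.om = s⁻¹ • H.om k := by
    rw [lin3_eq]
    fin_cases k <;> simp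
  rw [e]
  have h1 := Cl.smul s⁻¹ h
  rw [smul_smul, inv_mul_cancel₀ hs, one_smul] at h1
  exact h1.symm

theorem lin_single_w {om : Fin 3 → F2 C} {k : Fin 3} {s : ℝ} (i : C.ι) (z u v : V) :
    (F2.lin (Pi.single k s) om).w i z u v = s * (om k).w i z u v := by
  rw [lin3_w]
  fin_cases k <;> simp

/-- **`Iso2` of a chart member and an end member** -/
theorem isoId_of_iso2 (hQ : Ce_551.QHk C Q) (ha : 0 < Q a a) {HB N : HkT C} {s s' α t : ℝ}
    (hs : 0 < s) (hs' : 0 < s') (hα : 0 < α) (ht : 0 < t) (c1 : Cl (HB.om 1) (s • a))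
    (c2 : Cl (HB.om 2) (s' • b)) (n0 : Cl (N.om 0) (α • a)) (n2 : Cl (N.om 2) ((-t) • b))
    (h : Iso2 a b HB N) : IsoId (ofHk HB 0) (ofHk N 1) := by
  obtain ⟨φ, ψ, x, x', y, y', hbi, hc, h1, h2, h3, h4, e1, e2⟩ := h
  have q0 : 0 < Q (HB.om 0) (HB.om 0) := hQ.rp_pos h1 ha
  have q0' : 0 < Q (N.om 0) (N.om 0) := hQ.rp_pos h2 ha
  obtain rfl := hQ.rp_uniq q0 h1 (rp_one hs.ne' c1)
  obtain rfl := hQ.rp_uniq q0 h3 (rp_one hs'.ne' c2)
  obtain rfl := hQ.rp_uniq q0' h2 (rp_one hα.ne' n0)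
  obtain rfl := hQ.rp_uniq q0' h4 (rp_one (neg_ne_zero.2 ht.ne') n2)
  set D : DifC C := ⟨φ, ψ, hbi.kg, hbi.gk, fun w => coh_sub.2 (hc w)⟩ with hD
  set P := pH D N with hP
  have p0 : Eqv (P.om 0) ((α / s) • HB.om 1) := by
    intro i z hz u v
    have k1 := ((lin_pH D N _).trans e1) i z hz u v
    rw [lin_single_w, lin_single_w] at k1
    show (P.om 0).w i z u v = α / s * (HB.om 1).w i z u v
    field_simp at k1 ⊢
    linarith
  have p2 : Eqv (P.om 2) ((-(t / s')) • HB.om 2) := by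
    intro i z hz u v
    have k1 := ((lin_pH D N _).trans e2) i z hz u v
    rw [lin_single_w, lin_single_w] at k1
    show (P.om 2).w i z u v = -(t / s') * (HB.om 2).w i z u v
    field_simp at k1 ⊢
    linarith
  have hr : α / s = t / s' := by
    have k1 := hQ.nrm P 2
    rw [hQ.cl_left (cl_eqv p0), hQ.cl_right (cl_eqv p0), hQ.cl_left (cl_eqv p2),
      hQ.cl_right (cl_eqv p2)] at k1
    simp only [map_smul, LinearMap.smul_apply, smul_eq_mul, hQ.nrm HB 1, hQ.nrm HB 2] at k1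
    have k2 : (t / s') ^ 2 * Q (HB.om 0) (HB.om 0) = (α / s) ^ 2 * Q (HB.om 0) (HB.om 0) := by
      nlinarith [k1]
    have k3 := mul_right_cancel₀ q0.ne' k2
    exact ((pow_left_inj₀ (by positivity) (by positivity) two_ne_zero).1 k3).symm
  rw [← hr] at p2
  have hrp : 0 < α / s := div_pos hα hs
  have hJ : ∀ i, ∀ z ∈ (C.e i).target, ∀ v, HB.J 0 i z v = P.J 1 i z v := by
    intro i z hz v
    rw [← sub_eq_zero]
    refine HB.nondeg 1 hz _ fun u => ?_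
    have k1 := (HB.om_J (Or.inl rfl) hz v u).1
    have k2 := (P.om_J (k := 1) (l := 2) (m := 0) (Or.inr (Or.inl rfl)) hz v u).2
    have k3 : (P.om 0).w i z (P.J 1 i z v) u = α / s * (HB.om 1).w i z (P.J 1 i z v) u :=
      p0 i z hz _ _
    have k4 : (P.om 2).w i z v u = -(α / s) * (HB.om 2).w i z v u := p2 i z hz _ _
    rw [k3, k4] at k2
    rw [map_sub, sub_apply, k1]
    have k5 : α / s * (-(HB.om 2).w i z v u - (HB.om 1).w i z (P.J 1 i z v) u) = 0 := by linarith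
    exact (mul_eq_zero.1 k5).resolve_left hrp.ne'
  exact isoId_congr (isoId_pH D N 1) hJ fun _ _ _ _ => rfl

/-! ### the frame `(om 1, om 0, -om 2)` -/

/-- the frame -/
def Sw : Fin 3 → Fin 3 → ℝ := ![![0, 1, 0], ![1, 0, 0], ![0, 0, -1]]

theorem fr_Sw : HkT.Fr Sw where
  nrm k := by fin_cases k <;> simp [Sw]
  ort := by simp [Sw]
  crs := by
    funext k
    fin_cases k <;> simp [Sw]

/-- the frame `(om 1, om 0, -om 2)` -/
def sw (H : HkT C) : HkT C := H.rot Sw fr_Sw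

theorem sw_om0 (H : HkT C) : (sw H).om 0 = H.om 1 := by
  show F2.lin (Sw 0) H.om = _
  rw [lin3_eq]
  simp [Sw]

theorem sw_om1 (H : HkT C) : (sw H).om 1 = H.om 0 := by
  show F2.lin (Sw 1) H.om = _
  rw [lin3_eq]
  simp [Sw]

theorem sw_om2 (H : HkT C) : (sw H).om 2 = (-1 : ℝ) • H.om 2 := by
  show F2.lin (Sw 2) H.om = _
  rw [lin3_eq]
  simp [Sw]

/-! ### the leg -/

variable {F : Frm C Q} {A : F2 C}

theorem zS_congr (hQ : NefRay_326.QHk Q) {H H' : HkT C} (h : HEqv H H') :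
    zS Q F H = zS Q F H' := by
  have hc : ∀ k, Cl (H.om k) (H'.om k) := fun k => Cl.of_eq_on fun i y hy => h.om k i y hy
  apply Complex.ext
  · exact hQ.cl (hc 1) F.e
  · exact hQ.cl (hc 2) F.e

/-- **a leg of constant real part**: isotopic, with fixed `om 0`, `om 2` -/
theorem leg_iso (hiso : IsoF C) (hQ : NefRay_326.QHk Q) {S : Set ℂ} {H' H1 : HkT C} {x1 : ℝ}
    (hl : Leg F A S H' H1) (hre : ∀ τ ∈ S, τ.re = x1 ∧ 0 < τ.im) {z : ℝ} (hz : 0 < z) {τ0 : ℂ}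
    (p1 : Cl (H'.om 1) (z • F.sre τ0)) (p2 : Cl (H'.om 2) (z • F.sim τ0)) {τ1 z1 : ℂ}
    (h1 : Sc F H1 τ1 z1) : ∃ D : DifC C, Eqv ((pH D (nr H1 z1 h1.nz)).om 0) (H'.om 0) ∧
      Eqv ((pH D (nr H1 z1 h1.nz)).om 2) (H'.om 2) := by
  obtain ⟨K, τ, hK, hτ, hS, hat, h0, h1'⟩ := hl
  have hsc : ∀ t, Sc F (K t) (τ t) (zS Q F (K t)) := fun t => sc_of_at hQ (hat t)
  set N : ℝ → HkT C := fun t => nr (K t) (zS Q F (K t)) (hsc t).nz with hN
  have hNs : SmH N := smH_nr hK (zS_sm hQ hK) fun t => (hsc t).nz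
  have c2 : ∀ t, Cl ((N t).om 2) (Real.sqrt (Q A A / F.N) • (F.v - (F.N * x1) • F.e)) := by
    intro t
    have e : (N t).om 2 = (rI (K t) _ (hsc t).nz).om 1 := nr_om2 _ _
    rw [e, ← (hre _ (hS t)).1]
    exact (hsc t).cl1' hQ (hat t).om0 (hat t).im_pos
  have c0 : ∀ t, Cl ((N t).om 0) A := fun t => by
    have e : (N t).om 0 = (K t).om 0 := nr_om0 _ _
    rw [e]
    exact (hat t).om0
  obtain ⟨D, d2, d0, -⟩ := hiso N hNs 1 2 0 (Or.inr (Or.inl rfl))
    (fun t => (c2 t).trans (c2 0).symm) (fun t => (c0 t).trans (c0 0).symm)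
  -- the end of the leg
  have e1 : HEqv (N 1) (nr H1 z1 h1.nz) :=
    heqv_nr h1' _ _ ((zS_congr hQ h1').trans (h1.eq_zS hQ).symm)
  -- the start
  have hz0 : zS Q F (K 0) = (z : ℂ) := by
    rw [zS_congr hQ h0]
    apply Complex.ext
    · show Q (H'.om 1) F.e = _
      rw [hQ.cl p1]
      simp [NefRay_326.sre_e hQ]
    · show Q (H'.om 2) F.e = _
      rw [hQ.cl p2]
      simp [NefRay_326.sim_e hQ]
  have hzc : (z : ℂ) ≠ 0 := by exact_mod_cast hz.ne'
  have e0 : HEqv (N 0) (nr H' (z : ℂ) hzc) := heqv_nr h0 _ _ hz0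
  have f0 : Eqv ((N 0).om 0) (H'.om 0) := by
    intro i y hy u v
    rw [e0.om 0 i y hy, nr_om0]
  have f2 : Eqv ((N 0).om 2) (H'.om 2) := by
    intro i y hy u v
    rw [e0.om 2 i y hy, nr_om2, rI_om1]
    have k1 : (z : ℂ).re / ‖(z : ℂ)‖ = 1 := by
      rw [Complex.ofReal_re, Complex.norm_real, Real.norm_of_nonneg hz.le, div_self hz.ne']
    have k2 : (z : ℂ).im / ‖(z : ℂ)‖ = 0 := by
      rw [Complex.ofReal_im, zero_div]
    rw [k1, k2, neg_zero, zero_smul, one_smul, zero_add]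
  have g : ∀ k, Eqv ((N 1).om k) ((nr H1 z1 h1.nz).om k) := fun k i y hy u v => by
    rw [e1.om k i y hy]
  refine ⟨D, ?_, ?_⟩
  · exact (pH_om D _ 0).trans ((((g 0).symm).pull D.φ).trans (d0.trans f0))
  · exact (pH_om D _ 2).trans ((((g 2).symm).pull D.φ).trans (d2.trans f2))

/-! ### the end half -/

/-- a `MvN` is a move with fixed `J 2` of the other frame -/
theorem mvN_sw {L G : HkT C} {b' : F2 C} (h : MvN L b' G) :
    ∃ (c s : ℝ) (h : c * c + s * s = 1), Mv2 (sw L) (sw (rt G c s h)) ∧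
      Has (sw (rt G c s h)) (-b') := by
  obtain ⟨c, s, r, t, k, hc, hr, ht, hJ, e0, e1, cl⟩ := h
  refine ⟨c, s, k, ⟨r, hr, ?_, ?_⟩, t⁻¹ * c, -(t⁻¹ * s), by positivity, ?_⟩
  · rw [sw_om0, sw_om0]
    exact e1
  · rw [sw_om1, sw_om1]
    exact e0
  · rw [sw_om2, sw_om0]
    have h1 : Cl b' (t⁻¹ • G.om 2) := by
      have h2 := Cl.smul t⁻¹ cl
      rw [smul_smul, inv_mul_cancel₀ ht.ne', one_smul] at h2
      exact h2.symm
    rw [rt_bom2 G k] at h1
    have h2 := Cl.smul (-1 : ℝ) h1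
    have h3 : (-1 : ℝ) • b' = -b' := by module
    rw [h3] at h2
    refine h2.trans (NefRay_326.cl_of_eq ?_)
    module

/-- **the end half**: `K'` is the move of `sw (D1^* L¹)` over `b`, `M` the member of the end -/
theorem end_half [FiniteDimensional ℝ V] [T2Space X] [CompactSpace X] [ConnectedSpace X]
    {d : ℕ} (hd : 2 ≤ d) (hNN : NNat V d) (hQ : Ce_551.QHk C Q) (ha : 0 < Q A A) {L M K' : HkT C}
    (D D1 : DifC C) (hL : Q (L.om 0) (L.om 0) ≠ 0) (h : MvN L (-b) (pH D M))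
    (hm : Mv2 (sw (pH D1 L)) K') (hb : Has K' b)
    {x y x' y' : Fin 3 → ℝ} (h1 : Rp K' A x) (h2 : Rp K' b y) (h3 : Rp M A x') (h4 : Rp M b y') :
    Iso2 A b K' M := by
  have h5 := MvN.pull D1 h
  obtain ⟨c, s, k, m1, m2⟩ := mvN_sw h5
  rw [neg_neg] at m2
  have hL' : Q ((sw (pH D1 L)).om 0) ((sw (pH D1 L)).om 0) ≠ 0 := by
    rw [sw_om0, hQ.cl_left (pH_cl D1 L 1), hQ.cl_right (pH_cl D1 L 1), hQ.nrm L 1]
    exact hL
  have i1 := Mv2.iso2 hd hNN hQ ha hL' hm m1 hb m2 h1 h2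
  -- from `M` to its pull backs and rotations
  have j1 : Iso2 A b (pH D M) M := iso2_pH D h3 h4
  obtain ⟨u1, v1, r1, r2⟩ := iso2_rp j1.symm
  have j2 : Iso2 A b (pH D1 (pH D M)) (pH D M) := iso2_pH D1 r1 r2
  obtain ⟨u2, v2, r3, r4⟩ := iso2_rp j2.symm
  have j3 : Iso2 A b (pH D1 (pH D M)) (rt (pH D1 (pH D M)) c s k) := iso2_rot _ r3 r4
  obtain ⟨u3, v3, r5, r6⟩ := iso2_rp j3
  have j4 : Iso2 A b (rt (pH D1 (pH D M)) c s k) (sw (rt (pH D1 (pH D M)) c s k)) :=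
    iso2_rot _ r5 r6
  exact (((i1.trans hQ ha j4.symm).trans hQ ha j3.symm).trans hQ ha j2).trans hQ ha j1

end

end Crest.Agent.R281.Ch_151
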