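import Crest.Agent.R281.Ch6_151
import Crest.Agent.R281.RkE_902
import Crest.Agent.R281.NefRay7_326

/-!
# Row 281, CHART-END (second owner, helper151), part 7: the box side

* `qN_of_ctx`, `qC_of_ctx` : the form `Q` in the shapes of 326 and 551
* `base_pos`, `box_mv`     : the base of the second moves, the member over `b_x` as a move of it
* `R1 c s`                 : rotation about `om 1`
* `angle`                  : the base is, up to scaling and `om 2`, the rotation of the box member at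
                             `x₁` by an angle `θ₀ ∈ (-π/2, π/2)`
* `end_cls`                : the classes of a normalised member
-/

set_option autoImplicit false
set_option maxSynthPendingDepth 3
set_option linter.unusedSectionVars false

open Set Filter Topology
open scoped ContDiff

namespace Crest.Agent.R281.Ch_151

open Crest.Agent.R275.Geo Crest.Agent.R275.Core144
open Crest.Agent.R260.ACM_580
open Crest.Agent.R281.Ti_846 hiding pb pb_apply symm2 sm'
open Crest.Agent.R281.Dif_268 Crest.Agent.R281.Cdr_234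
open Crest.Agent.R281.HkR_835 Crest.Agent.R281.Alg_998 Crest.Agent.R281.Iso_139
open Crest.Agent.R281.NefO_476 (ofHk Pos AJ)
open Crest.Agent.R281.Nef_252 (T11 KCls Bi HolM)
open Crest.Agent.R281.PL_713 (PL)
open Crest.Agent.R281.RkD_902 (IsoId MemN SameTw Ctx Given Box Road AlgT lco)
open Crest.Agent.R281.Ce_551 (Rp Iso2 lin_eqv lin3_w lin3_eq cl_eqv)
open Crest.Agent.R281.Sta2_684 (smulP)
open Crest.Agent.R281.NefRay_326 (rI rI_om0 rI_om1 nz2 Sc zS sc_of_at zS_sm smH_rot IsoHk HEqv_rot)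

noncomputable section

/-! ### rotation about `om 1` -/

section rot1

variable {X : Type} [TopologicalSpace X]
variable {V : Type} [NormedAddCommGroup V] [NormedSpace ℝ V] {C : RCh V X}

/-- rotation about `om 1` -/
def R1 (c s : ℝ) : Fin 3 → Fin 3 → ℝ := ![![c, 0, s], ![0, 1, 0], ![-s, 0, c]]

theorem fr_R1 {c s : ℝ} (h : c * c + s * s = 1) : HkT.Fr (R1 c s) where
  nrm k := by
    fin_cases k
    · simpa [R1] using h
    · simp [R1]
    · simp [R1]; linarith
  ort := by simp [R1]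
  crs := by
    funext k
    fin_cases k <;> simp [R1]

theorem cs_one (θ : ℝ) : Real.cos θ * Real.cos θ + Real.sin θ * Real.sin θ = 1 := by
  have := Real.cos_sq_add_sin_sq θ
  nlinarith

/-- the triple rotated about `om 1` by the angle `θ` -/
def ro1 (H : HkT C) (θ : ℝ) : HkT C := H.rot (R1 (Real.cos θ) (Real.sin θ)) (fr_R1 (cs_one θ))

variable (H : HkT C) (θ : ℝ)

theorem ro1_om0 : (ro1 H θ).om 0 = Real.cos θ • H.om 0 + Real.sin θ • H.om 2 := by
  show F2.lin (R1 (Real.cos θ) (Real.sin θ) 0) H.om = _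
  rw [lin3_eq]
  simp [R1]

theorem ro1_om1 : (ro1 H θ).om 1 = H.om 1 := by
  show F2.lin (R1 (Real.cos θ) (Real.sin θ) 1) H.om = _
  rw [lin3_eq]
  simp [R1]

end rot1

/-! ### the angle -/

section angle

variable {X : Type} [TopologicalSpace X]
variable {V : Type} [NormedAddCommGroup V] [NormedSpace ℝ V] {C : RCh V X}
variable {Q : F2 C →ₗ[ℝ] F2 C →ₗ[ℝ] ℝ} {A b : F2 C}

/-- two structures of one twistor sphere with the same axis `om 1` -/
theorem angle (hQ : Ce_551.QHk C Q) (hA : 0 < Q A A) {G HB : HkT C} (h : SameTw G HB) {ρ s s' : ℝ}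
    (hρ : 0 < ρ) (hs : 0 < s) (hs' : 0 < s') (g1 : Cl (G.om 1) (ρ • A)) (hb : Has G b)
    (c1 : Cl (HB.om 1) (s • A)) (c2 : Cl (HB.om 2) (s' • b)) :
    ∃ θ ∈ Ioo (-(Real.pi / 2)) (Real.pi / 2), Mv2 G (ro1 HB θ) := by
  obtain ⟨R, hR, t, ht, he⟩ := h
  obtain ⟨p, q, hp, cb⟩ := hb
  have q0 : 0 < Q (G.om 0) (G.om 0) := hQ.rp_pos (rp_one hρ.ne' g1) hA
  have hom : ∀ k, Eqv (HB.om k) (t • F2.lin (R k) G.om) := fun k i z hz u v => by
    rw [← he.om k i z hz]
    rfl
  have homw : ∀ k i, ∀ z ∈ (C.e i).target, ∀ u v, (HB.om k).w i z u v =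
      t * (R k 0 * (G.om 0).w i z u v + R k 1 * (G.om 1).w i z u v +
        R k 2 * (G.om 2).w i z u v) := fun k i z hz u v => by
    rw [hom k i z hz, F2.smul_w]
    show t * (F2.lin (R k) G.om).w i z u v = _
    rw [lin3_w]
  -- coordinates of `om 1`
  have r1 : Rp G (HB.om 1) ![t * R 1 0, t * R 1 1, t * R 1 2] := rp3 ((cl_eqv (hom 1)).trans
    (NefRay_326.cl_of_eq (by rw [lin3_eq]; module)))
  have r1' : Rp G (HB.om 1) ![0, s / ρ, 0] := rp3 (c1.trans (by
    have h1 := Cl.smul (s / ρ) g1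
    rw [smul_smul, div_mul_cancel₀ _ hρ.ne'] at h1
    refine h1.symm.trans (NefRay_326.cl_of_eq ?_)
    module))
  have e1 := hQ.rp_uniq q0 r1 r1'
  have e10 : t * R 1 0 = 0 := congrFun e1 0
  have e11 : t * R 1 1 = s / ρ := congrFun e1 1
  have e12 : t * R 1 2 = 0 := congrFun e1 2
  have z10 : R 1 0 = 0 := (mul_eq_zero.1 e10).resolve_left ht.ne'
  have z12 : R 1 2 = 0 := (mul_eq_zero.1 e12).resolve_left ht.ne'
  have p11 : 0 < R 1 1 := by
    have h1 : 0 < t * R 1 1 := by rw [e11]; exact div_pos hs hρ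
    exact (mul_pos_iff_of_pos_left ht).1 h1
  have n11 : R 1 1 = 1 := by
    have h1 := hR.nrm 1
    rw [z10, z12] at h1
    have h2 : (R 1 1 - 1) * (R 1 1 + 1) = 0 := by linarith
    rcases mul_eq_zero.1 h2 with h | h <;> linarith
  have z01 : R 0 1 = 0 := by
    have h1 := hR.ort
    rw [z10, z12, n11] at h1
    linarith
  have e20 : R 2 0 = -R 0 2 := by
    have h1 := congrFun hR.crs 0
    simp only [Matrix.cons_val_zero] at h1
    rw [h1, z01, z12, n11]
    ring
  have e21 : R 2 1 = 0 := by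
    have h1 := congrFun hR.crs 1
    simp only [Matrix.cons_val_one, Matrix.cons_val_zero] at h1
    rw [h1, z10, z12]
    ring
  have e22 : R 2 2 = R 0 0 := by
    have h1 := congrFun hR.crs 2
    simp only [Matrix.cons_val] at h1
    rw [h1, z01, z10, n11]
    ring
  set c0 : ℝ := R 0 0 with hc0
  set s0 : ℝ := R 2 0 with hs0
  have e02 : R 0 2 = -s0 := by linarith
  have n0 : c0 * c0 + s0 * s0 = 1 := by
    have h1 := hR.nrm 0
    rw [z01, e02] at h1
    linarith
  -- the sign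
  have r2 : Rp G (HB.om 2) ![t * R 2 0, t * R 2 1, t * R 2 2] := rp3 ((cl_eqv (hom 2)).trans
    (NefRay_326.cl_of_eq (by rw [lin3_eq]; module)))
  have r2' : Rp G (HB.om 2) ![s' * q, 0, s' * p] := rp3 (c2.trans ((Cl.smul s' cb).trans
    (NefRay_326.cl_of_eq (by module))))
  have e2 := hQ.rp_uniq q0 r2 r2'
  have e2' : t * R 2 2 = s' * p := congrFun e2 2
  have hc : 0 < c0 := by
    rw [e22] at e2'
    have h1 : 0 < t * c0 := by rw [e2']; positivity
    exact (mul_pos_iff_of_pos_left ht).1 h1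
  have s1 : s0 ^ 2 < 1 := by nlinarith
  have s2 : -1 < s0 ∧ s0 < 1 := abs_lt.1 ((sq_lt_one_iff_abs_lt_one s0).1 s1)
  have k1 : Real.sin (Real.arcsin s0) = s0 := Real.sin_arcsin s2.1.le s2.2.le
  have k2 : Real.cos (Real.arcsin s0) = c0 := by
    rw [Real.cos_arcsin]
    have h1 : 1 - s0 ^ 2 = c0 ^ 2 := by nlinarith
    rw [h1, Real.sqrt_sq hc.le]
  refine ⟨Real.arcsin s0, ⟨Real.neg_pi_div_two_lt_arcsin.2 s2.1,
    Real.arcsin_lt_pi_div_two.2 s2.2⟩, t, ht, ?_, ?_⟩
  · intro i z hz u v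
    rw [ro1_om0, k1, k2]
    have f0 := homw 0 i z hz u v
    have f2 := homw 2 i z hz u v
    show c0 * (HB.om 0).w i z u v + s0 * (HB.om 2).w i z u v = t * (G.om 0).w i z u v
    rw [f0, f2, z01, e02, e21, e22]
    linear_combination t * (G.om 0).w i z u v * n0
  · intro i z hz u v
    rw [ro1_om1]
    have f1 := homw 1 i z hz u v
    show (HB.om 1).w i z u v = t * (G.om 1).w i z u v
    rw [f1, z10, z12, n11]
    ring

end angle

/-! ### classes of a normalised member -/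

section cls

variable {X : Type} [TopologicalSpace X]
variable {V : Type} [NormedAddCommGroup V] [NormedSpace ℝ V] {C : RCh V X}
variable {Q : F2 C →ₗ[ℝ] F2 C →ₗ[ℝ] ℝ} {F : Frm C Q} {A : F2 C}

/-- classes of a normalised member: `(A, *, -μ b_x)` -/
theorem end_cls {H : HkT C} {τ z : ℂ} (hM : AtTau F A H τ) (h : Sc F H τ z) :
    ∃ μ : ℝ, 0 < μ ∧ Cl ((nr H z h.nz).om 0) A ∧
      Cl ((nr H z h.nz).om 2) ((-μ) • (-F.v + (F.N * τ.re) • F.e)) := by
  refine ⟨‖z‖ * τ.im, mul_pos (norm_pos_iff.2 h.nz) hM.im_pos, ?_, ?_⟩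
  · rw [nr_om0]
    exact hM.om0
  · rw [nr_om2]
    refine h.cl1.trans (NefRay_326.cl_of_eq ?_)
    rw [NefRay_326.sim_eq]
    module

end cls

/-! ### the form -/

section ctx

variable {n : ℕ} {X : Type} [TopologicalSpace X] [CompactSpace X] {C : RCh (Cn (2 * n)) X}
  {Q : F2 C →ₗ[ℝ] F2 C →ₗ[ℝ] ℝ}

theorem qC_of_ctx (hc : Ctx n C Q) : Ce_551.QHk C Q := ⟨hc.symm, hc.ex, hc.ort, hc.eq⟩

theorem qN_of_ctx (hc : Ctx n C Q) {H : HkT C} (hp : 0 < Q (H.om 0) (H.om 0)) :
    NefRay_326.QHk Q := by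
  obtain ⟨P, q, κ, hκ, hT, hQ⟩ := hc.top
  have hr : q (H.om 0) ≠ 0 := by
    intro h0
    have h1 := hQ (H.om 0) (H.om 0)
    rw [QuadraticMap.polar_self, h0] at h1
    simp only [smul_zero, mul_zero] at h1
    exact hp.ne' h1
  exact NefRay_326.qHk_of_polar _ _ P hT.npos hT.fuj hr hQ hc.ex fun H k l => by
    rw [hc.eq H k, hc.eq H l]

variable {H0 : HkT C} {e : F2 C} {Alg : AlgT Q} {B : Box Q H0 e}

/-- `om 1` of the base is a positive multiple of `A` -/
theorem base_om1 (R : Road Alg B) : ∃ ρ : ℝ, 0 < ρ ∧ Cl ((B.base R.a).om 1) (ρ • R.A) := by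
  obtain ⟨s, hs, h1⟩ := B.base1 _ R.aB
  obtain ⟨r, hr, h2⟩ := R.ha
  refine ⟨s * r, mul_pos hs hr, h1.trans ?_⟩
  have h3 := Cl.smul s h2
  rwa [smul_smul] at h3

/-- the base is positive -/
theorem base_pos (hc : Ctx n C Q) (R : Road Alg B) :
    0 < Q ((B.base R.a).om 0) ((B.base R.a).om 0) := by
  obtain ⟨ρ, hρ, h⟩ := base_om1 R
  exact (qC_of_ctx hc).rp_pos (rp_one hρ.ne' h) R.AA

/-- **the member over `b_x`** is a move of the base -/
theorem box_mv (hc : Ctx n C Q) (R : Road Alg B) {x : ℝ} (hx : R.c x ∈ B.D) :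
    ∃ (G : HkT C) (ρ : ℝ), 0 < ρ ∧ Mv2 (B.base R.a) G ∧ Has G (R.bx x) ∧
      Cl (G.om 1) (ρ • R.A) ∧ SameTw G (B.H R.a (R.c x)) := by
  obtain ⟨G, r, s, t, u, hr, hs, g0, g1, cb, hS⟩ := B.mvc _ R.aB _ hx
  obtain ⟨ρ, hρ, h⟩ := base_om1 R
  have h1 : Cl (G.om 1) ((r * ρ) • R.A) := by
    rw [mul_smul]
    exact (cl_eqv g1).trans (Cl.smul r h)
  have hrρ : 0 < r * ρ := mul_pos hr hρ
  have q1 : 0 < Q (G.om 1) (G.om 1) := by
    rw [hc.eq G 1]
    exact (qC_of_ctx hc).rp_pos (rp_one hrρ.ne' h1) R.AA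
  have ht : t = 0 := by
    have e1 := hc.cl_cl (R.hc x) h1
    have e2 : Q (-R.F.v + (R.F.N * x) • R.F.e) ((r * ρ) • R.A) = 0 := by
      rw [map_smul, hc.symm]
      have := R.A_bx x
      unfold Road.bx at this
      rw [this, smul_zero]
    have e3 := (hc.cl_left cb (y := G.om 1)).symm
    rw [e1, e2] at e3
    simp only [map_add, map_smul, LinearMap.add_apply, LinearMap.smul_apply, smul_eq_mul,
      hc.ort G 2 1 (by decide), hc.ort G 0 1 (by decide), mul_zero, zero_add, add_zero] at e3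
    exact (mul_eq_zero.1 e3).resolve_right q1.ne'
  subst ht
  refine ⟨G, r * ρ, hrρ, ⟨r, hr, g0, g1⟩, ⟨s, u, hs, ?_⟩, h1, hS⟩
  refine (R.hc x).symm.trans (cb.trans (NefRay_326.cl_of_eq ?_))
  module

end ctx

end

end Crest.Agent.R281.Ch_151
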