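import Crest.Agent.R281.Ch7_151
import Crest.Agent.R281.Ce5_551
import Crest.Agent.R260.NN6_900

/-!
# Row 281, CHART-END (second owner, helper151), part 8: **chart member = end member**

* `isoFam_of`, `uniqMv_of` : the Props of 551 from `IsoF`, `uniq_move`
* `chartEnd_of`            : the literal node `ChartEndP` at one road, from HK-ISO (139) and
                             MOVE-FAM (557, 835)
-/

set_option autoImplicit false
set_option maxSynthPendingDepth 3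
set_option linter.unusedSectionVars false

open Set Filter Topology
open scoped ContDiff

namespace Crest.Agent.R281.Ch_151

open Crest.Agent.R275.Geo Crest.Agent.R275.Core144
open Crest.Agent.R260.ACM_580
open Crest.Agent.R281.Ti_846 hiding pb pb_apply symm2 sm'
open Crest.Agent.R281.Dif_268 Crest.Agent.R281.Cdr_234
open Crest.Agent.R281.HkR_835 Crest.Agent.R281.Alg_998 Crest.Agent.R281.Iso_139
open Crest.Agent.R281.NefO_476 (ofHk Pos AJ)
open Crest.Agent.R281.Nef_252 (T11 KCls Bi HolM)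
open Crest.Agent.R281.PL_713 (PL)
open Crest.Agent.R281.RkD_902 (IsoId MemN SameTw Ctx Given Box Road AlgT lco EndIso)
open Crest.Agent.R281.Ce_551 (Rp Iso2 lin_eqv lin3_w lin3_eq cl_eqv MoveFam UniqMv IsoFam MvTo Gt
  Gt_om0 Gt_om1)
open Crest.Agent.R281.Bx_557 (SmHk SmF)
open Crest.Agent.R281.Sta2_684 (smulP)
open Crest.Agent.R281.NefRay_326 (rI rI_om0 rI_om1 nz2 Sc zS sc_of_at zS_sm smH_rot IsoHk HEqv_rot)

noncomputable section

section inst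

variable {X : Type} [TopologicalSpace X]
variable {V : Type} [NormedAddCommGroup V] [NormedSpace ℝ V] {C : RCh V X}

/-- the metric of a jointly smooth family is jointly smooth -/
theorem smH_of_smHk {H : ℝ → HkT C} (h : SmHk univ H) : SmH H :=
  ⟨h.om, h.J, fun i => Crest.Agent.R281.Bx_557.SmHk.g h i⟩

theorem isoFam_of (h : IsoF C) : IsoFam C := by
  intro H hH h1 h2
  obtain ⟨D, e1, e2, -⟩ := h H (smH_of_smHk hH) 0 1 2 (Or.inl rfl) h1 h2
  exact ⟨D.φ, D.ψ, D.bi, fun w => cl_of_coh (D.cls w), e1, e2⟩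

theorem uniqMv_of [FiniteDimensional ℝ V] [T2Space X] [CompactSpace X] [ConnectedSpace X]
    {d : ℕ} (hd : 2 ≤ d) (hNN : NNat V d) : UniqMv C := by
  intro k H H' r hr hJ ho hk
  have h1 : (1 : Fin 3) + k ≠ k := by fin_cases k <;> decide
  have h2 : (2 : Fin 3) + k ≠ k := by fin_cases k <;> decide
  have c0 : ∀ H : HkT C, Eqv ((H.cyc k).om 0) (H.om k) := fun H => by
    have h := cyc_om H k 0
    rw [zero_add] at h
    exact h
  refine heqv_cyc k (uniq_move hd hNN (H.cyc k) (H'.cyc k) (fun i z hz v => ?_) hr ?_ ?_ ?_).2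
  · rw [cyc_J, cyc_J, zero_add]
    exact hJ i z hz v
  · exact Eqv.trans (cyc_om H' k 1) (Eqv.trans (ho _ h1) (eqv_smul r (Eqv.symm (cyc_om H k 1))))
  · exact Eqv.trans (cyc_om H' k 2) (Eqv.trans (ho _ h2) (eqv_smul r (Eqv.symm (cyc_om H k 2))))
  · refine Eqv.ex ?_ hk
    intro i z hz u v
    show (H'.om k).w i z u v - (H.om k).w i z u v =
      ((H'.cyc k).om 0).w i z u v - ((H.cyc k).om 0).w i z u v
    rw [c0 H' i z hz, c0 H i z hz]

theorem mv2_of_mvTo {L K : HkT C} {b : F2 C} (h : MvTo L b K) : Mv2 L K := h.om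

theorem has_of_mvTo {L K : HkT C} {b : F2 C} (h : MvTo L b K) : Has K b := by
  obtain ⟨q, hq⟩ := h.cl
  exact ⟨1, q, one_pos, by rw [one_smul]; exact hq⟩

end inst

variable {n : ℕ} {X : Type} [TopologicalSpace X] [CompactSpace X] [T2Space X]
  [SimplyConnectedSpace X] {C : RCh (Cn (2 * n)) X} {Q : F2 C →ₗ[ℝ] F2 C →ₗ[ℝ] ℝ}

theorem finrank_cn (d : ℕ) : Module.finrank ℝ (Cn d) = 2 * d := by
  have h : Module.finrank ℝ (Cn d) = Module.finrank ℝ ℂ * Module.finrank ℂ (Cn d) :=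
    (Module.finrank_mul_finrank ℝ ℂ (Cn d)).symm
  rw [h, Complex.finrank_real_complex, finrank_euclideanSpace, Fintype.card_fin]

/-- **chart member = end member** -/
theorem chartEnd_of (hc : Ctx n C Q) {H0 : HkT C} {L0 : PL C} {e : F2 C} (hg : Given Q H0 L0 e)
    {Alg : AlgT Q} {B : Box Q H0 e} (R : Road Alg B) (hiso : IsoF C) (hM : MoveFam Q) :
    ∃ δ : ℝ, 0 < δ ∧ ∀ x : ℝ, |x - R.x1| < δ → EndIso R x := by
  have hd : 2 ≤ 2 * n := by have := hc.n1; omega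
  have hNN : NNat (Cn (2 * n)) (2 * n) :=
    Crest.Agent.R260.NN6_900.nnat (2 * n) (Cn (2 * n)) (finrank_cn (2 * n))
  have hQ := qC_of_ctx hc
  have hU : UniqMv C := uniqMv_of hd hNN
  have hI : IsoFam C := isoFam_of hiso
  have hp2 := B.pos2 _ R.aB _ R.cD
  have hQn := qN_of_ctx hc hp2
  have hgB := RkD_902.given_box' hc hg B R.aB R.cD
  set HB := B.H R.a (R.c R.x1) with hHB
  obtain ⟨s1, hs1, o1⟩ := R.om1 R.cD
  obtain ⟨s2, hs2, o2⟩ := R.om2 hc R.cD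
  obtain ⟨r0, hr0, st0, st2⟩ := R.st
  obtain ⟨hτ0, z, hz, p1, p2⟩ := R.ph0
  have hat1 := R.K.mem_at _ _ R.mem
  have hY := R.K.mem_im _ _ R.mem
  have hY0 := R.K.hY
  have hsc1 : Sc R.F R.H1 R.τ1 (zS Q R.F R.H1) := sc_of_at hQn hat1
  obtain ⟨D1, d0, d2⟩ := leg_iso hiso hQn R.leg (x1 := R.x1) (fun τ h => h) hz p1 p2 hsc1
  set L := nr R.H1 (zS Q R.F R.H1) hsc1.nz with hL
  set G' := sw (pH D1 L) with hG'
  have g1 : Eqv (G'.om 1) (r0 • HB.om 1) := by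
    rw [hG', sw_om1]
    exact d0.trans st0
  have g2 : Eqv (G'.om 2) (r0 • HB.om 2) := by
    rw [hG', sw_om2]
    intro i y hy u v
    have h1 : ((pH D1 L).om 2).w i y u v = -r0 * (HB.om 2).w i y u v := (d2.trans st2) i y hy u v
    show (-1 : ℝ) * ((pH D1 L).om 2).w i y u v = r0 * (HB.om 2).w i y u v
    rw [h1]
    ring
  have hJ : ∀ i, ∀ y ∈ (C.e i).target, ∀ v, G'.J 0 i y v = HB.J 0 i y v :=
    J_of_om (k := 0) (l := 1) (m := 2) (Or.inl rfl) hr0.ne' g1 g2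
  obtain ⟨Ef, hE1, hE2⟩ := hc.t11 HB hp2 e hgB.e1 hgB.e2
  -- the angle
  obtain ⟨GA, ρ, hρ, mA, hasA, g1A, twA⟩ := box_mv hc R R.cD
  obtain ⟨θ, hθ, mθ⟩ := angle hQ R.AA twA hρ hs1 hs2 g1A hasA o1 o2
  have hN := R.F.hN
  have bxt : ∀ t : ℝ, R.bx R.x1 + t • e = R.bx (R.x1 + t / R.F.N) := by
    intro t
    have h1 : t • e = t • R.F.e := congrArg _ R.Fe.symm
    rw [h1]
    unfold Road.bx
    have h2 : R.F.N * (R.x1 + t / R.F.N) = R.F.N * R.x1 + t := by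
      field_simp
    rw [h2]
    module
  obtain ⟨δ1, hδ1, hcs⟩ := Ce_551.chart_side (G := HB) (G' := G') hQ hI hM hU hJ hr0 g1 g2 hE2
    (A := R.A) (b0 := R.bx R.x1) (e := e) hE1.symm (a := s1⁻¹) (c := s2⁻¹) (inv_pos.2 hs2)
    (by
      have h1 := Cl.smul s1⁻¹ o1
      rw [smul_smul, inv_mul_cancel₀ hs1.ne', one_smul] at h1
      exact h1.symm)
    (by
      have h1 := Cl.smul s2⁻¹ o2
      rw [smul_smul, inv_mul_cancel₀ hs2.ne', one_smul] at h1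
      exact h1.symm) R.AA (fun t => by rw [bxt, R.bx_bx hc]; exact hN)
    (fun t => by rw [bxt, R.A_bx]) (θ0 := θ) (abs_lt.2 hθ)
  -- the neighbourhood
  obtain ⟨δ2, hδ2, hcD⟩ : ∃ δ2 : ℝ, 0 < δ2 ∧ ∀ x : ℝ, |x - R.x1| < δ2 → R.c x ∈ B.D := by
    have h1 : R.c ⁻¹' B.D ∈ 𝓝 R.x1 := R.c_cont.continuousAt.preimage_mem_nhds (B.oD.mem_nhds R.cD)
    obtain ⟨ε, hε, h2⟩ := Metric.mem_nhds_iff.1 h1
    exact ⟨ε, hε, fun x hx => h2 (by rwa [Metric.mem_ball, Real.dist_eq])⟩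
  have hκ : 0 < R.τ1.im ^ 2 - R.K.Y ^ 2 := by nlinarith
  refine ⟨min (δ1 / R.F.N) (min δ2 (Real.sqrt (R.τ1.im ^ 2 - R.K.Y ^ 2))),
    lt_min (div_pos hδ1 hN) (lt_min hδ2 (Real.sqrt_pos.2 hκ)), fun x hx => ?_⟩
  have hx1 : |x - R.x1| < δ1 / R.F.N := hx.trans_le (min_le_left _ _)
  have hx2 : R.c x ∈ B.D := hcD x (hx.trans_le ((min_le_right _ _).trans (min_le_left _ _)))
  have hx3 : (x - R.τ1.re) ^ 2 < R.τ1.im ^ 2 - R.K.Y ^ 2 := by
    have h1 : |x - R.x1| < Real.sqrt (R.τ1.im ^ 2 - R.K.Y ^ 2) :=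
      hx.trans_le ((min_le_right _ _).trans (min_le_right _ _))
    rw [Real.lt_sqrt (abs_nonneg _), sq_abs] at h1
    rw [R.re1]
    exact h1
  -- the chart side
  obtain ⟨K, K', mK, mK', i3⟩ := hcs (R.F.N * (x - R.x1)) (by
    rw [abs_mul, abs_of_pos hN]
    have h1 := mul_lt_mul_of_pos_left hx1 hN
    rwa [mul_div_cancel₀ _ hN.ne'] at h1)
  have hbx : R.bx R.x1 + (R.F.N * (x - R.x1)) • e = R.bx x := by
    rw [bxt, mul_div_cancel_left₀ _ hN.ne']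
    congr 1
    ring
  rw [hbx] at mK mK' i3
  -- the box
  obtain ⟨Gx, ρx, hρx, mx, hasx, g1x, twx⟩ := box_mv hc R hx2
  have rpA : Rp Gx R.A (Pi.single 1 ρx⁻¹) := rp_one hρx.ne' g1x
  obtain ⟨yb, rpb⟩ : ∃ y, Rp Gx (R.bx x) y := by
    obtain ⟨p, q, -, cb⟩ := hasx
    exact ⟨![q, 0, p], rp3 (cb.trans (NefRay_326.cl_of_eq (by module)))⟩
  have i1 : Iso2 R.A (R.bx x) Gx (B.H R.a (R.c x)) := iso2_sameTw hQ R.AA twx rpA rpb
  have mK2 : Mv2 (B.base R.a) K := (mA.trans mθ).trans (mv2_of_mvTo mK)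
  have i2 : Iso2 R.A (R.bx x) Gx K := Mv2.iso2 hd hNN hQ R.AA (base_pos hc R).ne' mx mK2 hasx
    (has_of_mvTo mK) rpA rpb
  -- the end
  obtain ⟨M, y, z', hz', D, hMem, hMv⟩ := end_move hiso hQn R.K R.mem hsc1 hx3
  have hneg : R.F.v - (R.F.N * x) • R.F.e = -R.bx x := by
    unfold Road.bx
    module
  rw [hneg] at hMv
  obtain ⟨μ, hμ, m0, m2⟩ := end_cls (R.K.mem_at _ _ hMem) hz'
  have m0' : Cl ((nr M z' hz'.nz).om 0) ((1 : ℝ) • R.A) := by rwa [one_smul]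
  have m2' : Cl ((nr M z' hz'.nz).om 2) ((-μ) • R.bx x) := m2
  obtain ⟨u, v, ru, rv⟩ := iso2_rp i3
  have hL0 : Q (L.om 0) (L.om 0) ≠ 0 := by
    rw [hL, nr_om0, hc.cl_cl hat1.om0 hat1.om0]
    exact R.AA.ne'
  have i4 : Iso2 R.A (R.bx x) K' (nr M z' hz'.nz) := end_half hd hNN hQ R.AA D D1 hL0 hMv
    (mv2_of_mvTo mK') (has_of_mvTo mK') ru rv (rp_one one_ne_zero m0')
    (rp_one (neg_ne_zero.2 hμ.ne') m2')
  have i5 : Iso2 R.A (R.bx x) (B.H R.a (R.c x)) (nr M z' hz'.nz) :=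
    ((i1.symm.trans hQ R.AA i2).trans hQ R.AA i3).trans hQ R.AA i4
  obtain ⟨s3, hs3, o3⟩ := R.om1 hx2
  obtain ⟨s4, hs4, o4⟩ := R.om2 hc hx2
  have hI1 := isoId_of_iso2 hQ R.AA hs3 hs4 one_pos hμ o3 o4 m0' m2' i5
  obtain ⟨N, hNs, hNt⟩ := end_ray (isoHk_of hiso) hQn R.K hMem hz'
  exact ⟨N, hNs, fun t => ⟨(hNt t).1, isoId_trans hI1 (hNt t).2⟩⟩

end

end Crest.Agent.R281.Ch_151
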