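import Crest.Agent.R281.Mf2_835
import Crest.Agent.R281.Ce3_551

/-!
# Row 281, MoveFam (helper835), part 3: positivity of `q`, 551's `MoveFam`

* `TopI.q_pos`  : `0 < q om` and `w` positive of type (1,1) for the same complex structure as `om`
                  imply `0 < q w`
* `moveFamCe`   : 551's `MoveFam Q` (all `k`, no hypothesis on `Q (w p) (w p)`)
-/

set_option autoImplicit false
set_option linter.unusedSectionVars false
set_option maxSynthPendingDepth 3

open Set Filter Topology Function MeasureTheory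
open scoped ContDiff

namespace Crest.Agent.R281.Mf_835

open Crest.Agent.R275.Core144 Crest.Agent.R275.EDR890 Crest.Agent.R275.GC293
open Crest.Agent.R275.Geo
open Crest.Agent.R281.HkR_835 hiding pb pb_apply
open Crest.Agent.R281.HkR_835.Cmp
open Crest.Agent.R281.Ti_846 hiding pb pb_apply
open Crest.Agent.R281.NefO_476
open Crest.Agent.R281.Nef_252
open Crest.Agent.R281.Tt_476
open Crest.Agent.R281.Dif_268 (Eqv)
open Crest.Agent.R281.Alg_998 (HEqv Cl)
open Crest.Agent.R281.Al_830
open Crest.Agent.R281.Bx_557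
open Crest.Agent.R281.Sta2_684 (smulP)
open Crest.Agent.R281.RkD_902 (Ctx)

noncomputable section

section qpos

variable {V X : Type} [NormedAddCommGroup V] [NormedSpace ℝ V] [TopologicalSpace X]
  {C : RCh V X} [FiniteDimensional ℝ V]
  [MeasurableSpace V] [BorelSpace V] {μ : Measure V}
  [μ.IsAddHaarMeasure] [CompactSpace X] [T2Space X] [ConnectedSpace X] {n : ℕ}
  {b : Module.Basis (Fin (n + n) × Fin 2) ℝ V} {P : RPart C} {q : QuadraticForm ℝ (F2 C)}

/-- **positivity of `q` on Kaehler forms** -/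
theorem TopI.q_pos (TI : TopI μ b P q) {J : AJ C} (hJ : Cx J) {om w : F2 C} (h11 : T11 J om)
    (hp : Pos J om) (h0 : 0 < q om) (k11 : T11 J w) (kp : Pos J w) : 0 < q w := by
  have hn := TI.npos
  obtain ⟨A, hfin, -, ⟨PA⟩, h, hI⟩ := exists_atlas (fin_V b) hJ
  -- the segment
  let f : ℝ → F2 C := fun s => om + s • (w - om)
  have hf11 : ∀ s, T11 J (f s) := by
    intro s i z hz u v
    simp only [f, F2.add_w, F2.smul_w, F2.sub_w, add_apply, smul_apply, sub_apply, smul_eq_mul]
    rw [h11 i z hz, k11 i z hz]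
  have hfp : ∀ s ∈ Icc (0 : ℝ) 1, Pos J (f s) := by
    intro s hs i z hz v hv
    simp only [f, F2.add_w, F2.smul_w, F2.sub_w, add_apply, smul_apply, sub_apply, smul_eq_mul]
    have h1 := hp i z hz v hv
    have h2 := kp i z hz v hv
    rcases eq_or_lt_of_le hs.1 with h3 | h3
    · rw [← h3]
      simpa using h1
    · have h4 : 0 < s * (w.w i z v (J.J i z v)) := mul_pos h3 h2
      have h5 : 0 ≤ (1 - s) * (om.w i z v (J.J i z v)) := mul_nonneg (by linarith [hs.2]) h1.le
      linarith
  have hne : ∀ s ∈ Icc (0 : ℝ) 1, ∀ i, ∀ z ∈ (C.e i).target,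
      TP b (fun _ : Fin (n + n) => (f s).w i z) ≠ 0 := fun s hs i z hz =>
    TP_om_ne b hI h (hf11 s) (hfp s hs) i z hz
  have hpos0 : 0 < IM μ b P (fun _ => om) := by
    rw [TI.fuj]
    exact pow_pos h0 n
  have hsgn0 := sign_pos μ b P TI.ori TI.nn (om := om) (fun i z hz => by
    have := hne 0 ⟨le_rfl, zero_le_one⟩ i z hz
    simpa [f] using this) hpos0
  -- continuity of the top power in `s`
  have hcont : ∀ i z, Continuous fun s : ℝ => TP b (fun _ : Fin (n + n) => (f s).w i z) := by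
    intro i z
    have h1 : (fun s : ℝ => TP b (fun _ : Fin (n + n) => (f s).w i z)) = fun s =>
        TPM b (fun _ : Fin (n + n) => om.w i z + s • (w.w i z - om.w i z)) := by
      funext s
      rfl
    rw [h1]
    unfold TPM
    simp only [MultilinearMap.coe_mk]
    unfold TP
    fun_prop
  have hsgn : ∀ s ∈ Icc (0 : ℝ) 1, ∀ i, ∀ z ∈ (C.e i).target,
      0 < TP b (fun _ : Fin (n + n) => (f s).w i z) := by
    intro s hs i z hz
    by_contra hneg
    push Not at hneg
    have hsub : (0 : ℝ) ∈ (fun s : ℝ => TP b (fun _ : Fin (n + n) => (f s).w i z)) ''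
        Icc 0 s := by
      refine intermediate_value_Icc' hs.1 (hcont i z).continuousOn ⟨hneg, ?_⟩
      have := hsgn0 i z hz
      simpa [f] using this.le
    obtain ⟨s', hs', h1⟩ := hsub
    exact hne s' ⟨hs'.1, hs'.2.trans hs.2⟩ i z hz h1
  have hq0 : ∀ s ∈ Icc (0 : ℝ) 1, q (f s) ≠ 0 := by
    intro s hs h1
    have h2 : IM μ b P (fun _ => f s) = 0 := by
      rw [TI.fuj, h1, zero_pow hn.ne']
    rw [IM_apply] at h2
    have h3 := intT_eq_zero μ P TI.nn (D := TopF.of b (fun _ : Fin (n + n) => f s))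
      (fun i z hz => (hsgn s hs i z hz).le) h2
    obtain ⟨x⟩ := (inferInstance : Nonempty X)
    obtain ⟨i, hi⟩ := C.cover x
    exact (hsgn s hs i _ ((C.e i).map_source hi)).ne' (h3 i _ ((C.e i).map_source hi))
  by_contra hneg
  push Not at hneg
  have hc : Continuous fun s : ℝ => q (f s) := by
    have : (fun s : ℝ => q (f s)) = fun s =>
        q om + s * QuadraticMap.polar q om (w - om) + s ^ 2 * q (w - om) := by
      funext s
      exact FujSig_358.q_line _ _ _ _
    rw [this]
    fun_prop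
  have hsub : (0 : ℝ) ∈ (fun s : ℝ => q (f s)) '' Icc 0 1 := by
    refine intermediate_value_Icc' zero_le_one hc.continuousOn ⟨?_, ?_⟩
    · simpa [f] using hneg
    · simpa [f] using h0.le
  obtain ⟨s, hs, h1⟩ := hsub
  exact hq0 s hs h1

end qpos

/-- **551's `MoveFam`** -/
theorem moveFamCe {n : ℕ} {X : Type} [TopologicalSpace X] [CompactSpace X] [T2Space X]
    [ConnectedSpace X] {C : RCh (Cn (2 * n)) X} {Q : F2 C →ₗ[ℝ] F2 C →ₗ[ℝ] ℝ} (hc : Ctx n C Q)
    {κ : Type} [Fintype κ] [DecidableEq κ] {b' : Module.Basis κ ℝ (Cn (2 * n))}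
    (hY : YauVar C b') : Ce_551.MoveFam Q := by
  intro E _ _ _ T hT k H w hH hw h0 ht hp
  obtain ⟨P, q, a, ha, TI, hQ⟩ := hc.top
  have hpq : ∀ x, Q x x = 2 * a * q x := by
    intro x
    rw [hQ, QuadraticMap.polar, ← two_smul ℝ x, QuadraticMap.map_smul, smul_eq_mul]
    ring
  have hqk : ∀ p ∈ T, ∀ k, 0 < q ((H p).om k) := by
    intro p hpT k
    have h1 := h0 p hpT
    rw [← hc.eq (H p) k, hpq] at h1
    exact (pos_iff_pos_of_mul_pos h1).1 (by positivity)
  have hqw : ∀ p ∈ T, 0 < Q (w p) (w p) := by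
    intro p hpT
    rw [hpq]
    have := TopI.q_pos TI (cx_ofHk (H p) k) (T11_hk (H p) k) (Pos_hk (H p) k) (hqk p hpT k)
      (ht p hpT) (hp p hpT)
    positivity
  obtain ⟨H', r, h1, h2, h3⟩ := moveFam_k (moveFam hc hY) k hT hH (fun p hpT => by
    have e1 : Cl (((H p).cyc k).om 0) ((H p).om k) := by
      refine Cl.of_eq_on fun i z hz => ?_
      ext u v
      have := cyc_om (H p) k 0 i z hz u v
      rw [zero_add] at this
      exact this
    have e2 : Q (((H p).cyc k).om 0) (((H p).cyc k).om 0) = Q ((H p).om k) ((H p).om k) := by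
      have f1 := hc.ex _ (((H p).cyc k).om 0) e1
      have f2 := hc.ex _ ((H p).om k) e1
      rw [map_sub, LinearMap.sub_apply, sub_eq_zero] at f1 f2
      rw [f1, hc.symm, f2]
    rw [e2, hpq]
    have := hqk p hpT k
    positivity) hw ht hp hqw
  refine ⟨H', r, h1, h2, fun p hpT => ?_⟩
  obtain ⟨g1, g2, g3, g4, -⟩ := h3 p hpT
  exact ⟨g1, g2, g3, g4⟩

end

end Crest.Agent.R281.Mf_835
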