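import Crest.Agent.R281.Ch8_151
import Crest.Agent.R281.Iso5_139
import Crest.Agent.R281.Mf3_835
import Crest.Agent.R281.Ly4_457

/-!
# Row 281, CHART-END (second owner, helper151), part 9: the node `ChartEndP` of RANK281

* `isoF_cn`    : HK-ISO, unconditional (139, 457)
* `moveFam_cn` : MOVE-FAM, unconditional (835, 457)
* `chartEndP`  : **the node `RkD_902.ChartEndP Alg`**
-/

set_option autoImplicit false
set_option maxSynthPendingDepth 3
set_option linter.unusedSectionVars false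

open Set Filter Topology
open scoped ContDiff

namespace Crest.Agent.R281.Ch_151

open Crest.Agent.R275.Geo Crest.Agent.R275.Core144
open Crest.Agent.R260.ACM_580
open Crest.Agent.R281.Ti_846 hiding pb pb_apply symm2 sm'
open Crest.Agent.R281.HkR_835 Crest.Agent.R281.Alg_998 Crest.Agent.R281.Iso_139
open Crest.Agent.R281.RkD_902 (Ctx AlgTT ChartEndP)

noncomputable section

variable {n : ℕ} {X : Type} [TopologicalSpace X] [CompactSpace X] [T2Space X]
  [SimplyConnectedSpace X] {C : RCh (Cn (2 * n)) X} {Q : F2 C →ₗ[ℝ] F2 C →ₗ[ℝ] ℝ}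

/-- **HK-ISO** -/
theorem isoF_cn (hc : Ctx n C Q) : IsoF C := by
  have hd : 2 ≤ 2 * n := by have := hc.n1; omega
  have hNN : NNat (Cn (2 * n)) (2 * n) :=
    Crest.Agent.R260.NN6_900.nnat (2 * n) (Cn (2 * n)) (finrank_cn (2 * n))
  exact isoF_of hNN hd primVar
    (ddcv_of_V0 (Crest.Agent.R281.Ly4_457.v0 (C := C) (Module.finBasis ℝ (Cn (2 * n)))))

/-- **MOVE-FAM** -/
theorem moveFam_cn (hc : Ctx n C Q) : Ce_551.MoveFam Q :=
  Crest.Agent.R281.Mf_835.moveFamCe hc (Crest.Agent.R281.Al_830.yauVar_of_V0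
    (Module.finBasis ℝ (Cn (2 * n)))
    (Crest.Agent.R281.Ly4_457.v0 (C := C) (Module.finBasis ℝ (Cn (2 * n)))))

/-- **the node `ChartEndP` of RANK281** -/
theorem chartEndP (Alg : AlgTT) : ChartEndP Alg := by
  intro n X _ _ _ _ C Q hc H0 L0 e hg B R
  exact chartEnd_of hc hg R (isoF_cn hc) (moveFam_cn hc)

end

end Crest.Agent.R281.Ch_151
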