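import Crest.Agent.R281.Cnt1_311
import Crest.Agent.R281.Phl3_655

/-!
# R281 (S0424), COUNT = (D13) (helper311), part 2: basic forms on cones (carrier of helper655)

* `natB τ hK : NatK C K`     : a closed basic 2-form `τ : B1 K` on the cone `K`
* `natF_toK`                 : comparison with the marked families (`QB`)
* `MPer F σ hS c m τ`        : the marking `m` of the fibre `S_c` of a cone family with
                               holomorphic form `σ : CF S` has period `τ`
* `countable_MPer`           : **COUNT**: countably many periods over a countable set of `c`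
* `MPer.of_family`           : the members of a `PFam`
* `MPer.of_cl`, `MPer.of_pt` : a marking with the form `k (om 1 + i om 2)` of `AtTau F A H' τ`
* `countable_fmt`            : ... for countably many cone families
-/

set_option autoImplicit false
set_option linter.unusedSectionVars false

open Set Filter Topology
open scoped ContDiff

namespace Crest.Agent.R281.Cnt_311

open Crest.Agent.R281.HkR_835 Crest.Agent.R281.Ehr2_268
open Crest.Agent.R281.Dif_268 hiding Coh symm2
open Crest.Agent.R281.Ehr4_268 Crest.Agent.R281.Ehr6_268 Crest.Agent.R281.Ehr7_268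
open Crest.Agent.R281.Cdr_234 Crest.Agent.R281.Alg_998 Crest.Agent.R281.Phl_655
open Crest.Agent.R281.Ti_846 (F1 IsD Ex)

noncomputable section

section one

variable {V X : Type} [NormedAddCommGroup V] [NormedSpace ℝ V] [TopologicalSpace X]
  {H : Type} [NormedAddCommGroup H] [NormedSpace ℂ H] {C : RCh V X} {K : Set H}

theorem MarkK.inK (m : MarkK C K) : InK m.P K := inK_of fun w hw => (m.cone w).mp hw

/-- the pull back of a closed basic form by a marking -/
def omK (τ : B1 K) (hK : Co K) (m : MarkK C K) : F2 m.C' := τ.pull hK m.P m.inK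

/-- **a closed basic form on the cone gives a natural form on the markings** -/
def natB (τ : B1 K) (hK : Co K) : NatK C K where
  w m := (SMap.ofCmp m.cmp.symm).pull (omK τ hK m)
  nat m m' g hg := by
    let g' : SMap m.C' m'.C' := (SMap.ofCmp m'.cmp.symm).comp (g.comp (SMap.ofCmp m.cmp))
    have h1 : Eqv (omK τ hK m) (g'.pull (omK τ hK m')) :=
      pull_over τ hK τ hK m.P m'.P m.inK m'.inK (fun _ _ _ _ _ _ _ _ _ => rfl) g' hg
    have e : g'.comp (SMap.ofCmp m.cmp.symm) = (SMap.ofCmp m'.cmp.symm).comp g := SMap.ext' rfl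
    have h2 := h1.symm.pull (SMap.ofCmp m.cmp.symm)
    have h3 := pull_comp g' (SMap.ofCmp m.cmp.symm) (omK τ hK m')
    rw [e] at h3
    have h4 := pull_comp (SMap.ofCmp m'.cmp.symm) g (omK τ hK m')
    exact ((h4.symm.trans h3).trans h2).coh

theorem natB_w (τ : B1 K) (hK : Co K) (m : MarkK C K) :
    (natB (C := C) τ hK).w m = (SMap.ofCmp m.cmp.symm).pull (omK τ hK m) := rfl

end one

/-! ### fibres of a cone family with a holomorphic form -/

section fam

variable {V X : Type} [NormedAddCommGroup V] [NormedSpace ℝ V] [TopologicalSpace X]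
  {E : Type} [NormedAddCommGroup E] [NormedSpace ℂ E]
  {H : Type} [NormedAddCommGroup H] [NormedSpace ℂ H] {C : RCh V X}
  {Q : F2 C →ₗ[ℝ] F2 C →ₗ[ℝ] ℝ} {S : Set (E × H)}

/-- the fibre -/
def Sf (S : Set (E × H)) (c : E) : Set H := {w | (c, w) ∈ S}

theorem coSf (hS : Cn S) (c : E) : Co (Sf S c) := fun _ hx a ha => hS _ _ hx a ha

/-- the natural form `π ∘ σ` over the fibre `S_c` -/
def natC (C : RCh V X) (σ : CF S) (hS : Cn S) (c : E) (π : ℂ →L[ℝ] ℝ) : NatK C (Sf S c) :=
  natB ((σ.part π).fib c fun _ => Iff.rfl) (coSf hS c)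

/-- the marking `m` of the fibre over `c` has period `τ` -/
def MPer (F : Frm C Q) (σ : CF S) (hS : Cn S) (c : E) (m : MarkK C (Sf S c)) (τ : ℂ) : Prop :=
  IsPer F ((natC C σ hS c Complex.reCLM).w m) ((natC C σ hS c Complex.imCLM).w m) τ

/-- the value of the form of a marking -/
theorem natC_w (σ : CF S) (hS : Cn S) (c : E) (π : ℂ →L[ℝ] ℝ) (m : MarkK C (Sf S c)) {i : m.C'.ι}
    {z : V} (hz : z ∈ (m.C'.e i).target) (v w : V) :
    (omK ((σ.part π).fib c fun _ => Iff.rfl) (coSf hS c) m).w i z v w =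
      π (σ.sg c (m.P.u i z) (fderiv ℝ (m.P.u i) z v) (fderiv ℝ (m.P.u i) z w)) :=
  B1.pull_w _ _ _ _ hz v w

/-- **the members of a family**: the form of the member at `c` is the pull back by the family -/
theorem natC_family (σ : CF S) (hS : Cn S) {c : E} (π : ℂ →L[ℝ] ℝ) (m : MarkK C (Sf S c))
    {B : Set E} (G : PFam m.C' H B) (hG : G.In S) (hc : c ∈ B)
    (hrel : ∀ i, ∀ z ∈ (m.C'.e i).target, ∃ a : ℂ, a ≠ 0 ∧ m.P.u i z = a • G.u i c z) :
    cl ((natC C σ hS c π).w m) =
      cl ((SMap.ofCmp m.cmp.symm).pull ((σ.part π).pull G hS hG hc)) := by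
  refine cl_eq_iff.mpr (Eqv.coh ?_)
  exact (pull_fib (F := G) (σ.part π) hS hG hc ((σ.part π).fib c fun _ => Iff.rfl) (coSf hS c)
    m.P m.inK hrel fun _ _ _ _ _ _ _ _ _ => rfl).pull (SMap.ofCmp m.cmp.symm)

theorem MPer.of_family {F : Frm C Q} {σ : CF S} {hS : Cn S} {c : E} {m : MarkK C (Sf S c)}
    {B : Set E} (G : PFam m.C' H B) (hG : G.In S) (hc : c ∈ B)
    (hrel : ∀ i, ∀ z ∈ (m.C'.e i).target, ∃ a : ℂ, a ≠ 0 ∧ m.P.u i z = a • G.u i c z) {τ : ℂ}
    (h : IsPer F ((SMap.ofCmp m.cmp.symm).pull ((σ.part Complex.reCLM).pull G hS hG hc))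
      ((SMap.ofCmp m.cmp.symm).pull ((σ.part Complex.imCLM).pull G hS hG hc)) τ) :
    MPer F σ hS c m τ :=
  h.congr (natC_family σ hS Complex.reCLM m G hG hc hrel).symm
    (natC_family σ hS Complex.imCLM m G hG hc hrel).symm

/-- a marking whose form has the classes of `k (om 1 + i om 2)` of a hyperkaehler structure -/
theorem MPer.of_cl {F : Frm C Q} {σ : CF S} {hS : Cn S} {c : E} {m : MarkK C (Sf S c)}
    {A : F2 C} {H' : HkT C} {τ : ℂ} (h : AtTau F A H' τ) {k : ℂ} (hk : k ≠ 0)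
    (hr : Cl ((natC C σ hS c Complex.reCLM).w m) (k.re • H'.om 1 - k.im • H'.om 2))
    (hi : Cl ((natC C σ hS c Complex.imCLM).w m) (k.im • H'.om 1 + k.re • H'.om 2)) :
    MPer F σ hS c m τ :=
  (h.isPer.scale hk).congr (cl_iff.mp hr.symm) (cl_iff.mp hi.symm)

/-- change of charts and back -/
theorem cmp_F_eqv {C₂ : RCh V X} (h : Cmp C C₂) (w : F2 C) :
    Eqv ((SMap.ofCmp h.symm).pull (h.F w)) w := by
  have h1 : Eqv (h.F w) ((SMap.ofCmp h).pull w) := by
    intro j z hz u v
    obtain ⟨i, hi⟩ := Cmp.exists_mov C hz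
    rw [h.F_w w hi]
    exact ((SMap.ofCmp h).pull_w w (i := i) (j := j) (z := z) hi u v).symm
  have h2 := pull_comp (SMap.ofCmp h) (SMap.ofCmp h.symm) w
  have e : (SMap.ofCmp h).comp (SMap.ofCmp h.symm) = SMap.id C := SMap.ext' rfl
  rw [e] at h2
  exact ((h1.pull _).trans h2.symm).trans (pull_id w)

/-- a marking whose form is pointwise `k (om 1 + i om 2)` -/
theorem MPer.of_pt {F : Frm C Q} {σ : CF S} {hS : Cn S} {c : E} {m : MarkK C (Sf S c)}
    {A : F2 C} {H' : HkT C} {τ : ℂ} (h : AtTau F A H' τ) {k : ℂ} (hk : k ≠ 0)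
    (hp : ∀ i, ∀ z ∈ (m.C'.e i).target, ∀ v w,
      σ.sg c (m.P.u i z) (fderiv ℝ (m.P.u i) z v) (fderiv ℝ (m.P.u i) z w) =
        k * (((m.cmp.F (H'.om 1)).w i z v w : ℂ) + ((m.cmp.F (H'.om 2)).w i z v w : ℂ) *
          Complex.I)) : MPer F σ hS c m τ := by
  refine MPer.of_cl h hk ?_ ?_
  · have h1 : Eqv (omK ((σ.part Complex.reCLM).fib c fun _ => Iff.rfl) (coSf hS c) m)
        (k.re • m.cmp.F (H'.om 1) - k.im • m.cmp.F (H'.om 2)) := by
      intro i z hz v w
      rw [natC_w σ hS c Complex.reCLM m hz, hp i z hz]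
      simp
    rw [cl_iff]
    refine (cl_eq_iff.mpr (h1.pull (SMap.ofCmp m.cmp.symm)).coh).trans ?_
    show pullL _ _ = _
    rw [map_sub, map_smul, map_smul]
    show k.re • cl ((SMap.ofCmp m.cmp.symm).pull (m.cmp.F (H'.om 1))) -
      k.im • cl ((SMap.ofCmp m.cmp.symm).pull (m.cmp.F (H'.om 2))) = _
    rw [cl_eq_iff.mpr (cmp_F_eqv m.cmp (H'.om 1)).coh,
      cl_eq_iff.mpr (cmp_F_eqv m.cmp (H'.om 2)).coh]
    rfl
  · have h1 : Eqv (omK ((σ.part Complex.imCLM).fib c fun _ => Iff.rfl) (coSf hS c) m)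
        (k.im • m.cmp.F (H'.om 1) + k.re • m.cmp.F (H'.om 2)) := by
      intro i z hz v w
      rw [natC_w σ hS c Complex.imCLM m hz, hp i z hz]
      simp
      ring
    rw [cl_iff]
    refine (cl_eq_iff.mpr (h1.pull (SMap.ofCmp m.cmp.symm)).coh).trans ?_
    show pullL _ _ = _
    rw [map_add, map_smul, map_smul]
    show k.im • cl ((SMap.ofCmp m.cmp.symm).pull (m.cmp.F (H'.om 1))) +
      k.re • cl ((SMap.ofCmp m.cmp.symm).pull (m.cmp.F (H'.om 2))) = _
    rw [cl_eq_iff.mpr (cmp_F_eqv m.cmp (H'.om 1)).coh,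
      cl_eq_iff.mpr (cmp_F_eqv m.cmp (H'.om 2)).coh]
    rfl

variable [FiniteDimensional ℝ V] [CompactSpace X] [T2Space X] [FiniteDimensional ℂ H]

/-- **COUNT (D13)**: over a countable set of coefficient vectors the markings have countably many
periods -/
theorem countable_MPer (hb : Bas C) (hs : ∀ a b, Q a b = Q b a)
    (hQ : ∀ a b : F2 C, Ex a → Q a b = 0) (F : Frm C Q) (σ : CF S) (hS : Cn S) {A : Set E}
    (hA : A.Countable) :
    {τ : ℂ | ∃ c ∈ A, ∃ m : MarkK C (Sf S c), MPer F σ hS c m τ}.Countable := by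
  have h1 : (⋃ c ∈ A, PerK F (natC C σ hS c Complex.reCLM)
      (natC C σ hS c Complex.imCLM)).Countable :=
    hA.biUnion fun c _ => countable_PerK hb hs hQ F _ _
  refine h1.mono ?_
  rintro τ ⟨c, hc, m, hm⟩
  exact mem_biUnion hc ⟨m, hm⟩

end fam

/-! ### countably many cone families -/

section fmt

variable {V X : Type} [NormedAddCommGroup V] [NormedSpace ℝ V] [TopologicalSpace X]
  {C : RCh V X} {Q : F2 C →ₗ[ℝ] F2 C →ₗ[ℝ] ℝ}
  [FiniteDimensional ℝ V] [CompactSpace X] [T2Space X]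

/-- **COUNT (D13)** for countably many formats: cone families `S a ⊆ E a × H a` with forms
`σ a : CF (S a)` and countable sets `A a` of parameters -/
theorem countable_fmt (hb : Bas C) (hs : ∀ a b, Q a b = Q b a)
    (hQ : ∀ a b : F2 C, Ex a → Q a b = 0) (F : Frm C Q) {α : Type*} [Countable α]
    {E H : α → Type} [∀ a, NormedAddCommGroup (E a)] [∀ a, NormedSpace ℂ (E a)]
    [∀ a, NormedAddCommGroup (H a)] [∀ a, NormedSpace ℂ (H a)] [∀ a, FiniteDimensional ℂ (H a)]
    {S : ∀ a, Set (E a × H a)} (σ : ∀ a, CF (S a)) (hS : ∀ a, Cn (S a)) {A : ∀ a, Set (E a)}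
    (hA : ∀ a, (A a).Countable) :
    {τ : ℂ | ∃ a, ∃ c ∈ A a, ∃ m : MarkK C (Sf (S a) c), MPer F (σ a) (hS a) c m τ}.Countable := by
  have h1 : (⋃ a, {τ : ℂ | ∃ c ∈ A a, ∃ m : MarkK C (Sf (S a) c),
      MPer F (σ a) (hS a) c m τ}).Countable :=
    countable_iUnion fun a => countable_MPer hb hs hQ F (σ a) (hS a) (hA a)
  refine h1.mono ?_
  rintro τ ⟨a, h⟩
  exact mem_iUnion.2 ⟨a, h⟩

end fmt

/-! ### marked families -/

section marked

universe uq

variable {Q' : Type uq} [TopologicalSpace Q'] {E H : Type} [NormedAddCommGroup E]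
    [NormedSpace ℂ E] [NormedAddCommGroup H] [NormedSpace ℂ H] {V X : Type}
    [NormedAddCommGroup V] [NormedSpace ℝ V] [TopologicalSpace X] {C : RCh V X}
    {Fm : QFam Q' E H}

/-- the natural form of a global form on a marked family -/
def natQ (C : RCh V X) (β : QB Fm) : NatF Fm C where
  w m := (SMap.ofCmp m.cmp.symm).pull (β.om m)
  nat m m' hq g hg := by
    let g' : SMap m.C' m'.C' := (SMap.ofCmp m'.cmp.symm).comp (g.comp (SMap.ofCmp m.cmp))
    have h1 : Eqv (β.om m) (g'.pull (β.om m')) := β.om_over m m' hq g' hg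
    have e : g'.comp (SMap.ofCmp m.cmp.symm) = (SMap.ofCmp m'.cmp.symm).comp g := SMap.ext' rfl
    have h2 := h1.symm.pull (SMap.ofCmp m.cmp.symm)
    have h3 := pull_comp g' (SMap.ofCmp m.cmp.symm) (β.om m')
    rw [e] at h3
    have h4 := pull_comp (SMap.ofCmp m'.cmp.symm) g (β.om m')
    exact ((h4.symm.trans h3).trans h2).coh

theorem natQ_w (β : QB Fm) (m : Mark Fm C) :
    (natQ C β).w m = (SMap.ofCmp m.cmp.symm).pull (β.om m) := rfl

end marked

end

end Crest.Agent.R281.Cnt_311
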