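import Crest.Agent.R281.Md3_252
import Crest.Agent.R281.RkD_902

/-!
# Row 281, MEMD-INST (helper252), part 4: period, volume and mass of a member

* `sre_sre`, `sim_sim`, `sre_sim` : `Q` on `σ_τ`
* `atTau_z`   : `[om 1 + i om 2] = z σ_τ` ⟹ `‖z‖² N (Im τ)² = Q A A`, `b σ_τ = (b/z)(om 1 + i om 2)`
* `II_bn`     : the intersection form in the bases `bn` and `bc`
* `vol_mem`   : the volume of the members with `[om 0] = A` is one constant
* `mass_mem`  : `vm (volS σ) univ = V (√(N / Q A A) ‖b‖ Im τ)^d`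
-/

set_option autoImplicit false
set_option maxSynthPendingDepth 3
set_option linter.unusedSectionVars false

open Set Filter Topology Complex MeasureTheory
open scoped ContDiff Matrix ComplexConjugate ComplexOrder

namespace Crest.Agent.R281.Md_252

open Crest.Agent.R275.Geo Crest.Agent.R275.Core144 Crest.Agent.R275.EDR890
open Crest.Agent.R275.GC293
open Crest.Agent.R273.Kah_333 Crest.Agent.R273.Hess_333 Crest.Agent.R273.HessB_333
open Crest.Agent.R273.Defs_333 Crest.Agent.R273.HM_333 Crest.Agent.R273.Vol_333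
open Crest.Agent.R273.Vm_333
open Crest.Agent.R281.Defs_273
open Crest.Agent.R260.ACM_580 Crest.Agent.R260.NNB_580
open Crest.Agent.R281.HkR_835 Crest.Agent.R281.Ti_846
open Crest.Agent.R281.NefO_476 Crest.Agent.R281.Dif_268
open Crest.Agent.R281.HkP2_508
open Crest.Agent.R281.Alg_998 Crest.Agent.R281.Al_830
open Crest.Agent.R281.Fuj7_207 (bn bn_rfl)
open Crest.Agent.R281.Nef_252 Crest.Agent.R281.RkD_902

noncomputable section

/-! ### the period -/

section period

variable {V X : Type} [NormedAddCommGroup V] [NormedSpace ℝ V] [TopologicalSpace X]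
  {C : RCh V X} {Q : F2 C →ₗ[ℝ] F2 C →ₗ[ℝ] ℝ}

theorem Q_sig (hs : ∀ a b, Q a b = Q b a) (F : Frm C Q) (τ : ℂ) :
    Q (F.sre τ) (F.sre τ) = F.N * τ.im ^ 2 ∧ Q (F.sim τ) (F.sim τ) = F.N * τ.im ^ 2 ∧
      Q (F.sre τ) (F.sim τ) = 0 := by
  have h1 : Q F.v F.e = 0 := by rw [hs, F.e_v]
  have h2 : Q F.e F.es = 1 := by rw [hs, F.es_e]
  have h3 : Q F.v F.es = 0 := by rw [hs, F.es_v]
  unfold Frm.sre Frm.sim
  simp only [map_sub, map_add, map_smul, LinearMap.sub_apply, LinearMap.add_apply,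
    LinearMap.smul_apply, smul_eq_mul]
  rw [F.es_e, F.e_e, h1, F.es_v, F.v_v, F.e_v, h2, h3, F.es_es]
  refine ⟨?_, ?_, ?_⟩ <;> ring

/-- the multiple of `σ_τ` at a member -/
theorem atTau_z (hs : ∀ a b, Q a b = Q b a) (hex : ∀ x y, Ex x → Q x y = 0)
    (heq : ∀ (H : HkT C) k, Q (H.om k) (H.om k) = Q (H.om 0) (H.om 0)) {F : Frm C Q} {A : F2 C}
    {H : HkT C} {τ : ℂ} (h : AtTau F A H τ) :
    ∃ z : ℂ, z ≠ 0 ∧ ‖z‖ ^ 2 * (F.N * τ.im ^ 2) = Q A A ∧
      ∀ b : ℂ, Cl ((b / z).re • H.om 1 - (b / z).im • H.om 2)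
        (b.re • F.sre τ - b.im • F.sim τ) ∧
        Cl ((b / z).im • H.om 1 + (b / z).re • H.om 2) (b.im • F.sre τ + b.re • F.sim τ) := by
  obtain ⟨z, hz, h1, h2⟩ := h.om12
  have hcg : ∀ {x x' : F2 C}, Cl x x' → ∀ y, Q x y = Q x' y := by
    intro x x' hx y
    have h3 : Q (x - x') y = 0 := hex _ _ hx
    rw [map_sub, LinearMap.sub_apply] at h3
    linarith
  have hcg2 : ∀ {x x' : F2 C}, Cl x x' → Q x x = Q x' x' := by
    intro x x' hx
    rw [hcg hx, hs, hcg hx]
  refine ⟨z, hz, ?_, fun b => ⟨?_, ?_⟩⟩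
  · rw [← hcg2 h.om0, ← heq H 1, hcg2 h1]
    obtain ⟨e1, e2, e3⟩ := Q_sig hs F τ
    have e4 : Q (F.sim τ) (F.sre τ) = 0 := by rw [hs, e3]
    simp only [map_sub, map_smul, LinearMap.sub_apply, LinearMap.smul_apply, smul_eq_mul]
    rw [e1, e2, e3, e4, ← Complex.normSq_eq_norm_sq, Complex.normSq_apply]
    ring
  · have h3 := (h1.smul (b / z).re).add (h2.smul (-(b / z).im))
    have hb : b / z * z = b := div_mul_cancel₀ b hz
    have hre : (b / z).re * z.re - (b / z).im * z.im = b.re := by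
      rw [← Complex.mul_re, hb]
    have him : (b / z).re * z.im + (b / z).im * z.re = b.im := by
      rw [← Complex.mul_im, hb]
    have e1 : (b / z).re • H.om 1 + (-(b / z).im) • H.om 2 =
        (b / z).re • H.om 1 - (b / z).im • H.om 2 := by rw [neg_smul, sub_eq_add_neg]
    have e2 : (b / z).re • (z.re • F.sre τ - z.im • F.sim τ) +
        (-(b / z).im) • (z.im • F.sre τ + z.re • F.sim τ) =
        b.re • F.sre τ - b.im • F.sim τ := by
      rw [← hre, ← him]
      simp only [smul_sub, smul_add, smul_smul, sub_smul, add_smul, neg_smul, neg_mul]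
      abel
    rwa [e1, e2] at h3
  · have h3 := (h1.smul (b / z).im).add (h2.smul (b / z).re)
    have hb : b / z * z = b := div_mul_cancel₀ b hz
    have hre : (b / z).re * z.re - (b / z).im * z.im = b.re := by
      rw [← Complex.mul_re, hb]
    have him : (b / z).re * z.im + (b / z).im * z.re = b.im := by
      rw [← Complex.mul_im, hb]
    have e2 : (b / z).im • (z.re • F.sre τ - z.im • F.sim τ) +
        (b / z).re • (z.im • F.sre τ + z.re • F.sim τ) =
        b.im • F.sre τ + b.re • F.sim τ := by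
      rw [← hre, ← him]
      simp only [smul_sub, smul_add, smul_smul, sub_smul, add_smul]
      abel
    rwa [e2] at h3

end period

/-! ### volume -/

section volume

variable {d n : ℕ} {X : Type} [TopologicalSpace X] [CompactSpace X]

/-- the intersection form in the bases `bn`, `bc` -/
theorem II_bn (hd : d = n + n) {C : RCh (Cn d) X} (P : RPart C) (w : Fin (n + n) → F2 C) :
    IM (lc d) (bn hd) P w = II (lc d) (bc d) P fun k => w (finCongr hd k) := by
  subst hd
  rw [bn_rfl]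
  rfl

variable [T2Space X] [ConnectedSpace X] [MeasurableSpace X] [BorelSpace X]

/-- **the volume of the members is one constant** -/
theorem vol_mem (hd : d = n + n) {C : RCh (Cn d) X} {P : RPart C}
    {q : QuadraticForm ℝ (F2 C)} (T : TopI (lc d) (bn hd) P q) {a : F2 C} (ha : 0 < q a)
    {H : HkT C} (hH : Cl (H.om 0) a) {A : Atl d X} [Finite A.ι] (Pt : Part A)
    (hp : Cp (H.acm 0) A) :
    (vm (volK (H.kah hp))).real univ = q a ^ n / (2 ^ d * d.factorial) := by
  have h1 : II (lc d) (bc d) P (fun _ => a) = q a ^ n := by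
    rw [← T.fuj a, II_bn]
  have h2 := (memK_of Pt H hp).vol T.ori P (a0 := a) (coh_iff.2 hH) (by
    rw [h1]
    exact pow_pos ha n)
  rw [h2, h1]

/-- the mass of the holomorphic form of a member, as a measure of the whole space -/
theorem mass_univ {A : Atl d X} [Finite A.ι] {σ : HSymp A} {K : Kah A} {mu : ℝ} (hmu : 0 ≤ mu)
    (h : ∀ i, ∀ x ∈ (A.e i).source, ‖(σ.s i x).det‖ = mu * (K.g i x).det.re) :
    vm (volS σ) univ = ENNReal.ofReal (mu * (vm (volK K)).real univ) := by
  have h1 : vm (volS σ) = ENNReal.ofReal mu • vm (volK K) :=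
    Crest.Agent.R281.Pfa_69.vm_ratio hmu fun i x hx => h i x hx
  have h2 := isFinite_vm (volK K)
  rw [h1, Measure.smul_apply, smul_eq_mul, ENNReal.ofReal_mul hmu, measureReal_def,
    ENNReal.ofReal_toReal (measure_ne_top _ _)]

end volume

/-- the modulus of the multiple -/
theorem norm_z {z b : ℂ} {N q y : ℝ} (hz : z ≠ 0) (hN : 0 < N) (hq : 0 < q) (hy : 0 < y)
    (h : ‖z‖ ^ 2 * (N * y ^ 2) = q) : ‖b / z‖ = √(N / q) * ‖b‖ * y := by
  have hz' : 0 < ‖z‖ := norm_pos_iff.2 hz
  have h1 : (‖z‖⁻¹) ^ 2 = (√(N / q) * y) ^ 2 := by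
    rw [mul_pow, Real.sq_sqrt (by positivity), ← h]
    field_simp
  have h2 : ‖z‖⁻¹ = √(N / q) * y := by
    have h3 : 0 ≤ ‖z‖⁻¹ := by positivity
    have h4 : 0 ≤ √(N / q) * y := by positivity
    exact (pow_left_inj₀ h3 h4 two_ne_zero).1 h1
  rw [norm_div, div_eq_mul_inv, h2]
  ring


end

end Crest.Agent.R281.Md_252
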