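import Crest.Agent.R281.SDR1_273
import Crest.Agent.R281.SDb1_249
import Crest.Agent.R281.Nme2_989
import Crest.Agent.R281.Md4_252
import Crest.Agent.R281.Alg1_867
import Crest.Agent.R281.Ins4_615

/-!
# R281 (S0424), SDAT-RAY (helper273), part 3: the composition

* `MemW K τ H`   : `H` is over `τ` and has the complex structure `J 0` of a member of `K`
                   (`K.Mem τ H`, or `MemN K τ H` of `RkD_902`)
* `Node Y κ mu H`: the static node: an atlas of `J 0` with `ConeC`, `FormC`, a metric with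
                   curvature `κ K0`, `‖det σ‖ = mu det K0`
* `sdat_end_of`  : `Alg` and the static node ⟹ `SIn_14.SDat` for all members over `{y0 < Im τ}`,
                   with uniform constants
-/

set_option autoImplicit false
set_option linter.unusedSectionVars false
set_option maxSynthPendingDepth 3

open Set Filter Topology Complex MeasureTheory
open scoped ContDiff Matrix ComplexConjugate ComplexOrder ENNReal

noncomputable section

namespace Crest.Agent.R281.SDR_273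

open Crest.Agent.R275.Geo Crest.Agent.R275.Core144 Crest.Agent.R275.EDR890
open Crest.Agent.R275.GC293
open Crest.Agent.R273.Defs_333 Crest.Agent.R273.Kah_333 Crest.Agent.R273.HM_333
open Crest.Agent.R273.Vol_333 Crest.Agent.R273.Vm_333
open Crest.Agent.R273.SerA_945 (Fn)
open Crest.Agent.R260.ACM_580 Crest.Agent.R260.NNB_580
open Crest.Agent.R281.HkR_835 Crest.Agent.R281.Ti_846 Crest.Agent.R281.HkP2_508
open Crest.Agent.R281.Defs_273
open Crest.Agent.R281.Alg_998 Crest.Agent.R281.RkD_902 Crest.Agent.R281.Alg_867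
open Crest.Agent.R281.CA_867 Crest.Agent.R281.AF_867
open Crest.Agent.R281.Esc1_989 Crest.Agent.R281.Ends2_989 Crest.Agent.R281.Ends3_989
open Crest.Agent.R281.Ends4_989
open Crest.Agent.R281.Nme_989 (eventually_lEnd scale_mg norm_end_sq mbV_of)
open Crest.Agent.R281.GTi_989 (ConeC FormC ConnM EndAlg)
open Crest.Agent.R281.GT_639 (IsMb MbV)
open Crest.Agent.R281.SDb_249 (MemS sdat_of)
open Crest.Agent.R281.SIn_14 (SDat)
open Crest.Agent.R281.Fuj7_207 (bn)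

variable {n : ℕ} {X : Type} [TopologicalSpace X] {C : RCh (Cn (2 * n)) X}
  {Q : F2 C →ₗ[ℝ] F2 C →ₗ[ℝ] ℝ} {F : Frm C Q} {A : F2 C}

/-! ### members up to rotation about `om 0` -/

/-- `H` lies over `τ` and has the complex structure of a member of the cusp -/
def MemW (K : Cusp F A) (τ : ℂ) (H : HkT C) : Prop :=
  AtTau F A H τ ∧ ∃ H', K.Mem τ H' ∧ ∀ i, ∀ z ∈ (C.e i).target, H'.J 0 i z = H.J 0 i z

theorem memW_of_mem {K : Cusp F A} {τ : ℂ} {H : HkT C} (h : K.Mem τ H) : MemW K τ H :=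
  ⟨K.mem_at τ H h, H, h, fun _ _ _ => rfl⟩

theorem memW_of_memN {K : Cusp F A} {τ : ℂ} {H : HkT C} (h : MemN K τ H) : MemW K τ H := by
  obtain ⟨⟨H', R, hR, hM, hR0, he⟩, z, hz, h1, h2⟩ := h
  have hJ : ∀ i, ∀ x ∈ (C.e i).target, H'.J 0 i x = H.J 0 i x := by
    intro i x hx
    rw [← he.J 0 i x hx, HkT.rot_J, hR0]
    ext1 v
    rw [HkT.Jv_apply]
    simp
  have hom : Cl (H.om 0) (H'.om 0) := by
    refine Cl.of_eq_on fun i x hx => ?_
    rw [← he.om 0 i x hx, HkT.rot_om, hR0]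
    ext u v
    rw [F2.lin_w, Fin.sum_univ_three]
    simp
  refine ⟨⟨(K.mem_at τ H' hM).im_pos, hom.trans (K.mem_at τ H' hM).om0, (z : ℂ), ?_, ?_, ?_⟩,
    H', hM, hJ⟩
  · exact_mod_cast hz.ne'
  · simpa using h1
  · simpa using h2

/-! ### the static node -/

/-- **the static node** -/
def Node {N : ℕ} (Y : CDat (2 * n) N ℂ) (κ mu : ℝ) (H : HkT C) : Prop :=
  ∃ (A' : Atl (2 * n) X) (_ : Finite A'.ι) (_ : GoodA A') (_ : Nonempty (Part A'))
    (hp : Cp (H.acm 0) A') (O : LB A') (U : Fin (N + 1) → Fn A') (σ : HSymp A') (h : HM O),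
    ConeC Y O U ∧ FormC Y.D U σ.toH2 ∧
    (∀ i, ∀ x ∈ (A'.e i).source, cur h i x = (κ : ℂ) • (H.kah hp).g i x) ∧
    ∀ i, ∀ x ∈ (A'.e i).source, ‖(σ.s i x).det‖ = mu * ((H.kah hp).g i x).det.re

/-- the output at one structure -/
def SD [MeasurableSpace X] [BorelSpace X] (m v C0 c : ℝ) (d : ℕ) (L : ℝ) (H : HkT C) : Prop :=
  ∃ (A' : Atl (2 * n) X) (_ : Finite A'.ι) (_ : GoodA A') (_ : Nonempty (Part A'))
    (hp : Cp (H.acm 0) A') (K' : Kah A') (Lb : LB A') (h : HM Lb)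
    (s : Fin (2 * n + 1) → A'.ι → X → ℂ) (om : A'.ι → X → ℂ),
    (∀ i, ∀ x ∈ (A'.e i).source, K'.g i x = (L : ℂ) • (H.kah hp).g i x) ∧
    SDat A' K' Lb h s om m v C0 c d L

variable [CompactSpace X] [T2Space X] [ConnectedSpace X]

/-- a connected model -/
theorem Node.conn {N : ℕ} {Y : CDat (2 * n) N ℂ} {κ mu : ℝ} {H : HkT C} (h : Node Y κ mu H) :
    ConnM Y := by
  obtain ⟨A', -, -, -, hp, O, U, σ, hm, hC, -⟩ := h
  exact ⟨X, inferInstance, inferInstance, A', O, U, hC⟩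

/-- **SDAT-RAY from the static node** -/
theorem sdat_end_of [MeasurableSpace X] [BorelSpace X] (hX : Ctx n C Q) (K : Cusp F A)
    (a : AlgE F A K)
    (hnode : ∀ {N : ℕ} (Y : CDat (2 * n) N ℂ), Y.Ok → ∀ (κ : ℝ) (β τ : ℂ) (H : HkT C),
      AtTau F A H τ → β ≠ 0 → MemA F A Y κ β τ H →
      Node Y κ ((√(F.N / Q A A) * ‖β‖ * τ.im) ^ (2 * n)) H)
    {τ₁ : ℂ} {H₁ : HkT C} (h₁ : K.Mem τ₁ H₁) :
    ∃ (m v C0 c : ℝ) (d : ℕ) (y0 c0 C1 : ℝ) (Lf : ℂ → ℝ), 0 < m ∧ 0 < v ∧ 0 < C0 ∧ 0 < c ∧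
      0 < c0 ∧ (∀ τ : ℂ, y0 < τ.im → 1 ≤ Lf τ ∧ c0 * τ.im ≤ Lf τ ∧ Lf τ ≤ C1 * τ.im) ∧
      ∀ τ : ℂ, y0 < τ.im → ∀ H, MemW K τ H → SD m v C0 c d (Lf τ) H := by
  have hn := hX.n1
  have hNF : NF K.Y a.r a.h a.k a.Ck := ⟨a.r_pos, a.h_diff, a.k_im, a.k_inv, a.k_bd⟩
  -- the constants of the plane
  have hat := K.mem_at τ₁ H₁ h₁
  obtain ⟨z₁, hz₁, hzN, -⟩ := Md_252.atTau_z hX.symm hX.ex hX.eq hat
  have hNp := F.hN
  have hQA : 0 < Q A A := by
    rw [← hzN]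
    have := norm_pos_iff.2 hz₁
    have := hat.im_pos
    positivity
  obtain ⟨P, q, κ₀, hκ₀, T, hQq⟩ := hX.top
  have hqA : 0 < q A := by
    have h1 := hQq A A
    rw [QuadraticMap.polar_self] at h1
    rw [h1] at hQA
    simp only [nsmul_eq_mul] at hQA
    push_cast at hQA
    by_contra hcon
    push Not at hcon
    nlinarith [mul_nonneg hκ₀.le (neg_nonneg.2 hcon)]
  set V : ℝ := q A ^ n / (2 ^ (2 * n) * (2 * n).factorial) with hV
  have hVp : 0 < V := by positivity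
  have hvol : ∀ (H : HkT C), Cl (H.om 0) A → ∀ (A' : Atl (2 * n) X) [Finite A'.ι]
      (_ : Part A') (hp : Cp (H.acm 0) A'), (vm (volK (H.kah hp))).real univ = V :=
    fun H hH A' _ Pt hp => Md_252.vol_mem (two_mul n) T hqA hH Pt hp
  -- the static node at the members
  have hst : ∀ (τ : ℂ) (H : HkT C) (hM : MemW K τ H) (hτ : 1 < (a.k τ).im),
      Node (a.Kc.mem fun i => ev (hp (a.k τ) hτ) (a.c' i)) a.κ
        ((√(F.N / Q A A) * ‖a.b (a.k τ)‖ * τ.im) ^ (2 * n)) H := by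
    intro τ H hM hτ
    obtain ⟨hA, H', hH', hJ⟩ := hM
    obtain ⟨m⟩ := a.mem τ H' hH'
    exact hnode _ (a.mem_ok _) a.κ _ τ H hA (a.b_ne _ hτ) (m.congr hJ)
  -- members over the points of the end
  obtain ⟨T₀, hT₀⟩ := hNF.k_per
  have hpt : ∀ z : Hp, max T₀ 1 < z.1.im → ∃ H, K.Mem (per a.r a.h z.1) H ∧
      Node (a.Kc.mem fun i => ev z (a.c' i)) a.κ
        ((√(F.N / Q A A) * ‖a.b z.1‖ * (per a.r a.h z.1).im) ^ (2 * n)) H := by
    intro z hz
    have hz0 : T₀ < z.1.im := (le_max_left _ _).trans_lt hz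
    have hz1 : 1 < z.1.im := (le_max_right _ _).trans_lt hz
    obtain ⟨e1, e2⟩ := hT₀ z.1 hz0
    obtain ⟨H, hH⟩ := mem_all K h₁ e1
    refine ⟨H, hH, ?_⟩
    have h3 := hst _ H (memW_of_mem hH) (by rw [e2]; exact hz1)
    have h4 : hp (a.k (per a.r a.h z.1)) (by rw [e2]; exact hz1) = z := Subtype.ext e2
    rw [h4, e2] at h3
    exact h3
  -- a chart of the code
  have hI : max T₀ 1 < (((|T₀| + 2 : ℝ) : ℂ) * I).im := by
    have : (((|T₀| + 2 : ℝ) : ℂ) * I).im = |T₀| + 2 := by simp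
    rw [this]
    exact max_lt (by linarith [le_abs_self T₀]) (by linarith [abs_nonneg T₀])
  obtain ⟨q₀⟩ : Nonempty (Fin a.Kc.Y.q) := by
    have hI0 : (0 : ℝ) < (((|T₀| + 2 : ℝ) : ℂ) * I).im :=
      lt_trans one_pos ((le_max_right _ _).trans_lt hI)
    obtain ⟨H, -, A', -, -, -, hp', O, U, σ, h, hC, -⟩ := hpt ⟨_, hI0⟩ hI
    obtain ⟨x⟩ : Nonempty X := inferInstance
    obtain ⟨i, hi⟩ := A'.cover x
    obtain ⟨k, hk⟩ := hC.nz i x hi
    obtain ⟨b, -⟩ := (a.mem_ok ⟨_, hI0⟩).exists_dG (v := fun k => U k i x)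
      (fun h0 => hk (congrFun h0 k)) fun l => hC.mem i x hi _ ⟨l, rfl⟩
    exact ⟨b⟩
  -- the algebraic data
  obtain ⟨j, hE⟩ := a.exists_end q₀ (l := lEnd) le_rfl
    (eventually_lEnd.2 ⟨max T₀ 1, fun z hz => by
      obtain ⟨H, -, hN⟩ := hpt z hz
      exact hN.conn⟩)
  have hAD := hE.algD
  -- the mass of the algebraic form
  have hmass : ∀ (z : Hp) (y : ℝ) (H : HkT C), Cl (H.om 0) A → ∀ (A' : Atl (2 * n) X)
      (_ : Finite A'.ι) (_ : Part A') (hp : Cp (H.acm 0) A') (σ : HSymp A'),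
      (∀ i, ∀ x ∈ (A'.e i).source, ‖(σ.s i x).det‖ =
        (√(F.N / Q A A) * ‖a.b z.1‖ * y) ^ (2 * n) * ((H.kah hp).g i x).det.re) →
      vm (volS σ) univ = ENNReal.ofReal
        ((√(F.N / Q A A) ^ (2 * n) * V) * ‖a.b z.1‖ ^ (2 * n) * y ^ (2 * n)) := by
    intro z y H hH A' _ Pt hp' σ hσ
    rw [Md_252.mass_univ ((even_two_mul n).pow_nonneg _) hσ, hvol H hH A' Pt hp']
    congr 1
    rw [mul_pow, mul_pow]
    ring
  obtain ⟨c1', C1', hc1', hy'⟩ := hNF.im_per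
  have hκV : 0 < √(F.N / Q A A) ^ (2 * n) * V := by
    have : 0 < √(F.N / Q A A) := Real.sqrt_pos.2 (by positivity)
    positivity
  obtain ⟨k0, D, c1, C1, hc1, -, hends⟩ := norm_end_sq (M := X) (n := 2 * n) (by omega) hAD
    (b := a.b) (Y := 1) a.b_diff a.b_per a.b_ne hκV
    (yy := fun z => (per a.r a.h z.1).im) hc1' hy'
    (eventually_lEnd.2 ⟨max T₀ 1, fun z hz => by
      obtain ⟨H, hH, A', i1, -, ⟨Pt⟩, hp', O, U, σ, h, hC, hF, hcur, hdet⟩ := hpt z hz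
      rw [← a.Y_ev z] at hC hF
      exact ⟨A', inferInstance, O, U, σ, hE.isMb hC hF,
        hmass z _ H (K.mem_at _ H hH).om0 A' i1 Pt hp' σ hdet⟩⟩)
  obtain ⟨T₁, hT₁⟩ := eventually_lEnd.1 hends
  -- one member
  have hone : ∀ (z : Hp) (hz : max (max T₀ T₁) 1 < z.1.im) (H : HkT C), Cl (H.om 0) A →
      ∀ (A' : Atl (2 * n) X) (_ : Finite A'.ι) (_ : Part A') (hp : Cp (H.acm 0) A')
        (O : LB A') (U : Fin (a.N + 1) → Fn A') (σ : HSymp A') (h : HM O),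
        ConeC (a.Kc.mem fun i => ev z (a.c' i)) O U →
        FormC (a.Kc.mem fun i => ev z (a.c' i)).D U σ.toH2 →
        (∀ i, ∀ x ∈ (A'.e i).source, cur h i x = (a.κ : ℂ) • (H.kah hp).g i x) →
        (∀ i, ∀ x ∈ (A'.e i).source, ‖(σ.s i x).det‖ =
          (√(F.N / Q A A) * ‖a.b z.1‖ * (per a.r a.h z.1).im) ^ (2 * n) *
            ((H.kah hp).g i x).det.re) →
        MemS (Crest.Agent.R281.GTi_989.prD (a.Y.κ q₀)) (Crest.Agent.R281.GTi_989.fmD a.Y.D j)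
          (ev z) A' O U σ (H.kah hp) h a.κ V V ((2 * n : ℕ) * k0) c1 C1 (Ls z) := by
    intro z hz H hH A' i1 Pt hp' O U σ h hC hF hcur hdet
    have z0 : T₀ < z.1.im := ((le_max_left _ _).trans (le_max_left _ _)).trans_lt hz
    have z1 : T₁ < z.1.im := ((le_max_right _ _).trans (le_max_left _ _)).trans_lt hz
    have z2 : 1 < z.1.im := (le_max_right _ _).trans_lt hz
    rw [← a.Y_ev z] at hC hF
    obtain ⟨e1, e2⟩ := hT₁ z z1
    have hv := hvol H hH A' Pt hp'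
    refine ⟨mbV_of (hE.isMb hC hF) (hmass z _ H hH A' i1 Pt hp' σ hdet) e1 e2, hcur,
      ⟨_, ?_, hdet⟩, hv.ge, hv.le⟩
    have hy0 : 0 < (per a.r a.h z.1).im := K.hY.trans (hT₀ z.1 z0).1
    have hb0 : 0 < ‖a.b z.1‖ := norm_pos_iff.2 (a.b_ne _ z2)
    have hs0 : 0 < √(F.N / Q A A) := Real.sqrt_pos.2 (by positivity)
    positivity
  obtain ⟨m, v, C0, c, d, hm, hv, hC0, hc, hfin⟩ := sdat_of (M := X) scale_mg hAD hVp hc1
    (eventually_lEnd.2 ⟨max (max T₀ T₁) 1, fun z hz => by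
      obtain ⟨H, hH, A', i1, -, ⟨Pt⟩, hp', O, U, σ, h, hC, hF, hcur, hdet⟩ := hpt z
        (lt_of_le_of_lt (max_le_max (le_max_left _ _) le_rfl) hz)
      exact ⟨A', inferInstance, O, U, σ, H.kah hp', h,
        hone z hz H (K.mem_at _ H hH).om0 A' i1 Pt hp' O U σ h hC hF hcur hdet⟩⟩)
  obtain ⟨T₂, hT₂⟩ := eventually_lEnd.1 hfin
  obtain ⟨y1, hy1⟩ := hNF.k_high (max (max (max T₀ T₁) 1) T₂)
  obtain ⟨c0', C0', y2, hc0', hy2⟩ := hNF.im_k
  obtain ⟨C3, hC3, hC3'⟩ : ∃ C3 : ℝ, 0 < C3 ∧ C0' ≤ C3 := ⟨max C0' 1, by positivity, le_max_left _ _⟩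
  refine ⟨m * a.κ, v, C0, c, d, max y1 y2, C3⁻¹, c0'⁻¹, fun τ => 2 * Real.pi * (a.k τ).im,
    mul_pos (by exact_mod_cast hm) a.κ_pos, hv, hC0, hc, by positivity, fun τ hτ => ?_,
    fun τ hτ H hM => ?_⟩
  · have t1 : y1 < τ.im := (le_max_left _ _).trans_lt hτ
    have t2 : y2 < τ.im := (le_max_right _ _).trans_lt hτ
    obtain ⟨-, f1⟩ := hy1 τ t1
    obtain ⟨-, f2, f3⟩ := hy2 τ t2
    have f4 : 1 < (a.k τ).im :=
      ((le_max_right _ _).trans (le_max_left _ _)).trans_lt f1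
    have hpi := Real.pi_gt_three
    have f5 : 0 < 2 * Real.pi * (a.k τ).im := by positivity
    refine ⟨by nlinarith, ?_, ?_⟩
    · rw [inv_mul_le_iff₀ hC3]
      exact f3.trans (mul_le_mul_of_nonneg_right hC3' f5.le)
    · rw [le_inv_mul_iff₀ hc0']
      exact f2
  · have t1 : y1 < τ.im := (le_max_left _ _).trans_lt hτ
    obtain ⟨f0, f1⟩ := hy1 τ t1
    have g1 : max (max T₀ T₁) 1 < (a.k τ).im := (le_max_left _ _).trans_lt f1
    have g2 : 1 < (a.k τ).im := (le_max_right _ _).trans_lt g1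
    have g3 : T₂ < (a.k τ).im := (le_max_right _ _).trans_lt f1
    have hper : per a.r a.h (a.k τ) = τ := a.k_inv τ f0
    obtain ⟨A', i1, i2, ⟨Pt⟩, hp', O, U, σ, h, hC, hF, hcur, hdet⟩ := hst τ H hM g2
    have hS := hone (hp (a.k τ) g2) g1 H hM.1.om0 A' i1 Pt hp' O U σ h hC hF hcur (by
      have h5 : (per a.r a.h (hp (a.k τ) g2).1).im = τ.im := by
        show (per a.r a.h (a.k τ)).im = τ.im
        rw [hper]
      rw [h5]
      exact hdet)
    have hL : 0 < Ls (hp (a.k τ) g2) := by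
      have hpi := Real.pi_pos
      have : 0 < (a.k τ).im := by linarith
      show 0 < 2 * Real.pi * (a.k τ).im
      positivity
    obtain ⟨s, om, hSD⟩ := hT₂ (hp (a.k τ) g2) g3 A' O U σ (H.kah hp') h hS
      (Ins_615.sc (Ls (hp (a.k τ) g2)) hL (H.kah hp')) fun i x _ => Ins_615.sc_g _ hL _ i x
    exact ⟨A', i1, i2, ⟨Pt⟩, hp', _, _, _, s, om, fun i x _ => Ins_615.sc_g _ hL _ i x, hSD⟩

end Crest.Agent.R281.SDR_273
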