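import Crest.Agent.R281.Cr1_808
import Crest.Agent.R281.ThS_612
import Crest.Agent.R281.Xi7_831
import Crest.Agent.R281.SDR3_273

/-!
# R281, CORE-ASM (helper808), part 2: the composition on a vertical strip of periods

* `MemN.im`, `MemN.cl0`, `MemN.at`, `MemN.cl2` : periods of the rotated members
* `SdatEnd`    : output of SDAT-RAY (273) for `K`; `sdatEnd_of` (modulo the static node)
* `core_ray_of`: **tubes at all members with `|re τ| ≤ B`, `im τ > Y1`** from `SdatEnd`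
-/

set_option autoImplicit false
set_option linter.unusedSectionVars false
set_option maxSynthPendingDepth 3

open Set Filter Topology Complex Metric MeasureTheory
open scoped ContDiff Matrix ComplexConjugate ComplexOrder ENNReal

namespace Crest.Agent.R281.Cr_808

open Crest.Agent.R275.Geo Crest.Agent.R275.Core144 Crest.Agent.R275.EDR890
open Crest.Agent.R275.GC293
open Crest.Agent.R273.Defs_333 Crest.Agent.R273.Hess_333 Crest.Agent.R273.HessB_333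
open Crest.Agent.R273.HM_333 Crest.Agent.R273.Kah_333 Crest.Agent.R273.Vol_333
open Crest.Agent.R273.Vm_333 Crest.Agent.R273.FIb0_597
open Crest.Agent.R260.ACM_580 Crest.Agent.R260.NNB_580
open Crest.Agent.R281.Tor_922 Crest.Agent.R281.SIn_14
open Crest.Agent.R281.HkR_835 Crest.Agent.R281.Per_368 Crest.Agent.R281.Dif_268
open Crest.Agent.R281.T5L_808 Crest.Agent.R281.T5D_808 Crest.Agent.R281.T5F_808
open Crest.Agent.R281.Cdr_234
open Crest.Agent.R281.Ti_846 (Ex)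
open Crest.Agent.R281.Mc673 (V W tube ClF kv mn isOpen_tube)
open Crest.Agent.R281.Sta2_684 (smulP)
open Crest.Agent.R281.RkD_902 (Ctx MemN)
open Crest.Agent.R281.Alg_998
open Crest.Agent.R281.SDR_273 (MemW memW_of_memN Node SD)
open Crest.Agent.R238.Sch (ee norm_ee)

noncomputable section

/-! ### rotated members -/

section mem

variable {V X : Type} [NormedAddCommGroup V] [NormedSpace ℝ V] [TopologicalSpace X]
  {C : RCh V X} {Q : F2 C →ₗ[ℝ] F2 C →ₗ[ℝ] ℝ} {F : Frm C Q} {A : F2 C} {K : Cusp F A} {τ : ℂ}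
  {H : HkT C}

theorem memN_im (h : MemN K τ H) : K.Y < τ.im := by
  obtain ⟨⟨H', R, hR, hm, -⟩, -⟩ := h
  exact K.mem_im τ H' hm

theorem memN_at (h : MemN K τ H) : AtTau F A H τ := by
  obtain ⟨⟨H', R, hR, hm, h0, he⟩, z, hz, h1, h2⟩ := h
  have h3 : (H'.rot R hR).om 0 = H'.om 0 := by
    show F2.lin (R 0) H'.om = _
    rw [F2.lin_eq, Fin.sum_univ_three, h0]
    simp
  have h4 : Cl (H.om 0) ((H'.rot R hR).om 0) := Cl.of_eq_on fun i z hz => (he.om 0 i z hz).symm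
  rw [h3] at h4
  refine ⟨K.hY.trans (K.mem_im τ H' hm), h4.trans (K.mem_at τ H' hm).om0, z,
    by exact_mod_cast hz.ne', ?_, ?_⟩
  · simpa using h1
  · simpa using h2

end mem

section ctx

variable {n : ℕ} {X : Type} [TopologicalSpace X] [CompactSpace X]
  {C : RCh (Cn (2 * n)) X} {Q : F2 C →ₗ[ℝ] F2 C →ₗ[ℝ] ℝ} {F : Frm C Q} {A : F2 C} {K : Cusp F A}

/-- `[om 0]`, `[om 2]` are orthogonal to `e` -/
theorem memN_perp (hX : Ctx n C Q) (hAe : Q A F.e = 0) {τ : ℂ} {H : HkT C} (h : MemN K τ H) :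
    Q (H.om 0) F.e = 0 ∧ Q (H.om 2) F.e = 0 := by
  constructor
  · rw [hX.cl_left (memN_at h).om0, hAe]
  · obtain ⟨-, z, -, -, h2⟩ := h
    rw [hX.cl_left h2, Frm.sim]
    simp only [map_smul, map_sub, LinearMap.smul_apply, LinearMap.sub_apply, smul_eq_mul, F.e_e]
    rw [hX.symm, F.e_v]
    ring

variable [MeasurableSpace X] [BorelSpace X]

/-- output of SDAT-RAY (273) -/
def SdatEnd (K : Cusp F A) : Prop :=
  ∃ (m v C0 c : ℝ) (d : ℕ) (y0 c0 : ℝ) (Lf : ℂ → ℝ), 0 < m ∧ 0 < v ∧ 0 < c ∧ 0 < c0 ∧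
    (∀ τ : ℂ, y0 < τ.im → c0 * τ.im ≤ Lf τ) ∧
    ∀ τ : ℂ, y0 < τ.im → ∀ H : HkT C, MemW K τ H → SD m v C0 c d (Lf τ) H

theorem sdatEnd_of {K : Cusp F A}
    (h : ∃ (m v C0 c : ℝ) (d : ℕ) (y0 c0 C1 : ℝ) (Lf : ℂ → ℝ), 0 < m ∧ 0 < v ∧ 0 < C0 ∧ 0 < c ∧
      0 < c0 ∧ (∀ τ : ℂ, y0 < τ.im → 1 ≤ Lf τ ∧ c0 * τ.im ≤ Lf τ ∧ Lf τ ≤ C1 * τ.im) ∧
      ∀ τ : ℂ, y0 < τ.im → ∀ H, MemW K τ H → SD m v C0 c d (Lf τ) H) : SdatEnd K := by
  obtain ⟨m, v, C0, c, d, y0, c0, C1, Lf, hm, hv, -, hc, hc0, h1, h2⟩ := h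
  exact ⟨m, v, C0, c, d, y0, c0, Lf, hm, hv, hc, hc0, fun τ hτ => (h1 τ hτ).2.1, h2⟩

variable [T2Space X] [ConnectedSpace X]

/-- **tubes at the high members** -/
theorem core_ray_of (hX : Ctx n C Q) (K : Cusp F A) (hAe : Q A F.e = 0)
    (hSd : (∃ τ H, MemN K τ H) → SdatEnd K) (B : ℝ) :
    ∃ Λ : ℝ, 0 < Λ ∧ ∀ R δ : ℝ, 0 < R → 0 < δ → ∃ Y1 : ℝ, ∀ τ : ℂ, |τ.re| ≤ B → Y1 < τ.im →
      ∀ H : HkT C, MemN K τ H →
      ∃ (A' : Atl (2 * n) X) (_ : Finite A'.ι) (_ : GoodA A') (_ : Nonempty (Part A'))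
        (hp : Cp (H.acm 0) A') (L : ℝ) (hL : 0 < L) (Θ : W (2 * n) → X),
        Mtub H {v | Q v F.e = 0} R Λ δ A' hp L hL Θ := by
  by_cases hne : ∃ τ H, MemN K τ H
  swap
  · exact ⟨1, one_pos, fun R δ _ _ => ⟨0, fun τ _ _ H hH => (hne ⟨τ, H, hH⟩).elim⟩⟩
  obtain ⟨τ1, H1, hH1⟩ := id hne
  have hQA : 0 < Q A A := by
    obtain ⟨z₁, hz₁, hzN, -⟩ := Md_252.atTau_z hX.symm hX.ex hX.eq (memN_at hH1)
    rw [← hzN]
    have h1 := norm_pos_iff.2 hz₁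
    have h2 := (memN_at hH1).im_pos
    have h3 := F.hN
    positivity
  obtain ⟨κ, b, hb, hbe, hsp, -⟩ := Pall_162.ctx_exists_perp hX H1 F.int_e.rat
  obtain ⟨Cf, hCf, hXi⟩ := Xi_831.xi_ray hX F hQA b hbe B
  obtain ⟨m, v, C0, c, d, y0, c0, Lf, hm, hv, hc, hc0, hLf, hSd⟩ := hSd hne
  have hn := hX.n1
  obtain ⟨Λ, hΛ, δ0, hδ0, hmt⟩ := member_tube ThS_612.theoremS (2 * n) d m v C0 c (by omega)
    hm hv hc
  refine ⟨Λ, hΛ, fun R δ hR hδ => ?_⟩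
  obtain ⟨L0, hL0, hmt⟩ := hmt R δ hR hδ
  refine ⟨max (max y0 1) ((L0 + Cf / δ0) / c0), fun τ hre him H hH => ?_⟩
  have h1 : y0 < τ.im := lt_of_le_of_lt ((le_max_left _ _).trans (le_max_left _ _)) him
  have h2 : 1 ≤ τ.im := (lt_of_le_of_lt ((le_max_right _ _).trans (le_max_left _ _)) him).le
  have h3 : (L0 + Cf / δ0) / c0 < τ.im := lt_of_le_of_lt (le_max_right _ _) him
  rw [div_lt_iff₀ hc0] at h3
  have h4 : L0 + Cf / δ0 ≤ Lf τ := by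
    have := hLf τ h1
    linarith
  have h5 : 0 ≤ Cf / δ0 := by positivity
  have hL1 : L0 ≤ Lf τ := by linarith
  have hL : 0 < Lf τ := by linarith
  have hL2 : Cf ≤ δ0 * Lf τ ^ 2 := by
    have h6 : Cf / δ0 ≤ Lf τ ^ 2 := by nlinarith
    rw [div_le_iff₀ hδ0] at h6
    linarith
  obtain ⟨A', hfin, hgood, ⟨P⟩, hp, K', Lb, h, s, om, hK, hSD⟩ := hSd τ h1 H (memW_of_memN hH)
  obtain ⟨b', hb', Fn, hFc, hF0, hbd, hint⟩ := hXi τ hre h2 H (memN_at hH) A' P (H.kah hp)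
    (H.sig hp) (cmp_of_cp hp) (Md_252.memK_of P H hp)
  obtain ⟨ho0, ho2⟩ := memN_perp hX hAe hH
  obtain ⟨Θ, hΘ⟩ := hmt (Lf τ) hL1 hL X C H A' P hp K' Lb h s om hK hSD b hb (hsp _ ho0)
    (hsp _ ho2) b' hb' Fn Cf hFc hF0 hCf hL2 (fun k i x hx u v => by
      rw [mul_assoc]
      exact hbd k i x hx u v) hint
  exact ⟨A', hfin, hgood, ⟨P⟩, hp, Lf τ, hL, Θ, hΘ.tub, hΘ.pin, fun v hv => hΘ.per v (hsp v hv)⟩

end ctx

end

end Crest.Agent.R281.Cr_808
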