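import Crest.Agent.R281.Cr2_808

/-!
# R281, CORE-ASM (helper808), part 3: the form for a `Road`

* `road_tube` : `R : Road Alg B`, `SdatEnd R.K` ==> for every real part `x` tubes at all members
  `MemN R.K ⟨x, y⟩ H`, `y` large, with zero periods for all classes of `e^⊥`
-/

set_option autoImplicit false
set_option linter.unusedSectionVars false
set_option maxSynthPendingDepth 3

open Set Filter Topology Complex Metric MeasureTheory
open scoped ContDiff Matrix ComplexConjugate ComplexOrder ENNReal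

namespace Crest.Agent.R281.Cr_808

open Crest.Agent.R275.Geo Crest.Agent.R275.Core144 Crest.Agent.R275.EDR890
open Crest.Agent.R275.GC293
open Crest.Agent.R260.ACM_580 Crest.Agent.R260.NNB_580
open Crest.Agent.R281.HkR_835
open Crest.Agent.R281.RkD_902
open Crest.Agent.R281.Alg_998
open Crest.Agent.R281.Mc673 (W)

noncomputable section

variable {n : ℕ} {X : Type} [TopologicalSpace X] [CompactSpace X] [T2Space X] [ConnectedSpace X]
  [MeasurableSpace X] [BorelSpace X]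
  {C : RCh (Cn (2 * n)) X} {Q : F2 C →ₗ[ℝ] F2 C →ₗ[ℝ] ℝ} {Alg : AlgT Q} {H0 : HkT C} {e : F2 C}
  {Bo : Box Q H0 e}

/-- **tubes on a vertical ray of the road** -/
theorem road_tube_of (hX : Ctx n C Q) (Rd : Road Alg Bo)
    (hSd : (∃ τ H, MemN Rd.K τ H) → SdatEnd Rd.K) (x : ℝ) :
    ∃ Λ : ℝ, 0 < Λ ∧ ∀ R δ : ℝ, 0 < R → 0 < δ → ∃ Y1 : ℝ, ∀ y : ℝ, Y1 < y →
      ∀ H : HkT C, MemN Rd.K ⟨x, y⟩ H →
      ∃ (A' : Atl (2 * n) X) (_ : Finite A'.ι) (_ : GoodA A') (_ : Nonempty (Part A'))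
        (hp : Cp (H.acm 0) A') (L : ℝ) (hL : 0 < L) (Θ : W (2 * n) → X),
        Mtub H {v | Q v e = 0} R Λ δ A' hp L hL Θ := by
  obtain ⟨Λ, hΛ, h⟩ := core_ray_of hX Rd.K Rd.Ae hSd |x|
  rw [Rd.Fe] at h
  refine ⟨Λ, hΛ, fun R δ hR hδ => ?_⟩
  obtain ⟨Y1, h1⟩ := h R δ hR hδ
  exact ⟨Y1, fun y hy H hH => h1 ⟨x, y⟩ le_rfl hy H hH⟩

end

end Crest.Agent.R281.Cr_808
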