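import Crest.Agent.R281.Ehr8_268
import Crest.Agent.R281.Ehr9_268
import Crest.Agent.R281.QF1_871
import Crest.Agent.R281.KrF_488

/-!
# R281 (S0424), PER-HOL (helper268, second hand), part 10: tangent spaces of the members

* `TS φ E x`     : the Zariski tangent space `{t | dF(x) t = 0 for F ∈ E^φ}`
* `finrank_TS`   : `dim_ℂ TS ≤ n + 1` at every point of the cone of a certificate (871)
* `span_tan`     : for an embedded real `2n`-manifold with values in the cone,
                   `TS = image Du + ℂ u`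
* `cx_of_cert`   : its tangent spaces are complex (`HEmb.Cx`)
* `nd_of_imp`    : the polynomial 2-form (867) is nondegenerate on it
-/

set_option autoImplicit false
set_option linter.unusedSectionVars false
set_option synthInstance.maxHeartbeats 200000
set_option maxSynthPendingDepth 3

open Set Filter Topology Complex
open scoped ContDiff

namespace Crest.Agent.R281.Ehr10_268

open Crest.Agent.R281.HkR_835 Crest.Agent.R281.Ehr2_268
open Crest.Agent.R281.Phl_655 Crest.Agent.R281.AF_867 Crest.Agent.R281.KrB4_871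
open Crest.Agent.R281.Kr_488 Crest.Agent.R281.QF_871 Crest.Agent.R281.Ehr9_268

noncomputable section

/-! ### linear algebra -/

section lin

variable {V H : Type} [NormedAddCommGroup V] [NormedSpace ℝ V] [FiniteDimensional ℝ V]
  [NormedAddCommGroup H] [NormedSpace ℂ H] [FiniteDimensional ℂ H]

theorem span_of_dim (T : Submodule ℂ H) {n : ℕ} (hT : Module.finrank ℂ T ≤ n + 1)
    (hV : Module.finrank ℝ V = 2 * n) (L : V →L[ℝ] H) {x : H} (hx : x ≠ 0) (hL : ∀ v, L v ∈ T)
    (hxT : x ∈ T) (inj : ∀ v, (∃ a : ℂ, L v = a • x) → v = 0) {t : H} (ht : t ∈ T) :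
    ∃ (v : V) (a : ℂ), t = L v + a • x := by
  have : FiniteDimensional ℝ H := FiniteDimensional.complexToReal H
  let TR : Submodule ℝ H := T.restrictScalars ℝ
  let Φ : (V × ℂ) →ₗ[ℝ] TR :=
    { toFun := fun p => ⟨L p.1 + p.2 • x, T.add_mem (hL p.1) (T.smul_mem p.2 hxT)⟩
      map_add' := fun p q => by
        ext1
        show L (p.1 + q.1) + (p.2 + q.2) • x = (L p.1 + p.2 • x) + (L q.1 + q.2 • x)
        rw [map_add, add_smul]
        abel
      map_smul' := fun r p => by
        ext1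
        show L (r • p.1) + (r • p.2) • x = r • (L p.1 + p.2 • x)
        rw [map_smul, smul_add, smul_assoc] }
  have hinj : Function.Injective Φ := by
    rw [injective_iff_map_eq_zero]
    intro p hp
    have h1 : L p.1 + p.2 • x = 0 := congrArg Subtype.val hp
    have h2 : p.1 = 0 := inj p.1 ⟨-p.2, by rw [neg_smul]; exact eq_neg_of_add_eq_zero_left h1⟩
    rw [h2, map_zero, zero_add] at h1
    have h3 : p.2 = 0 := by
      rcases smul_eq_zero.mp h1 with h | h
      · exact h
      · exact absurd h hx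
    exact Prod.ext h2 h3
  have hTR : Module.finrank ℝ TR = 2 * Module.finrank ℂ T := finrank_real_of_complex T
  have hVC : Module.finrank ℝ (V × ℂ) = 2 * n + 2 := by
    rw [Module.finrank_prod, hV, Complex.finrank_real_complex]
  have hle : Module.finrank ℝ (V × ℂ) ≤ Module.finrank ℝ TR :=
    LinearMap.finrank_le_finrank_of_injective hinj
  have heq : Module.finrank ℝ (V × ℂ) = Module.finrank ℝ TR := by omega
  have hsurj : Function.Surjective Φ :=
    (LinearMap.injective_iff_surjective_of_finrank_eq_finrank heq).mp hinj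
  obtain ⟨p, hp⟩ := hsurj ⟨t, ht⟩
  exact ⟨p.1, p.2, (congrArg Subtype.val hp).symm⟩

end lin

/-! ### the tangent space of the cone -/

variable {n N : ℕ} {R : Type*} [CommRing R]

/-- the Zariski tangent space -/
def TS (φ : R →+* ℂ) (E : Set (MvPolynomial (Fin (N + 1)) R)) (x : Fin (N + 1) → ℂ) :
    Submodule ℂ (EuclideanSpace ℂ (Fin (N + 1))) where
  carrier := {t | TanE (MvPolynomial.map φ '' E) x (fun i => t i)}
  add_mem' := by
    intro a b ha hb p hp
    have h1 := dE_add_right p x (fun i => a i) (fun i => b i)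
    have h2 : (fun i => (a + b) i) = (fun i => a i) + fun i => b i := rfl
    rw [h2, h1, ha p hp, hb p hp, add_zero]
  zero_mem' := by
    intro p hp
    have h2 : (fun i => (0 : EuclideanSpace ℂ (Fin (N + 1))) i) = (0 : ℂ) • fun _ => (0 : ℂ) := by
      funext i
      simp
    rw [h2, dE_smul_right, zero_mul]
  smul_mem' := by
    intro c a ha p hp
    have h2 : (fun i => (c • a) i) = c • fun i => a i := rfl
    rw [h2, dE_smul_right, ha p hp, mul_zero]

theorem mem_TS {φ : R →+* ℂ} {E : Set (MvPolynomial (Fin (N + 1)) R)} {x : Fin (N + 1) → ℂ}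
    {t : EuclideanSpace ℂ (Fin (N + 1))} :
    t ∈ TS φ E x ↔ TanE (MvPolynomial.map φ '' E) x (fun i => t i) := Iff.rfl

/-- the derivative of `Hv` -/
theorem fderiv_Hv_dE (κ : KDat n N ℂ) (u t : Fin (N + 1) → ℂ) (k : Fin (N + 1)) :
    fderiv ℂ κ.Hv u t k = dE (MvPolynomial.X k * κ.dG - κ.sub (κ.Nm k)) u t := by
  have h1 : HasFDerivAt (fun v => κ.Hv v k)
      ((ContinuousLinearMap.proj k).comp (fderiv ℂ κ.Hv u)) u :=
    (ContinuousLinearMap.proj (R := ℂ) (φ := fun _ : Fin (N + 1) => ℂ) k).hasFDerivAt.comp u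
      (differentiable_Hv κ u).hasFDerivAt
  have h2 : (fun v => κ.Hv v k) = fun v => MvPolynomial.eval v
      (MvPolynomial.X k * κ.dG - κ.sub (κ.Nm k)) := by
    funext v
    exact κ.Hv_eq v k
  rw [h2] at h1
  have h3 := hasFDerivAt_ev (f := fun i (v : Fin (N + 1) → ℂ) => v i)
    (f' := fun i => ContinuousLinearMap.proj i) (z0 := u)
    (fun i => (ContinuousLinearMap.proj (R := ℂ) (φ := fun _ : Fin (N + 1) => ℂ) i).hasFDerivAt)
    (MvPolynomial.X k * κ.dG - κ.sub (κ.Nm k))
  have h4 := congrArg (fun T : (Fin (N + 1) → ℂ) →L[ℂ] ℂ => T t) (h1.unique h3)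
  refine Eq.trans h4 ?_
  show (∑ i, MvPolynomial.eval (fun k => u k) (MvPolynomial.pderiv i
    (MvPolynomial.X k * κ.dG - κ.sub (κ.Nm k))) •
      (ContinuousLinearMap.proj i : (Fin (N + 1) → ℂ) →L[ℂ] ℂ)) t = _
  rw [sum_apply]
  rfl

/-- the dimension of the tangent space where `dG ≠ 0` -/
theorem finrank_TS_of_good {φ : R →+* ℂ} {E : Set (MvPolynomial (Fin (N + 1)) R)}
    {κ : KDat n N R} (h : κ.Good E) {x : Fin (N + 1) → ℂ}
    (hd : MvPolynomial.eval x (MvPolynomial.map φ κ.dG) ≠ 0) :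
    Module.finrank ℂ (TS φ E x) ≤ n + 1 := by
  have hg := KrB1_871.Good.map h φ
  set κ' := KrB1_871.mapK κ φ with hκ'
  have hd' : MvPolynomial.eval x κ'.dG ≠ 0 := by
    rw [hκ', KrB1_871.dG_map]
    exact hd
  let L : TS φ E x →ₗ[ℂ] (Fin (n + 1) → ℂ) :=
    { toFun := fun t j => lv (κ'.lam j) (fun i => t.1 i)
      map_add' := fun a b => by
        funext j
        exact lv_add (κ'.lam j) (fun i => a.1 i) (fun i => b.1 i)
      map_smul' := fun c a => by
        funext j
        exact lv_smul' (κ'.lam j) (fun i => a.1 i) c }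
  have hinj : Function.Injective L := by
    rw [injective_iff_map_eq_zero]
    intro t ht
    have h1 : (fun i => t.1 i) ∈ kerL κ' := mem_kerL.mpr fun j => congrFun ht j
    have h2 : fderiv ℂ κ'.Hv x (fun i => t.1 i) = 0 := by
      funext k
      rw [fderiv_Hv_dE]
      exact t.2 _ (hg.memN k)
    have h3 := hg.fderiv_inj hd' h1 h2
    ext i
    exact congrFun h3 i
  have h4 := LinearMap.finrank_le_finrank_of_injective hinj
  rwa [Module.finrank_fin_fun] at h4

theorem finrank_TS (c : Cert n N R) (φ : R →+* ℂ) {x : EuclideanSpace ℂ (Fin (N + 1))}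
    (hx : x ∈ c.cone φ) : Module.finrank ℂ (TS φ c.E (fun i => x i)) ≤ n + 1 := by
  obtain ⟨a, ha⟩ := KrB5_871.cover (ev := fun _ : ℂ => φ) c.cov 0 x hx
  exact finrank_TS_of_good (c.good a) ha

/-- the Euler vector is tangent -/
theorem self_mem_TS (c : Cert n N R) (φ : R →+* ℂ) {x : EuclideanSpace ℂ (Fin (N + 1))}
    (hx : x ∈ c.cone φ) : x ∈ TS φ c.E (fun i => x i) := by
  rintro _ ⟨F, hF, rfl⟩
  obtain ⟨m, hm⟩ := c.hom F hF
  rw [dE_self (hm.map φ), hx.2 F hF, mul_zero]

/-! ### embedded members -/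

variable {V X : Type} [NormedAddCommGroup V] [NormedSpace ℝ V] [TopologicalSpace X]
  [FiniteDimensional ℝ V] {C : RCh V X}

theorem vel_member (P : HEmb C (EuclideanSpace ℂ (Fin (N + 1)))) {i : C.ι} {z : V}
    (hz : z ∈ (C.e i).target) (v : V) {S : Set (ℂ × EuclideanSpace ℂ (Fin (N + 1)))}
    (hS : ∀ w ∈ P.cone, ((0 : ℂ), w) ∈ S) : Vel S 0 (P.u i z) (fderiv ℝ (P.u i) z v) := by
  refine ⟨fun t => P.u i (z + t • v), by simp, ?_, ?_⟩
  · have h1 : HasDerivAt (fun t : ℝ => z + t • v) v 0 := by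
      simpa using ((hasDerivAt_id (0 : ℝ)).smul_const v).const_add z
    have h2 : HasFDerivAt (P.u i) (fderiv ℝ (P.u i) z) (z + (0 : ℝ) • v) := by
      rw [zero_smul, add_zero]
      exact (((P.sm i).contDiffAt ((C.e i).open_target.mem_nhds hz)).differentiableAt
        (by simp)).hasFDerivAt
    exact h2.comp_hasDerivAt (0 : ℝ) h1
  · have h3 : Tendsto (fun t : ℝ => z + t • v) (𝓝 0) (𝓝 z) :=
      Continuous.tendsto' (by fun_prop) _ _ (by simp)
    filter_upwards [h3.eventually ((C.e i).open_target.mem_nhds hz)] with t ht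
    exact hS _ (P.mem_cone ht)

theorem fderiv_mem_TS (c : Cert n N R) (φ : R →+* ℂ) (P : HEmb C (EuclideanSpace ℂ (Fin (N + 1))))
    (hP : ∀ w ∈ P.cone, w ∈ c.cone φ) {i : C.ι} {z : V} (hz : z ∈ (C.e i).target) (v : V) :
    fderiv ℝ (P.u i) z v ∈ TS φ c.E (fun k => P.u i z k) :=
  tanE_of_vel (ev := fun _ : ℂ => φ) (S := KC (fun _ : ℂ => φ) c.E) (fun _ h => h)
    (vel_member P hz v fun w hw => hP w hw)

/-- **the tangent space is `image Du + ℂ u`** -/
theorem span_tan (c : Cert n N R) (φ : R →+* ℂ) (hV : Module.finrank ℝ V = 2 * n)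
    (P : HEmb C (EuclideanSpace ℂ (Fin (N + 1)))) (hP : ∀ w ∈ P.cone, w ∈ c.cone φ)
    {i : C.ι} {z : V} (hz : z ∈ (C.e i).target) {t : EuclideanSpace ℂ (Fin (N + 1))}
    (ht : t ∈ TS φ c.E (fun k => P.u i z k)) :
    ∃ (v : V) (a : ℂ), t = fderiv ℝ (P.u i) z v + a • P.u i z :=
  span_of_dim _ (finrank_TS c φ (hP _ (P.mem_cone hz))) hV (fderiv ℝ (P.u i) z) (P.ne i z hz)
    (fun v => fderiv_mem_TS c φ P hP hz v) (self_mem_TS c φ (hP _ (P.mem_cone hz)))
    (fun v hv => P.imm i z hz v hv) ht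

/-- **the tangent spaces of the members are complex** -/
theorem cx_of_cert (c : Cert n N R) (φ : R →+* ℂ) (hV : Module.finrank ℝ V = 2 * n)
    (P : HEmb C (EuclideanSpace ℂ (Fin (N + 1)))) (hP : ∀ w ∈ P.cone, w ∈ c.cone φ) : P.Cx :=
  fun _ _ hz v => span_tan c φ hV P hP hz
    ((TS φ c.E _).smul_mem I (fderiv_mem_TS c φ P hP hz v))

/-- **nondegeneracy of the polynomial form** -/
theorem nd_of_imp (c : Cert n N R) (φ : R →+* ℂ) (hV : Module.finrank ℝ V = 2 * n)
    {D : FDat (Fin (N + 1)) R} (hX : D.Exact) (hI : (D.map φ).Imp (MvPolynomial.map φ '' c.E))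
    (P : HEmb C (EuclideanSpace ℂ (Fin (N + 1)))) (hP : ∀ w ∈ P.cone, w ∈ c.cone φ)
    {i : C.ι} {z : V} (hz : z ∈ (C.e i).target) {j : Fin (N + 1)} (hj : P.u i z j ≠ 0) {v : V}
    (h0 : ∀ w, (D.map φ).b j (fun k => P.u i z k) (fun k => fderiv ℝ (P.u i) z v k)
      (fun k => fderiv ℝ (P.u i) z w k) = 0) : v = 0 := by
  have hon : OnE (MvPolynomial.map φ '' c.E) (fun k => P.u i z k) := by
    rintro _ ⟨F, hF, rfl⟩
    exact (hP _ (P.mem_cone hz)).2 F hF
  obtain ⟨a, ha⟩ := hI.nd (fun k => P.u i z k) (fun k => fderiv ℝ (P.u i) z v k) j hon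
    (fderiv_mem_TS c φ P hP hz v) (fun t ht => by
      obtain ⟨w, b, hw⟩ := span_tan c φ hV P hP hz (t := WithLp.toLp 2 t) ht
      have h1 : t = (fun k => fderiv ℝ (P.u i) z w k) + b • fun k => P.u i z k := by
        funext k
        exact congrArg (fun s : EuclideanSpace ℂ (Fin (N + 1)) => s k) hw
      rw [h1, FDat.b_add_right, FDat.b_smul_right, FDat.b_self_right j _ (hX.map φ), h0 w,
        mul_zero, add_zero]) hj
  refine P.imm i z hz v ⟨a, ?_⟩
  ext k
  exact congrFun ha k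

end

end Crest.Agent.R281.Ehr10_268
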