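import Crest.Agent.R281.HEc2_989
import Crest.Agent.R281.Alg1_867

/-!
# R281 (S0424), STATIC-CONE part 3 (helper989): members of an end (867's `MemA`)

* `exists_coneC` : a compact T2 `X`, `m : MemA F A Y κ β τ H` ==> atlas (finite, good, partition of
                   unity), `Cp (H.acm 0) A'`, `HolA m.P b A'`, `κ'`, `ConeC`
* `connM_of_memA`
* `AlgE.endAlg`  : the algebraic data over the end as soon as members exist over a filter `l ≤ lEnd`
-/

set_option autoImplicit false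
set_option linter.unusedSectionVars false

open Set Filter Topology Complex

noncomputable section

namespace Crest.Agent.R281.HEc_989

open Crest.Agent.R275.Geo Crest.Agent.R275.Core144 Crest.Agent.R275.GC293
open Crest.Agent.R273.Defs_333 Crest.Agent.R273.FS_333 Crest.Agent.R273.Fam_835
open Crest.Agent.R281.HkR_835 Crest.Agent.R281.Ti_846
open Crest.Agent.R281.Defs_273
open Crest.Agent.R281.Ehr2_268 Crest.Agent.R281.Alg_998 Crest.Agent.R281.RkD_902
open Crest.Agent.R281.CA_867 Crest.Agent.R281.AF_867 Crest.Agent.R281.Kr_488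
open Crest.Agent.R281.Pe_313 Crest.Agent.R281.CB_867 Crest.Agent.R281.GTi_989
open Crest.Agent.R281.Alg_867
open Crest.Agent.R281.Esc1_989 Crest.Agent.R281.Ends2_989 Crest.Agent.R281.Ends3_989
open Crest.Agent.R260.ACM_580 Crest.Agent.R260.NNB_580

variable {n N : ℕ} {X : Type} [TopologicalSpace X] {C : RCh (Cn (2 * n)) X}
  {Q : F2 C →ₗ[ℝ] F2 C →ₗ[ℝ] ℝ} {F : Frm C Q} {A : F2 C} {Y : CDat (2 * n) N ℂ} {κ : ℝ}
  {β τ : ℂ} {H : HkT C}

theorem finrank_Cn2 (n : ℕ) : Module.finrank ℝ (Cn n) = 2 * n := by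
  have h1 : Module.finrank ℝ (Cn n) = 2 * Module.finrank ℂ (Cn n) := by
    rw [← Module.finrank_mul_finrank ℝ ℂ (Cn n), Complex.finrank_real_complex]
  rw [h1, finrank_euclideanSpace, Fintype.card_fin]

theorem cx_of_memA (m : MemA F A Y κ β τ H) : m.P.Cx := m.cx.cx m.cmp

/-- **atlas and sections of a member** -/
theorem exists_coneC [CompactSpace X] [T2Space X] (m : MemA F A Y κ β τ H) {ι : Type*}
    (O : ι → Set X) (hO : ∀ k, IsOpen (O k)) (hOc : ∀ x, ∃ k, x ∈ O k) :
    ∃ (A' : Atl (2 * n) X) (_ : Finite A'.ι) (_ : GoodA A') (_ : Nonempty (Part A'))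
      (_ : Cp (H.acm 0) A') (h : HolA m.P (bE N) A') (k : A'.ι → Fin (N + 1))
      (hk : ∀ a, (A'.e a).source ⊆ OX m.P (bE N) (k a)),
      (∀ a, ∃ l, (A'.e a).source ⊆ O l) ∧
      ConeC Y (lb (h.toProj k hk)) fun j => sec (h.toProj k hk) j := by
  obtain ⟨A', h1, h2, h3, h4, h5, h6, -⟩ := exists_atl (cx_of_memA m) (finrank_Cn2 (2 * n)) (bE N)
    O hO hOc
  choose k hk using h6
  exact ⟨A', h1, h2, h3, m.cx.cp m.cmp h4, h4, k, hk, h5, coneC_of_holA h4 k hk Y m.cone⟩

theorem connM_of_memA [CompactSpace X] [T2Space X] [PreconnectedSpace X]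
    (m : MemA F A Y κ β τ H) : ConnM Y := by
  obtain ⟨A', -, -, -, -, h, k, hk, -, hc⟩ := exists_coneC m (fun _ : Unit => univ)
    (fun _ => isOpen_univ) fun x => ⟨(), mem_univ x⟩
  exact ⟨X, inferInstance, inferInstance, A', _, _, hc⟩

theorem seq_of_memA (m : MemA F A Y κ β τ H) : SEq m.P Y.D m.s1 m.s2 := m.s_eq

/-- **the algebraic data over the end** from members over a filter of points of the end -/
theorem endAlg_of_mem [CompactSpace X] [T2Space X] [PreconnectedSpace X] {K : Cusp F A}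
    (a : AlgE F A K) (q : Fin a.Kc.Y.q) {l : Filter Hp} [l.NeBot] (hl : l ≤ lEnd)
    (hM : ∀ᶠ z : Hp in l, ∃ τ H, K.Mem τ H ∧ a.k τ = z.1) : ∃ j, EndAlg a.Y q j := by
  refine a.exists_end q hl ?_
  filter_upwards [hM] with z hz
  obtain ⟨τ, H, hm, hk⟩ := hz
  obtain ⟨m⟩ := a.mem τ H hm
  have h1 := connM_of_memA m
  have h2 : hp (a.k τ) (a.k_im τ (K.mem_im τ H hm)) = z := Subtype.ext hk
  rw [h2] at h1
  exact h1

end Crest.Agent.R281.HEc_989
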