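import Crest.Agent.R281.Md5_252

/-!
# Row 281, MEMD-INST (helper252), part 6: the static node, composition

* `exists_vol`  : one volume for all members with `[om 0] = A`
* `NodeM`       : the node at one member
* `node_of`     : from `ConeC` (989) and `FormC` (998, 268) on the atlas of the embedding
-/

set_option autoImplicit false
set_option maxSynthPendingDepth 3
set_option linter.unusedSectionVars false

open Set Filter Topology Complex MeasureTheory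
open scoped ContDiff Matrix ComplexConjugate ComplexOrder

namespace Crest.Agent.R281.Md_252

open Crest.Agent.R275.Geo Crest.Agent.R275.Core144 Crest.Agent.R275.EDR890
open Crest.Agent.R275.GC293
open Crest.Agent.R273.Kah_333 Crest.Agent.R273.Hess_333 Crest.Agent.R273.HessB_333
open Crest.Agent.R273.Defs_333 Crest.Agent.R273.HM_333 Crest.Agent.R273.Vol_333
open Crest.Agent.R273.Vm_333
open Crest.Agent.R273.SerA_945 (Fn)
open Crest.Agent.R281.Defs_273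
open Crest.Agent.R260.ACM_580 Crest.Agent.R260.NNB_580
open Crest.Agent.R281.HkR_835 Crest.Agent.R281.Ti_846
open Crest.Agent.R281.NefO_476 Crest.Agent.R281.Dif_268
open Crest.Agent.R281.HkP2_508 Crest.Agent.R281.HkP1_508 Crest.Agent.R281.Ehr2_268
open Crest.Agent.R281.Pe_313 Crest.Agent.R281.CA_867 Crest.Agent.R281.GTi_989
open Crest.Agent.R281.Alg_998 Crest.Agent.R281.Al_830 Crest.Agent.R281.Alg_867
open Crest.Agent.R281.Fuj7_207 (bn bn_rfl)
open Crest.Agent.R281.Nef_252 Crest.Agent.R281.RkD_902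

noncomputable section

variable {n N : ℕ} {X : Type} [TopologicalSpace X] [CompactSpace X] {C : RCh (Cn (2 * n)) X}
  {Q : F2 C →ₗ[ℝ] F2 C →ₗ[ℝ] ℝ} {F : Frm C Q} {A : F2 C} {Y : CDat (2 * n) N ℂ} {κ : ℝ}
  {β τ : ℂ} {H : HkT C}

variable [T2Space X] [ConnectedSpace X] [MeasurableSpace X] [BorelSpace X]

/-- **one volume** for all members with `[om 0] = A` -/
theorem exists_vol (hctx : Ctx n C Q) (hA0 : 0 < Q A A) : ∃ V : ℝ, 0 < V ∧
    ∀ (H : HkT C), Cl (H.om 0) A → ∀ (A' : Atl (2 * n) X) [Finite A'.ι] (_ : Part A')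
      (hp : Cp (H.acm 0) A'), (vm (volK (H.kah hp))).real univ = V := by
  obtain ⟨P, q, κ, hκ, T, hQ⟩ := hctx.top
  have hq : 0 < q A := by
    have h1 := hQ A A
    rw [QuadraticMap.polar_self, nsmul_eq_mul] at h1
    rw [h1] at hA0
    have h2 : 0 < ((2 : ℕ) : ℝ) * q A := (mul_pos_iff_of_pos_left hκ).1 hA0
    exact (mul_pos_iff_of_pos_left (by norm_num)).1 h2
  refine ⟨q A ^ n / (2 ^ (2 * n) * (2 * n).factorial), by positivity, ?_⟩
  intro H hH A' _ Pt hp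
  exact vol_mem (two_mul n) T hq hH Pt hp

/-- **the node at one member** -/
structure NodeM (Y : CDat (2 * n) N ℂ) (κ mu V : ℝ) (H : HkT C) {A' : Atl (2 * n) X}
    [Finite A'.ι] (hp : Cp (H.acm 0) A') (O : LB A') (U : Fin (N + 1) → Fn A') (σ : HSymp A')
    (h : HM O) : Prop where
  cone : ConeC Y O U
  form : FormC Y.D U σ.toH2
  curv : ∀ i, ∀ x ∈ (A'.e i).source, cur h i x = (κ : ℂ) • (H.kah hp).g i x
  det : ∀ i, ∀ x ∈ (A'.e i).source, ‖(σ.s i x).det‖ = mu * ((H.kah hp).g i x).det.re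
  vol : (vm (volK (H.kah hp))).real univ = V
  mass : vm (volS σ) univ = ENNReal.ofReal (mu * V)

/-- the atlas of the embedding, subordinate to a cover -/
theorem memA_atl (m : MemA F A Y κ β τ H) {ι : Type*} (O : ι → Set X) (hO : ∀ k, IsOpen (O k))
    (hOc : ∀ x, ∃ k, x ∈ O k) :
    ∃ A' : Atl (2 * n) X, Finite A'.ι ∧ GoodA A' ∧ Nonempty (Part A') ∧
      HolA m.P (CB_867.bE N) A' ∧ Cp (H.acm 0) A' ∧ (∀ a, ∃ k, (A'.e a).source ⊆ O k) ∧
      ∃ κ' : A'.ι → Fin (N + 1), ∀ a, (A'.e a).source ⊆ OX m.P (CB_867.bE N) (κ' a) := by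
  have hV : Module.finrank ℝ (Cn (2 * n)) = 2 * (2 * n) := by
    rw [Module.finrank_eq_card_basis (bc (2 * n))]
    simp [mul_comm]
  obtain ⟨A', h1, h2, h3, h4, h5, h6, h7, -⟩ :=
    m.cx.exists_atl m.cmp hV (CB_867.bE N) O hO hOc
  choose κ' hκ' using h7
  exact ⟨A', h1, h2, h3, h4, h5, h6, κ', hκ'⟩

theorem node_of (hctx : Ctx n C Q) (hA0 : 0 < Q A A) {V : ℝ}
    (hV : ∀ (H : HkT C), Cl (H.om 0) A → ∀ (A' : Atl (2 * n) X) [Finite A'.ι] (_ : Part A')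
      (hp : Cp (H.acm 0) A'), (vm (volK (H.kah hp))).real univ = V)
    (hAt : AtTau F A H τ) (m : MemA F A Y κ β τ H) (hβ : β ≠ 0)
    (hC : ∀ (A' : Atl (2 * n) X) (h : HolA m.P (CB_867.bE N) A') (κ' : A'.ι → Fin (N + 1))
      (hκ' : ∀ a, (A'.e a).source ⊆ OX m.P (CB_867.bE N) (κ' a)),
      ConeC Y (Crest.Agent.R273.FS_333.lb (h.toProj κ' hκ'))
        (fun k => Crest.Agent.R273.FS_333.sec (h.toProj κ' hκ') k))
    (hF : ∀ (A' : Atl (2 * n) X) (h : HolA m.P (CB_867.bE N) A') (κ' : A'.ι → Fin (N + 1))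
      (hκ' : ∀ a, (A'.e a).source ⊆ OX m.P (CB_867.bE N) (κ' a)), ∃ σ : HSymp A',
      (∀ (i : A'.ι), ∀ z ∈ (A'.e i).target, ∀ u v, sb (sl σ.toH2 i z) u v =
        ((h.cmp.F m.s1).w i z u v : ℂ) + I * ((h.cmp.F m.s2).w i z u v : ℂ)) ∧
      FormC Y.D (fun k => Crest.Agent.R273.FS_333.sec (h.toProj κ' hκ') k) σ.toH2)
    {ι : Type*} (O : ι → Set X) (hO : ∀ k, IsOpen (O k)) (hOc : ∀ x, ∃ k, x ∈ O k) :
    ∃ (A' : Atl (2 * n) X) (_ : Finite A'.ι) (_ : GoodA A') (_ : Nonempty (Part A'))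
      (hp : Cp (H.acm 0) A') (L : LB A') (U : Fin (N + 1) → Fn A') (σ : HSymp A') (h : HM L),
      (∀ a, ∃ k, (A'.e a).source ⊆ O k) ∧
      NodeM Y κ ((√(F.N / Q A A) * ‖β‖ * τ.im) ^ (2 * n)) V H hp L U σ h := by
  obtain ⟨c, hc0, hc, hsig⟩ := memA_sig hctx hA0 hAt m hβ
  obtain ⟨A', h1, h2, ⟨Pt⟩, h, hp, h6, κ', hκ'⟩ := memA_atl m O hO hOc
  obtain ⟨σ, hσ, hFm⟩ := hF A' h κ' hκ'
  have hn : 2 ≤ 2 * n := by have := hctx.n1; omega
  obtain ⟨h', hcur⟩ := hm_toProj hn Pt H hp h κ' hκ' m.cmp m.W (fun i y hy v v' =>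
    m.W_eq i y hy v v') hAt.om0 m.W_cl
  have hs := hsig A' Pt hp h σ.toH2 hσ
  have hdet := sig_det hp hs
  rw [hc] at hdet
  have hmu : 0 ≤ (√(F.N / Q A A) * ‖β‖ * τ.im) ^ (2 * n) := by
    have := hAt.im_pos
    positivity
  have hvol := hV H hAt.om0 A' Pt hp
  refine ⟨A', h1, h2, ⟨Pt⟩, hp, _, _, σ, h', h6, hC A' h κ' hκ', hFm, hcur, hdet, hvol, ?_⟩
  rw [mass_univ hmu hdet, hvol]

end

end Crest.Agent.R281.Md_252
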