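import Crest.Agent.R281.SDR3_273
import Crest.Agent.R281.Md6_252
import Crest.Agent.R281.HEc3_989
import Crest.Agent.R281.Ehr10_268

/-!
# R281 (S0424), SDAT-RAY (helper273), part 4: the static node plugged in

* `nd_of_memA` : the algebraic form of a member is nondegenerate
* `node`       : the static node (252, 989, 268)
* `sdat_end`   : **SDAT-RAY** : `Alg` ⟹ `SIn_14.SDat` for all members over `{y0 < Im τ}`
-/

set_option autoImplicit false
set_option linter.unusedSectionVars false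
set_option maxSynthPendingDepth 3

open Set Filter Topology Complex MeasureTheory
open scoped ContDiff Matrix ComplexConjugate ComplexOrder ENNReal

noncomputable section

namespace Crest.Agent.R281.SDR_273

open Crest.Agent.R275.Geo Crest.Agent.R275.Core144 Crest.Agent.R275.EDR890
open Crest.Agent.R275.GC293
open Crest.Agent.R273.Defs_333 Crest.Agent.R273.Kah_333 Crest.Agent.R273.HM_333
open Crest.Agent.R273.Vol_333 Crest.Agent.R273.Vm_333
open Crest.Agent.R273.SerA_945 (Fn)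
open Crest.Agent.R260.ACM_580 Crest.Agent.R260.NNB_580
open Crest.Agent.R281.HkR_835 Crest.Agent.R281.Ti_846 Crest.Agent.R281.HkP2_508
open Crest.Agent.R281.Defs_273 Crest.Agent.R281.Ehr2_268 Crest.Agent.R281.Pe_313
open Crest.Agent.R281.Alg_998 Crest.Agent.R281.RkD_902 Crest.Agent.R281.Alg_867
open Crest.Agent.R281.CA_867 Crest.Agent.R281.AF_867
open Crest.Agent.R281.GTi_989 (ConeC FormC)

variable {n N : ℕ} {X : Type} [TopologicalSpace X] {C : RCh (Cn (2 * n)) X}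
  {Q : F2 C →ₗ[ℝ] F2 C →ₗ[ℝ] ℝ} {F : Frm C Q} {A : F2 C} {Y : CDat (2 * n) N ℂ} {κ : ℝ}
  {β τ : ℂ} {H : HkT C}

/-- the pointwise certificate of a complex certificate -/
def certOf {d : ℕ} (Y : CDat d N ℂ) (h : Y.Ok) : QF_871.Cert d N ℂ where
  E := range Y.G
  hom := by
    rintro _ ⟨l, rfl⟩
    exact h.hom l
  ι := Fin Y.q
  κ := Y.κ
  good := h.good
  m := Y.m
  cov := h.cov

theorem fdat_map_id (D : FDat (Fin (N + 1)) ℂ) : D.map (RingHom.id ℂ) = D := by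
  show (⟨_, _⟩ : FDat _ _) = D
  cases D with
  | mk m s =>
    congr 1
    funext j
    ext1 k l
    exact MvPolynomial.map_id _

/-- **the algebraic form of a member is nondegenerate** -/
theorem nd_of_memA (hY : Y.Ok) (m : MemA F A Y κ β τ H) : Nd m.s1 := by
  intro i z hz v hv
  have hV : Module.finrank ℝ (Cn (2 * n)) = 2 * (2 * n) := HEc_989.finrank_Cn2 (2 * n)
  have ht : Typ m.P m.s1 m.s2 := HEc_989.typ_of_seq hY.exact (HEc_989.seq_of_memA m)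
  have hcx := HEc_989.cx_of_memA m
  -- the imaginary part vanishes too
  have h2 : ∀ u, m.s2.w i z v u = 0 := by
    intro u
    obtain ⟨u', a, hu⟩ := hcx i z hz u
    have h3 := ht i z hz u u' v ⟨a, hu⟩
    rw [m.s1.alt i z hz u' v, hv u', m.s2.alt i z hz u v] at h3
    linarith
  obtain ⟨j, hj⟩ := HEc_989.exists_u_ne (P := m.P) hz
  have hcone : ∀ w ∈ m.P.cone, w ∈ (certOf Y hY).cone (RingHom.id ℂ) := by
    intro w hw
    obtain ⟨h3, h4⟩ := (m.cone w).1 hw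
    refine ⟨h3, ?_⟩
    intro p hp
    rw [MvPolynomial.map_id]
    exact h4 p hp
  refine Ehr10_268.nd_of_imp (certOf Y hY) (RingHom.id ℂ) hV hY.exact ?_ m.P hcone hz hj
    fun w => ?_
  · rw [fdat_map_id]
    have h5 : MvPolynomial.map (RingHom.id ℂ) '' (certOf Y hY).E = range Y.G := by
      show MvPolynomial.map (RingHom.id ℂ) '' range Y.G = range Y.G
      ext p
      simp [MvPolynomial.map_id]
    rw [h5]
    exact hY.imp_id
  · rw [fdat_map_id, ← m.s_eq i z hz j v w, hv w, h2 w]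
    simp

variable [CompactSpace X] [T2Space X] [ConnectedSpace X]

/-- **the static node** -/
theorem node [MeasurableSpace X] [BorelSpace X] (hX : Ctx n C Q) (hA0 : 0 < Q A A) (hY : Y.Ok)
    (hAt : AtTau F A H τ) (hβ : β ≠ 0) (m : MemA F A Y κ β τ H) :
    Node Y κ ((√(F.N / Q A A) * ‖β‖ * τ.im) ^ (2 * n)) H := by
  obtain ⟨V, -, hV⟩ := Md_252.exists_vol hX hA0
  have ht : Typ m.P m.s1 m.s2 := HEc_989.typ_of_seq hY.exact (HEc_989.seq_of_memA m)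
  have hnd := nd_of_memA hY m
  obtain ⟨A', h1, h2, h3, hp, L, U, σ, h, -, hN⟩ := Md_252.node_of hX hA0 hV hAt m hβ
    (fun A' h κ' hκ' => HEc_989.coneC_of_holA h κ' hκ' Y m.cone)
    (fun A' h κ' hκ' => ⟨h.hsymp ht hnd, fun i z hz u v => (h.hsymp_w ht hnd hz u v).symm,
      HEc_989.formC_of_holA h κ' hκ' hY.exact (HEc_989.seq_of_memA m) ht hnd⟩)
    (fun _ : Unit => univ) (fun _ => isOpen_univ) fun x => ⟨(), mem_univ x⟩
  exact ⟨A', h1, h2, h3, hp, L, U, σ, h, hN.cone, hN.form, hN.curv, hN.det⟩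

/-- `Q A A > 0` for the class of a cusp with members -/
theorem QAA_pos (hX : Ctx n C Q) (hAt : AtTau F A H τ) : 0 < Q A A := by
  obtain ⟨z, hz, h1, -⟩ := Md_252.atTau_z hX.symm hX.ex hX.eq hAt
  rw [← h1]
  have := norm_pos_iff.2 hz
  have := hAt.im_pos
  have := F.hN
  positivity

/-- **SDAT-RAY** -/
theorem sdat_end [MeasurableSpace X] [BorelSpace X] (hX : Ctx n C Q) (K : Cusp F A)
    (a : AlgE F A K) {τ₁ : ℂ} {H₁ : HkT C} (h₁ : K.Mem τ₁ H₁) :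
    ∃ (m v C0 c : ℝ) (d : ℕ) (y0 c0 C1 : ℝ) (Lf : ℂ → ℝ), 0 < m ∧ 0 < v ∧ 0 < C0 ∧ 0 < c ∧
      0 < c0 ∧ (∀ τ : ℂ, y0 < τ.im → 1 ≤ Lf τ ∧ c0 * τ.im ≤ Lf τ ∧ Lf τ ≤ C1 * τ.im) ∧
      ∀ τ : ℂ, y0 < τ.im → ∀ H, MemW K τ H → SD m v C0 c d (Lf τ) H :=
  sdat_end_of hX K a (fun _ hY _ _ _ _ hAt hβ m => node hX (QAA_pos hX hAt) hY hAt hβ m) h₁

/-- **SDAT-RAY**, with the predicate `Alg` of record -/
theorem sdat_alg {X : Type} [TopologicalSpace X] [CompactSpace X] [T2Space X]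
    [SimplyConnectedSpace X] [MeasurableSpace X] [BorelSpace X] {C : RCh (Cn (2 * n)) X}
    {Q : F2 C →ₗ[ℝ] F2 C →ₗ[ℝ] ℝ} (hX : Ctx n C Q) {F : Frm C Q} {A : F2 C} (K : Cusp F A)
    (a : Alg n X C Q F A K) {τ₁ : ℂ} {H₁ : HkT C} (h₁ : K.Mem τ₁ H₁) :
    ∃ (m v C0 c : ℝ) (d : ℕ) (y0 c0 C1 : ℝ) (Lf : ℂ → ℝ), 0 < m ∧ 0 < v ∧ 0 < C0 ∧ 0 < c ∧
      0 < c0 ∧ (∀ τ : ℂ, y0 < τ.im → 1 ≤ Lf τ ∧ c0 * τ.im ≤ Lf τ ∧ Lf τ ≤ C1 * τ.im) ∧
      ∀ τ : ℂ, y0 < τ.im → ∀ H, MemW K τ H → SD m v C0 c d (Lf τ) H := by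
  obtain ⟨a⟩ := a
  exact sdat_end hX K a h₁

end Crest.Agent.R281.SDR_273
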