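import Crest.Agent.R281.Cr3_808
import Crest.Agent.R281.SDR4_273

/-!
# R281, CORE-ASM (helper808), part 4: **CORE without hypotheses**

* `sdatEnd`  : 273's `sdat_end` in the form `SdatEnd`
* `core_ray` : `Ctx n C Q`, `AlgE F A K`, `Q A e = 0` ==> tubes at all members `MemN K τ H`,
  `|re τ| ≤ B`, `im τ > Y1`
* `road_tube`: the same for a `Road` with the predicate `Alg` of record
-/

set_option autoImplicit false
set_option linter.unusedSectionVars false
set_option maxSynthPendingDepth 3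

open Set Filter Topology Complex Metric MeasureTheory
open scoped ContDiff Matrix ComplexConjugate ComplexOrder ENNReal

namespace Crest.Agent.R281.Cr_808

open Crest.Agent.R275.Geo Crest.Agent.R275.Core144 Crest.Agent.R275.EDR890
open Crest.Agent.R275.GC293
open Crest.Agent.R260.ACM_580 Crest.Agent.R260.NNB_580
open Crest.Agent.R281.HkR_835
open Crest.Agent.R281.RkD_902
open Crest.Agent.R281.Alg_998
open Crest.Agent.R281.Alg_867 (AlgE)
open Crest.Agent.R281.Mc673 (W)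

noncomputable section

section conn

variable {n : ℕ} {X : Type} [TopologicalSpace X] [CompactSpace X] [T2Space X] [ConnectedSpace X]
  {C : RCh (Cn (2 * n)) X} {Q : F2 C →ₗ[ℝ] F2 C →ₗ[ℝ] ℝ} {F : Frm C Q} {A : F2 C}

theorem sdatEnd [MeasurableSpace X] [BorelSpace X] (hX : Ctx n C Q) (K : Cusp F A)
    (a : AlgE F A K) (h : ∃ τ H, MemN K τ H) : SdatEnd K := by
  obtain ⟨τ, H, ⟨H', R, hR, hm, -⟩, -⟩ := h
  exact sdatEnd_of (SDR_273.sdat_end hX K a hm)

/-- **CORE: tubes at the high members of an algebraic end** -/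
theorem core_ray (hX : Ctx n C Q) (K : Cusp F A) (a : AlgE F A K) (hAe : Q A F.e = 0) (B : ℝ) :
    ∃ Λ : ℝ, 0 < Λ ∧ ∀ R δ : ℝ, 0 < R → 0 < δ → ∃ Y1 : ℝ, ∀ τ : ℂ, |τ.re| ≤ B → Y1 < τ.im →
      ∀ H : HkT C, MemN K τ H →
      ∃ (A' : Atl (2 * n) X) (_ : Finite A'.ι) (_ : GoodA A') (_ : Nonempty (Part A'))
        (hp : Cp (H.acm 0) A') (L : ℝ) (hL : 0 < L) (Θ : W (2 * n) → X),
        Mtub H {v | Q v F.e = 0} R Λ δ A' hp L hL Θ := by
  borelize X
  exact core_ray_of hX K hAe (sdatEnd hX K a) B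

end conn

section road

variable {n : ℕ} {X : Type} [TopologicalSpace X] [CompactSpace X] [T2Space X]
  [SimplyConnectedSpace X] {C : RCh (Cn (2 * n)) X} {Q : F2 C →ₗ[ℝ] F2 C →ₗ[ℝ] ℝ} {H0 : HkT C}
  {e : F2 C} {Bo : Box Q H0 e}

/-- **tubes on a vertical ray of the road** -/
theorem road_tube (hX : Ctx n C Q) (Rd : Road (Alg_867.Alg n X C Q) Bo) (x : ℝ) :
    ∃ Λ : ℝ, 0 < Λ ∧ ∀ R δ : ℝ, 0 < R → 0 < δ → ∃ Y1 : ℝ, ∀ y : ℝ, Y1 < y →
      ∀ H : HkT C, MemN Rd.K ⟨x, y⟩ H →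
      ∃ (A' : Atl (2 * n) X) (_ : Finite A'.ι) (_ : GoodA A') (_ : Nonempty (Part A'))
        (hp : Cp (H.acm 0) A') (L : ℝ) (hL : 0 < L) (Θ : W (2 * n) → X),
        Mtub H {v | Q v e = 0} R Λ δ A' hp L hL Θ := by
  borelize X
  obtain ⟨a⟩ := Rd.alg
  exact road_tube_of hX Rd (sdatEnd hX Rd.K a) x

end road

end

end Crest.Agent.R281.Cr_808
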