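import Crest.Agent.R281.CA3_867
import Crest.Agent.R281.Am3_957
import Crest.Agent.R281.Ehr7_268

/-!
# R281 (S0424), countability for Div2Geo (helper234)

`Raw n C` : certificate code, format, block sizes, numbering of the products, integral classes;
`countable_raw` : it is countable when the lattice `Lz C` is (Cdr11_234 `HBas.countable_int`,
Cnt1_311 `countable_Lz`).
-/

set_option autoImplicit false
set_option linter.unusedSectionVars false
set_option maxSynthPendingDepth 3

open Set

namespace Crest.Agent.R281.Cty_234

open Crest.Agent.R281.HkR_835 Crest.Agent.R281.Cdr_234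
open Crest.Agent.R281.CA_867 Crest.Agent.R281.Sl_957
open Crest.Agent.R281.Ehr7_268 (Lz)

variable {V X : Type} [NormedAddCommGroup V] [NormedSpace ℝ V] [TopologicalSpace X]

/-- the data of a type of the end, without the proofs -/
abbrev Raw (n : ℕ) (C : RCh V X) : Type :=
  Σ N : ℕ, Σ K : Code QB n N, Fmt QB (Fin K.k) × Σ ρ : ℕ, Σ b : Fin ρ → ℕ,
    ((∀ k, Fin (b k + 1)) ≃ Fin (N + 1)) × (Fin ρ → Lz C)

theorem countable_raw (n : ℕ) (C : RCh V X)
    (h : ((Lz C : AddSubgroup (HdR C)) : Set (HdR C)).Countable) : Countable (Raw n C) := by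
  have : Countable (Lz C) := h.to_subtype
  infer_instance

end Crest.Agent.R281.Cty_234
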