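import Crest.Agent.R281.AlgDefs_998
import Crest.Agent.R281.Ehr6_268
import Crest.Agent.R281.Pe6_313

/-!
# Row 281, DIV 2, ASM-2 (helper581): the end over the cusp, abstract part

`Fm : QFam B E H` a family of cones, `ls Fm C` its marked cover (helper268).

* `PtOf F A x τ T`  : the structure `T` lies over the class `x` of markings and over the period `τ`
* `LiftS F A Pp`    : LIFT: every smooth path of the marked cover with periods `τ t` is covered by a
                      jointly smooth family of structures starting at a given one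
* `EndMap`          : a map of a half plane into the marked cover, a section of the period
* `cuspOf`          : **the instance of `Cusp`** (helper998)
* `exists_leg`      : a smooth path of the marked cover gives a `Leg`
-/

set_option autoImplicit false
set_option linter.unusedSectionVars false

open Set Filter Topology
open scoped ContDiff

namespace Crest.Agent.R281.Cus_581

open Crest.Agent.R281.HkR_835 Crest.Agent.R281.Ehr2_268 Crest.Agent.R281.Ehr4_268
open Crest.Agent.R281.CL_473 Crest.Agent.R281.Ehr6_268 Crest.Agent.R281.Alg_998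
open Crest.Agent.R281.Pe_313

noncomputable section

universe uq

variable {B : Type uq} [TopologicalSpace B] {E H : Type} [NormedAddCommGroup E]
  [NormedSpace ℂ E] [NormedAddCommGroup H] [NormedSpace ℂ H]
variable {V X : Type} [NormedAddCommGroup V] [NormedSpace ℝ V] [TopologicalSpace X]
variable [FiniteDimensional ℝ V] [CompactSpace X] [T2Space X] [FiniteDimensional ℂ H]
variable {Fm : QFam B E H} {C : RCh V X} {Q : F2 C →ₗ[ℝ] F2 C →ₗ[ℝ] ℝ}

/-- the complex structure of an embedding depends on the values on the charts only -/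
theorem cxOf_congr {C' : RCh V X} {P : HEmb C' H} {T T' : HkT C} (h : HEqv T T')
    (hc : CxOf P T) : CxOf P T' := by
  intro i j z hz v
  rw [← h.J 0 i z hz.1]
  exact hc i j z hz v

/-- `T` lies over the class `x` of markings and over the period `τ` -/
def PtOf (F : Frm C Q) (A : F2 C) (x : (ls Fm C).Tot) (τ : ℂ) (T : HkT C) : Prop :=
  AtTau F A T τ ∧ ∃ m : Mark Fm C, (MQ.mk m : MQ Fm C) = x ∧ CxOf m.P T

theorem PtOf.congr {F : Frm C Q} {A : F2 C} {x : (ls Fm C).Tot} {τ : ℂ} {T T' : HkT C}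
    (h : HEqv T T') (hp : PtOf F A x τ T) : PtOf F A x τ T' := by
  obtain ⟨h1, m, h2, h3⟩ := hp
  exact ⟨h1.congr h, m, h2, cxOf_congr h h3⟩

/-- **LIFT**: smooth paths of the marked cover are covered by smooth paths of structures;
`Pp x τ` : the class `x` of markings has the period `τ` -/
def LiftS (Fm : QFam B E H) (F : Frm C Q) (A : F2 C) (Pp : (ls Fm C).Tot → ℂ → Prop) : Prop :=
  ∀ (c : ℝ → (ls Fm C).Tot) (τ : ℝ → ℂ) (T0 : HkT C), Continuous c →
    (ContDiff ℝ ∞ fun t => Fm.u ((ls Fm C).pr (c t))) → ContDiff ℝ ∞ τ → (∀ t, Pp (c t) (τ t)) →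
    PtOf F A (c 0) (τ 0) T0 →
    ∃ K : ℝ → HkT C, SmH K ∧ HEqv (K 0) T0 ∧ ∀ t, PtOf F A (c t) (τ t) (K t)

/-- a map of the half plane `{Y < Im τ}` into the marked cover, a section of the period -/
structure EndMap (Fm : QFam B E H) (C : RCh V X) (Pp : (ls Fm C).Tot → ℂ → Prop) (Y : ℝ) where
  pt : ℂ → (ls Fm C).Tot
  cont : ContinuousOn pt {τ | Y < τ.im}
  sm : ContDiffOn ℝ ∞ (fun τ => Fm.u ((ls Fm C).pr (pt τ))) {τ | Y < τ.im}
  per : ∀ τ : ℂ, Y < τ.im → Pp (pt τ) τ

variable {F : Frm C Q} {A : F2 C} {Pp : (ls Fm C).Tot → ℂ → Prop}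

/-- **the end over the cusp** -/
def cuspOf {Y : ℝ} (hY : 0 < Y) (e : EndMap Fm C Pp Y) (hl : LiftS Fm F A Pp) : Cusp F A where
  Y := Y
  hY := hY
  Mem τ T := Y < τ.im ∧ PtOf F A (e.pt τ) τ T
  mem_im _ _ h := h.1
  mem_at _ _ h := h.2.1
  mem_congr _ _ _ he h := ⟨h.1, h.2.congr he⟩
  lift τ T h γ hγ hγY hγ0 := by
    subst hγ0
    obtain ⟨K, h1, h2, h3⟩ := hl (fun t => e.pt (γ t)) γ T
      (e.cont.comp_continuous hγ.continuous hγY) (e.sm.comp_contDiff hγ hγY) hγ
      (fun t => e.per _ (hγY t)) h.2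
    exact ⟨K, h1, h2, fun t => ⟨hγY t, h3 t⟩⟩

theorem cuspOf_mem {Y : ℝ} (hY : 0 < Y) (e : EndMap Fm C Pp Y) (hl : LiftS Fm F A Pp) (τ : ℂ)
    (T : HkT C) : (cuspOf hY e hl).Mem τ T ↔ Y < τ.im ∧ PtOf F A (e.pt τ) τ T := Iff.rfl

theorem cuspOf_Y {Y : ℝ} (hY : 0 < Y) (e : EndMap Fm C Pp Y) (hl : LiftS Fm F A Pp) :
    (cuspOf hY e hl).Y = Y := rfl

/-- **a smooth path of the marked cover gives a leg** -/
theorem exists_leg (hl : LiftS Fm F A Pp) {c : ℝ → (ls Fm C).Tot} {τ : ℝ → ℂ} {T0 : HkT C}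
    (hc : Continuous c) (hs : ContDiff ℝ ∞ fun t => Fm.u ((ls Fm C).pr (c t)))
    (hτ : ContDiff ℝ ∞ τ) (hp : ∀ t, Pp (c t) (τ t)) (h0 : PtOf F A (c 0) (τ 0) T0) {S : Set ℂ}
    (hS : ∀ t, τ t ∈ S) : ∃ T1 : HkT C, Leg F A S T0 T1 ∧ PtOf F A (c 1) (τ 1) T1 := by
  obtain ⟨K, h1, h2, h3⟩ := hl c τ T0 hc hs hτ hp h0
  exact ⟨K 1, ⟨K, τ, h1, hτ, hS, fun t => (h3 t).1, h2, HEqv.refl _⟩, h3 1⟩

end

end Crest.Agent.R281.Cus_581
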