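import Crest.Agent.R281.D6e_986
import Crest.Agent.R281.Fib4_425

/-!
# R281 (S0424), S6-ASM (helper986), part f: the finer nodes as literal Props

* `Leafy F F1`   : the fibres of the family `F1` are leaves in `Om`;
* `LeafVol F K v`: every leaf has volume at most `v`;
* `ContVol c`    : the limit fibres have finite `2n`-dimensional Hausdorff measure in the charts;
* `SKOut K o h`  : output of S6-SK (507/479): two Ricci flat metrics and the volume identity;
* `UPre K o h`   : output of 425: the function `u` with the pointwise identity.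
-/

set_option autoImplicit false
set_option linter.unusedSectionVars false

open Set Filter Topology Complex MeasureTheory
open scoped ContDiff Matrix ComplexConjugate Manifold ComplexOrder

namespace Crest.Agent.R281.D6_986

open Crest.Agent.R275.Geo Crest.Agent.R275.Core144 Crest.Agent.R275.GC293
open Crest.Agent.R273.Defs_333 Crest.Agent.R273.Kah_333 Crest.Agent.R273.HM_333
open Crest.Agent.R273.Hess_333 Crest.Agent.R273.HessB_333 Crest.Agent.R273.KahI_645
open Crest.Agent.R273.Map_835 Crest.Agent.R275.EDR890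
open Crest.Agent.R273.StokesV_332 (intD)
open Crest.Agent.R281.Defs_273 Crest.Agent.R281.LEnd_10
open Crest.Agent.R281.S6D_664 (LFib Fam fb)
open Crest.Agent.R281.Fib2_425 (push)
open Crest.Agent.R281.Fib4_425 (Tst)

noncomputable section

variable {n : ℕ} {M : Type} [TopologicalSpace M] {A : Atl (2 * n) M}
variable {σ : HSymp A} {L : LB A}

/-- the fibres of the family `F1` are leaves of `F` (in `Om`) -/
def Leafy (F : LFib A σ) {m : ℕ} {D : Set (Cn m)} (F1 : Fam A n m D) : Prop :=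
  ∀ v, F1.i v ∈ F.Om ∧ F.Tf (F1.i v) = F1.i '' (F1.y ⁻¹' {F1.y v})

/-- every leaf has volume at most `v` -/
def LeafVol (F : LFib A σ) (K : Kah A) (v : ℝ) : Prop :=
  ∀ F0 : Fam A n 0 univ, Leafy F F0 → F0.mu K univ ≤ ENNReal.ofReal v

/-- the limit fibres have finite Hausdorff measure in the charts -/
def ContVol {F : LFib A σ} (c : ContOut F) : Prop :=
  ∀ x0 : M, ∃ i, x0 ∈ (A.e i).source ∧ ∃ r : ℝ, 0 < r ∧
    Metric.closedBall (A.e i x0) r ⊆ (A.e i).target ∧
    Measure.hausdorffMeasure ((2 * n : ℕ) : ℝ)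
      ((A.e i) '' (c.Z x0 ∩ (A.e i).source) ∩ Metric.closedBall (A.e i x0) r) < ⊤

/-- output of S6-SK: `K' = K + θ + ∂∂̄φ` and the volume identity on disc families -/
structure SKOut (K : Kah A) (o : OmOut σ L) (h : HM L) where
  K' : Kah A
  φ : M → ℝ
  sm : A.Sm φ
  eq : ∀ i, ∀ x ∈ (A.e i).source, K'.g i x = K.g i x + cur h i x + hsf A φ i x
  lam : ℝ
  one_lt : 1 < lam
  vol : ∀ D : Set (Cn 1), IsOpen D → ∀ F1 : Fam A n 1 D, Leafy o.F F1 →
    ∀ χ : Cn 1 → ℝ, Tst D χ →
      intD F1.P (fun k v => (χ (F1.y v) : ℂ) * ((F1.kah K').g k v).det) =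
        (lam : ℂ) * intD F1.P (fun k v => (χ (F1.y v) : ℂ) * ((F1.kah K).g k v).det)

/-- the function `u` with the pointwise identity on disc families -/
structure UPre (K : Kah A) (o : OmOut σ L) (h : HM L) where
  u : M → ℝ
  B : ℝ
  bdd : ∀ x, |u x| ≤ B
  sm : ∀ i, ∀ z ∈ (A.e i).target, (A.e i).symm z ∈ o.F.Om →
    ContDiffAt ℝ ∞ (fun w => u ((A.e i).symm w)) z
  a : ℝ
  a_pos : 0 < a
  vol : ℝ
  vol_pos : 0 < vol
  fvol : ∀ D : Set (Cn 1), IsOpen D → ∀ F1 : Fam A n 1 D, Leafy o.F F1 → ∀ y ∈ D,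
    push F1.P (fun k v => (fb ((F1.kah K).g k v)).det) y = (vol : ℂ)
  id : ∀ D : Set (Cn 1), IsOpen D → ∀ F1 : Fam A n 1 D, Leafy o.F F1 →
    ∀ k, ∀ v ∈ (F1.B.e k).source, ∀ i, F1.i v ∈ (A.e i).source →
      (Jp F1.B A F1.i k i v)ᵀ * (cur h i (F1.i v) + hsf A u i (F1.i v)) *
          (Jp F1.B A F1.i k i v).map conj =
        ((a : ℂ) * push F1.P (fun k v => ((F1.kah K).g k v).det) (F1.y v)) •
          Matrix.single (Fin.last n) (Fin.last n) (1 : ℂ)

end

end Crest.Agent.R281.D6_986
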