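import Crest.Agent.R281.D6f_986
import Crest.Agent.R281.HkP3_508
import Crest.Agent.R281.Sk0_474
import Crest.Agent.R281.Har4_331
import Crest.Agent.R281.Tc3_941

/-!
# R281 (S0424), S6-ASM (helper986), part y: the remaining nodes of division 6 (defs only)

* `LowStmt`   : the lower bound of 389/331;
* `OmStmt`    : the Lagrangian fibration (854/980/524/677);
* `SKStmt`    : the volume identity of two hyperkaehler metrics (507);
* `UPreStmt`  : the function `u` (425);
* `ContStmt`  : the partition with the volume bound (166);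
* `SliceStmt` : the slice (316);
* `RichStmt`  : Richberg for bounded potentials (710/791), in `D6a_986`.
-/

set_option autoImplicit false
set_option linter.unusedSectionVars false

open Set Filter Topology Complex MeasureTheory
open scoped ContDiff Matrix ComplexConjugate Manifold ComplexOrder

namespace Crest.Agent.R281.D6_986

open Crest.Agent.R275.Geo Crest.Agent.R275.Core144 Crest.Agent.R275.GC293
open Crest.Agent.R273.Defs_333 Crest.Agent.R273.Kah_333 Crest.Agent.R273.HM_333
open Crest.Agent.R273.Hess_333 Crest.Agent.R273.HessB_333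
open Crest.Agent.R281.Defs_273 Crest.Agent.R281.LEnd_10
open Crest.Agent.R281.S6D_664 (LFib Fam fb)
open Crest.Agent.R281.HkP3_508 (HK smulHS)
open Crest.Agent.R281.Har_331 (Low)
open Crest.Agent.R281.Tc_941 (SliceAt)

noncomputable section

/-- node of 389/331 -/
def LowStmt : Prop :=
  ∀ (n : ℕ) (M : Type) [TopologicalSpace M] [T2Space M] [CompactSpace M] [SimplyConnectedSpace M]
    (A : Atl (2 * n) M) [Finite A.ι], 1 ≤ n → ∀ (_ : Part A) (K : Kah A) (L : LB A) (h : HM L),
    ∃ c1 : ℝ, 0 < c1 ∧ Low K h n c1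

/-- node of 854/980/524/677/331 -/
def OmStmt : Prop :=
  ∀ (n : ℕ) (M : Type) [TopologicalSpace M] [T2Space M] [CompactSpace M] [SimplyConnectedSpace M]
    (A : Atl (2 * n) M) [Finite A.ι], 1 ≤ n → GoodA A → ∀ (P : Part A) (K : Kah A) (σ : HSymp A),
    σ.Uniq → HK K σ → ∀ L : LB A, NefW K L → Isotropic P σ L → Sk_474.Rich A L →
      Nonempty (OmOut σ L)

/-- node of 507 -/
def SKStmt : Prop :=
  ∀ (n : ℕ) (M : Type) [TopologicalSpace M] [T2Space M] [CompactSpace M] [SimplyConnectedSpace M]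
    (A : Atl (2 * n) M) [Finite A.ι], 1 ≤ n → ∀ (_ : Part A) (K : Kah A) (σ : HSymp A),
    HK K σ → ∀ (L : LB A) (h : HM L) (K' : Kah A) (r : ℝ) (hr : (r : ℂ) ≠ 0), 1 < r →
      (∀ i, ∀ x ∈ (A.e i).source, K'.g i x = K.g i x + cur h i x) →
      HK K' (smulHS (r : ℂ) hr σ) → ∀ o : OmOut σ L, Nonempty (SKOut K o h)

/-- node of 425 -/
def UPreStmt : Prop :=
  ∀ (n : ℕ) (M : Type) [TopologicalSpace M] [T2Space M] [CompactSpace M] [SimplyConnectedSpace M]
    (A : Atl (2 * n) M) [Finite A.ι], 1 ≤ n → ∀ (_ : Part A) (K : Kah A) (σ : HSymp A)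
    (L : LB A) (h : HM L) (o : OmOut σ L), SKOut K o h → Harn o h → Nonempty (UPre K o h)

/-- node of 166 -/
def ContStmt : Prop :=
  ∀ (n : ℕ) (M : Type) [TopologicalSpace M] [T2Space M] [CompactSpace M] [SimplyConnectedSpace M]
    (A : Atl (2 * n) M) [Finite A.ι], 1 ≤ n → ∀ (_ : Part A) (K : Kah A) (σ : HSymp A)
    (L : LB A) (h : HM L) (o : OmOut σ L), UPre K o h → ∃ c : ContOut o.F, ContVol c

/-- node of 316 -/
def SliceStmt : Prop :=
  ∀ (n : ℕ) (M : Type) [TopologicalSpace M] [T2Space M] [CompactSpace M] [SimplyConnectedSpace M]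
    (A : Atl (2 * n) M) [Finite A.ι], 1 ≤ n → ∀ (_ : Part A) (_ : Kah A) (σ : HSymp A)
    (F : LFib A σ) (c : ContOut F), ContVol c → ∀ x0, Nonempty (SliceAt F c x0)

end

end Crest.Agent.R281.D6_986
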