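import Crest.Agent.R281.RichZ_710
import Crest.Agent.R281.D6a_986

/-!
# R281 (S0424), DIV 6, S6-RICH (helper710): node N7, the literal `RichStmt` of helper986
-/

set_option autoImplicit false

namespace Crest.Agent.R281.Rich_710

theorem richStmt : Crest.Agent.R281.D6_986.RichStmt := by
  intro n M _ _ _ A _ P K L h u B hB S hS hth hu hp U hU ρ hρ hpU C hC hCU δ hδ
  exact rich_bdd P K h u B hB S hS hth hu hp U hU ρ hρ hpU C hC hCU δ hδ

end Crest.Agent.R281.Rich_710
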