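import Crest.Agent.R281.D6z_986
import Crest.Agent.R281.Om8_854
import Crest.Agent.R281.Hk6_389
import Crest.Agent.R281.RichS_710
import Crest.Agent.R281.SK6_507
import Crest.Agent.R281.Fr9_316

/-!
# R281 (S0424), S6-ASM (helper986), the closed nodes of division 6

* `lowStmt` (389), `omStmt` (854/980/331/524/677), `Rich_710.richStmt` (710/791);
* `skStmt` (507), `sliceStmt` (316);
* `end6_of2` : `UPreStmt`, `ContStmt` imply `Sk_474.END6`.
-/

set_option autoImplicit false
set_option linter.unusedSectionVars false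

open Set Filter Topology Complex MeasureTheory
open scoped ContDiff Matrix ComplexConjugate Manifold ComplexOrder

namespace Crest.Agent.R281.D6_986

open Crest.Agent.R275.Geo Crest.Agent.R275.Core144 Crest.Agent.R275.GC293
open Crest.Agent.R273.Defs_333 Crest.Agent.R273.Kah_333 Crest.Agent.R273.HM_333
open Crest.Agent.R281.Defs_273

theorem lowStmt : LowStmt := fun _ _ _ _ _ _ _ _ hn _ K _ h =>
  Hk_389.low_of K h (by omega)

theorem omStmt : OmStmt := by
  intro n M _ _ _ _ A _ hn hA P K σ hu hK L hnef hiso hrich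
  obtain ⟨k, hk, s, hs, i, x, hx⟩ := hrich
  obtain ⟨o, -⟩ := Om_854.omega P K σ hu hn hnef hiso hk hs hx
  exact ⟨o⟩

theorem skStmt : SKStmt := fun _ _ _ _ _ _ _ _ _ _ _ _ hK _ _ K' _ _ h1 he hK' o =>
  ⟨SK6_507.skOut hK K' h1 hK' he o⟩

theorem sliceStmt : SliceStmt := fun _ _ _ _ _ _ _ _ hn _ _ _ _ c hv x0 =>
  Fr7_316.sliceAt (by omega) c hv x0

theorem end6_of2 (up : UPreStmt) (ct : ContStmt) : Sk_474.END6 :=
  end6_of_nodes Rich_710.richStmt lowStmt omStmt skStmt up ct sliceStmt

end Crest.Agent.R281.D6_986
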