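import Crest.Agent.R281.Qc3_377
import Crest.Agent.R281.Cus2_581
import Crest.Agent.R281.Cnt3_311
import Crest.Agent.R281.PU1_581

/-!
# R281 (S0424), DIV 2, composition (helper377 with helper957), part 1: `Div2Geo` from its parts

`hm T h` : the Hodge data of a good type (790), `start` : START (565 / 871 / 867), `lift` : LIFT
(830), `alg` : the algebraic data of the cusp (867 / 581 / 989).
-/

set_option autoImplicit false
set_option linter.unusedSectionVars false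
set_option maxSynthPendingDepth 5

open Set Filter Topology UpperHalfPlane
open scoped ContDiff

namespace Crest.Agent.R281.Dc_377

open Crest.Agent.R281.HkR_835 Crest.Agent.R281.Ehr2_268 Crest.Agent.R281.Dif_268
  Crest.Agent.R281.Ehr4_268 Crest.Agent.R281.Ehr6_268 Crest.Agent.R281.Ehr7_268
  Crest.Agent.R281.Ehr8_268 Crest.Agent.R281.Cdr_234
  Crest.Agent.R281.Sl_957 Crest.Agent.R281.Am_957 Crest.Agent.R281.As_957
  Crest.Agent.R281.Dv_957 Crest.Agent.R281.Cnt_311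
  Crest.Agent.R281.Alg_998 Crest.Agent.R281.CL_473 Crest.Agent.R281.LI_473
  Crest.Agent.R281.Cus_581 Crest.Agent.R281.Pe_313
open Crest.Agent.R281.Sta2_684 (QS)
open Crest.Agent.R281.Sta3_684 (Bq)

noncomputable section

variable {V X : Type} [NormedAddCommGroup V] [NormedSpace ℝ V] [TopologicalSpace X]
  [FiniteDimensional ℝ V] [CompactSpace X] [T2Space X]
  {C : RCh V X} {n : ℕ} {Q : F2 C →ₗ[ℝ] F2 C →ₗ[ℝ] ℝ}

/-- **the Hodge data of the good types** (790) -/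
structure HMs (n : ℕ) (F : Frm C Q) (hQ : QS Q) where
  hm : ∀ T : Ty n C, T.Ok F hQ → HM T.L (frF F hQ) (Lz C) (Fin T.ρ)
  cls : ∀ T h i x, (hm T h).cls i x = T.cls i x
  cl : ∀ T h i, (hm T h).cl i = T.pcl i
  re : ∀ T h x, (hm T h).re x = T.re x
  im : ∀ T h x, (hm T h).im x = T.im x
  hol : ∀ (T : Ty n C) (h : T.Ok F hQ) (x : MQ T.F C),
    (∀ i, (hm T h).cls i x = (hm T h).cl i) → ∃ φ₀ φ₁ : (Fin T.M.m → ℂ) → ℂ,
      AnalyticAt ℂ φ₀ (T.L.p x).1.1 ∧ AnalyticAt ℂ φ₁ (T.L.p x).1.1 ∧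
      ∀ᶠ q in 𝓝 (T.L.p x),
        (frF F hQ).z0 ((hm T h).re (T.L.s x q)) ((hm T h).im (T.L.s x q)) = φ₀ q.1.1 ∧
        (frF F hQ).z1 ((hm T h).re (T.L.s x q)) ((hm T h).im (T.L.s x q)) = φ₁ q.1.1

variable {F : Frm C Q} {hQ : QS Q}

/-- **START** (565, 871, 867) -/
def StartS (n : ℕ) (F : Frm C Q) (hQ : QS Q) : Prop :=
  ∀ A : F2 C, IntF A → Q A F.e = 0 → Q A F.v = 0 → Q A F.es = 0 →
    ∀ (H0 : HkT C) (τ0 : ℂ), AtTau F A H0 τ0 →
      ∃ (T : Ty n C) (m0 : Mark T.F C), T.Ok F hQ ∧ T.Rel A ∧ CxOf m0.P H0 ∧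
        (∀ k, T.cls k (MQ.mk m0) = T.pcl k) ∧
        (frF F hQ).tau (T.re (MQ.mk m0)) (T.im (MQ.mk m0)) = τ0

namespace HMs

variable (D : HMs n F hQ)

/-- the geometry over the model -/
abbrev G (T : Ty n C) (h : T.Ok F hQ) :
    GeomM T.M (frF F hQ).N ((frF F hQ).Λ (Lz C)) (D.hm T h).Gp (D.hm T h).Mk :=
  (D.hm T h).geomM (D.hol T h)

theorem countable_Gp [Countable (difG C ⧸ tG C)] (T : Ty n C) (h : T.Ok F hQ) :
    Countable (D.hm T h).Gp := inferInstanceAs (Countable (D.hm T h).sg)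

/-- the point of the marked cover over a marking with the right classes -/
def pt0 (T : Ty n C) (h : T.Ok F hQ) (x : MQ T.F C) (hx : ∀ k, T.cls k x = T.pcl k)
    (hp : 0 < ((frF F hQ).tau (T.re x) (T.im x)).im) : (D.G T h).T :=
  (⟨x, ⟨fun i => by rw [D.cls, D.cl]; exact hx i, by rw [D.re, D.im]; exact hp⟩⟩ : (D.hm T h).Mk)

theorem vT_pt0 (T : Ty n C) (h : T.Ok F hQ) (x : MQ T.F C) (hx : ∀ k, T.cls k x = T.pcl k)
    (hp : 0 < ((frF F hQ).tau (T.re x) (T.im x)).im) :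
    (vT (D.pt0 T h x hx hp) : MQ T.F C) = x := rfl

theorem Ψ_pt0 (T : Ty n C) (h : T.Ok F hQ) (x : MQ T.F C) (hx : ∀ k, T.cls k x = T.pcl k)
    (hp : 0 < ((frF F hQ).tau (T.re x) (T.im x)).im) :
    ((D.G T h).Ψ (D.pt0 T h x hx hp) : ℂ) = (frF F hQ).tau (T.re x) (T.im x) := by
  have h1 : ((D.G T h).Ψ (D.pt0 T h x hx hp) : ℂ) =
      (frF F hQ).tau ((D.hm T h).re x) ((D.hm T h).im x) := rfl
  rw [h1, D.re, D.im]

/-- the algebraic ray of a type -/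
theorem exists_Nl [Countable (difG C ⧸ tG C)] (hlat : Lat (frF F hQ).N ((frF F hQ).Λ (Lz C)))
    (T : Ty n C) (h : T.Ok F hQ) : ∃ Nl : Set ℝ, Nl.Countable ∧
      ∀ x₀ : (D.G T h).T, ((D.G T h).Ψ x₀).re ∉ Nl →
        ∃ x₁ : (D.G T h).T, Nonempty (Up (D.G T h) x₀ x₁) ∧
          ∃ (c : Fin T.M.m → QB) (j : Fin T.M.m) (u : ℂ)
            (hx : (D.G T h).z x₁ =
              fun i => algebraMap QB ℂ (c i) + u * (Pi.single j 1 : Fin T.M.m → ℂ) i),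
            Nonempty (Ray ((D.G T h).line (fun i => algebraMap QB ℂ (c i)) (Pi.single j 1))
              ((D.G T h).onLine (fun i => algebraMap QB ℂ (c i)) (Pi.single j 1) x₁ u hx)) := by
  have := D.countable_Gp T h
  obtain ⟨S, hSc, hS⟩ := countable_S T.nice (D.G T h)
  exact exists_rayM_QB (D.G T h) T.nice F.hN hlat
    (fun x hx y hy => by
      have h1 : (frF F hQ).κ (x - y) = (frF F hQ).κ x - (frF F hQ).κ y := map_sub _ _ _
      show (frF F hQ).κ (x - y) ∈ Lz C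
      rw [h1]
      exact (Lz C).sub_mem hx hy) hSc fun x hx => hS x hx

end HMs

/-- **`Div2Geo` from its parts** -/
theorem div2_of (D : HMs n F hQ) (hb : Bas C) (hlat : Lat (frF F hQ).N ((frF F hQ).Λ (Lz C)))
    (hP : ∀ A, PerUniq F A) (hst : StartS n F hQ)
    (lift : ∀ (T : Ty n C) (h : T.Ok F hQ) (A : F2 C), T.Rel A →
      LiftS T.F F A (PpH (D.hm T h)))
    {Alg : ∀ A : F2 C, Cusp F A → Prop}
    (alg : ∀ (T : Ty n C) (h : T.Ok F hQ) (A : F2 C) (hR : T.Rel A), IntF A → Q A F.e = 0 →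
      Q A F.v = 0 → Q A F.es = 0 → ∀ {x₁ : (D.G T h).T} {a d : Fin T.M.m → ℂ} {u : ℂ}
      {hx : (D.G T h).z x₁ = fun i => a i + u * d i}
      (ρ : Ray ((D.G T h).line a d) ((D.G T h).onLine a d x₁ u hx)),
      ∃ (Y : ℝ) (hY0 : 0 < Y) (hY : ρ.Y₂ ≤ Y),
        Alg A (cuspOf hY0 (rayEnd (fun _ => rfl) ρ hY) (lift T h A hR))) : Div2Geo F Alg := by
  classical
  have hT1 : Countable (Ty n C) := Ty.countable hb
  have hT2 : Countable (difG C ⧸ tG C) := countable_G hb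
  have hN : ∀ T : Ty n C, ∃ Nl : Set ℝ, Nl.Countable ∧ ∀ h : T.Ok F hQ,
      ∀ x₀ : (D.G T h).T, ((D.G T h).Ψ x₀).re ∉ Nl →
        ∃ x₁ : (D.G T h).T, Nonempty (Up (D.G T h) x₀ x₁) ∧
          ∃ (c : Fin T.M.m → QB) (j : Fin T.M.m) (u : ℂ)
            (hx : (D.G T h).z x₁ =
              fun i => algebraMap QB ℂ (c i) + u * (Pi.single j 1 : Fin T.M.m → ℂ) i),
            Nonempty (Ray ((D.G T h).line (fun i => algebraMap QB ℂ (c i)) (Pi.single j 1))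
              ((D.G T h).onLine (fun i => algebraMap QB ℂ (c i)) (Pi.single j 1) x₁ u hx)) := by
    intro T
    by_cases h : T.Ok F hQ
    · obtain ⟨Nl, h1, h2⟩ := D.exists_Nl hlat T h
      exact ⟨Nl, h1, fun _ => h2⟩
    · exact ⟨∅, countable_empty, fun h' => absurd h' h⟩
  choose Nl hNc hNr using hN
  refine ⟨⋃ T, Nl T, countable_iUnion hNc, fun A hA h1 h2 h3 H0 τ0 h0 hτ => ?_⟩
  obtain ⟨T, m0, hT, hR, hc, hcl, htau⟩ := hst A hA h1 h2 h3 H0 τ0 h0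
  have hpos : 0 < ((frF F hQ).tau (T.re (MQ.mk m0)) (T.im (MQ.mk m0))).im := by
    rw [htau]
    exact h0.im_pos
  set x₀ : (D.G T hT).T := D.pt0 T hT (MQ.mk m0) hcl hpos with hx₀
  have hΨ : ((D.G T hT).Ψ x₀ : ℂ) = τ0 := by
    rw [hx₀, D.Ψ_pt0, htau]
  have hre : ((D.G T hT).Ψ x₀).re ∉ Nl T := by
    intro hmem
    apply hτ
    refine mem_iUnion.2 ⟨T, ?_⟩
    have h4 : ((D.G T hT).Ψ x₀).re = τ0.re := congrArg Complex.re hΨ
    rwa [← h4]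
  obtain ⟨x₁, ⟨U⟩, c, j, u, hx, ⟨ρ⟩⟩ := hNr T hT x₀ hre
  obtain ⟨Y, hY0, hY, hAlg⟩ := alg T hT A hR hA h1 h2 h3 ρ
  have hpt : PtOf F A (vT x₀) ((D.G T hT).Ψ x₀ : ℂ) H0 := by
    rw [hΨ]
    exact ⟨h0, m0, rfl, hc⟩
  obtain ⟨T1, τ1, h5, h6, h7⟩ := exists_cusp (lift T hT A hR) (fun _ => rfl) (hP A) U ρ hY0 hY hpt
  rw [hΨ] at h6 h7
  exact ⟨_, T1, τ1, hAlg, h5, h6, h7⟩

end

end Crest.Agent.R281.Dc_377
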