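import Crest.Agent.R281.Blk8_592
import Crest.Agent.R281.Alg1_867

/-!
# R281 (S0424), DIV 2 (helper957): forms and classes on the charts of a marking

* `F_form`        : `m.cmp.F (β.form m) = β.form' m` on the targets
* `ex_form'`      : `cl (β.form m) = cl w → Ex (β.form' m - m.cmp.F w)`
* `fsv_re`        : `fsv` in the blocks and in `Fin (N + 1)`
* `Ty.form'_qt`   : field `W_eq` of `MemA` for `W := T.qt.form' m`
* `Ty.ex_qt`      : field `W_cl` of `MemA` for `W := T.qt.form' m`, `κ = π c`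
-/

set_option autoImplicit false
set_option linter.unusedSectionVars false
set_option maxSynthPendingDepth 3

open Set Filter Topology Complex
open scoped ContDiff ComplexConjugate

namespace Crest.Agent.R281.Dv_957

open Crest.Agent.R281.HkR_835 Crest.Agent.R281.Ehr2_268 Crest.Agent.R281.Dif_268
  Crest.Agent.R281.Ehr4_268 Crest.Agent.R281.Ehr6_268 Crest.Agent.R281.Ehr7_268
  Crest.Agent.R281.Ehr8_268 Crest.Agent.R281.Cdr_234 Crest.Agent.R281.Phl_655
open Crest.Agent.R281.HkR_835.Cmp Crest.Agent.R281.Ti_846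
open Crest.Agent.R281.Blk_592 (hp fsh fsv FS)
open Crest.Agent.R281.Pt_313 (pl_form qbf_form')

noncomputable section

universe uq

section gen

variable {Q : Type uq} [TopologicalSpace Q] {E H : Type} [NormedAddCommGroup E]
    [NormedSpace ℂ E] [NormedAddCommGroup H] [NormedSpace ℂ H] {V X : Type}
    [NormedAddCommGroup V] [NormedSpace ℝ V] [TopologicalSpace X]
    {F : QFam Q E H} {C : RCh V X}

/-- the form of a marking, back on the charts of the marking -/
theorem F_form (b : QBF F) (m : Mark F C) : Eqv (m.cmp.F (b.form m)) (b.form' m) := by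
  intro j z hz u v
  obtain ⟨i, hi⟩ := exists_mov (C' := m.C') C (j := j) hz
  rw [m.cmp.F_w _ hi, pl_form b m i j _ (mt_mem hi), mt_mt hi, m.cmp.d_d hi, m.cmp.d_d hi]

theorem ex_form' (b : QBF F) (m : Mark F C) {w : F2 C} (h : cl (b.form m) = cl w) :
    Ex (b.form' m - m.cmp.F w) := by
  have h1 : Ex (b.form m - w) := (ex_sub_iff _ _).mpr (cl_eq_iff.mp h)
  obtain ⟨η, hη⟩ := Al_830.ex_F m.cmp h1
  refine ⟨η, fun j z hz u v => ?_⟩
  rw [← hη j z hz u v, Al_830.F_sub m.cmp _ _ j z hz u v, F_form b m j z hz u v]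
  rfl

end gen

section blocks

variable {ι : Type} [Fintype ι] [DecidableEq ι] {J : ι → Type} [∀ k, Fintype (J k)] {N : ℕ}

theorem hp_rx (e : (∀ k, J k) ≃ Fin (N + 1)) (v w : EuclideanSpace ℂ (Fin (N + 1))) :
    hp (rx e v) (rx e w) = hp (fun k => v k) fun k => w k :=
  Equiv.sum_comp e fun k => v k * conj (w k)

theorem fsv_rx (e : (∀ k, J k) ≃ Fin (N + 1)) (x v w : EuclideanSpace ℂ (Fin (N + 1))) :
    fsv (rx e x) (rx e v) (rx e w) = fsv (fun k => x k) (fun k => v k) fun k => w k := by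
  simp only [fsv, fsh, hp_rx]

end blocks

section ty

variable {V X : Type} [NormedAddCommGroup V] [NormedSpace ℝ V] [TopologicalSpace X]
  {C : RCh V X} {n : ℕ} (T : Ty n C)

/-- **field `W_eq`** -/
theorem Ty.form'_qt (m : Mark T.F C) (i : m.C'.ι) (z : V) (hz : z ∈ (m.C'.e i).target)
    (v v' : V) : (T.qt.form' m).w i z v v' = fsv (fun k => m.P.u i z k)
      (fun k => fderiv ℝ (m.P.u i) z v k) (fun k => fderiv ℝ (m.P.u i) z v' k) :=
  (qbf_form' (totB T.e) T.R_seg m hz v v').trans (fsv_rx T.e _ _ _)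

variable [FiniteDimensional ℝ V] [CompactSpace X] [T2Space X]

/-- **field `W_cl`** -/
theorem Ty.ex_qt {m : Mark T.F C} (hx : ∀ k, T.cls k (MQ.mk m) = T.pcl k) {A : F2 C} {c : ℝ}
    (h : ∑ k, T.B k = c • cl A) : Ex (T.qt.form' m - (Real.pi * c) • m.cmp.F A) := by
  have h1 : cl (T.qt.form m) = cl ((Real.pi * c) • A) := cl_eq_iff.mpr (T.ex_tot hx h)
  obtain ⟨η, hη⟩ := ex_form' T.qt m h1
  refine ⟨η, fun j z hz u v => ?_⟩
  rw [← hη j z hz u v]
  obtain ⟨i, hi⟩ := exists_mov (C' := m.C') C (j := j) hz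
  have e1 : (m.cmp.F ((Real.pi * c) • A)).w j z u v = ((Real.pi * c) • m.cmp.F A).w j z u v := by
    rw [m.cmp.F_w _ hi]
    show _ = (Real.pi * c) * (m.cmp.F A).w j z u v
    rw [m.cmp.F_w _ hi]
    rfl
  show (T.qt.form' m).w j z u v - ((Real.pi * c) • m.cmp.F A).w j z u v =
    (T.qt.form' m).w j z u v - (m.cmp.F ((Real.pi * c) • A)).w j z u v
  rw [e1]

end ty

end

end Crest.Agent.R281.Dv_957
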