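import Crest.Agent.R281.Phl7_655
import Crest.Agent.R281.Dv1_957
import Crest.Agent.R281.Qc2_377
import Crest.Agent.R281.RkD_902

/-!
# R281 (S0424), PER-HOL, part 8 (helper655): the field `per` of `LI_473.HM` over the types

* `pos_of_rel` : `T.Rel A`, `0 < Q A A` ⇒ `0 < Q(∑ B_k, ∑ B_k)`
* `per_mk`     : at a marking whose block forms have the prescribed classes
* `per_ty`     : the field `per` word by word

The input `hD` (every positive combination of the block forms at a marking is a Kaehler form for one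
complex structure, of which `re + i im` is a holomorphic symplectic form) is 313's point level.
-/

set_option autoImplicit false
set_option linter.unusedSectionVars false
set_option maxSynthPendingDepth 3

open Set Filter Topology

namespace Crest.Agent.R281.Per_655

open Crest.Agent.R275.EDR890
open Crest.Agent.R275.Geo Crest.Agent.R275.Core144 Crest.Agent.R275.GC293
open Crest.Agent.R273.Defs_333 Crest.Agent.R273.Kah_333
open Crest.Agent.R260.ACM_580 Crest.Agent.R260.NNB_580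
open Crest.Agent.R281.HkR_835
open Crest.Agent.R281.NefO_476
open Crest.Agent.R281.Al_830
open Crest.Agent.R281.Cdr_234 (HdR)
open Crest.Agent.R281.Ehr6_268 Crest.Agent.R281.Ehr7_268 Crest.Agent.R281.Ehr8_268
open Crest.Agent.R281.Ehr11_268 Crest.Agent.R281.Dif_268
open Crest.Agent.R281.Sta2_684 (QS)
open Crest.Agent.R281.Sta3_684 (Bq)
open Crest.Agent.R281.Dv_957 Crest.Agent.R281.Alg_998 Crest.Agent.R281.RkD_902

noncomputable section

section pos

variable {V X : Type} [NormedAddCommGroup V] [NormedSpace ℝ V] [TopologicalSpace X]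
  [FiniteDimensional ℝ V] {C : RCh V X} {Q : F2 C →ₗ[ℝ] F2 C →ₗ[ℝ] ℝ} {n : ℕ}

/-- the total class is positive -/
theorem pos_of_rel (hQ : QS Q) {T : Ty n C} {A : F2 C} (hR : T.Rel A) (hA : 0 < Q A A) :
    0 < Bq hQ (∑ k, T.B k) (∑ k, T.B k) := by
  obtain ⟨c, hc, h⟩ := hR
  rw [h, map_smul, map_smul, LinearMap.smul_apply, smul_eq_mul, smul_eq_mul]
  exact mul_pos hc (mul_pos hc hA)

end pos

variable {n : ℕ} {X : Type} [TopologicalSpace X] [CompactSpace X] [T2Space X] [ConnectedSpace X]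
  {C : RCh (Cn (2 * n)) X} {Q : F2 C →ₗ[ℝ] F2 C →ₗ[ℝ] ℝ}

/-- at a marking with the prescribed classes -/
theorem per_mk (hC : Ctx n C Q) (hQ : QS Q) {T : Ty (2 * n) C}
    (hpos : 0 < Bq hQ (∑ k, T.B k) (∑ k, T.B k)) {m : Mark T.F C} {J : AJ C} {s1 s2 : F2 C}
    (hD : ∀ l : Fin T.ρ → ℝ, (∀ i, 0 < l i) → HD J (∑ i, l i • (T.qb i).form m) s1 s2)
    (hm : ∀ i, cl ((T.qb i).form m) = T.pcl i) :
    Bq hQ (cl s1) (cl s1) = Bq hQ (cl s2) (cl s2) ∧ 0 < Bq hQ (cl s1) (cl s1) ∧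
      Bq hQ (cl s1) (cl s2) = 0 ∧
      ∀ i, Bq hQ (cl s1) (T.pcl i) = 0 ∧ Bq hQ (cl s2) (T.pcl i) = 0 := by
  obtain ⟨P, q, κ, hκ, hT, hq⟩ := hC.top
  have h1 : 0 < Bq hQ (∑ i, (1 : ℝ) • cl ((T.qb i).form m))
      (∑ i, (1 : ℝ) • cl ((T.qb i).form m)) := by
    have e1 : ∑ i, (1 : ℝ) • cl ((T.qb i).form m) = Real.pi • ∑ k, T.B k := by
      rw [Finset.smul_sum]
      refine Finset.sum_congr rfl fun i _ => ?_
      rw [one_smul, hm i]
      rfl
    rw [e1, map_smul, map_smul, LinearMap.smul_apply, smul_eq_mul, smul_eq_mul]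
    exact mul_pos Real.pi_pos (mul_pos Real.pi_pos hpos)
  obtain ⟨h2, h3, h4, h5⟩ := per_cl hT hκ (Q := Bq hQ) (fun x y => hq x y) hD
    (l0 := fun _ => 1) (fun _ => one_pos) h1
  refine ⟨h2, h3, h4, fun i => ?_⟩
  rw [← hm i]
  exact h5 i

/-- **the field `per` of `HM`** -/
theorem per_ty (hC : Ctx n C Q) (hQ : QS Q) {T : Ty (2 * n) C}
    (hpos : 0 < Bq hQ (∑ k, T.B k) (∑ k, T.B k)) (b : QCF T.F) (J : Mark T.F C → AJ C)
    (hD : ∀ (m : Mark T.F C) (l : Fin T.ρ → ℝ), (∀ i, 0 < l i) →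
      HD (J m) (∑ i, l i • (T.qb i).form m) (b.re.form m) (b.im.form m))
    (x : MQ T.F C) (hx : ∀ i, T.cls i x = T.pcl i) :
    Bq hQ ((b.re.natF C).cls x) ((b.re.natF C).cls x) =
        Bq hQ ((b.im.natF C).cls x) ((b.im.natF C).cls x) ∧
      0 < Bq hQ ((b.re.natF C).cls x) ((b.re.natF C).cls x) ∧
      Bq hQ ((b.re.natF C).cls x) ((b.im.natF C).cls x) = 0 ∧
      ∀ i, Bq hQ ((b.re.natF C).cls x) (T.pcl i) = 0 ∧
        Bq hQ ((b.im.natF C).cls x) (T.pcl i) = 0 := by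
  obtain ⟨m, rfl⟩ := MQ.exists_rep x
  exact per_mk hC hQ hpos (hD m) hx

end

end Crest.Agent.R281.Per_655
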