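import Crest.Agent.R281.Hmi2_790
import Crest.Agent.R281.Phl8_655
import Crest.Agent.R281.Pt3_313
import Crest.Agent.R281.Dv2_957

/-!
# R281 (S0424), DIV 2, HM INSTANCE (helper790), part 3: the Hodge data of every type

* `per_all` : the Hodge-Riemann relations at every marking (655's `per_ty`, 313's `Ty.hd`)
* **`hmOut`** : 957's `HmOut T F hQ` for every type, in the context of 902
-/

set_option autoImplicit false
set_option linter.unusedSectionVars false
set_option maxSynthPendingDepth 5

open Set Filter Topology Complex MeasureTheory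
open scoped ContDiff

namespace Crest.Agent.R281.Hmi_790

open Crest.Agent.R275.Geo
open Crest.Agent.R281.HkR_835 Crest.Agent.R281.Ehr2_268
open Crest.Agent.R281.Dif_268 hiding Coh symm2
open Crest.Agent.R281.Ehr4_268 Crest.Agent.R281.CL_473 Crest.Agent.R281.Ehr6_268
open Crest.Agent.R281.Cdr_234 Crest.Agent.R281.Ehr7_268 Crest.Agent.R281.LI_473
open Crest.Agent.R281.Alg_998 (Frm)
open Crest.Agent.R281.Sta2_684 (QS)
open Crest.Agent.R281.Sta3_684 (Bq)
open Crest.Agent.R281.Dv_957 Crest.Agent.R281.Am_957 Crest.Agent.R281.Sl_957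
open Crest.Agent.R281.RkD_902 (Ctx)

noncomputable section

variable {n : ℕ} {X : Type} [TopologicalSpace X] [CompactSpace X] {C : RCh (Cn (2 * n)) X}
  {Q : F2 C →ₗ[ℝ] F2 C →ₗ[ℝ] ℝ} [T2Space X] [ConnectedSpace X]

/-- real dimension of the model space -/
theorem finrank_Cn : Module.finrank ℝ (Cn (2 * n)) = 2 * (2 * n) := by
  rw [finrank_real_of_complex, finrank_euclideanSpace_fin]

/-- **the Hodge-Riemann relations** at every marking with the prescribed classes -/
theorem per_all (hC : Ctx n C Q) {T : Ty (2 * n) C}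
    (pos : 0 < Bq (qs hC) (∑ k, T.B k) (∑ k, T.B k)) : Per T (qs hC) := fun m hm =>
  Per_655.per_ty hC (qs hC) pos T.qc T.J (fun m _ hl => T.hd finrank_Cn m hl) (MQ.mk m) hm

/-- **the Hodge data of every type** -/
def hmOut (hC : Ctx n C Q) (F : Frm C Q) (T : Ty (2 * n) C) (hok : T.Ok F (qs hC)) :
    HmOut T F (qs hC) where
  D := hm hC F T hok hok.pos (per_all hC hok.pos)
  cls := rfl
  cl := rfl
  re := rfl
  im := rfl
  hol x _ := hm_hol hC F T hok hok.pos (per_all hC hok.pos) x

end

end Crest.Agent.R281.Hmi_790
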