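import Crest.Agent.R281.Phl4_655
import Crest.Agent.R281.Dif2_268

/-!
# R281 (S0424), PER-HOL, part 5 (helper655): constant classes, the Fubini-Study form

* `coh_const`  : for a parameter free cone `K` and `τ : B1 K` the class of the pull back of `τ` by
                 a family with values in `K` is constant (preconnected parameter set)
* `B1.ofPrim`, `B1.comap`
* `fs`, `FS : B1 {x ≠ 0}` on an inner product space, `fs_pos`
-/

set_option autoImplicit false
set_option linter.unusedSectionVars false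
set_option synthInstance.maxHeartbeats 100000

open Set Filter Topology Complex MeasureTheory
open scoped ContDiff

namespace Crest.Agent.R281.Phl_655

open Crest.Agent.R281.HkR_835 Crest.Agent.R281.Ehr2_268
open Crest.Agent.R281.Dif_268

noncomputable section

variable {V X : Type} [NormedAddCommGroup V] [NormedSpace ℝ V] [TopologicalSpace X]
variable {E : Type} [NormedAddCommGroup E] [NormedSpace ℂ E]
variable {H : Type} [NormedAddCommGroup H] [NormedSpace ℂ H]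
variable {C : RCh V X} {B : Set E}

/-! ### constancy of the classes -/

/-- the family along a path, as a map of `ℝ × X` -/
def PFam.path (F : PFam C H B) {γ : ℝ → E} (hγ : ContDiff ℝ ∞ γ) (hB : ∀ s, γ s ∈ B) :
    PFam (prodR C) H (univ : Set ℂ) where
  op := isOpen_univ
  u i _ p := F.u i (γ p.1) p.2
  ne i _ _ p hp := F.ne i _ (hB _) _ ((prodR_target (C := C) i p).mp hp)
  tr i j _ _ p hp := by
    have h1 : p.2 ∈ C.ov i j := by
      refine ⟨(prodR_target (C := C) i p).mp hp.1, ?_⟩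
      have h2 : ((prodR C).e i).symm p ∈ ((prodR C).e j).source := hp.2
      exact (prodR_source (C := C) j _).mp h2
    obtain ⟨a, ha⟩ := F.tr i j (γ p.1) (hB _) p.2 h1
    exact ⟨a, ha⟩
  loc i c _ p hp := by
    obtain ⟨U, hU⟩ := F.loc i (γ p.1) (hB _) p.2 ((prodR_target (C := C) i p).mp hp)
    refine ⟨fun q => U (γ q.2.1, q.2.2), ?_⟩
    have h1 : ContDiff ℝ ∞ (fun q : ℂ × (ℝ × V) => (γ q.2.1, q.2.2)) :=
      (hγ.comp (contDiff_fst.comp contDiff_snd)).prodMk (contDiff_snd.comp contDiff_snd)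
    have h2 : Tendsto (fun q : ℂ × (ℝ × V) => (γ q.2.1, q.2.2)) (𝓝 (c, p))
        (𝓝 (γ p.1, p.2)) := h1.continuous.continuousAt
    filter_upwards [h2.eventually hU] with q hq
    obtain ⟨h3, h4, -⟩ := hq
    exact ⟨ContDiffAt.comp (f := fun q : ℂ × (ℝ × V) => (γ q.2.1, q.2.2)) (g := U) q h3
      h1.contDiffAt, h4, differentiableAt_const _⟩

theorem coh_path {K : Set H} (τ : B1 K) (hK : Co K) (F : PFam C H B)
    (hF : F.In {p : E × H | p.2 ∈ K}) {γ : ℝ → E} (hγ : ContDiff ℝ ∞ γ) (hB : ∀ s, γ s ∈ B) :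
    Coh ((τ.bf E).pull F (hK.cn E) hF (hB 1)) ((τ.bf E).pull F (hK.cn E) hF (hB 0)) := by
  have hF' : (F.path hγ hB).In {p : ℂ × H | p.2 ∈ K} := fun i _ _ p hp =>
    hF i (γ p.1) (hB _) p.2 ((prodR_target (C := C) i p).mp hp)
  have key : ∀ s, Eqv ((τ.bf E).pull F (hK.cn E) hF (hB s))
      ((slice C s).pull ((τ.bf ℂ).pull (F.path hγ hB) (hK.cn ℂ) hF' (mem_univ (0 : ℂ)))) := by
    intro s
    refine pull_nat (slice C s) (τ.bf ℂ) (τ.bf E) (hK.cn ℂ) (hK.cn E) hF' hF (mem_univ (0 : ℂ))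
      (hB s) (fun i j z hz => ?_) (fun _ _ _ _ _ _ _ _ _ => rfl)
    have h1 : z ∈ C.ov j i := ⟨hz.1, (prodR_source (C := C) i _).mp hz.2⟩
    obtain ⟨a, ha⟩ := F.tr j i (γ s) (hB s) z h1
    have ha0 : a ≠ 0 := by
      rintro rfl
      rw [zero_smul] at ha
      exact F.ne j (γ s) (hB s) z h1.1 ha
    exact ⟨a, ha0, ha⟩
  exact ((key 1).coh.trans (coh_slice _)).trans (key 0).symm.coh

/-- **the class is constant** -/
theorem coh_const {K : Set H} (τ : B1 K) (hK : Co K) (F : PFam C H B)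
    (hF : F.In {p : E × H | p.2 ∈ K}) (hconn : IsPreconnected B) {c c' : E} (hc : c ∈ B)
    (hc' : c' ∈ B) :
    Coh ((τ.bf E).pull F (hK.cn E) hF hc) ((τ.bf E).pull F (hK.cn E) hF hc') := by
  rw [← pl_eq (hK.cn E) hF _ hc, ← pl_eq (hK.cn E) hF _ hc']
  refine hconn.induction₂ (fun c c' => Coh ((τ.bf E).pl F (hK.cn E) hF c)
    ((τ.bf E).pl F (hK.cn E) hF c')) (fun x hx => ?_)
    (fun _ _ _ _ _ _ h h' => h.trans h') (fun _ _ _ _ h => h.symm) hc hc'
  obtain ⟨ε, hε, hball⟩ := Metric.isOpen_iff.mp F.op x hx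
  filter_upwards [mem_nhdsWithin_of_mem_nhds (Metric.ball_mem_nhds x hε)] with y hy
  let χ : ℝ → ℝ := Real.smoothTransition
  let γ : ℝ → E := fun s => x + χ s • (y - x)
  have hγs : ContDiff ℝ ∞ γ := by
    have h : ContDiff ℝ ∞ χ := Real.smoothTransition.contDiff
    exact contDiff_const.add (h.smul contDiff_const)
  have hγ0 : γ 0 = x := by simp [γ, χ, Real.smoothTransition.zero]
  have hγ1 : γ 1 = y := by simp [γ, χ, Real.smoothTransition.one]
  have hγb : ∀ s, γ s ∈ B := by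
    intro s
    apply hball
    rw [mem_ball_iff_norm]
    have e1 : γ s - x = χ s • (y - x) := by simp [γ]
    rw [e1, norm_smul, Real.norm_of_nonneg (Real.smoothTransition.nonneg s)]
    rw [mem_ball_iff_norm] at hy
    have e2 : χ s ≤ 1 := Real.smoothTransition.le_one s
    calc χ s * ‖y - x‖ ≤ 1 * ‖y - x‖ :=
          mul_le_mul_of_nonneg_right e2 (norm_nonneg _)
      _ < ε := by rw [one_mul]; exact hy
  have h1 := coh_path τ hK F hF hγs hγb
  rw [← pl_eq (hK.cn E) hF _ (hγb 1), ← pl_eq (hK.cn E) hF _ (hγb 0), hγ0, hγ1] at h1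
  exact h1.symm

/-! ### constructors of forms on cones -/

/-- a form given by a primitive -/
def B1.ofPrim {K : Set H} (α : H → H →L[ℝ] ℝ) (hα : ∀ x ∈ K, ∀ᶠ y in 𝓝 x, ContDiffAt ℝ ∞ α y)
    (hb : ∀ x ∈ K, ∀ a : ℂ, a ≠ 0 → ∀ (b b' : ℂ) (u v : H),
      fderiv ℝ α (a • x) (a • u + b • x) (a • v + b' • x) -
        fderiv ℝ α (a • x) (a • v + b' • x) (a • u + b • x) =
      fderiv ℝ α x u v - fderiv ℝ α x v u) : B1 K where
  sg x u v := fderiv ℝ α x u v - fderiv ℝ α x v u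
  loc x hx := by
    have h2 : ContDiff ℝ ∞ (fun T : H →L[ℝ] H →L[ℝ] ℝ => T - T.flip) := by
      have : (fun T : H →L[ℝ] H →L[ℝ] ℝ => T - T.flip) =
        fun T => T - ContinuousLinearMap.flipₗᵢ ℝ H H ℝ T := rfl
      rw [this]
      fun_prop
    have hsm : ∀ y, ContDiffAt ℝ ∞ α y →
        ContDiffAt ℝ ∞ (fun y => fderiv ℝ α y - (fderiv ℝ α y).flip) y := by
      intro y hy
      have h1 : ContDiffAt ℝ ∞ (fderiv ℝ α) y := hy.fderiv_right (m := ∞) (by simp)
      exact ContDiffAt.comp (f := fderiv ℝ α) (g := fun T => T - T.flip) y h2.contDiffAt h1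
    refine ⟨fun y => fderiv ℝ α y - (fderiv ℝ α y).flip, ?_, ?_⟩
    · filter_upwards [hα x hx] with y hy
      refine ⟨hsm y hy, fun _ => ⟨fun u v => ?_, fun u v _ _ => rfl⟩⟩
      simp only [sub_apply, ContinuousLinearMap.flip_apply]
      ring
    · intro a b c _ _ _
      have h0 := (hα x hx).self_of_nhds
      have h1 : DifferentiableAt ℝ (fderiv ℝ α) x :=
        (h0.fderiv_right (m := ∞) (by simp)).differentiableAt (by simp)
      have hs : ∀ p q, fderiv ℝ (fderiv ℝ α) x p q = fderiv ℝ (fderiv ℝ α) x q p := fun p q =>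
        (h0.of_le (m := 2) two_le).isSymmSndFDerivAt (by simp) p q
      have h3 : ∀ p q r, fderiv ℝ (fun y => fderiv ℝ α y - (fderiv ℝ α y).flip) x p q r =
          fderiv ℝ (fderiv ℝ α) x p q r - fderiv ℝ (fderiv ℝ α) x p r q := by
        intro p q r
        have g1 : HasFDerivAt (fun y => fderiv ℝ α y q) _ x :=
          h1.hasFDerivAt.clm_apply (hasFDerivAt_const q x)
        have g2 : HasFDerivAt (fun y => fderiv ℝ α y r) _ x :=
          h1.hasFDerivAt.clm_apply (hasFDerivAt_const r x)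
        have g3 := (g1.clm_apply (hasFDerivAt_const r x)).sub
          (g2.clm_apply (hasFDerivAt_const q x))
        have g4 : DifferentiableAt ℝ (fun y => fderiv ℝ α y - (fderiv ℝ α y).flip) x :=
          (hsm x h0).differentiableAt (by simp)
        rw [← fderiv_app g4]
        have g5 : (fun y => (fderiv ℝ α y - (fderiv ℝ α y).flip) q r) =
          (fun y => fderiv ℝ α y q r) - fun y => fderiv ℝ α y r q := rfl
        rw [g5, g3.fderiv]
        simp
      rw [h3, h3, h3, hs a b, hs b c, hs a c]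
      ring
  bas x hx a ha b b' u v _ _ := hb x hx a ha b b' u v

/-- linear pull back of a form -/
def B1.comap {G : Type} [NormedAddCommGroup G] [NormedSpace ℂ G] {K' : Set G} (τ : B1 K')
    (T : H →L[ℂ] G) {K : Set H} (hT : ∀ x ∈ K, T x ∈ K') : B1 K where
  sg x u v := τ.sg (T x) (T u) (T v)
  loc x hx := by
    obtain ⟨Sg, h1, h2⟩ := τ.loc (T x) (hT x hx)
    have hv : ∀ y u, V1 K y u → V1 K' (T y) (T u) := by
      rintro y u ⟨γ, g0, g1, g2⟩
      refine ⟨fun t => T (γ t), by simp only [g0], ?_, g2.mono fun t ht => hT _ ht⟩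
      exact (T.restrictScalars ℝ).hasFDerivAt.comp_hasDerivAt (0 : ℝ) g1
    refine ⟨fun y => ((ContinuousLinearMap.compL ℝ H G ℝ).flip (T.restrictScalars ℝ)).comp
      ((Sg (T y)).comp (T.restrictScalars ℝ)), ?_, ?_⟩
    · filter_upwards [T.continuous.continuousAt.eventually h1] with y hy
      refine ⟨?_, fun hyK => ⟨fun u v => ?_, fun u v hu hv' => ?_⟩⟩
      · have h3 : ContDiffAt ℝ ∞ (fun y => Sg (T y)) y :=
          ContDiffAt.comp (f := fun y => T y) (g := Sg) y hy.1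
            (T.restrictScalars ℝ).contDiff.contDiffAt
        exact contDiffAt_const.clm_comp (h3.clm_comp contDiffAt_const)
      · exact (hy.2 (hT y hyK)).1 (T u) (T v)
      · exact (hy.2 (hT y hyK)).2 (T u) (T v) (hv y u hu) (hv y v hv')
    · intro u v w hu hv' hw
      have h3 : HasFDerivAt (fun y => Sg (T y))
          ((fderiv ℝ Sg (T x)).comp (T.restrictScalars ℝ)) x :=
        HasFDerivAt.comp (f := fun y => T y) (g := Sg) x
          (h1.self_of_nhds.1.differentiableAt (by simp)).hasFDerivAt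
          (T.restrictScalars ℝ).hasFDerivAt
      have h4 := (hasFDerivAt_const ((ContinuousLinearMap.compL ℝ H G ℝ).flip
        (T.restrictScalars ℝ)) x).clm_comp
          (h3.clm_comp (hasFDerivAt_const (T.restrictScalars ℝ) x))
      have h5 : ∀ a b c, fderiv ℝ (fun y => ((ContinuousLinearMap.compL ℝ H G ℝ).flip
          (T.restrictScalars ℝ)).comp ((Sg (T y)).comp (T.restrictScalars ℝ))) x a b c =
          fderiv ℝ Sg (T x) (T a) (T b) (T c) := by
        intro a b c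
        rw [h4.fderiv]
        simp
      rw [h5, h5, h5]
      exact h2 _ _ _ (hv x u hu) (hv x v hv') (hv x w hw)
  bas x hx a ha b b' u v hu hv := by
    have h1 : ∀ y u, V1 K y u → V1 K' (T y) (T u) := by
      rintro y u ⟨γ, g0, g1, g2⟩
      refine ⟨fun t => T (γ t), by simp only [g0], ?_, g2.mono fun t ht => hT _ ht⟩
      exact (T.restrictScalars ℝ).hasFDerivAt.comp_hasDerivAt (0 : ℝ) g1
    simp only [map_add, map_smul]
    exact τ.bas (T x) (hT x hx) a ha b b' _ _ (h1 x u hu) (h1 x v hv)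

/-! ### the Fubini-Study form -/

section FS

open scoped InnerProductSpace

variable {G : Type} [NormedAddCommGroup G] [InnerProductSpace ℂ G]

/-- `Re ⟨x, v⟩` -/
def reB (G : Type) [NormedAddCommGroup G] [InnerProductSpace ℂ G] : G →L[ℝ] G →L[ℝ] ℝ :=
  LinearMap.mkContinuous₂ (LinearMap.mk₂ ℝ (fun x v : G => (⟪x, v⟫_ℂ).re)
    (fun x y v => by rw [inner_add_left, add_re])
    (fun r x v => by
      have : r • x = (r : ℂ) • x := rfl
      rw [this, inner_smul_left, conj_ofReal, re_ofReal_mul, smul_eq_mul])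
    (fun x v w => by rw [inner_add_right, add_re])
    (fun r x v => by
      have : r • v = (r : ℂ) • v := rfl
      rw [this, inner_smul_right, re_ofReal_mul, smul_eq_mul])) 1 (fun x v => by
      rw [one_mul, LinearMap.mk₂_apply, Real.norm_eq_abs]
      exact (abs_re_le_norm _).trans (norm_inner_le_norm x v))

/-- `Im ⟨x, v⟩` -/
def imB (G : Type) [NormedAddCommGroup G] [InnerProductSpace ℂ G] : G →L[ℝ] G →L[ℝ] ℝ :=
  LinearMap.mkContinuous₂ (LinearMap.mk₂ ℝ (fun x v : G => (⟪x, v⟫_ℂ).im)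
    (fun x y v => by rw [inner_add_left, add_im])
    (fun r x v => by
      have : r • x = (r : ℂ) • x := rfl
      rw [this, inner_smul_left, conj_ofReal, im_ofReal_mul, smul_eq_mul])
    (fun x v w => by rw [inner_add_right, add_im])
    (fun r x v => by
      have : r • v = (r : ℂ) • v := rfl
      rw [this, inner_smul_right, im_ofReal_mul, smul_eq_mul])) 1 (fun x v => by
      rw [one_mul, LinearMap.mk₂_apply, Real.norm_eq_abs]
      exact (abs_im_le_norm _).trans (norm_inner_le_norm x v))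

@[simp] theorem reB_apply (x v : G) : reB G x v = (⟪x, v⟫_ℂ).re := rfl
@[simp] theorem imB_apply (x v : G) : imB G x v = (⟪x, v⟫_ℂ).im := rfl

/-- the Fubini-Study form on the cone -/
def fs (x v w : G) : ℝ :=
  (⟪v, w⟫_ℂ).im / ‖x‖ ^ 2 - (⟪v, x⟫_ℂ * ⟪x, w⟫_ℂ).im / ‖x‖ ^ 4

/-- its primitive -/
def fsa (x : G) : G →L[ℝ] ℝ := (2 * reB G x x)⁻¹ • imB G x

theorem reB_self (x : G) : reB G x x = ‖x‖ ^ 2 := by
  rw [reB_apply, inner_self_eq_norm_sq_to_K]
  norm_cast

theorem fsa_smooth {x : G} (hx : x ≠ 0) : ContDiffAt ℝ ∞ (fsa (G := G)) x := by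
  have h1 : ContDiff ℝ ∞ (fun x : G => reB G x x) := by fun_prop
  have h2 : (2 * reB G x x) ≠ 0 := by
    rw [reB_self]
    have := norm_pos_iff.mpr hx
    positivity
  have h3 : ContDiffAt ℝ ∞ (fun x : G => (2 * reB G x x)⁻¹) x :=
    (contDiffAt_const.mul h1.contDiffAt).inv h2
  exact h3.smul (imB G).contDiff.contDiffAt

theorem im_flip (u v : G) : (⟪v, u⟫_ℂ).im = -(⟪u, v⟫_ℂ).im := by
  rw [← inner_conj_symm, conj_im]

theorem d_fsa {x : G} (hx : x ≠ 0) (u v : G) :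
    fderiv ℝ (fsa (G := G)) x u v - fderiv ℝ (fsa (G := G)) x v u = fs x u v := by
  have hn : (0 : ℝ) < ‖x‖ := norm_pos_iff.mpr hx
  have h2 : (2 * reB G x x) ≠ 0 := by
    rw [reB_self]
    positivity
  have h1 : HasFDerivAt (fun x : G => reB G x x)
      (((reB G) x).comp (ContinuousLinearMap.id ℝ G) + (reB G).flip x) x := by
    have := (reB G).hasFDerivAt.clm_apply (hasFDerivAt_id x)
    exact this
  have h3 := (hasDerivAt_inv h2).comp_hasFDerivAt x (h1.const_mul 2)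
  have h4 : HasFDerivAt (fsa (G := G)) _ x := h3.smul (imB G).hasFDerivAt
  have e0 : ∀ u v, fderiv ℝ (fsa (G := G)) x u v = (2 * reB G x x)⁻¹ * imB G u v -
      ((2 * reB G x x) ^ 2)⁻¹ * (2 * (reB G x u + reB G u x)) * imB G x v := by
    intro u v
    rw [h4.fderiv]
    simp only [Function.comp_apply, add_apply, smul_apply, ContinuousLinearMap.smulRight_apply,
      ContinuousLinearMap.comp_apply, ContinuousLinearMap.flip_apply, smul_eq_mul,
      ContinuousLinearMap.id_apply]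
    ring
  have e1 : ∀ u, reB G u x = reB G x u := fun u => by
    rw [reB_apply, reB_apply, ← inner_conj_symm, conj_re]
  have e2 : (⟪u, x⟫_ℂ * ⟪x, v⟫_ℂ).im = reB G x u * imB G x v - imB G x u * reB G x v := by
    rw [mul_im, ← inner_conj_symm u x, conj_re, conj_im]
    simp only [reB_apply, imB_apply]
    ring
  rw [e0, e0, e1 u, e1 v, reB_self, fs, e2]
  have e3 : imB G v u = -imB G u v := im_flip u v
  rw [e3, imB_apply u v]
  field_simp
  ring

theorem fs_bas {x : G} (hx : x ≠ 0) {a : ℂ} (ha : a ≠ 0) (b b' : ℂ) (u v : G) :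
    fs (a • x) (a • u + b • x) (a • v + b' • x) = fs x u v := by
  have hn : (‖x‖ : ℂ) ≠ 0 := by exact_mod_cast (norm_ne_zero_iff.mpr hx)
  have hfs : ∀ x v w : G, fs x v w =
      (⟪v, w⟫_ℂ / (‖x‖ : ℂ) ^ 2 - ⟪v, x⟫_ℂ * ⟪x, w⟫_ℂ / (‖x‖ : ℂ) ^ 4).im := by
    intro x v w
    rw [sub_im, fs]
    congr 1
    · rw [← ofReal_pow, div_ofReal_im]
    · rw [← ofReal_pow, div_ofReal_im]
  rw [hfs, hfs]
  congr 1
  have hxx : ⟪x, x⟫_ℂ = (‖x‖ : ℂ) ^ 2 := inner_self_eq_norm_sq_to_K x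
  have haa : (‖a • x‖ : ℂ) ^ 2 = (starRingEnd ℂ a * a) * (‖x‖ : ℂ) ^ 2 := by
    rw [norm_smul, ofReal_mul, mul_pow, ← ofReal_pow, ← normSq_eq_norm_sq, ← mul_conj]
    ring
  have ha4 : (‖a • x‖ : ℂ) ^ 4 = ((starRingEnd ℂ a * a) * (‖x‖ : ℂ) ^ 2) ^ 2 := by
    rw [← haa]; ring
  have hc : starRingEnd ℂ a ≠ 0 := (map_ne_zero _).mpr ha
  rw [haa, ha4]
  simp only [inner_add_left, inner_add_right, inner_smul_left, inner_smul_right, hxx]
  field_simp
  ring

/-- **the Fubini-Study form** -/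
def FS (G : Type) [NormedAddCommGroup G] [InnerProductSpace ℂ G] : B1 {x : G | x ≠ 0} :=
  B1.ofPrim (fsa (G := G))
    (fun x hx => (isOpen_ne.mem_nhds hx : {y : G | y ≠ 0} ∈ 𝓝 x) |> fun h => by
      filter_upwards [h] with y hy using fsa_smooth hy)
    (fun x hx a ha b b' u v => by
      rw [d_fsa (smul_ne_zero ha hx), d_fsa hx]
      exact fs_bas hx ha b b' u v)

theorem FS_sg {x : G} (hx : x ≠ 0) (u v : G) : (FS G).sg x u v = fs x u v := d_fsa hx u v

theorem co_ne (G : Type) [NormedAddCommGroup G] [NormedSpace ℂ G] : Co {x : G | x ≠ 0} :=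
  fun _ hx _ ha => smul_ne_zero ha hx

/-- the form is `≥ 0` -/
theorem fs_nonneg (x v : G) : 0 ≤ fs x v (I • v) := by
  by_cases hx : x = 0
  · subst hx; simp [fs]
  have hn : (0 : ℝ) < ‖x‖ := norm_pos_iff.mpr hx
  have h1 : (⟪v, I • v⟫_ℂ).im = ‖v‖ ^ 2 := by
    rw [inner_smul_right, inner_self_eq_norm_sq_to_K, I_mul_im]
    show ((‖v‖ : ℂ) ^ 2).re = _
    rw [← ofReal_pow, ofReal_re]
  have h2 : (⟪v, x⟫_ℂ * ⟪x, I • v⟫_ℂ).im = ‖⟪x, v⟫_ℂ‖ ^ 2 := by
    rw [inner_smul_right, ← inner_conj_symm v x]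
    have : starRingEnd ℂ ⟪x, v⟫_ℂ * (I * ⟪x, v⟫_ℂ) = I * ((‖⟪x, v⟫_ℂ‖ ^ 2 : ℝ) : ℂ) := by
      rw [← normSq_eq_norm_sq, ← mul_conj]; ring
    rw [this, I_mul_im, ofReal_re]
  rw [fs, h1, h2, sub_nonneg, div_le_div_iff₀ (by positivity) (by positivity)]
  have h3 := norm_inner_le_norm (𝕜 := ℂ) x v
  have h4 : ‖⟪x, v⟫_ℂ‖ ^ 2 ≤ (‖x‖ * ‖v‖) ^ 2 := pow_le_pow_left₀ (norm_nonneg _) h3 2
  calc ‖⟪x, v⟫_ℂ‖ ^ 2 * ‖x‖ ^ 2 ≤ (‖x‖ * ‖v‖) ^ 2 * ‖x‖ ^ 2 :=
        mul_le_mul_of_nonneg_right h4 (by positivity)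
    _ = ‖v‖ ^ 2 * ‖x‖ ^ 4 := by ring

/-- the form is positive off the multiples of the base point -/
theorem fs_pos {x v : G} (hx : x ≠ 0) (hv : ∀ a : ℂ, v ≠ a • x) : 0 < fs x v (I • v) := by
  refine lt_of_le_of_ne (fs_nonneg x v) fun h => ?_
  have hn : (0 : ℝ) < ‖x‖ := norm_pos_iff.mpr hx
  have hv0 : v ≠ 0 := fun h0 => hv 0 (by rw [h0, zero_smul])
  have h1 : (⟪v, I • v⟫_ℂ).im = ‖v‖ ^ 2 := by
    rw [inner_smul_right, inner_self_eq_norm_sq_to_K, I_mul_im]
    show ((‖v‖ : ℂ) ^ 2).re = _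
    rw [← ofReal_pow, ofReal_re]
  have h2 : (⟪v, x⟫_ℂ * ⟪x, I • v⟫_ℂ).im = ‖⟪x, v⟫_ℂ‖ ^ 2 := by
    rw [inner_smul_right, ← inner_conj_symm v x]
    have : starRingEnd ℂ ⟪x, v⟫_ℂ * (I * ⟪x, v⟫_ℂ) = I * ((‖⟪x, v⟫_ℂ‖ ^ 2 : ℝ) : ℂ) := by
      rw [← normSq_eq_norm_sq, ← mul_conj]; ring
    rw [this, I_mul_im, ofReal_re]
  rw [fs, h1, h2, eq_comm, sub_eq_zero, div_eq_div_iff (by positivity) (by positivity)] at h
  have h3 : ‖⟪x, v⟫_ℂ‖ ^ 2 = (‖x‖ * ‖v‖) ^ 2 := by
    have h4 : (‖⟪x, v⟫_ℂ‖ ^ 2 - (‖x‖ * ‖v‖) ^ 2) * ‖x‖ ^ 2 = 0 := by linear_combination -h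
    exact sub_eq_zero.mp ((mul_eq_zero.mp h4).resolve_right (by positivity))
  have h5 : ‖⟪x, v⟫_ℂ‖ = ‖x‖ * ‖v‖ :=
    (pow_left_inj₀ (norm_nonneg _) (by positivity) (by norm_num)).mp h3
  obtain ⟨r, -, hr⟩ := (norm_inner_eq_norm_iff (𝕜 := ℂ) hx hv0).mp h5
  exact hv r hr

end FS

end

end Crest.Agent.R281.Phl_655
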