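import Crest.Agent.R281.Kb3_565
import Crest.Agent.R281.Phl5_655

/-!
# R281 (S0424), START (D14) (helper565), part 4: the forms of the starting marking

`P₀ = ofProj (segPs Q e) (bE N)` the starting embedding.

* `sL e`      : the Segre coordinates of a vector of `ℂ^(N+1)`
* `sL_u`, `sL_du` : of the embedding and of its derivative
* `blk_val`   : the value of the `k`-th block form (592) is the curvature form of `fs (Q k)`
* `fs_val`    : the value of the Fubini-Study form is the curvature form of `fs (segPs Q e)`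
* `frm_val`   : the value of the certified form (867) is `om 1 + i om 2`
-/

set_option autoImplicit false
set_option linter.unusedSectionVars false
set_option maxSynthPendingDepth 3

open Set Filter Topology Complex
open scoped ContDiff Matrix ComplexConjugate ComplexOrder

namespace Crest.Agent.R281.Kb_565

open Crest.Agent.R275.Geo Crest.Agent.R275.Core144 Crest.Agent.R275.EDR890
open Crest.Agent.R275.GC293
open Crest.Agent.R273
open Crest.Agent.R273.Kah_333 Crest.Agent.R273.Hess_333 Crest.Agent.R273.HessB_333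
open Crest.Agent.R273.Defs_333 Crest.Agent.R273.HM_333
open Crest.Agent.R273.FS_333 (lb fs sec sec_eq)
open Crest.Agent.R281.Defs_273
open Crest.Agent.R260.ACM_580 Crest.Agent.R260.NNB_580
open Crest.Agent.R281.HkR_835 Crest.Agent.R281.Ti_846 Crest.Agent.R281.HkP2_508
open Crest.Agent.R281.NefO_476 Crest.Agent.R281.Dif_268
open Crest.Agent.R281.Nef_252
open Crest.Agent.R281.Cdr_234 (Cls IntF RatF c1F c1F_w)
open Crest.Agent.R281.AF_867 (Closed Rels)
open Crest.Agent.R281.CA_867 Crest.Agent.R281.CB_867 Crest.Agent.R281.Pe_313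
open Crest.Agent.R281.Blk_592 (seg dseg ext segPs segPs_F segPs_lb segPoly segRel_seg segRel_iff
  segM MapD SegRel DRel fsv sgv sgv_eq ext_seg ext_dseg fsv_bas dRel_dseg fderiv_seg f2_fs segK
  segB)

noncomputable section

/-! ### Segre coordinates -/

section lin

variable {T : Type} [Fintype T] {N : ℕ}

/-- the Segre coordinates of a vector of `ℂ^(N+1)` -/
def sL (e : T ≃ Fin (N + 1)) : EuclideanSpace ℂ (Fin (N + 1)) ≃L[ℂ] (T → ℂ) :=
  (bE N).trans (Blk_592.bE e).symm

theorem sL_apply (e : T ≃ Fin (N + 1)) (w : EuclideanSpace ℂ (Fin (N + 1))) (t : T) :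
    sL e w t = w (e t) := rfl

theorem sL_bE (e : T ≃ Fin (N + 1)) (v : Fin (N + 1) → ℂ) (t : T) :
    sL e ((bE N).symm v) t = v (e t) := rfl

end lin

section forms

variable {n : ℕ} {M : Type} [TopologicalSpace M] {A : Atl n M}
variable {ι : Type} [Fintype ι] [DecidableEq ι] [Nonempty ι] (Q : ι → ProjD A) {N : ℕ}
  (e : (∀ k, Fin ((Q k).N + 1)) ≃ Fin (N + 1))

/-- the embedding -/
abbrev P0 : Ehr2_268.HEmb (ofAtl A) (EuclideanSpace ℂ (Fin (N + 1))) := ofProj (segPs Q e) (bE N)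

theorem sL_u (i : A.ι) (z : Cn n) :
    sL e ((P0 Q e).u i z) = seg fun k => (Q k).F i ((A.e i).symm z) := by
  funext a
  show (segPs Q e).F i ((A.e i).symm z) (e a) = _
  exact segPs_F Q e i _ a

theorem Q_diff {i : A.ι} {z : Cn n} (hz : z ∈ (A.e i).target) (k : ι) :
    DifferentiableAt ℝ (fun w => (Q k).F i ((A.e i).symm w)) z :=
  (F_hol (Q k) hz).restrictScalars ℝ

theorem sL_du {i : A.ι} {z : Cn n} (hz : z ∈ (A.e i).target) (v : Cn n) :
    sL e (fderiv ℝ ((P0 Q e).u i) z v) = dseg (fun k => (Q k).F i ((A.e i).symm z))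
      (fun k => fderiv ℝ (fun w => (Q k).F i ((A.e i).symm w)) z v) := by
  have h1 : DifferentiableAt ℝ ((P0 Q e).u i) z :=
    (((P0 Q e).sm i).contDiffAt ((A.e i).open_target.mem_nhds hz)).differentiableAt (by simp)
  let T : EuclideanSpace ℂ (Fin (N + 1)) →L[ℝ] ((∀ k, Fin ((Q k).N + 1)) → ℂ) :=
    ((sL e : EuclideanSpace ℂ (Fin (N + 1)) →L[ℂ] ((∀ k, Fin ((Q k).N + 1)) → ℂ))).restrictScalars ℝ
  have h2 : HasFDerivAt (fun w => sL e ((P0 Q e).u i w))
      (T.comp (fderiv ℝ ((P0 Q e).u i) z)) z :=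
    T.hasFDerivAt.comp z h1.hasFDerivAt
  have h3 : (fun w => sL e ((P0 Q e).u i w)) =
      fun w => seg fun k => (Q k).F i ((A.e i).symm w) := funext fun w => sL_u Q e i w
  rw [h3] at h2
  have h4 := fderiv_seg (u := fun k w => (Q k).F i ((A.e i).symm w)) (fun k => Q_diff Q hz k) v
  rw [h2.fderiv] at h4
  exact h4

theorem segK_u {i : A.ι} {z : Cn n} (hz : z ∈ (A.e i).target) :
    sL e ((P0 Q e).u i z) ∈ segK fun k => Fin ((Q k).N + 1) := by
  refine ⟨fun h0 => (P0 Q e).ne i z hz ?_, ?_⟩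
  · exact (sL e).injective (by rw [h0, map_zero])
  · rw [sL_u]
    exact segRel_seg _

/-- **the block form** -/
theorem blk_val {i : A.ι} {z : Cn n} (hz : z ∈ (A.e i).target) (k : ι) (u v : Cn n) :
    sgv k (sL e ((P0 Q e).u i z)) (sL e (fderiv ℝ ((P0 Q e).u i) z u))
      (sL e (fderiv ℝ ((P0 Q e).u i) z v)) = (Cdr_234.curK (fs (Q k))).f2.w i z u v := by
  have hx := (A.e i).map_target hz
  obtain ⟨a, ha⟩ := Blk_592.exists_nz (segK_u Q e hz).1
  have hK := f2_fs (MapD.ofProj (Q k)) (Cdr_234.curK (fs (Q k))) (fun i x hx => by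
    show cur (fs (Q k)) i x = _
    unfold cur
    have h3 : (MapD.ofProj (Q k)).fs.wt i = (fs (Q k)).wt i := by
      funext z
      simp only [HM.wt, MapD.ofProj_w]
    rw [h3]) hz u v
  rw [hK]
  have h1 := sL_u Q e i z
  rw [h1] at ha ⊢
  rw [sL_du Q e hz, sL_du Q e hz, sgv_eq k (segRel_seg _) (dRel_dseg _ _) (dRel_dseg _ _) ha,
    ext_seg, ext_dseg, ext_dseg]
  have hc : (∏ l ∈ Finset.univ.erase k, (Q l).F i ((A.e i).symm z) (a l)) ≠ 0 := by
    rw [Blk_592.seg_eq _ k a] at ha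
    exact right_ne_zero_of_mul ha
  exact fsv_bas ((Q k).ne i _ hx) _ _ hc _ _

/-- **the total form** -/
theorem fs_val {i : A.ι} {z : Cn n} (hz : z ∈ (A.e i).target) (u v : Cn n) :
    fsv (sL e ((P0 Q e).u i z)) (sL e (fderiv ℝ ((P0 Q e).u i) z u))
      (sL e (fderiv ℝ ((P0 Q e).u i) z v)) =
      (Cdr_234.curK (fs (segPs Q e))).f2.w i z u v := by
  have hK := f2_fs (segM fun k => MapD.ofProj (Q k)) (Cdr_234.curK (fs (segPs Q e)))
    (fun i x hx => by
      show cur (fs (segPs Q e)) i x = _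
      unfold cur
      have h1 : (fs (segPs Q e)).wt i = (segM fun k => MapD.ofProj (Q k)).fs.wt i := by
        funext z
        simp only [HM.wt, fs_segPs_w]
      rw [h1]) hz u v
  rw [hK, sL_u, sL_du Q e hz, sL_du Q e hz]
  have h4 := fun v => fderiv_seg (u := fun k w => (Q k).F i ((A.e i).symm w))
    (fun k => Q_diff Q hz k) v
  rw [← h4, ← h4]
  rfl

variable {V : Type} [NormedAddCommGroup V] [NormedSpace ℝ V] {C : RCh V M}

/-- **the certified form** is `om 1 + i om 2` -/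
theorem frm_val {H : HkT C} (hA : Cp (H.acm 0) A) {Cc : CDat n N ℂ}
    (h : IsCert (segPs Q e) (H.sig hA) Cc) {i : A.ι} {z : Cn n} (hz : z ∈ (A.e i).target)
    (j : Fin (N + 1)) (u v : Cn n) :
    Cc.D.b j (fun l => (P0 Q e).u i z l) (fun l => fderiv ℝ ((P0 Q e).u i) z u l)
      (fun l => fderiv ℝ ((P0 Q e).u i) z v l) =
      (P0 Q e).u i z j ^ Cc.D.m * ((((cmp_of_cp hA).F (H.om 1)).w i z u v : ℂ) +
        (((cmp_of_cp hA).F (H.om 2)).w i z u v : ℂ) * I) := by
  have h1 := form_eq h hz j u v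
  have h2 := S0_sb (H.onA hA) (onA_J H hA) hz u v
  have h3 : sb ((H.sig hA).s i ((A.e i).symm z)) u v =
      (((cmp_of_cp hA).F (H.om 1)).w i z u v : ℂ) +
        (((cmp_of_cp hA).F (H.om 2)).w i z u v : ℂ) * I := by
    refine h2.trans ?_
    rw [mul_comm I]
    rfl
  rw [h3] at h1
  have h4 : ∀ v : Cn n, (fun l => fderiv ℝ ((P0 Q e).u i) z v l) =
      fderiv ℂ (fun w => (segPs Q e).F i ((A.e i).symm w)) z v := fun v =>
    funext fun l => congrFun (congrArg (bE N) (ofProj_fderiv (segPs Q e) (bE N) hz v)) l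
  exact (congrArg₂ (Cc.D.b j (fun l => (P0 Q e).u i z l)) (h4 u) (h4 v)).trans h1

end forms

end

end Crest.Agent.R281.Kb_565
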