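import Crest.Agent.R281.Kb3_565
import Crest.Agent.R281.StK1_871
import Crest.Agent.R281.RkD_902
import Crest.Agent.R281.Cdr11_234
import Crest.Agent.R260.NN6_900

/-!
# R281 (S0424), START MATCHING (helper871), part 2: the start in 902's context

`Ctx n C Q` (RkD_902), `AtTau F A H τ` (998), `A` integral, orthogonal to `W`, `0 < Q A A`.

* `exists_model_gen`, `exists_start_gen`, `start_seg_gen` : 867's and 565's START with the generic
                point (`RelOk`)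
* `qs_ctx`, `qr_ctx` : `QS Q`, `QR Q`; `hbas_hk` : `HBas C`; `ratH` : `RatH C`
* `span_ok`  : classes orthogonal to `W^⊥` are in `W`
* `start_all` : integral classes `w k`, a positive combination (`∑ w k ~ c • A`), spanning `W^⊥`,
                an atlas of `J 0`, embeddings `Qs k` of class `w k`, the Segre embedding, code, model,
                base point (565's `start_seg`)
-/

set_option autoImplicit false
set_option linter.unusedSectionVars false
set_option maxSynthPendingDepth 3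

open Set Filter Topology Module
open scoped ContDiff

namespace Crest.Agent.R281.Sm_871

open Crest.Agent.R275.Geo Crest.Agent.R275.Core144 Crest.Agent.R275.GC293
open Crest.Agent.R275.EDR890
open Crest.Agent.R273.Defs_333 Crest.Agent.R273.Kah_333 Crest.Agent.R281.Defs_273
open Crest.Agent.R273.FS_333 (lb fs sec sec_eq)
open Crest.Agent.R260.ACM_580 Crest.Agent.R260.NNB_580
open Crest.Agent.R281.HkR_835 Crest.Agent.R281.Dif_268
open Crest.Agent.R281.Cdr_234 Crest.Agent.R281.Alg_998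
open Crest.Agent.R281.Sta2_684 Crest.Agent.R281.Sta3_684 Crest.Agent.R281.W3a_698
open Crest.Agent.R281.RkD_902 Crest.Agent.R281.StK_871 Crest.Agent.R281.Sta1_684
open Crest.Agent.R281.Ti_846 (Ex)
open Crest.Agent.R281.NefO_476 (ofHk Pos)
open Crest.Agent.R281.Nef_252 (T11 KCls eqv_ex_sub ex_add)
open Crest.Agent.R281.Kb_565
open Crest.Agent.R281.CA_867 Crest.Agent.R281.CB_867
open Crest.Agent.R281.Sl_957 Crest.Agent.R281.Am_957 Crest.Agent.R281.QF_871
open Crest.Agent.R281.Pe_313 Crest.Agent.R281.Blk_592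

noncomputable section

/-! ### the hypotheses of START from the context -/

section rat

variable {V X : Type} [NormedAddCommGroup V] [NormedSpace ℝ V] [TopologicalSpace X]
  {C : RCh V X}

/-- 684's `RatH` from 234's basis -/
theorem ratH (B : HBas C) : RatH C where
  fin := B.finite
  ex h hx := Cls.of_sub_ex' hx (by
    have h1 := Cdr_234.Ex.neg h
    rwa [neg_sub] at h1)
  zero := by
    have := B.ratF_iff (fun _ => 0)
    simpa using this.2 fun _ => ⟨0, by simp⟩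
  add h h' := Cls.add h h'
  smul q _ h := RatF.smul h q
  span := by
    rw [eq_top_iff]
    intro x _
    rw [← B.basis.sum_repr x]
    refine Submodule.sum_mem _ fun k _ => Submodule.smul_mem _ _ (Submodule.subset_span ?_)
    exact ⟨B.b k, (B.int k).rat, (B.basis_apply k).symm⟩
  int h := B.rat_int h

end rat

/-! ### the model of a code, with the generic point -/

section gen

open Crest.Agent.R281.AF_867 (Closed Rels)

variable {k₀ : Type} [Field k₀] [CharZero k₀] [Algebra k₀ ℂ]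

/-- the model of a good code; its points are specialisations of the given one -/
theorem exists_model_gen {n N : ℕ} {K : Code k₀ n N} {c : Fin K.k → ℂ} (hc : K.Good c) :
    ∃ (M : Fmt k₀ (Fin K.k)) (_ : M.Nice)
      (_ : ∀ (z : Fin M.m → ℂ) (w : ℂ), M.On z w → K.Good (M.pt z w)) (q : QM M),
      AlgebraicIndependent k₀ q.1.1 ∧ M.pt q.1.1 q.1.2 = c ∧
      ∀ (z : Fin M.m → ℂ) (w : ℂ), M.On z w → RelOk k₀ c (M.pt z w) := by
  obtain ⟨M, z, b, hN, hz, hon, hpt, hsp⟩ := Fmt.exists_fmt (k₀ := k₀) c K.rr hc.ne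
  exact ⟨M, hN, fun z' w hw => hc.spec (hsp z' w hw).1 (hsp z' w hw).2, ⟨(z, b), hon⟩, hz, hpt,
    fun z' w hw => (hsp z' w hw).1⟩

/-- 867's START-CODE, with the generic point -/
theorem exists_start_gen {n : ℕ} {M : Type} [TopologicalSpace M] {A : Atl n M} [T2Space M]
    [ConnectedSpace M] [CompactSpace M] [Finite A.ι] (PA : Part A)
    (hD : Crest.Agent.R273.TD3_733.D2 A)
    (P : ProjD A) (σ : HSymp A) (hcl : Closed σ.toH2)
    (T : Finset (MvPolynomial (Fin (P.N + 1)) k₀))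
    (hT : ∀ p ∈ T, MvPolynomial.map (algebraMap k₀ ℂ) p ∈ Rels (fun k => sec P k)) :
    ∃ (K : Code k₀ n P.N) (Mo : Fmt k₀ (Fin K.k)) (h : Mo.Nice)
      (hM : ∀ (z : Fin Mo.m → ℂ) (w : ℂ), Mo.On z w → K.Good (Mo.pt z w)) (q0 : QM Mo),
      (∀ p ∈ T, MvPolynomial.map (MvPolynomial.C : k₀ →+* MvPolynomial (Fin K.k) k₀) p ∈
        range K.Y.G) ∧
      IsCert P σ (K.mem (Mo.pt q0.1.1 q0.1.2)) ∧ AlgebraicIndependent k₀ q0.1.1 ∧
      (∀ (z : Fin Mo.m → ℂ) (w : ℂ), Mo.On z w →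
        RelOk k₀ (Mo.pt q0.1.1 q0.1.2) (Mo.pt z w)) ∧
      ∀ w, w ∈ (ofProj P (bE P.N)).cone ↔ w ∈ (qfamC K Mo h hM).S q0 := by
  obtain ⟨K, c, hg, hC, hT'⟩ := exists_code k₀ (algebraMap k₀ ℂ).injective PA hD P σ hcl T hT
  obtain ⟨Mo, h, hM, q0, hz, hpt, hgen⟩ := exists_model_gen hg
  have hC' : IsCert P σ (K.mem (Mo.pt q0.1.1 q0.1.2)) := by
    rw [hpt]
    exact hC
  refine ⟨K, Mo, h, hM, q0, hT', hC', hz, fun z w hw => by rw [hpt]; exact hgen z w hw,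
    fun w => ?_⟩
  rw [cone_ofProj hC', qfamC_S]
  rfl

/-- 565's START at a triple, with the generic point -/
theorem start_seg_gen {V X : Type} [NormedAddCommGroup V] [NormedSpace ℝ V] [TopologicalSpace X]
    {d : ℕ} {C : RCh V X} [FiniteDimensional ℝ V] [CompactSpace X] [T2Space X] [ConnectedSpace X]
    (hNN : NNat V d) (k₀ : Type) [Field k₀] [CharZero k₀] [Algebra k₀ ℂ] (H : HkT C)
    {ι : Type} [Fintype ι] [DecidableEq ι] [Nonempty ι] {w : ι → F2 C} (hi : ∀ i, IntF (w i))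
    (hw : ∀ i, KCls (ofHk H 0) (w i)) :
    ∃ (A : Atl d X) (_ : Finite A.ι) (_ : GoodA A) (_ : Nonempty (Part A))
      (hA : Cp (H.acm 0) A) (m : ℕ) (_ : 0 < m) (Q : ι → ProjD A) (N : ℕ)
      (e : (∀ k, Fin ((Q k).N + 1)) ≃ Fin (N + 1))
      (K : Code k₀ d N) (Mo : Fmt k₀ (Fin K.k)) (h : Mo.Nice)
      (hM : ∀ (z : Fin Mo.m → ℂ) (w : ℂ), Mo.On z w → K.Good (Mo.pt z w)) (q0 : QM Mo),
      (∀ k, Ex (c1F (fs (Q k)) - (m : ℝ) • (cmp_of_cp hA).F (w k))) ∧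
      (∀ p ∈ segT Q e k₀, MvPolynomial.map (MvPolynomial.C : k₀ →+* MvPolynomial (Fin K.k) k₀) p ∈
        range K.Y.G) ∧
      IsCert (segPs Q e) (H.sig hA) (K.mem (Mo.pt q0.1.1 q0.1.2)) ∧
      AlgebraicIndependent k₀ q0.1.1 ∧
      (∀ (z : Fin Mo.m → ℂ) (w : ℂ), Mo.On z w →
        RelOk k₀ (Mo.pt q0.1.1 q0.1.2) (Mo.pt z w)) ∧
      (∀ w, w ∈ (ofProj (segPs Q e) (bE N)).cone ↔ w ∈ (qfamC K Mo h hM).S q0) ∧
      CxOf (ofProj (segPs Q e) (bE N)) H := by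
  obtain ⟨A, f1, f2, ⟨PA⟩, hA, L, hL, hpos, hc, m0, hm0⟩ := kod_many hNN H hi hw
  choose Q hQl hQ using hm0 (m0 + 1) (Nat.le_succ _)
  have hne : Nonempty (∀ k, Fin ((Q k).N + 1)) := ⟨fun _ => 0⟩
  set N := Blk_592.segN fun k => Fin ((Q k).N + 1) with hN
  set e : (∀ k, Fin ((Q k).N + 1)) ≃ Fin (N + 1) := Blk_592.segEquiv _ with he
  have hD : Crest.Agent.R273.TD3_733.D2 A :=
    Crest.Agent.R273.D13_505.d2 PA (kah (hL (Classical.arbitrary ι)) (hpos _))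
  obtain ⟨K, Mo, h, hM, q0, h1, h2, h3, h4, h5⟩ := exists_start_gen (k₀ := k₀) PA hD (segPs Q e)
    (H.sig hA) (closed_sig H hA) (segT Q e k₀) fun p hp => segT_rels Q e (segT_map Q e _ hp)
  exact ⟨A, f1, f2, ⟨PA⟩, hA, m0 + 1, Nat.succ_pos _, Q, N, e, K, Mo, h, hM, q0, hQ, h1, h2,
    h3, h4, h5, cxOf_ofProj hA _ _⟩

end gen

variable {n : ℕ} {X : Type} [TopologicalSpace X] [CompactSpace X] {C : RCh (Cn (2 * n)) X}
  {Q : F2 C →ₗ[ℝ] F2 C →ₗ[ℝ] ℝ}

theorem qs_ctx (h : Ctx n C Q) : QS Q := ⟨h.symm, h.ex, h.eq⟩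

theorem qr_ctx (h : Ctx n C Q) : QR Q :=
  ⟨qs_ctx h, fun x y hx hy => h.rat x y hx hy, h.t11⟩

theorem nnC (d : ℕ) : NNat (Cn d) d :=
  Crest.Agent.R260.NN6_900.nnat d (Cn d) (by
    rw [finrank_real_of_complex]
    simp)

/-- 234's basis, on a manifold with a triple -/
theorem hbas_hk [T2Space X] (H : HkT C) : Nonempty (HBas C) := by
  obtain ⟨A, -, -, -, h, -, -⟩ := exists_rot (nnC (2 * n)) H
  exact exists_hbas_cmp A h

/-- the Fujiki form on the classes -/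
abbrev Qc (h : Ctx n C Q) : HdR C →ₗ[ℝ] HdR C →ₗ[ℝ] ℝ := Bq (qs_ctx h)

/-- **a class orthogonal to `W^⊥` is in `W`** -/
theorem span_ok (h : Ctx n C Q) (F : Frm C Q) {A : F2 C} (hAA : 0 < Q A A)
    (h1 : Q A F.e = 0) (h2 : Q A F.v = 0) (h3 : Q A F.es = 0) {H : HkT C} {τ : ℂ}
    (hH : AtTau F A H τ) {x : F2 C}
    (hx : ∀ y : F2 C, Q y F.e = 0 → Q y F.v = 0 → Q y F.es = 0 → Q x y = 0) :
    ∃ a b c : ℝ, Cl x (a • F.e + b • F.v + c • F.es) := by
  have hs := h.symm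
  have hN := F.hN.ne'
  have f1 : Q F.v F.e = 0 := by rw [hs]; exact F.e_v
  have f2 : Q F.v F.es = 0 := by rw [hs]; exact F.es_v
  have f3 : Q F.e F.es = 1 := by rw [hs]; exact F.es_e
  set a : ℝ := Q x F.es with ha
  set b : ℝ := Q x F.v / F.N with hb
  set c : ℝ := Q x F.e with hc
  set y : F2 C := x - (a • F.e + b • F.v + c • F.es) with hy
  have y1 : Q y F.e = 0 := by
    rw [hy]
    simp only [map_sub, map_add, map_smul, LinearMap.sub_apply, LinearMap.add_apply,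
      LinearMap.smul_apply, smul_eq_mul, F.e_e, f1, F.es_e]
    rw [hc]; ring
  have y2 : Q y F.v = 0 := by
    rw [hy]
    simp only [map_sub, map_add, map_smul, LinearMap.sub_apply, LinearMap.add_apply,
      LinearMap.smul_apply, smul_eq_mul, F.e_v, F.v_v, F.es_v]
    rw [hb]; field_simp; ring
  have y3 : Q y F.es = 0 := by
    rw [hy]
    simp only [map_sub, map_add, map_smul, LinearMap.sub_apply, LinearMap.add_apply,
      LinearMap.smul_apply, smul_eq_mul, f3, f2, F.es_es]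
    rw [ha]; ring
  have hyz : ∀ z : F2 C, Q z F.e = 0 → Q z F.v = 0 → Q z F.es = 0 → Q y z = 0 := by
    intro z z1 z2 z3
    rw [hs] at z1 z2 z3
    rw [hy]
    simp only [map_sub, map_add, map_smul, LinearMap.sub_apply, LinearMap.add_apply,
      LinearMap.smul_apply, smul_eq_mul, z1, z2, z3]
    have := hx z (by rw [hs]; exact z1) (by rw [hs]; exact z2) (by rw [hs]; exact z3)
    rw [this]; ring
  have hB := qs_ctx h
  obtain ⟨z, hz, c1, c2⟩ := hH.om12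
  have k0 : Q y (H.om 0) = 0 := by
    rw [hB.congr (Cl.refl y) hH.om0]
    exact hyz A h1 h2 h3
  have k1 : Q y (H.om 1) = 0 := by
    rw [hB.congr (Cl.refl y) c1, map_sub, map_smul, map_smul, b_sre F y1 y2 y3, b_sim F y1 y2]
    simp
  have k2 : Q y (H.om 2) = 0 := by
    rw [hB.congr (Cl.refl y) c2, map_add, map_smul, map_smul, b_sre F y1 y2 y3, b_sim F y1 y2]
    simp
  have hpos : 0 < Q (H.om 0) (H.om 0) := by
    rw [hB.congr hH.om0 hH.om0]; exact hAA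
  have hk : ∀ k, Q y (H.om k) = 0 := by
    intro k
    fin_cases k
    · exact k0
    · exact k1
    · exact k2
  have hex := (h.neg H hpos y hk).2 (hyz y y1 y2 y3)
  exact ⟨a, b, c, hex⟩

/-- the classes of a basis of `W^⊥` -/
theorem span_bas (h : Ctx n C Q) (F : Frm C Q) {ρ : ℕ}
    (b : Basis (Fin ρ) ℝ (WpF F (qs_ctx h))) {k : Fin ρ → F2 C} (hk : ∀ i, cl (k i) = b i)
    {x : F2 C} (hx : ∀ i, Q x (k i) = 0) (y : F2 C) (y1 : Q y F.e = 0) (y2 : Q y F.v = 0)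
    (y3 : Q y F.es = 0) : Q x y = 0 := by
  have hy : cl y ∈ WpF F (qs_ctx h) := (mem_WpF F _).2 ⟨y1, y2, y3⟩
  have e1 := b.sum_repr ⟨cl y, hy⟩
  have e2 : cl y = ∑ i, b.repr ⟨cl y, hy⟩ i • cl (k i) := by
    have e3 := congrArg (Subtype.val) e1
    rw [Submodule.coe_sum] at e3
    refine e3.symm.trans (Finset.sum_congr rfl fun i _ => ?_)
    rw [hk]
    rfl
  have e4 : Q x y = Bq (qs_ctx h) (cl x) (cl y) := rfl
  rw [e4, e2, map_sum]
  refine Finset.sum_eq_zero fun i _ => ?_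
  rw [map_smul, Bq_cl, hx, smul_zero]

/-- **START in 902's context** -/
theorem start_all [T2Space X] [ConnectedSpace X] (h : Ctx n C Q) (k₀ : Type) [Field k₀]
    [CharZero k₀] [Algebra k₀ ℂ] (F : Frm C Q) {A : F2 C} (hA : IntF A) (hAA : 0 < Q A A)
    (h1 : Q A F.e = 0) (h2 : Q A F.v = 0) (h3 : Q A F.es = 0) {H : HkT C} {τ : ℂ}
    (hH : AtTau F A H τ) :
    ∃ (ρ : ℕ) (_ : Nonempty (Fin ρ)) (w : Fin ρ → F2 C), (∀ k, IntF (w k)) ∧
      (∀ k, Q (w k) F.e = 0 ∧ Q (w k) F.v = 0 ∧ Q (w k) F.es = 0) ∧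
      (∀ x : F2 C, (∀ k, Q x (w k) = 0) → ∃ a b c : ℝ, Cl x (a • F.e + b • F.v + c • F.es)) ∧
      (∃ c : ℝ, 0 < c ∧ Cl (∑ k, w k) (c • A)) ∧
      ∃ (At : Atl (2 * n) X) (_ : Finite At.ι) (_ : GoodA At) (_ : Nonempty (Part At))
        (hAt : Cp (H.acm 0) At) (Qs : Fin ρ → ProjD At) (N : ℕ)
        (e : (∀ k, Fin ((Qs k).N + 1)) ≃ Fin (N + 1))
        (K : Code k₀ (2 * n) N) (Mo : Fmt k₀ (Fin K.k)) (hn : Mo.Nice)
        (hM : ∀ (z : Fin Mo.m → ℂ) (w : ℂ), Mo.On z w → K.Good (Mo.pt z w)) (q0 : QM Mo),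
        (∀ k, Ex (c1F (fs (Qs k)) - (cmp_of_cp hAt).F (w k))) ∧
        (∀ p ∈ segT Qs e k₀, MvPolynomial.map (MvPolynomial.C : k₀ →+* MvPolynomial (Fin K.k) k₀) p ∈
          range K.Y.G) ∧
        IsCert (segPs Qs e) (H.sig hAt) (K.mem (Mo.pt q0.1.1 q0.1.2)) ∧
        AlgebraicIndependent k₀ q0.1.1 ∧
        (∀ (z : Fin Mo.m → ℂ) (w : ℂ), Mo.On z w →
          RelOk k₀ (Mo.pt q0.1.1 q0.1.2) (Mo.pt z w)) ∧
        (∀ w, w ∈ (ofProj (segPs Qs e) (bE N)).cone ↔ w ∈ (qfamC K Mo hn hM).S q0) ∧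
        CxOf (ofProj (segPs Qs e) (bE N)) H := by
  obtain ⟨B⟩ := hbas_hk H
  obtain ⟨ρ, b, k, a, c, hρ, hk, ha, hc, hsum⟩ :=
    exists_kbasNF F (qr_ctx h) (ratH B) hA.rat hAA h1 h2 h3 hH
  have hne : Nonempty (Fin ρ) := ⟨⟨0, hρ⟩⟩
  have ha' : ∀ i, (0 : ℝ) < a i := fun i => by exact_mod_cast ha i
  obtain ⟨At, i1, i2, i3, hAt, m, hm, Qs, N, e, K, Mo, hn, hM, q0, j1, j3, j4, j5, j8, j6, j7⟩ :=
    start_seg_gen (nnC (2 * n)) k₀ H (w := fun i => (a i : ℝ) • k i)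
      (fun i => (hk i).1.zsmul (a i)) (fun i => (hk i).2.1.smul (ha' i))
  have hm' : (0 : ℝ) < m := by exact_mod_cast hm
  have horth : ∀ i, Q (k i) F.e = 0 ∧ Q (k i) F.v = 0 ∧ Q (k i) F.es = 0 := by
    intro i
    have e1 : cl (k i) ∈ WpF F (qs_ctx h) := by rw [(hk i).2.2]; exact (b i).2
    exact (mem_WpF F _).1 e1
  refine ⟨ρ, hne, fun i => (m : ℝ) • (a i : ℝ) • k i, fun i => ?_, fun i => ?_, fun x hx => ?_,
    ⟨m * c, by positivity, ?_⟩,
    At, i1, i2, i3, hAt, Qs, N, e, K, Mo, hn, hM, q0, fun i => ?_, j3, j4, j5, j8, j6, j7⟩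
  · exact ((hk i).1.zsmul (a i)).zsmul m
  · obtain ⟨o1, o2, o3⟩ := horth i
    simp [o1, o2, o3]
  · refine span_ok h F hAA h1 h2 h3 hH fun y y1 y2 y3 => ?_
    refine span_bas h F b (fun i => (hk i).2.2) (fun i => ?_) y y1 y2 y3
    have e1 := hx i
    rw [map_smul, map_smul, smul_eq_mul, smul_eq_mul] at e1
    have e2 := (mul_eq_zero.1 e1).resolve_left hm'.ne'
    exact (mul_eq_zero.1 e2).resolve_left (ha' i).ne'
  · have e1 := Cl.smul (m : ℝ) hsum
    rw [Finset.smul_sum, smul_smul] at e1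
    exact e1
  · have e1 := j1 i
    have e2 : Eqv ((cmp_of_cp hAt).F ((m : ℝ) • (a i : ℝ) • k i))
        ((m : ℝ) • (cmp_of_cp hAt).F ((a i : ℝ) • k i)) := F_smul _ _ _
    have e3 := eqv_ex_sub e2.symm
    have e4 := ex_add e1 e3
    rwa [sub_add_sub_cancel] at e4

end

end Crest.Agent.R281.Sm_871
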