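import Crest.Agent.R281.Sm1_871
import Crest.Agent.R281.Sm2_871
import Crest.Agent.R281.Kb4_565
import Crest.Agent.R281.Dv1_957
import Crest.Agent.R281.Qc2_377

/-!
# R281 (S0424), START MATCHING (helper871), part 3: the start as a marking of a type of 957

* `qbf_form'_w` : the form of a marking given by a basic form on a parameter free cone
* `val_qcfC`    : `Val (qcfC ..) m` at every marking (377)
* `blk_class`   : the class of the `k`-th block form on the start marking is `π cl (w k)`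
* `AA_pos`      : `0 < Q A A` from `AtTau F A H τ`
* `exists_ty`   : **START**: a type `T`, a marking `m0` with `T.Ok`, `T.Rel A`, the classes of the
                  blocks, `CxOf m0.P H`, real and imaginary part of the form `H.om 1`, `H.om 2`
* `start_ty`    : the target of 957 #8732
-/

set_option autoImplicit false
set_option linter.unusedSectionVars false
set_option synthInstance.maxHeartbeats 200000
set_option maxSynthPendingDepth 3

open Set Filter Topology Complex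
open scoped ContDiff

namespace Crest.Agent.R281.Sm_871

open Crest.Agent.R275.Geo Crest.Agent.R275.Core144 Crest.Agent.R275.GC293
open Crest.Agent.R275.EDR890
open Crest.Agent.R273.Defs_333 Crest.Agent.R273.Kah_333 Crest.Agent.R281.Defs_273
open Crest.Agent.R273.FS_333 (lb fs sec sec_eq)
open Crest.Agent.R260.ACM_580 Crest.Agent.R260.NNB_580
open Crest.Agent.R281.HkR_835 Crest.Agent.R281.Ehr2_268 Crest.Agent.R281.Dif_268
open Crest.Agent.R281.Ehr4_268 Crest.Agent.R281.Ehr6_268 Crest.Agent.R281.Ehr7_268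
open Crest.Agent.R281.Ehr8_268 (QBF pf_id pf_in)
open Crest.Agent.R281.Ehr11_268 Crest.Agent.R281.Phl_655
open Crest.Agent.R281.Cdr_234 Crest.Agent.R281.Alg_998 Crest.Agent.R281.Cnt_311
open Crest.Agent.R281.Sta2_684 Crest.Agent.R281.RkD_902
open Crest.Agent.R281.CA_867 Crest.Agent.R281.CB_867
open Crest.Agent.R281.Sl_957 Crest.Agent.R281.Am_957 Crest.Agent.R281.QF_871
open Crest.Agent.R281.Pe_313 Crest.Agent.R281.Qc_377
open Crest.Agent.R281.Kb_565 Crest.Agent.R281.Dv_957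
open Crest.Agent.R281.Blk_592 (segPs segPoly segK segB sgv)
open Crest.Agent.R281.Ti_846 (Ex)
open Crest.Agent.R281.Nef_252 (eqv_ex_sub ex_add)

noncomputable section

/-! ### values -/

section val

universe uq

variable {Q : Type uq} [TopologicalSpace Q] {E H : Type} [NormedAddCommGroup E]
    [NormedSpace ℂ E] [NormedAddCommGroup H] [NormedSpace ℂ H] {V X : Type}
    [NormedAddCommGroup V] [NormedSpace ℝ V] [TopologicalSpace X]
    {F : QFam Q E H} {C : RCh V X} {K : Set H}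

/-- the form of a marking given by a basic form on a parameter free cone -/
theorem qbf_form'_w (τ : B1 K) (h : ∀ q0, F.R q0 ⊆ {p : E × H | p.2 ∈ K}) (m : Mark F C)
    {i : m.C'.ι} {z : V} (hz : z ∈ (m.C'.e i).target) (v w : V) :
    ((qbf τ h).form' m).w i z v w =
      τ.sg (m.P.u i z) (fderiv ℝ (m.P.u i) z v) (fderiv ℝ (m.P.u i) z w) := by
  have hc := F.ball_of_mem (F.U_mem m.q)
  have h1 := pw_apply ((qbf τ h).β m.q) (F.cn m.q) (pf_in m) hc hz (QCF.lift_pf m hc hz) v w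
  rw [QCF.dz_pf m hc hz, QCF.dz_pf m hc hz] at h1
  have h2 : m.pf.u i (F.u m.q) z = m.P.u i z := pf_id m hz
  have h3 : m.pf.u i (F.u m.q) =ᶠ[𝓝 z] m.P.u i := by
    filter_upwards [(m.C'.e i).open_target.mem_nhds hz] with y hy using pf_id m hy
  rw [h3.fderiv_eq] at h1
  refine h1.trans ?_
  rw [h2]
  rfl

end val

section qc

variable {V X : Type} [NormedAddCommGroup V] [NormedSpace ℝ V] [TopologicalSpace X]
  [FiniteDimensional ℝ V] {C : RCh V X} {k₀ : Type} [Field k₀] [Algebra k₀ ℂ] {d N : ℕ}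
  {K : Code k₀ d N} {Mo : Fmt k₀ (Fin K.k)} (h : Mo.Nice)
  (hM : ∀ (z : Fin Mo.m → ℂ) (w : ℂ), Mo.On z w → K.Good (Mo.pt z w))

theorem val_qcfC (m : Mark (qfamC K Mo h hM) C) : Val (qcfC K Mo h hM) m :=
  fun _ _ hz j hj v w => sgC_mul h hM m hz j v w hj

end qc

/-! ### the type of a start -/

section ty

variable {X : Type} [TopologicalSpace X] {n : ℕ} {C : RCh (Cn n) X} {A : Atl n X} {ρ : ℕ}
  [Nonempty (Fin ρ)] (Qs : Fin ρ → ProjD A) {N : ℕ} (e : (∀ k, Fin ((Qs k).N + 1)) ≃ Fin (N + 1))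
  (K : Code QB n N) (Mo : Fmt QB (Fin K.k)) (hn : Mo.Nice)
  (hM : ∀ (z : Fin Mo.m → ℂ) (w : ℂ), Mo.On z w → K.Good (Mo.pt z w))
  (hT : ∀ p ∈ segT Qs e QB, MvPolynomial.map (MvPolynomial.C : QB →+* MvPolynomial (Fin K.k) QB) p ∈
    range K.Y.G) {w : Fin ρ → F2 C} (hw : ∀ k, IntF (w k))

/-- the type -/
def tyOf : Ty n C where
  N := N
  K := K
  M := Mo
  nice := hn
  good := hM
  ρ := ρ
  b := fun k => (Qs k).N
  e := e
  seg := fun k a a' => hT _ ((mem_segT Qs e QB).2 ⟨k, a, a', rfl⟩)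
  B := fun k => cl (w k)
  B_int := fun k => cl_mem_Lz.mpr (hw k)

variable (hc : Cmp C (ofAtl A)) (q0 : QM Mo)
  (hS : ∀ w, w ∈ (ofProj (segPs Qs e) (bE N)).cone ↔ w ∈ (qfamC K Mo hn hM).S q0)

/-- the start marking -/
def tyM : Mark (tyOf Qs e K Mo hn hM hT hw).F C :=
  ⟨q0, ofAtl A, hc, ofProj (segPs Qs e) (bE N), hS⟩

/-- the `k`-th block form on the start marking -/
theorem blk_form' (k : Fin ρ) : Eqv (((tyOf Qs e K Mo hn hM hT hw).qb k).form'
    (tyM Qs e K Mo hn hM hT hw hc q0 hS)) (Cdr_234.curK (fs (Qs k))).f2 := by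
  intro i z hz u v
  have h1 := qbf_form'_w (blkB (tyOf Qs e K Mo hn hM hT hw).e k)
    (tyOf Qs e K Mo hn hM hT hw).R_seg (tyM Qs e K Mo hn hM hT hw hc q0 hS) hz u v
  exact h1.trans (blk_val Qs e (i := i) hz k u v)

theorem re_tyM {H : HkT C} (hA : Cp (H.acm 0) A)
    (hC : IsCert (segPs Qs e) (H.sig hA) (K.mem (Mo.pt q0.1.1 q0.1.2))) :
    Eqv ((tyOf Qs e K Mo hn hM hT hw).qc.re.form
      (tyM Qs e K Mo hn hM hT hw (cmp_of_cp hA) q0 hS)) (H.om 1) := by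
  have g : Eqv ((qcfC K Mo hn hM).re.form (stM (P := segPs Qs e) (K := K) (h := hn) (hM := hM)
      (q0 := q0) (cmp_of_cp hA) hS)) (H.om 1) :=
    re_form (P := segPs Qs e) (K := K) (hA := hA) (val_qcfC hn hM (stM (P := segPs Qs e) (K := K)
      (h := hn) (hM := hM) (q0 := q0) (cmp_of_cp hA) hS)) hC
  exact g

theorem im_tyM {H : HkT C} (hA : Cp (H.acm 0) A)
    (hC : IsCert (segPs Qs e) (H.sig hA) (K.mem (Mo.pt q0.1.1 q0.1.2))) :
    Eqv ((tyOf Qs e K Mo hn hM hT hw).qc.im.form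
      (tyM Qs e K Mo hn hM hT hw (cmp_of_cp hA) q0 hS)) (H.om 2) := by
  have g : Eqv ((qcfC K Mo hn hM).im.form (stM (P := segPs Qs e) (K := K) (h := hn) (hM := hM)
      (q0 := q0) (cmp_of_cp hA) hS)) (H.om 2) :=
    im_form (P := segPs Qs e) (K := K) (hA := hA) (val_qcfC hn hM (stM (P := segPs Qs e) (K := K)
      (h := hn) (hM := hM) (q0 := q0) (cmp_of_cp hA) hS)) hC
  exact g

variable [CompactSpace X] [T2Space X]

/-- **the class of the `k`-th block form on the start marking** -/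
theorem blk_cls (hk : ∀ k, Ex (c1F (fs (Qs k)) - hc.F (w k))) (k : Fin ρ) :
    (tyOf Qs e K Mo hn hM hT hw).cls k (MQ.mk (tyM Qs e K Mo hn hM hT hw hc q0 hS)) =
      (tyOf Qs e K Mo hn hM hT hw).pcl k := by
  have h1 := blk_form' Qs e K Mo hn hM hT hw hc q0 hS k
  have h2 := curK_f2 (fs (Qs k))
  have h3 : cl ((Cdr_234.curK (fs (Qs k))).f2) = Real.pi • cl (hc.F (w k)) := by
    rw [h2]
    have h4 : cl (c1F (fs (Qs k))) = cl (hc.F (w k)) := by
      rw [cl_eq_iff]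
      exact (ex_sub_iff _ _).mp (hk k)
    rw [← h4]
    rfl
  have h5 : cl (((tyOf Qs e K Mo hn hM hT hw).qb k).form
      (tyM Qs e K Mo hn hM hT hw hc q0 hS)) = hPull (SMap.ofCmp hc.symm)
      (cl ((Cdr_234.curK (fs (Qs k))).f2)) :=
    cl_eq_iff.mpr (h1.pull (SMap.ofCmp hc.symm)).coh
  have h6 : hPull (SMap.ofCmp hc.symm) (cl (hc.F (w k))) = cl (w k) :=
    cl_eq_iff.mpr (cmp_F_eqv hc (w k)).coh
  show cl (((tyOf Qs e K Mo hn hM hT hw).qb k).form
      (tyM Qs e K Mo hn hM hT hw hc q0 hS)) = Real.pi • cl (w k)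
  rw [h5, h3, map_smul, h6]

end ty

/-! ### positivity -/

section pos

variable {n : ℕ} {X : Type} [TopologicalSpace X] [CompactSpace X] {C : RCh (Cn (2 * n)) X}
  {Q : F2 C →ₗ[ℝ] F2 C →ₗ[ℝ] ℝ}

theorem AA_pos (h : Ctx n C Q) (F : Frm C Q) {A : F2 C} {H : HkT C} {τ : ℂ}
    (hH : AtTau F A H τ) : 0 < Q A A := by
  have hB := qs_ctx h
  obtain ⟨z, hz, c1, -⟩ := hH.om12
  have e0 : Q A A = Q (H.om 1) (H.om 1) := by
    rw [h.eq H 1, hB.congr hH.om0 hH.om0]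
  have f1 : Q F.v F.e = 0 := by rw [h.symm]; exact F.e_v
  have f2 : Q F.v F.es = 0 := by rw [h.symm]; exact F.es_v
  have f3 : Q F.e F.es = 1 := by rw [h.symm]; exact F.es_e
  have e1 : Q (F.sre τ) (F.sim τ) = 0 := by
    simp only [Frm.sre, Frm.sim, map_sub, map_add, map_smul, LinearMap.sub_apply,
      LinearMap.add_apply, LinearMap.smul_apply, smul_eq_mul, F.e_e, F.e_v, F.es_e, F.es_v,
      F.v_v, f1]
    ring
  have e2 : Q (F.sim τ) (F.sre τ) = 0 := by rw [h.symm]; exact e1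
  rw [e0, hB.congr c1 c1]
  simp only [map_sub, map_smul, LinearMap.sub_apply, LinearMap.smul_apply, smul_eq_mul, e1, e2,
    q_sre hB, q_sim hB]
  have hN := F.hN
  have h1 : 0 < z.re ^ 2 + z.im ^ 2 := by
    rcases eq_or_ne z.re 0 with h0 | h0
    · have h2 : z.im ≠ 0 := fun h2 => hz (Complex.ext h0 h2)
      positivity
    · positivity
  have h2 : 0 < F.N * τ.im ^ 2 := mul_pos hN (pow_pos hH.im_pos 2)
  nlinarith [mul_pos h1 h2]

end pos

/-! ### START -/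

section start

open Crest.Agent.R281.LI_473

variable {n : ℕ} {X : Type} [TopologicalSpace X] [CompactSpace X] [T2Space X]
  [ConnectedSpace X] {C : RCh (Cn (2 * n)) X} {Q : F2 C →ₗ[ℝ] F2 C →ₗ[ℝ] ℝ}

/-- **START**: the type and the marking of a structure `AtTau F A H τ` -/
theorem exists_ty (h : Ctx n C Q) (hQ : QS Q) (F : Frm C Q) {A : F2 C} (hA : IntF A)
    (h1 : Q A F.e = 0) (h2 : Q A F.v = 0) (h3 : Q A F.es = 0) {H : HkT C} {τ : ℂ}
    (hH : AtTau F A H τ) :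
    ∃ (T : Ty (2 * n) C) (m0 : Mark T.F C), T.Ok F hQ ∧ T.Rel A ∧ CxOf m0.P H ∧
      (∀ k, T.cls k (MQ.mk m0) = T.pcl k) ∧ Eqv (T.qc.re.form m0) (H.om 1) ∧
      Eqv (T.qc.im.form m0) (H.om 2) := by
  have hAA := AA_pos h F hH
  obtain ⟨ρ, hρ, w, hw, hperp, hspan, ⟨c, hc0, hc⟩, At, i1, i2, i3, hAt, Qs, N, e, K, Mo, hn, hM,
    q0, j1, j2, j3, j4, j5, j6, j7⟩ := start_all h QB F hA hAA h1 h2 h3 hH
  have hsum : (∑ k, cl (w k) : HdR C) = c • cl A := by
    have e1 : cl (∑ k, w k) = cl (c • A) := cl_eq_iff.mpr ((ex_sub_iff _ _).mp hc)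
    have e2 : cl (∑ k, w k) = ∑ k, cl (w k) := by
      show (exS C).mkQ (∑ k, w k) = _
      rw [map_sum]
      rfl
    rw [← e2, e1]
    rfl
  refine ⟨tyOf Qs e K Mo hn hM j2 hw,
    tyM Qs e K Mo hn hM j2 hw (cmp_of_cp hAt) q0 j6, ⟨fun k => ?_, fun x hx => ?_, ?_⟩,
    ⟨c, hc0, hsum⟩, j7, fun k => ?_, ?_, ?_⟩
  · obtain ⟨o1, o2, o3⟩ := hperp k
    have g1 : Q F.e (w k) = 0 := by rw [h.symm]; exact o1
    have g2 : Q F.v (w k) = 0 := by rw [h.symm]; exact o2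
    have g3 : Q F.es (w k) = 0 := by rw [h.symm]; exact o3
    exact ⟨g1, g2, g3⟩
  · obtain ⟨x, rfl⟩ := cl_surj x
    obtain ⟨a, b, d, hx'⟩ := hspan x hx
    have e1 : cl x = cl (a • F.e + b • F.v + d • F.es) :=
      cl_eq_iff.mpr ((ex_sub_iff _ _).mp hx')
    rw [e1]
    refine ⟨![d, b, a], ?_⟩
    rw [Fr.κ_apply]
    show d • cl F.es + b • cl F.v + a • cl F.e = a • cl F.e + b • cl F.v + d • cl F.es
    abel
  · show 0 < Sta3_684.Bq hQ (∑ k, cl (w k)) (∑ k, cl (w k))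
    rw [hsum, map_smul, LinearMap.map_smul, LinearMap.smul_apply, smul_eq_mul, smul_eq_mul]
    have e1 : Sta3_684.Bq hQ (cl A) (cl A) = Q A A := rfl
    rw [e1]
    positivity
  · exact blk_cls Qs e K Mo hn hM j2 hw (cmp_of_cp hAt) q0 j6 j1 k
  · exact re_tyM Qs e K Mo hn hM j2 hw q0 j6 hAt j3
  · exact im_tyM Qs e K Mo hn hM j2 hw q0 j6 hAt j3

/-- **the target of 957 (#8732)** -/
theorem start_ty (h : Ctx n C Q) (hQ : QS Q) (F : Frm C Q) {A : F2 C} (hA : IntF A)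
    (h1 : Q A F.e = 0) (h2 : Q A F.v = 0) (h3 : Q A F.es = 0) {H : HkT C} {τ : ℂ}
    (hH : AtTau F A H τ) :
    ∃ (T : Ty (2 * n) C) (x0 : MQ T.F C) (m0 : Mark T.F C), T.Ok F hQ ∧ T.Rel A ∧
      MQ.mk m0 = x0 ∧ CxOf m0.P H ∧ (∀ k, T.cls k x0 = T.pcl k) ∧
      (T.qc.re.natF C).cls x0 = cl (H.om 1) ∧ (T.qc.im.natF C).cls x0 = cl (H.om 2) ∧
      (frF F hQ).tau ((T.qc.re.natF C).cls x0) ((T.qc.im.natF C).cls x0) = τ := by
  obtain ⟨T, m0, g1, g2, g3, g4, g5, g6⟩ := exists_ty h hQ F hA h1 h2 h3 hH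
  have e5 : (T.qc.re.natF C).cls (MQ.mk m0) = cl (H.om 1) := cl_eq_iff.mpr g5.coh
  have e6 : (T.qc.im.natF C).cls (MQ.mk m0) = cl (H.om 2) := cl_eq_iff.mpr g6.coh
  refine ⟨T, MQ.mk m0, m0, g1, g2, rfl, g3, g4, e5, e6, ?_⟩
  rw [e5, e6]
  exact tau_of_isPer F (frF F hQ).sym (fun _ _ => rfl) (frF F hQ) rfl rfl rfl hH.isPer

end start

end

end Crest.Agent.R281.Sm_871
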