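import Crest.Agent.R281.Dv2_957
import Crest.Agent.R281.Hmi3_790
import Crest.Agent.R281.Sm3_871
import Crest.Agent.R281.Rd4_326

/-!
# Row 281, DIV 2 in the context of RANK281 (helper326): `Div2Geo` for every frame

957's `div2Geo_of` with `O := Hmi_790.hmOut hC F` (790; 655, 313):

* `StartP`, `LiftP`, `AlgP` : 957's hypotheses (b), (c), (d) in the context
* `startP`    : **START is proved** (565, 871)
* `div2P_of`  : **`AlgP hl Alg → Div2P Alg`**, `roadP_of` : hence `RoadP Alg`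
-/

set_option autoImplicit false
set_option linter.unusedSectionVars false
set_option maxSynthPendingDepth 5

open Set Filter Topology
open scoped ContDiff

namespace Crest.Agent.R281.Dvp_326

open Crest.Agent.R275.Geo Crest.Agent.R275.Core144
open Crest.Agent.R281.HkR_835 Crest.Agent.R281.Ehr2_268 Crest.Agent.R281.Dif_268
  Crest.Agent.R281.Ehr4_268 Crest.Agent.R281.Ehr6_268 Crest.Agent.R281.Ehr7_268
  Crest.Agent.R281.Ehr8_268 Crest.Agent.R281.Cdr_234
open Crest.Agent.R281.Alg_998 Crest.Agent.R281.RkD_902 Crest.Agent.R281.Dv_957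
open Crest.Agent.R281.Sta2_684 (QS)
open Crest.Agent.R281.Sta3_684 (Bq)
open Crest.Agent.R281.Hmi_790 (qs hmOut)
open Crest.Agent.R281.Rd_326 (Div2P roadP)
open Crest.Agent.R281.Cus_581

noncomputable section

section ctx

variable {n : ℕ} {X : Type} [TopologicalSpace X] [CompactSpace X] {C : RCh (Cn (2 * n)) X}
  {Q : F2 C →ₗ[ℝ] F2 C →ₗ[ℝ] ℝ} [T2Space X] [ConnectedSpace X]

/-- without structures there is nothing to prove -/
theorem div2Geo_empty (h : ¬ Nonempty (HkT C)) (F : Frm C Q) (Alg : ∀ A : F2 C, Cusp F A → Prop) :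
    Div2Geo F Alg :=
  ⟨∅, countable_empty, fun _ _ _ _ _ H0 _ _ _ => absurd ⟨H0⟩ h⟩

end ctx

/-! ### the nodes -/

/-- **957's (b)**: START (565, 871) -/
def StartP : Prop :=
  ∀ (n : ℕ) (X : Type) [TopologicalSpace X] [CompactSpace X] [T2Space X]
    [SimplyConnectedSpace X] (C : RCh (Cn (2 * n)) X) (Q : F2 C →ₗ[ℝ] F2 C →ₗ[ℝ] ℝ)
    (hC : Ctx n C Q) (F : Frm C Q), StartS F (qs hC) (hmOut hC F)

/-- **957's (c)**: LIFT (830) -/
def LiftP : Prop :=
  ∀ (n : ℕ) (X : Type) [TopologicalSpace X] [CompactSpace X] [T2Space X]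
    [SimplyConnectedSpace X] (C : RCh (Cn (2 * n)) X) (Q : F2 C →ₗ[ℝ] F2 C →ₗ[ℝ] ℝ)
    (hC : Ctx n C Q) (F : Frm C Q), LiftAll F (qs hC) (hmOut hC F)

/-- **957's (d)**: the algebraic data of the ends (581, 989, 867) -/
def AlgP (hl : LiftP) (Alg : AlgTT) : Prop :=
  ∀ (n : ℕ) (X : Type) [TopologicalSpace X] [CompactSpace X] [T2Space X]
    [SimplyConnectedSpace X] (C : RCh (Cn (2 * n)) X) (Q : F2 C →ₗ[ℝ] F2 C →ₗ[ℝ] ℝ)
    (hC : Ctx n C Q) (F : Frm C Q),
    AlgAll F (qs hC) (hmOut hC F) (hl n X C Q hC F) (Alg n X C Q F)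

/-- **START** -/
theorem startP : StartP := by
  intro n X _ _ _ _ C Q hC F A hA H0 τ0 h0
  obtain ⟨T, x0, m0, ok, rel, rfl, hcx, hcls, -, -, htau⟩ :=
    Sm_871.start_ty hC (qs hC) F hA.int hA.e hA.v hA.es h0
  exact ⟨T, ok, rel, m0, hcx, hcls, htau, h0.im_pos⟩

/-- **DIV 2 in the context** -/
theorem div2P_of {Alg : AlgTT} (hl : LiftP) (ha : AlgP hl Alg) : Div2P Alg := by
  intro n X _ _ _ _ C Q hC F
  by_cases h : Nonempty (HkT C)
  · obtain ⟨H⟩ := h
    obtain ⟨B⟩ := Sm_871.hbas_hk H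
    exact div2Geo_of B (qs hC) hC.int F (hmOut hC F) (startP n X C Q hC F) (hl n X C Q hC F)
      (ha n X C Q hC F)
  · exact div2Geo_empty h F _

/-- **the node `RoadP`** -/
theorem roadP_of {Alg : AlgTT} (hl : LiftP) (ha : AlgP hl Alg) : RoadP Alg :=
  roadP Alg (div2P_of hl ha)

end

end Crest.Agent.R281.Dvp_326
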