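import Crest.Agent.R281.E6b_52
import Crest.Agent.R281.Up4_425

/-!
# R281 (S0424), END6 (helper373): division 6 without hypotheses
-/

set_option autoImplicit false

namespace Crest.Agent.R281.E6_373

open Crest.Agent.R281.Sk_474

/-- node (4): the function `u` (425) -/
theorem uPreP : UPreP := fun X o ⟨s⟩ hH =>
  Up_425.uPreStmt X.n X.M X.A X.hn X.P X.K X.σ X.L X.h o s hH

/-- **division 6** -/
theorem end6 : END6 := E6a_52.end6_of_upre uPreP

end Crest.Agent.R281.E6_373
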