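import Crest.Agent.R281.E6a_52
import Crest.Agent.R281.SK6_507
import Crest.Agent.R281.Con12_166
import Crest.Agent.R281.Cv1_254
import Crest.Agent.R281.Tc5_941
import Crest.Agent.R281.RichS_710
import Crest.Agent.R281.D6y_986

/-!
# R281 (S0424), END6 (helper373): the closed nodes of `E6_373` plugged in

* `skP` (507), `contP` (166), `contVolP` (254), `frameP` (941, from 316's slice);
* `end6_of2` : `UPreP` (425) and `SliceStmt` (316) imply `END6`.
-/

set_option autoImplicit false
set_option linter.unusedSectionVars false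

open Set Filter Topology Complex
open scoped ContDiff Matrix ComplexConjugate ComplexOrder

namespace Crest.Agent.R281.E6Z_373

open Crest.Agent.R275.Geo Crest.Agent.R275.Core144 Crest.Agent.R275.GC293
open Crest.Agent.R273.Defs_333 Crest.Agent.R273.Kah_333 Crest.Agent.R273.HM_333
open Crest.Agent.R281.Defs_273 Crest.Agent.R281.Sk_474
open Crest.Agent.R281.D6_986 Crest.Agent.R281.E6_373

/-- node (3): S6-SK (507) -/
theorem skP : SKP := fun X o =>
  ⟨SK6_507.skOut X.hk X.K' X.one_lt X.hk' X.eqK o⟩

/-- node (6): S6-CONT (166) -/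
theorem contP : ContP := fun X _ ⟨up⟩ _ => Con_166.contOut X.hn up

/-- node (7): (254) -/
theorem contVolP : ContVolP := fun X _ c _ hv => Cv_254.contVol_of X.K c hv

/-- node (8): S6-FRAME (941) from the slice (316) -/
theorem frameP (sl : SliceStmt) : FrameP := fun X o c hH hv x0 =>
  (sl X.n X.M X.A X.hn X.P X.K X.σ o.F c hv x0).elim fun S =>
    Tc_941.frameAt_of_slice hH c o.F.sth S

theorem end6_of2 (up : UPreP) (sl : SliceStmt) : END6 :=
  end6_of_nodes E6a_52.omegaP E6a_52.leafVolP skP up E6a_52.uOutP contP contVolP (frameP sl)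
    Rich_710.richStmt

end Crest.Agent.R281.E6Z_373
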