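import Crest.Agent.R281.E6a_52
import Crest.Agent.R281.SK6_507
import Crest.Agent.R281.Con12_166
import Crest.Agent.R281.Cv1_254
import Crest.Agent.R281.Fr9_316
import Crest.Agent.R281.Tc5_941
import Crest.Agent.R281.RichS_710

/-!
# R281 (S0424), END6 (helper52): `END6` from the last open node `UPreP`
-/

set_option autoImplicit false
set_option linter.unusedSectionVars false

open Set Filter Topology Complex
open scoped ContDiff Matrix ComplexConjugate ComplexOrder

namespace Crest.Agent.R281.E6a_52

open Crest.Agent.R275.Geo Crest.Agent.R275.Core144 Crest.Agent.R275.GC293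
open Crest.Agent.R273.Defs_333 Crest.Agent.R273.Kah_333 Crest.Agent.R273.HM_333
open Crest.Agent.R281.Defs_273 Crest.Agent.R281.Sk_474
open Crest.Agent.R281.D6_986 Crest.Agent.R281.E6_373
open Crest.Agent.R281.S6D_664 (LFib Fam)

/-- node (3): S6-SK (507) -/
theorem skP : SKP := fun X o =>
  ⟨SK6_507.skOut X.hk X.K' X.one_lt X.hk' X.eqK o⟩

/-- node (6): S6-CONT (166) -/
theorem contP : ContP := by
  rintro X o ⟨up⟩ -
  exact Con_166.contOut X.hn up

/-- node (7): S6-CONTVOL (254) -/
theorem contVolP : ContVolP := fun X _ c _ hv => Cv_254.contVol_of X.K c hv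

/-- node (8): S6-FRAME (316, 941) -/
theorem frameP : FrameP := fun X o c hH hcv x0 =>
  (Fr7_316.sliceAt X.hn c hcv x0).elim fun S => Tc_941.frameAt_of_slice hH c o.F.sth S

/-- **division 6 from the function `u`** -/
theorem end6_of_upre (h4 : UPreP) : END6 :=
  end6_of_nodes omegaP leafVolP skP h4 uOutP contP contVolP frameP Rich_710.richStmt

end Crest.Agent.R281.E6a_52
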