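import Crest.Agent.R281.E6b_52
import Crest.Agent.R281.Up3_425

/-!
# R281 (S0424): **division 6 is closed** (helper425)

`upreP : E6_373.UPreP`, `end6 : Sk_474.END6` (no hypotheses).
-/

set_option autoImplicit false
set_option linter.unusedSectionVars false

namespace Crest.Agent.R281.Up_425

open Crest.Agent.R281.D6_986 Crest.Agent.R281.E6_373

/-- **the node `UPreP`** -/
theorem upreP : UPreP := by
  rintro X o ⟨s⟩ hH
  obtain ⟨v, hv⟩ := Mass5_519.exists_volC_LFib o.F X.K
  obtain ⟨B, hB⟩ := uf_bdd s hH hv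
  exact ⟨uPre_of s hv hB⟩

/-- **division 6** -/
theorem end6 : Sk_474.END6 := E6a_52.end6_of_upre upreP

end Crest.Agent.R281.Up_425
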