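import Crest.Agent.R281.Ehp2_461

/-!
# R281 (S0424), EHR-PATH (helper461), part 3: compact paths and rays of the marked cover

* `PathFam.append`  : concatenation
* `exists_pathFam`  : members along a path on `[a, b]`
* `RayFam`, `exists_rayFam` : members along a ray `[a, ∞)`
-/

set_option autoImplicit false
set_option maxSynthPendingDepth 5
set_option linter.unusedSectionVars false

open Set Filter Topology Complex
open scoped ContDiff

namespace Crest.Agent.R281.Ehp_461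

open Crest.Agent.R281.HkR_835 Crest.Agent.R281.Ehr2_268 Crest.Agent.R281.Dif_268
open Crest.Agent.R281.Ehr4_268 Crest.Agent.R281.CL_473 Crest.Agent.R281.Ehr6_268

noncomputable section

universe uq

variable {Q : Type uq} [TopologicalSpace Q] {E H : Type} [NormedAddCommGroup E]
  [NormedSpace ℂ E] [NormedAddCommGroup H] [NormedSpace ℂ H]
variable {V X : Type} [NormedAddCommGroup V] [NormedSpace ℝ V] [TopologicalSpace X]
variable [FiniteDimensional ℝ V] [CompactSpace X] [T2Space X] [FiniteDimensional ℂ H]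
variable {F : QFam Q E H} {C C' : RCh V X}

theorem smP_const (P : HEmb C' H) : SmP (fun _ : ℝ => P) := fun i =>
  (P.sm i).comp contDiffOn_snd fun _ hp => hp.2

/-- change of the starting member -/
def PathFam.start {cmp : Cmp C C'} {c : ℝ → (ls F C).Tot} {a b : ℝ} {P0 P1 : HEmb C' H}
    (p : PathFam cmp c a b P0) (h : EqT P0 P1) : PathFam cmp c a b P1 :=
  { p with Al := fun t ht => (p.Al t ht).trans h }

theorem PathFam.Al' {cmp : Cmp C C'} {c : ℝ → (ls F C).Tot} {a b : ℝ} {P0 : HEmb C' H}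
    (p : PathFam cmp c a b P0) {t : ℝ} (ht : t ≤ 1 / 4) : EqT (p.A t) (p.A 0) :=
  (p.Al t ht).trans (p.Al 0 (by norm_num)).symm

/-! ### the glued family of a sequence of families -/

section seq

variable {cmp : Cmp C C'} {c : ℝ → (ls F C).Tot} {s : ℕ → ℝ} {P : ℕ → HEmb C' H}
  (p : ∀ k, PathFam cmp c (s k) (s (k + 1)) (P k)) (hP : ∀ k, EqT (P (k + 1)) ((p k).A 1))
include hP

theorem seq_smP : SmP (glue fun k => (p k).A) :=
  glue_smP (fun k => (p k).sm) (fun k _ ht => (p k).Al' ht) (fun k t ht => (p k).Ar t ht)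
    fun k => ((p (k + 1)).Al 0 (by norm_num)).trans (hP k)

omit hP in
theorem seq_contDiff : ContDiff ℝ ∞ (glue fun k => (p k).α) :=
  glue_contDiff (fun k => (p k).αs)
    (fun k t ht => ((p k).αl t ht).trans ((p k).αl 0 (by norm_num)).symm)
    (fun k t ht => ((p k).αr t ht).trans ((p k).αr 1 (by norm_num)).symm)
    fun k => ((p (k + 1)).αl 0 (by norm_num)).trans ((p k).αr 1 (by norm_num)).symm

omit hP in
theorem seq_mono : Monotone (glue fun k => (p k).α) :=
  glue_mono (fun k => (p k).αs) (fun k => (p k).mono)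
    (fun k t ht => ((p k).αl t ht).trans ((p k).αl 0 (by norm_num)).symm)
    (fun k t ht => ((p k).αr t ht).trans ((p k).αr 1 (by norm_num)).symm)
    fun k => ((p (k + 1)).αl 0 (by norm_num)).trans ((p k).αr 1 (by norm_num)).symm

omit hP in
theorem seq_rep (t : ℝ) : Rep cmp (c ((glue fun k => (p k).α) t)) ((glue fun k => (p k).A) t) :=
  (p ⌊t⌋₊).rep _

omit hP in
theorem seq_nat (n : ℕ) : (glue fun k => (p k).α) (n : ℝ) = s n := by
  rw [glue_nat]
  exact (p n).αl 0 (by norm_num)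

end seq

/-- the constant family -/
def PathFam.const {cmp : Cmp C C'} {c : ℝ → (ls F C).Tot} {a : ℝ} {P0 : HEmb C' H}
    (h : Rep cmp (c a) P0) : PathFam cmp c a a P0 where
  A _ := P0
  α _ := a
  sm := smP_const P0
  αs := contDiff_const
  mono := monotone_const
  αl _ _ := rfl
  αr _ _ := rfl
  Al _ _ := EqT.refl _
  Ar _ _ := EqT.refl _
  rep _ := h

theorem PathFam.rep1 {cmp : Cmp C C'} {c : ℝ → (ls F C).Tot} {a b : ℝ} {P0 : HEmb C' H}
    (p : PathFam cmp c a b P0) : Rep cmp (c b) (p.A 1) := by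
  have h := p.rep 1
  rwa [p.αr 1 (by norm_num)] at h

/-- concatenation -/
theorem PathFam.append {cmp : Cmp C C'} {c : ℝ → (ls F C).Tot} {a b d : ℝ} {P0 : HEmb C' H}
    (p : PathFam cmp c a b P0) (p' : PathFam cmp c b d (p.A 1)) :
    Nonempty (PathFam cmp c a d P0) := by
  let s : ℕ → ℝ := fun k => match k with
    | 0 => a
    | 1 => b
    | _ => d
  let P : ℕ → HEmb C' H := fun k => match k with
    | 0 => P0
    | 1 => p.A 1
    | _ => p'.A 1
  let f : ∀ k, PathFam cmp c (s k) (s (k + 1)) (P k) := fun k => match k with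
    | 0 => p
    | 1 => p'
    | (_ + 2) => PathFam.const p'.rep1
  have hP : ∀ k, EqT (P (k + 1)) ((f k).A 1) := fun k => match k with
    | 0 => EqT.refl _
    | 1 => EqT.refl _
    | (_ + 2) => EqT.refl _
  have hlin : ContDiff ℝ ∞ fun t : ℝ => 4 * t - 1 :=
    (contDiff_const.mul contDiff_id).sub contDiff_const
  have hbig : ∀ t : ℝ, 3 / 4 ≤ t → 2 ≤ ⌊4 * t - 1⌋₊ := by
    intro t ht
    exact Nat.le_floor (by norm_num; linarith)
  have hfα : ∀ n, 2 ≤ n → ∀ x, (f n).α x = d := by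
    intro n hn x
    obtain ⟨k, rfl⟩ := Nat.exists_eq_add_of_le' hn
    rfl
  have hfA : ∀ n, 2 ≤ n → ∀ x, (f n).A x = p'.A 1 := by
    intro n hn x
    obtain ⟨k, rfl⟩ := Nat.exists_eq_add_of_le' hn
    rfl
  refine ⟨⟨fun t => glue (fun k => (f k).A) (4 * t - 1), fun t => glue (fun k => (f k).α) (4 * t - 1),
    (seq_smP f hP).comp hlin, (seq_contDiff f).comp hlin,
    fun x y hxy => seq_mono f (by linarith), ?_, ?_, ?_, ?_, fun t => seq_rep f _⟩⟩
  · intro t ht
    rw [glue_of_nonpos _ (by linarith)]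
    exact p.αl _ (by linarith)
  · intro t ht
    exact hfα _ (hbig t ht) _
  · intro t ht
    rw [glue_of_nonpos _ (by linarith)]
    exact p.Al _ (by linarith)
  · intro t ht
    have e1 := hfA _ (hbig t ht) (4 * t - 1 - (⌊4 * t - 1⌋₊ : ℝ))
    have e2 := hfA _ (hbig 1 (by norm_num)) (4 * 1 - 1 - (⌊(4 : ℝ) * 1 - 1⌋₊ : ℝ))
    show EqT ((f ⌊4 * t - 1⌋₊).A (4 * t - 1 - (⌊4 * t - 1⌋₊ : ℝ)))
      ((f ⌊(4 : ℝ) * 1 - 1⌋₊).A (4 * 1 - 1 - (⌊(4 : ℝ) * 1 - 1⌋₊ : ℝ)))
    rw [e1, e2]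
    exact EqT.refl _

/-- **members along a path of the marked cover** -/
theorem exists_pathFam (cmp : Cmp C C') (c : ℝ → (ls F C).Tot) {a b : ℝ} (hab : a ≤ b)
    (hc : ContinuousOn c (Icc a b)) (hs : SmU F (fun y => (ls F C).pr (c y)) (Icc a b))
    {P0 : HEmb C' H} (h0 : Rep cmp (c a) P0) : Nonempty (PathFam cmp c a b P0) := by
  let O : Icc a b → Set (Icc a b) := fun y0 => interior {y : Icc a b |
    (ls F C).pr (c y) ∈ F.U ((ls F C).pr (c y0)) ∧ c y = (ls F C).tr (c y0) ((ls F C).pr (c y))}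
  have hO : ∀ y0, y0 ∈ O y0 := by
    intro y0
    rw [mem_interior_iff_mem_nhds]
    have h1 := path_loc hc y0.2
    exact (eventually_nhds_subtype_iff (Icc a b) y0 _).mpr h1
  obtain ⟨t, ht0, htm, ⟨m, hm⟩, ht⟩ := exists_monotone_Icc_subset_open_cover_Icc hab
    (c := O) (fun y0 => isOpen_interior) (fun y _ => mem_iUnion.mpr ⟨y, hO y⟩)
  have key : ∀ n, Nonempty (PathFam cmp c a (t n) P0) := by
    intro n
    induction n with
    | zero =>
      rw [ht0]
      exact ⟨PathFam.const h0⟩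
    | succ n ih =>
      obtain ⟨p⟩ := ih
      obtain ⟨y0, hy0⟩ := ht n
      have h1 : ∀ y ∈ Icc (t n : ℝ) (t (n + 1)), (ls F C).pr (c y) ∈ F.U ((ls F C).pr (c y0)) ∧
          c y = (ls F C).tr (c y0) ((ls F C).pr (c y)) := by
        intro y hy
        have h2 : y ∈ Icc a b := ⟨(t n).2.1.trans hy.1, hy.2.trans (t (n + 1)).2.2⟩
        have h3 : (⟨y, h2⟩ : Icc a b) ∈ Icc (t n) (t (n + 1)) := ⟨hy.1, hy.2⟩
        have h4 := interior_subset (hy0 h3)
        exact h4
      have h2 : (t n : ℝ) ≤ t (n + 1) := htm (Nat.le_succ n)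
      obtain ⟨p'⟩ := exists_piece cmp c h2 h1
        (hs.mono (Icc_subset_Icc (t n).2.1 (t (n + 1)).2.2)) p.rep1
      exact p.append p'
  have h1 := key m
  rwa [hm m le_rfl] at h1

/-! ### rays -/

/-- members along a ray of the marked cover -/
structure RayFam (cmp : Cmp C C') (c : ℝ → (ls F C).Tot) (a : ℝ) (P0 : HEmb C' H) where
  A : ℝ → HEmb C' H
  α : ℝ → ℝ
  sm : SmP A
  αs : ContDiff ℝ ∞ α
  mono : Monotone α
  αl : ∀ t ≤ (1 / 4 : ℝ), α t = a
  αn : ∀ n : ℕ, α n = a + n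
  Al : ∀ t ≤ (1 / 4 : ℝ), EqT (A t) P0
  rep : ∀ t, Rep cmp (c (α t)) (A t)

theorem RayFam.mem {cmp : Cmp C C'} {c : ℝ → (ls F C).Tot} {a : ℝ} {P0 : HEmb C' H}
    (p : RayFam cmp c a P0) (t : ℝ) : a ≤ p.α t := by
  rcases le_or_gt t (1 / 4) with h | h
  · rw [p.αl t h]
  · calc a = p.α (1 / 4) := (p.αl _ le_rfl).symm
      _ ≤ p.α t := p.mono h.le

theorem RayFam.surj {cmp : Cmp C C'} {c : ℝ → (ls F C).Tot} {a : ℝ} {P0 : HEmb C' H}
    (p : RayFam cmp c a P0) {y : ℝ} (hy : a ≤ y) : ∃ t, 0 ≤ t ∧ p.α t = y := by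
  obtain ⟨n, hn⟩ := exists_nat_ge (y - a)
  have h1 : y ∈ Icc (p.α 0) (p.α n) := by
    rw [p.αl 0 (by norm_num), p.αn n]
    exact ⟨hy, by linarith⟩
  obtain ⟨t, ht, he⟩ := intermediate_value_Icc (Nat.cast_nonneg n) p.αs.continuous.continuousOn h1
  exact ⟨t, ht.1, he⟩

/-- **members along a ray of the marked cover** -/
theorem exists_rayFam (cmp : Cmp C C') (c : ℝ → (ls F C).Tot) {a : ℝ}
    (hc : ContinuousOn c (Ici a)) (hs : SmU F (fun y => (ls F C).pr (c y)) (Ici a))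
    {P0 : HEmb C' H} (h0 : Rep cmp (c a) P0) : Nonempty (RayFam cmp c a P0) := by
  have step : ∀ (n : ℕ) (P : {P : HEmb C' H // Rep cmp (c (a + n)) P}),
      Nonempty (PathFam cmp c (a + n) (a + (n + 1 : ℕ)) P.1) := by
    intro n P
    have hn : (0 : ℝ) ≤ n := Nat.cast_nonneg n
    have hsub : Icc (a + n) (a + (n + 1 : ℕ)) ⊆ Ici a := fun y hy => by
      have := hy.1
      simp only [mem_Ici]; linarith
    exact exists_pathFam cmp c (by push_cast; linarith) (hc.mono hsub) (hs.mono hsub) P.2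
  let S : ∀ n : ℕ, {P : HEmb C' H // Rep cmp (c (a + n)) P} := fun n =>
    Nat.rec (motive := fun n => {P : HEmb C' H // Rep cmp (c (a + (n : ℕ))) P})
      ⟨P0, by simpa using h0⟩ (fun n P => ⟨(step n P).some.A 1, (step n P).some.rep1⟩) n
  let p : ∀ n : ℕ, PathFam cmp c (a + n) (a + (n + 1 : ℕ)) (S n).1 := fun n => (step n (S n)).some
  have hP : ∀ n, EqT (S (n + 1)).1 ((p n).A 1) := fun n => EqT.refl _
  refine ⟨⟨glue fun k => (p k).A, glue fun k => (p k).α,
    seq_smP (s := fun n : ℕ => a + n) (P := fun n => (S n).1) p hP,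
    seq_contDiff (s := fun n : ℕ => a + n) (P := fun n => (S n).1) p,
    seq_mono (s := fun n : ℕ => a + n) (P := fun n => (S n).1) p, ?_,
    seq_nat (s := fun n : ℕ => a + n) (P := fun n => (S n).1) p, ?_,
    seq_rep (s := fun n : ℕ => a + n) (P := fun n => (S n).1) p⟩⟩
  · intro t ht
    rw [glue_of_nonpos _ (by linarith)]
    have := (p 0).αl t ht
    simpa using this
  · intro t ht
    rw [glue_of_nonpos _ (by linarith)]
    exact (p 0).Al t ht

/-- smoothness in the parameter space -/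
theorem PathFam.us {cmp : Cmp C C'} {c : ℝ → (ls F C).Tot} {a b : ℝ} {P0 : HEmb C' H}
    (p : PathFam cmp c a b P0) (hs : SmU F (fun y => (ls F C).pr (c y)) (Icc a b)) :
    ContDiff ℝ ∞ fun t => F.u ((ls F C).pr (c (p.α t))) := hs.comp p.αs p.mem

theorem RayFam.us {cmp : Cmp C C'} {c : ℝ → (ls F C).Tot} {a : ℝ} {P0 : HEmb C' H}
    (p : RayFam cmp c a P0) (hs : SmU F (fun y => (ls F C).pr (c y)) (Ici a)) :
    ContDiff ℝ ∞ fun t => F.u ((ls F C).pr (c (p.α t))) := hs.comp p.αs p.mem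

/-- every class of the marked cover has a member -/
theorem exists_rep (x : (ls F C).Tot) : ∃ (C' : RCh V X) (cmp : Cmp C C') (P : HEmb C' H),
    Rep cmp x P := by
  obtain ⟨m, hm⟩ := MQ.exists_rep x
  subst hm
  exact ⟨m.C', m.cmp, m.P, m.cone, rfl⟩

end

end Crest.Agent.R281.Ehp_461
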