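import Crest.Agent.R281.Ehj2_461
import Crest.Agent.R281.Ehr8_268
import Crest.Agent.R281.Ehp3_461

/-!
# R281 (S0424), CFAM-INST (helper461), part 3: forms along a family of members

* `JS W T`          : jointly smooth family of forms `W : E' → F2 C` over `T`; `JS.pull`, `JS.add`,
                      `JS.smul`
* `form'_w`         : the form of a marking is `sg (u q) (P.u j z) (DP.u v) (DP.u w)`
* `form'_joint`     : jointly smooth along jointly smooth families of members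
* `form_joint`      : the same on the fixed chart system `C`
-/

set_option autoImplicit false
set_option maxSynthPendingDepth 5
set_option linter.unusedSectionVars false

open Filter Topology Complex Set
open scoped ContDiff

namespace Crest.Agent.R281.Ehj_461

open Crest.Agent.R281.HkR_835 Crest.Agent.R281.Ehr2_268 Crest.Agent.R281.Dif_268
open Crest.Agent.R281.Ehr4_268 Crest.Agent.R281.CL_473 Crest.Agent.R281.Ehr6_268
open Crest.Agent.R281.Cdr_234 Crest.Agent.R281.Ehr7_268 Crest.Agent.R281.Phl_655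
open Crest.Agent.R281.Ehr8_268 Crest.Agent.R281.Ehp_461

noncomputable section

universe uq

variable {V X : Type} [NormedAddCommGroup V] [NormedSpace ℝ V] [TopologicalSpace X]
variable {E' : Type} [NormedAddCommGroup E'] [NormedSpace ℝ E']
variable {C C' : RCh V X}

/-- jointly smooth family of 2-forms over `T` -/
def JS (W : E' → F2 C) (T : Set E') : Prop :=
  ∀ i, ContDiffOn ℝ ∞ (fun p : E' × V => (W p.1).w i p.2) (T ×ˢ (C.e i).target)

theorem JS.add {W W' : E' → F2 C} {T : Set E'} (h : JS W T) (h' : JS W' T) :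
    JS (fun t => W t + W' t) T := fun i => (h i).add (h' i)

theorem JS.smul {W : E' → F2 C} {T : Set E'} {a : E' → ℝ} (ha : ContDiffOn ℝ ∞ a T)
    (h : JS W T) : JS (fun t => a t • W t) T := fun i =>
  (ha.comp contDiffOn_fst fun _ hp => hp.1).smul (h i)

theorem JS.const (w : F2 C) (T : Set E') : JS (fun _ : E' => w) T := fun i =>
  (w.sm i).comp contDiffOn_snd fun _ hp => hp.2

/-- pull back of a jointly smooth family -/
theorem JS.pull {W : E' → F2 C'} {T : Set E'} (hT : IsOpen T) (h : JS W T) (g : SMap C C') :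
    JS (fun t => g.pull (W t)) T := by
  rintro i ⟨t, z⟩ ⟨ht, hz⟩
  obtain ⟨j, hj⟩ := g.exists_dom hz
  have hev : ∀ᶠ p : E' × V in 𝓝 (t, z), p.1 ∈ T ∧ p.2 ∈ dom C' C g.f j i :=
    (hT.prod (g.isOpen_dom j i)).mem_nhds (show (t, z) ∈ _ from ⟨ht, hj⟩)
  have hφ : ContDiffAt ℝ ∞ (loc C' C g.f j i) z := g.contDiffAt_loc hj
  have h1 : ContDiffAt ℝ ∞ (fun p : E' × V => (p.1, loc C' C g.f j i p.2)) (t, z) :=
    contDiffAt_fst.prodMk (ContDiffAt.comp (f := fun p : E' × V => p.2) (g := loc C' C g.f j i)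
      (t, z) hφ contDiffAt_snd)
  have h2 : ContDiffAt ℝ ∞ (fun p : E' × V => (W p.1).w j p.2) (t, loc C' C g.f j i z) :=
    (h j).contDiffAt ((hT.prod (C'.e j).open_target).mem_nhds ⟨ht, g.loc_mem hj⟩)
  have h3 : ContDiffAt ℝ ∞ (fun p : E' × V => (W p.1).w j (loc C' C g.f j i p.2)) (t, z) :=
    h2.comp (f := fun p : E' × V => (p.1, loc C' C g.f j i p.2)) (t, z) h1
  have h4 : ContDiffAt ℝ ∞ (fun p : E' × V => fderiv ℝ (loc C' C g.f j i) p.2) (t, z) :=
    ContDiffAt.comp (f := fun p : E' × V => p.2) (g := fderiv ℝ (loc C' C g.f j i)) (t, z)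
      (hφ.fderiv_right (m := ∞) (by simp)) contDiffAt_snd
  have h5 : ContDiffAt ℝ ∞ (fun p : E' × V => ((W p.1).w j (loc C' C g.f j i p.2)).comp
      (fderiv ℝ (loc C' C g.f j i) p.2)) (t, z) := h3.clm_comp h4
  have hb : ContDiff ℝ ∞ (fun T : V →L[ℝ] V => (ContinuousLinearMap.compL ℝ V V ℝ).flip T) := by
    fun_prop
  have h6 : ContDiffAt ℝ ∞ (fun p : E' × V => (ContinuousLinearMap.compL ℝ V V ℝ).flip
      (fderiv ℝ (loc C' C g.f j i) p.2)) (t, z) := hb.contDiffAt.comp (t, z) h4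
  have h7 : ContDiffAt ℝ ∞ (fun p : E' × V => pb ((W p.1).w j) (loc C' C g.f j i) p.2)
      (t, z) := h6.clm_comp h5
  refine (h7.congr_of_eventuallyEq ?_).contDiffWithinAt
  filter_upwards [hev] with p hp
  exact g.w'_eq (W p.1) hp.2

theorem JS.congr {W W' : E' → F2 C} {T : Set E'} (h : JS W T)
    (he : ∀ t ∈ T, ∀ i, ∀ z ∈ (C.e i).target, (W' t).w i z = (W t).w i z) : JS W' T := by
  intro i
  refine (h i).congr ?_
  rintro ⟨t, z⟩ ⟨ht, hz⟩
  exact he t ht i z hz

/-! ### forms of markings -/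

variable {Q : Type uq} [TopologicalSpace Q] {E H : Type} [NormedAddCommGroup E]
    [NormedSpace ℂ E] [NormedAddCommGroup H] [NormedSpace ℂ H] {F : QFam Q E H}

/-- velocities of the cone of a member -/
theorem vel_member (m : Mark F C) {q0 : Q} (hq : m.q ∈ (F.e q0).source) {j : m.C'.ι} {z : V}
    (hz : z ∈ (m.C'.e j).target) (v : V) :
    Vel (F.R q0) (F.u m.q) (m.P.u j z) (fderiv ℝ (m.P.u j) z v) := by
  refine ⟨fun t => m.P.u j (z + t • v), by simp, ?_, ?_⟩
  · have h1 : HasDerivAt (fun t : ℝ => z + t • v) v 0 := by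
      simpa using ((hasDerivAt_id (0 : ℝ)).smul_const v).const_add z
    have h2 : HasFDerivAt (m.P.u j) (fderiv ℝ (m.P.u j) z) (z + (0 : ℝ) • v) := by
      have h3 : DifferentiableAt ℝ (m.P.u j) z :=
        ((m.P.sm j).contDiffAt ((m.C'.e j).open_target.mem_nhds hz)).differentiableAt (by simp)
      simpa using h3.hasFDerivAt
    exact HasFDerivAt.comp_hasDerivAt (f := fun t : ℝ => z + t • v) (l := m.P.u j) (0 : ℝ) h2 h1
  · have h1 : Tendsto (fun t : ℝ => z + t • v) (𝓝 0) (𝓝 z) := by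
      have : Continuous (fun t : ℝ => z + t • v) := by fun_prop
      exact this.tendsto' _ _ (by simp)
    filter_upwards [h1.eventually ((m.C'.e j).open_target.mem_nhds hz)] with t ht
    exact (F.R_iff hq _).mpr ((m.cone _).mp (m.P.mem_cone ht))

/-- the value of the form of a marking -/
theorem form'_w (b : QBF F) (m : Mark F C) {j : m.C'.ι} {z : V} (hz : z ∈ (m.C'.e j).target)
    (v w : V) : (b.form' m).w j z v w = (b.β m.q).sg (F.u m.q) (m.P.u j z)
      (fderiv ℝ (m.P.u j) z v) (fderiv ℝ (m.P.u j) z w) := by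
  have hc := F.ball_of_mem (F.U_mem m.q)
  let U : E × V → H := fun p => m.P.fam (F.Φ m.q) j p.1 p.2
  have hU : Lift m.pf j (F.u m.q) z U := by
    have h1 : ∀ᶠ p : E × V in 𝓝 (F.u m.q, z),
        p ∈ Metric.ball (F.u m.q) (F.r m.q) ×ˢ (m.C'.e j).target :=
      (Metric.isOpen_ball.prod (m.C'.e j).open_target).mem_nhds ⟨hc, hz⟩
    filter_upwards [h1] with p hp
    refine ⟨fam_contDiffAt m.P (F.hM m.q) m.coneS hp.1 hp.2
      ((m.P.sm j).contDiffAt ((m.C'.e j).open_target.mem_nhds hp.2)),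
      ⟨1, one_ne_zero, (one_smul ℂ _).symm⟩, ?_⟩
    exact fam_holo m.P (F.hM m.q) m.coneS hp.1 hp.2
  have e0 : ∀ y ∈ (m.C'.e j).target, U (F.u m.q, y) = m.P.u j y := fun y hy => pf_id m hy
  have e1 : dz U (F.u m.q, z) = fderiv ℝ (m.P.u j) z := by
    rw [← (hasFDerivAt_dz hU.diff).fderiv]
    refine Filter.EventuallyEq.fderiv_eq ?_
    filter_upwards [(m.C'.e j).open_target.mem_nhds hz] with y hy using e0 y hy
  show ((b.β m.q).pw j m.pf (F.u m.q) z) v w = _
  rw [pw_apply (b.β m.q) (F.cn m.q) (pf_in m) hc hz hU, e0 z hz, e1]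

/-- the value through a neighbouring base point -/
theorem form'_w' (b : QBF F) (m : Mark F C) {q0 : Q} (hq : m.q ∈ (F.e q0).source) {j : m.C'.ι}
    {z : V} (hz : z ∈ (m.C'.e j).target) (v w : V) :
    (b.form' m).w j z v w = (b.β q0).sg (F.u m.q) (m.P.u j z)
      (fderiv ℝ (m.P.u j) z v) (fderiv ℝ (m.P.u j) z w) := by
  rw [form'_w b m hz, b.compat q0 m.q hq _ _ _ (vel_member m (F.mem m.q) hz v)
    (vel_member m (F.mem m.q) hz w)]

section joint

variable {A : E' → HEmb C' H} {T : Set E'} {q : E' → Q}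

theorem fderiv_u_joint (hT : IsOpen T) (hA : SmT A T) {j : C'.ι} {t : E'} {z : V} (ht : t ∈ T)
    (hz : z ∈ (C'.e j).target) :
    ContDiffAt ℝ ∞ (fun p : E' × V => fderiv ℝ ((A p.1).u j) p.2) (t, z) := by
  have h0 : ∀ p : E' × V, p ∈ T ×ˢ (C'.e j).target →
      ContDiffAt ℝ ∞ (fun p : E' × V => (A p.1).u j p.2) p := fun p hp =>
    (hA j).contDiffAt ((hT.prod (C'.e j).open_target).mem_nhds hp)
  have h1 : ContDiffAt ℝ ∞ (fun p : E' × V =>
      (fderiv ℝ (fun p : E' × V => (A p.1).u j p.2) p).comp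
        (ContinuousLinearMap.inr ℝ E' V)) (t, z) :=
    ((h0 _ ⟨ht, hz⟩).fderiv_right (m := ∞) (by simp)).clm_comp contDiffAt_const
  refine h1.congr_of_eventuallyEq ?_
  filter_upwards [(hT.prod (C'.e j).open_target).mem_nhds (show (t, z) ∈ _ from ⟨ht, hz⟩)] with
    p hp
  have h2 : HasFDerivAt (fun y => (A p.1).u j y) _ p.2 :=
    HasFDerivAt.comp (f := fun y : V => (p.1, y)) (g := fun p : E' × V => (A p.1).u j p.2) p.2
      ((h0 p hp).differentiableAt (by simp)).hasFDerivAt (hasFDerivAt_prodMk_right _ _)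
  exact h2.fderiv

/-- **the forms are jointly smooth**, on the chart system of the markings -/
theorem form'_joint (b : QBF F) (cmp : Cmp C C') (hT : IsOpen T) (hA : SmT A T)
    (hq : ContinuousOn q T) (hu : ContDiffOn ℝ ∞ (fun t => F.u (q t)) T)
    (hc : ∀ t w, w ∈ (A t).cone ↔ w ∈ F.S (q t)) :
    JS (fun t => (b.form' (mk' cmp (q t) (A t) (hc t)) : F2 C')) T := by
  rintro j ⟨t0, z0⟩ ⟨ht0, hz0⟩
  let m : E' → Mark F C := fun t => mk' cmp (q t) (A t) (hc t)
  have hx0 : (F.u (q t0), (A t0).u j z0) ∈ F.R (q t0) :=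
    (F.R_iff (F.mem _) _).mpr ((hc t0 _).mp ((A t0).mem_cone hz0))
  obtain ⟨Sg, hS1, -⟩ := (b.β (q t0)).loc _ _ hx0
  have hut : ContDiffAt ℝ ∞ (fun t => F.u (q t)) t0 := hu.contDiffAt (hT.mem_nhds ht0)
  have hxj : ContDiffAt ℝ ∞ (fun p : E' × V => (A p.1).u j p.2) (t0, z0) :=
    (hA j).contDiffAt ((hT.prod (C'.e j).open_target).mem_nhds ⟨ht0, hz0⟩)
  have h1 : ContDiffAt ℝ ∞ (fun p : E' × V => (F.u (q p.1), (A p.1).u j p.2)) (t0, z0) :=
    (ContDiffAt.comp (f := fun p : E' × V => p.1) (g := fun t => F.u (q t)) (t0, z0) hut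
      contDiffAt_fst).prodMk hxj
  have h2 : ContDiffAt ℝ ∞ (fun p : E' × V => Sg (F.u (q p.1), (A p.1).u j p.2)) (t0, z0) :=
    ContDiffAt.comp (f := fun p : E' × V => (F.u (q p.1), (A p.1).u j p.2)) (g := Sg) (t0, z0)
      hS1.self_of_nhds.1 h1
  have h3 := contDiffAt_pbl (fderiv_u_joint hT hA ht0 hz0) h2
  refine (h3.congr_of_eventuallyEq ?_).contDiffWithinAt
  have hqc : ContinuousAt (fun p : E' × V => q p.1) (t0, z0) :=
    ContinuousAt.comp (f := fun p : E' × V => p.1) (g := q) (x := (t0, z0))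
      (hq.continuousAt (hT.mem_nhds ht0)) continuousAt_fst
  filter_upwards [(hT.prod (C'.e j).open_target).mem_nhds (show (t0, z0) ∈ _ from ⟨ht0, hz0⟩),
    h1.continuousAt.eventually hS1, hqc.eventually ((F.e (q t0)).open_source.mem_nhds
      (F.mem (q t0)))] with p hp hpS hpq
  have hin : (F.u (q p.1), (A p.1).u j p.2) ∈ F.R (q t0) :=
    (F.R_iff hpq _).mpr ((hc p.1 _).mp ((A p.1).mem_cone hp.2))
  ext v w
  rw [pbl_apply]
  have e1 := form'_w' b (m p.1) (q0 := q t0) hpq (j := j) hp.2 v w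
  have e2 := (hpS.2 hin).2 _ _ (vel_member (m p.1) (q0 := q t0) hpq (j := j) hp.2 v)
    (vel_member (m p.1) (q0 := q t0) hpq (j := j) hp.2 w)
  exact e1.trans e2.symm

/-- **the forms are jointly smooth**, on the fixed chart system -/
theorem form_joint (b : QBF F) (cmp : Cmp C C') (hT : IsOpen T) (hA : SmT A T)
    (hq : ContinuousOn q T) (hu : ContDiffOn ℝ ∞ (fun t => F.u (q t)) T)
    (hc : ∀ t w, w ∈ (A t).cone ↔ w ∈ F.S (q t)) :
    JS (fun t => (b.form (mk' cmp (q t) (A t) (hc t)) : F2 C)) T :=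
  JS.pull (W := fun t => (b.form' (mk' cmp (q t) (A t) (hc t)) : F2 C')) hT
    (form'_joint b cmp hT hA hq hu hc) (SMap.ofCmp cmp.symm)

end joint

end

end Crest.Agent.R281.Ehj_461
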