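import Crest.Agent.R281.Ehj3_461
import Crest.Agent.R281.CFam_830
import Crest.Agent.R281.Pe6_313

/-!
# R281 (S0424), CFAM-INST (helper461), part 4: `CFam` (helper830) along a family of members

* `Jaj h P hcx : AJ C`  : the complex structure of the member, `cxOf_of_J`
* `jsj_fam`             : jointly smooth along families
* `hd_of`               : types of the forms on the chart system of the member give `HD` on `C`
* `cfam`                : `CFam C univ` along a family of members
* `cfam_path`           : the same along `PathFam`, `RayFam` (any path with `Rep`)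
-/

set_option autoImplicit false
set_option maxSynthPendingDepth 5
set_option linter.unusedSectionVars false

open Filter Topology Complex Set
open scoped ContDiff

namespace Crest.Agent.R281.Ehj_461

open Crest.Agent.R281.HkR_835 Crest.Agent.R281.Ehr2_268 Crest.Agent.R281.Dif_268
open Crest.Agent.R281.Ehr4_268 Crest.Agent.R281.CL_473 Crest.Agent.R281.Ehr6_268
open Crest.Agent.R281.Cdr_234 Crest.Agent.R281.Ehr7_268 Crest.Agent.R281.Phl_655
open Crest.Agent.R281.Ehr8_268 Crest.Agent.R281.Ehp_461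
open Crest.Agent.R281.NefO_476 Crest.Agent.R281.Nef_252 Crest.Agent.R281.Tt_476
open Crest.Agent.R281.Al_830 Crest.Agent.R281.Pe_313

noncomputable section

universe uq

variable {V X : Type} [NormedAddCommGroup V] [NormedSpace ℝ V] [TopologicalSpace X]
  [FiniteDimensional ℝ V]
variable {H : Type} [NormedAddCommGroup H] [NormedSpace ℂ H] [FiniteDimensional ℂ H]
variable {C C' : RCh V X}

/-- the complex structure of a member, as a field of endomorphisms on `C` -/
def Jaj (h : Cmp C C') (P : HEmb C' H) (hcx : P.Cx) : AJ C where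
  J i z := Jm P C i z
  sm i := by
    have h1 : SmT (fun _ : ℝ => P) univ := fun i =>
      (P.sm i).comp contDiffOn_snd fun _ hp => hp.2
    have h2 := Jm_smooth h (T := univ) isOpen_univ h1 (fun _ _ => hcx) i
    have h3 : ContDiffOn ℝ ∞ (fun z : V => ((0 : ℝ), z)) (C.e i).target := by fun_prop
    exact h2.comp h3 fun z hz => ⟨mem_univ _, hz⟩
  tr i i' z hz v := by
    obtain ⟨j, hj⟩ := Cmp.exists_mov C' hz.1
    have hj' : C.t i i' z ∈ mov C' C j i' := Cmp.t_mov hz hj
    refine Jm_uniq h hcx hj' ?_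
    obtain ⟨c, hc⟩ := Jm_ir h hcx hj v
    refine ⟨c, ?_⟩
    rw [fderiv_rd h P hj, fderiv_rd h P hj] at hc
    rw [fderiv_rd h P hj', fderiv_rd h P hj', h.symm.dt_mt hz hj, h.symm.dt_mt hz hj]
    have e1 : rd P C j i' (C.t i i' z) = rd P C j i z := by
      show P.u j (mt C' C j i' (C.t i i' z)) = P.u j (mt C' C j i z)
      rw [Cmp.t_mt hz]
    rw [e1, Cmp.t_mt hz]
    exact hc

theorem Jaj_J (h : Cmp C C') (P : HEmb C' H) (hcx : P.Cx) (i : C.ι) (z : V) :
    (Jaj h P hcx).J i z = Jm P C i z := rfl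

/-- the complex structure of the member is `J 0` of the triple -/
theorem cxOf_of_J (h : Cmp C C') (P : HEmb C' H) (hcx : P.Cx) (T : HkT C)
    (hT : ∀ i, ∀ z ∈ (C.e i).target, T.J 0 i z = Jm P C i z) : CxOf P T := by
  intro i j z hz v
  rw [hT i z hz.1]
  exact Jm_iRel h hcx hz v

theorem cxOf_of_ofHk (h : Cmp C C') (P : HEmb C' H) (hcx : P.Cx) (T : HkT C)
    (hT : ofHk T 0 = Jaj h P hcx) : CxOf P T :=
  cxOf_of_J h P hcx T fun i z _ => by
    have := congrArg (fun J : AJ C => J.J i z) hT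
    exact this

theorem J_of_cxOf (h : Cmp C C') (P : HEmb C' H) (hcx : P.Cx) {T : HkT C} (hT : CxOf P T)
    {i : C.ι} {z : V} (hz : z ∈ (C.e i).target) : T.J 0 i z = Jm P C i z := by
  obtain ⟨j, hj⟩ := Cmp.exists_mov C' hz
  ext v
  refine Jm_uniq h hcx hj ?_
  obtain ⟨c, hc⟩ := hT i j z hj v
  refine ⟨c, ?_⟩
  rw [fderiv_rd h P hj, fderiv_rd h P hj]
  exact hc

variable {E' : Type} [NormedAddCommGroup E'] [NormedSpace ℝ E']

/-- jointly smooth along families of members -/
theorem jsj_fam (h : Cmp C C') {A : E' → HEmb C' H} {T : Set E'} (hT : IsOpen T) (hA : SmT A T)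
    (hcx : ∀ t, (A t).Cx) : JSJ T (fun t => Jaj h (A t) (hcx t)) := fun i =>
  Jm_smooth h hT hA (fun t _ => hcx t) i

/-- **types of forms**, from the chart system of the member to `C` -/
theorem hd_of (h : Cmp C C') (P : HEmb C' H) (hcx : P.Cx) {om s1 s2 : F2 C'} (h1 : Typ P s1 s2)
    (h2 : Nd s1) (h3 : Typ11 P om) (h4 : Pos11 P om) :
    HD (Jaj h P hcx) ((SMap.ofCmp h.symm).pull om) ((SMap.ofCmp h.symm).pull s1)
      ((SMap.ofCmp h.symm).pull s2) := by
  let g : SMap C C' := SMap.ofCmp h.symm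
  have hIR : ∀ {i : C.ι} {j : C'.ι} {z : V}, z ∈ mov C' C j i → ∀ v,
      IRel P j (mt C' C j i z) (fderiv ℝ (mt C' C j i) z v)
        (fderiv ℝ (mt C' C j i) z (Jm P C i z v)) := fun hz v => Jm_iRel h hcx hz v
  have hw : ∀ (w : F2 C') {i : C.ι} {j : C'.ι} {z : V}, z ∈ mov C' C j i → ∀ u v,
      (g.pull w).w i z u v = w.w j (mt C' C j i z) (fderiv ℝ (mt C' C j i) z u)
        (fderiv ℝ (mt C' C j i) z v) := fun w i j z hz u v => g.pull_w w hz u v
  refine ⟨fun i z hz v => Jm_sq h hcx hz v, ?_, ?_, ?_, ?_⟩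
  · intro i z hz u v
    obtain ⟨j, hj⟩ := Cmp.exists_mov C' hz
    show (g.pull om).w i z (Jm P C i z u) (Jm P C i z v) = (g.pull om).w i z u v
    rw [hw om hj, hw om hj]
    exact h3 j _ (Cmp.mt_mem hj).1 _ _ _ _ (hIR hj u) (hIR hj v)
  · intro i z hz v hv
    obtain ⟨j, hj⟩ := Cmp.exists_mov C' hz
    show 0 < (g.pull om).w i z v (Jm P C i z v)
    rw [hw om hj]
    refine h4 j _ (Cmp.mt_mem hj).1 _ _ (hIR hj v) fun h0 => hv ?_
    exact Cmp.inj h.symm hj (by rw [h0, map_zero])
  · intro i z hz u v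
    obtain ⟨j, hj⟩ := Cmp.exists_mov C' hz
    show (g.pull s1).w i z (Jm P C i z u) v = -(g.pull s2).w i z u v
    rw [hw s1 hj, hw s2 hj]
    exact h1 j _ (Cmp.mt_mem hj).1 _ _ _ (hIR hj u)
  · intro i z hz u hu
    obtain ⟨j, hj⟩ := Cmp.exists_mov C' hz
    have h5 : fderiv ℝ (mt C' C j i) z u = 0 := by
      refine h2 j _ (Cmp.mt_mem hj).1 _ fun v => ?_
      have h6 := hu (fderiv ℝ (mt C C' i j) (mt C' C j i z) v)
      have h7 : (g.pull s1).w i z u (fderiv ℝ (mt C C' i j) (mt C' C j i z) v) = 0 := h6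
      rw [hw s1 hj, h.symm.d_d' hj] at h7
      exact h7
    exact Cmp.inj h.symm hj (by rw [h5, map_zero])

/-! ### families -/

variable {Q : Type uq} [TopologicalSpace Q] {E : Type} [NormedAddCommGroup E] [NormedSpace ℂ E]
  {F : QFam Q E H}

/-- **`CFam` along a family of members** -/
def cfam (b0 b1 b2 : QBF F) (cmp : Cmp C C') {A : E' → HEmb C' H} {q : E' → Q}
    (hA : SmT A univ) (hq : Continuous q) (hu : ContDiff ℝ ∞ (fun t => F.u (q t)))
    (hc : ∀ t w, w ∈ (A t).cone ↔ w ∈ F.S (q t)) (hcx : ∀ t, (A t).Cx)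
    (hd : ∀ t, HD (Jaj cmp (A t) (hcx t)) (b0.form (mk' cmp (q t) (A t) (hc t)))
      (b1.form (mk' cmp (q t) (A t) (hc t))) (b2.form (mk' cmp (q t) (A t) (hc t)))) :
    CFam C (univ : Set E') where
  J t := Jaj cmp (A t) (hcx t)
  om t := b0.form (mk' cmp (q t) (A t) (hc t))
  s1 t := b1.form (mk' cmp (q t) (A t) (hc t))
  s2 t := b2.form (mk' cmp (q t) (A t) (hc t))
  jsJ := jsj_fam cmp isOpen_univ hA hcx
  jsom := form_joint b0 cmp isOpen_univ hA hq.continuousOn hu.contDiffOn hc
  js1 := form_joint b1 cmp isOpen_univ hA hq.continuousOn hu.contDiffOn hc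
  js2 := form_joint b2 cmp isOpen_univ hA hq.continuousOn hu.contDiffOn hc
  hd t _ := hd t

/-- multiplication of the positive form by a positive constant -/
theorem HD.scale {J : AJ C} {om s1 s2 : F2 C} (D : HD J om s1 s2) {a : ℝ} (ha : 0 < a) :
    HD J (a • om) s1 s2 where
  sq := D.sq
  t11 i z hz u v := by
    simp only [F2.smul_w, smul_apply, smul_eq_mul]
    rw [D.t11 i z hz]
  pos i z hz v hv := by
    simp only [F2.smul_w, smul_apply, smul_eq_mul]
    exact mul_pos ha (D.pos i z hz v hv)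
  typ := D.typ
  nd := D.nd

/-- multiplication of the positive form by a positive constant -/
def scaleC {T : Set E'} (D : CFam C T) {a : ℝ} (ha : 0 < a) : CFam C T where
  J := D.J
  om t := a • D.om t
  s1 := D.s1
  s2 := D.s2
  jsJ := D.jsJ
  jsom i := (D.jsom i).const_smul a
  js1 := D.js1
  js2 := D.js2
  hd t ht := HD.scale (D.hd t ht) ha

variable [CompactSpace X] [T2Space X]

/-- **along a path of the marked cover** (581's `exists_exact`: `c` itself; `PathFam`, `RayFam`:
`c ∘ α`) -/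
def cfam_path (b0 b1 b2 : QBF F) (cmp : Cmp C C') {A : ℝ → HEmb C' H} {x : ℝ → (ls F C).Tot}
    (hA : SmP A) (hx : Continuous x)
    (hu : ContDiff ℝ ∞ (fun t => F.u ((ls F C).pr (x t)))) (hr : ∀ t, Rep cmp (x t) (A t))
    (hcx : ∀ t, (A t).Cx)
    (hd : ∀ t, HD (Jaj cmp (A t) (hcx t))
      (b0.form (mk' cmp ((ls F C).pr (x t)) (A t) (hr t).cone))
      (b1.form (mk' cmp ((ls F C).pr (x t)) (A t) (hr t).cone))
      (b2.form (mk' cmp ((ls F C).pr (x t)) (A t) (hr t).cone))) :
    CFam C (univ : Set ℝ) :=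
  cfam b0 b1 b2 cmp (A := A) (q := fun t => (ls F C).pr (x t)) hA
    ((ls F C).continuous_pr.comp hx) hu (fun t => (hr t).cone) hcx hd

/-- the class of the form along the path is the natural class of the marked cover -/
theorem form_class (b : QBF F) (cmp : Cmp C C') {P : HEmb C' H} {x : (ls F C).Tot}
    (hr : Rep cmp x P) :
    cl (b.form (mk' cmp ((ls F C).pr x) P hr.cone)) = (b.natF C).cls x := by
  have h1 : (b.natF C).cls (MQ.mk (mk' cmp ((ls F C).pr x) P hr.cone)) =
      cl (b.form (mk' cmp ((ls F C).pr x) P hr.cone)) := b.cls_mk _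
  rw [← h1]
  exact congrArg (b.natF C).cls hr.choose_spec

end

end Crest.Agent.R281.Ehj_461
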