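import Crest.Agent.R281.Ehp1_461

/-!
# R281 (S0424), EHR-PATH (helper461), part 2: members along a path of the marked cover

* `PathFam F C cmp c a b P0` : smooth monotone `α` (`a` for `t ≤ 1/4`, `b` for `3/4 ≤ t`) and a jointly
                 smooth path `A : ℝ → HEmb C' H` of members, starting at `P0`, with
                 `[(q (c (α t)), C', A t)] = c (α t)` in the marked cover
* `exists_pathFam` : exists for every continuous path `c` of the marked cover on `[a, b]` whose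
                 projection to the parameter space is smooth
-/

set_option autoImplicit false
set_option maxSynthPendingDepth 5
set_option linter.unusedSectionVars false

open Set Filter Topology Complex
open scoped ContDiff

namespace Crest.Agent.R281.Ehp_461

open Crest.Agent.R281.HkR_835 Crest.Agent.R281.Ehr2_268 Crest.Agent.R281.Dif_268
open Crest.Agent.R281.Ehr4_268 Crest.Agent.R281.CL_473 Crest.Agent.R281.Ehr6_268

noncomputable section

universe uq

variable {Q : Type uq} [TopologicalSpace Q] {E H : Type} [NormedAddCommGroup E]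
  [NormedSpace ℂ E] [NormedAddCommGroup H] [NormedSpace ℂ H]
variable {V X : Type} [NormedAddCommGroup V] [NormedSpace ℝ V] [TopologicalSpace X]
variable [FiniteDimensional ℝ V] [CompactSpace X] [T2Space X] [FiniteDimensional ℂ H]
variable {F : QFam Q E H} {C C' : RCh V X}

/-- the marking with chart system `C'` and member `P` -/
def mk' (cmp : Cmp C C') (q : Q) (P : HEmb C' H) (h : ∀ w, w ∈ P.cone ↔ w ∈ F.S q) : Mark F C :=
  ⟨q, C', cmp, P, h⟩

/-- the member `P` represents the class `x` of markings -/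
def Rep (cmp : Cmp C C') (x : (ls F C).Tot) (P : HEmb C' H) : Prop :=
  ∃ h : ∀ w, w ∈ P.cone ↔ w ∈ F.S ((ls F C).pr x), MQ.mk (mk' cmp ((ls F C).pr x) P h) = x

theorem Rep.congr {cmp : Cmp C C'} {x : (ls F C).Tot} {P P' : HEmb C' H} (h : Rep cmp x P)
    (he : EqT P P') : Rep cmp x P' := by
  obtain ⟨h1, h2⟩ := h
  refine ⟨fun w => (he.cone w).symm.trans (h1 w), ?_⟩
  have e1 : MQ.mk (mk' cmp ((ls F C).pr x) P' fun w => (he.cone w).symm.trans (h1 w)) =
      MQ.mk (mk' cmp ((ls F C).pr x) P h1) := MQ.sound ⟨rfl, id, he.symm.over, HTriv.id C⟩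
  exact e1.trans h2

theorem Rep.cone {cmp : Cmp C C'} {x : (ls F C).Tot} {P : HEmb C' H} (h : Rep cmp x P) (w : H) :
    w ∈ P.cone ↔ w ∈ F.S ((ls F C).pr x) := h.choose w

/-- smooth path on `I`, in the parameter space -/
def SmU (F : QFam Q E H) (q : ℝ → Q) (I : Set ℝ) : Prop :=
  ∀ y ∈ I, ∃ κ : ℝ → E, ContDiffAt ℝ ∞ κ y ∧ ∀ᶠ y' in 𝓝[I] y, F.u (q y') = κ y'

theorem SmU.mono {q : ℝ → Q} {I J : Set ℝ} (h : SmU F q I) (hJ : J ⊆ I) : SmU F q J := by
  intro y hy
  obtain ⟨κ, h1, h2⟩ := h y (hJ hy)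
  exact ⟨κ, h1, h2.filter_mono (nhdsWithin_mono y hJ)⟩

theorem SmU.comp {q : ℝ → Q} {I : Set ℝ} (h : SmU F q I) {α : ℝ → ℝ} (hα : ContDiff ℝ ∞ α)
    (hI : ∀ t, α t ∈ I) : ContDiff ℝ ∞ fun t => F.u (q (α t)) := by
  rw [contDiff_iff_contDiffAt]
  intro t0
  obtain ⟨κ, h1, h2⟩ := h (α t0) (hI t0)
  refine (h1.comp t0 hα.contDiffAt).congr_of_eventuallyEq ?_
  have h3 : Tendsto α (𝓝 t0) (𝓝[I] (α t0)) :=
    tendsto_nhdsWithin_of_tendsto_nhds_of_eventually_within _ hα.continuous.continuousAt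
      (Eventually.of_forall hI)
  exact h3.eventually h2

/-- a path of members over the path `c` of the marked cover -/
structure PathFam (cmp : Cmp C C') (c : ℝ → (ls F C).Tot) (a b : ℝ) (P0 : HEmb C' H) where
  A : ℝ → HEmb C' H
  α : ℝ → ℝ
  sm : SmP A
  αs : ContDiff ℝ ∞ α
  mono : Monotone α
  αl : ∀ t ≤ (1 / 4 : ℝ), α t = a
  αr : ∀ t, (3 / 4 : ℝ) ≤ t → α t = b
  Al : ∀ t ≤ (1 / 4 : ℝ), EqT (A t) P0
  Ar : ∀ t, (3 / 4 : ℝ) ≤ t → EqT (A t) (A 1)
  rep : ∀ t, Rep cmp (c (α t)) (A t)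

theorem PathFam.mem {cmp : Cmp C C'} {c : ℝ → (ls F C).Tot} {a b : ℝ} {P0 : HEmb C' H}
    (p : PathFam cmp c a b P0) (t : ℝ) : p.α t ∈ Icc a b := by
  constructor
  · rcases le_or_gt t (1 / 4) with h | h
    · rw [p.αl t h]
    · calc a = p.α (1 / 4) := (p.αl _ le_rfl).symm
        _ ≤ p.α t := p.mono h.le
  · rcases le_or_gt (3 / 4) t with h | h
    · rw [p.αr t h]
    · calc p.α t ≤ p.α (3 / 4) := p.mono h.le
        _ = b := p.αr _ le_rfl

/-- the elementary piece, inside one neighbourhood of transport -/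
theorem exists_piece (cmp : Cmp C C') (c : ℝ → (ls F C).Tot) {a b y0 : ℝ} (hab : a ≤ b)
    (hc : ∀ y ∈ Icc a b, (ls F C).pr (c y) ∈ F.U ((ls F C).pr (c y0)) ∧
      c y = (ls F C).tr (c y0) ((ls F C).pr (c y)))
    (hs : SmU F (fun y => (ls F C).pr (c y)) (Icc a b)) {P0 : HEmb C' H}
    (h0 : Rep cmp (c a) P0) : Nonempty (PathFam cmp c a b P0) := by
  set q0 : Q := (ls F C).pr (c y0) with hq0
  have ha : a ∈ Icc a b := ⟨le_rfl, hab⟩
  obtain ⟨hcone, hm⟩ := h0
  set m : Mark F C := mk' cmp ((ls F C).pr (c a)) P0 hcone with hmdef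
  have hma : m.q ∈ F.U q0 := (hc a ha).1
  set m0 : Mark F C := m.back q0 hma with hm0
  -- the class of the member over the centre
  have hy0 : (MQ.mk m0 : MQ F C) = c y0 := by
    have e1 : (ls F C).tr (c y0) ((ls F C).pr (c a)) = c a := (hc a ha).2.symm
    have e2 : (MQ.mk m0).s m.q = MQ.mk m := by
      rw [MQ.s_mk_mem m0 (show m.q ∈ F.U m0.q from hma)]
      exact MQ.sound (trIn_back m hma)
    have e3 : (ls F C).tr (MQ.mk m0 : MQ F C) ((ls F C).pr (c a)) = c a := by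
      have : (MQ.mk m0).s m.q = c a := e2.trans hm
      exact this
    exact ((ls F C).tr_inj (x := c y0) (y := (MQ.mk m0 : MQ F C)) rfl (hc a ha).1 (e1.trans e3.symm)).symm
  have hmem : ∀ t, (ls F C).pr (c (stp a b t)) ∈ F.U m0.q := fun t => (hc _ (stp_mem hab t)).1
  let A : ℝ → HEmb C' H := fun t => (m0.trIn ((ls F C).pr (c (stp a b t))) (hmem t)).P
  have hAu : ∀ t i z, (A t).u i z =
      F.Φ q0 (F.u ((ls F C).pr (c (stp a b t)))) (F.Ψ q0 (F.u ((ls F C).pr (c a))) (P0.u i z)) := fun _ _ _ => rfl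
  have huc : ContDiff ℝ ∞ fun t => F.u ((ls F C).pr (c (stp a b t))) :=
    hs.comp (stp_contDiff a b) (stp_mem hab)
  have hm0P : ∀ i, m0.P.u i = fun z => F.Ψ q0 (F.u ((ls F C).pr (c a))) (P0.u i z) := fun i => rfl
  refine ⟨⟨A, stp a b, ?_, stp_contDiff a b, stp_mono hab, fun t ht => stp_left a b ht,
    fun t ht => stp_right a b ht, ?_, ?_, ?_⟩⟩
  · -- joint smoothness
    rintro i ⟨t0, z0⟩ ⟨-, hz0⟩
    have e1 : ContDiffAt ℝ ∞ (fun p : E × V => m0.P.fam (F.Φ q0) i p.1 p.2)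
        (F.u ((ls F C).pr (c (stp a b t0))), z0) :=
      fam_contDiffAt m0.P (F.hM q0) (fun w => (m0.coneT w).symm)
        (F.ball_of_mem (hmem t0)) hz0
        ((m0.P.sm i).contDiffAt ((C'.e i).open_target.mem_nhds hz0))
    have e2 : ContDiffAt ℝ ∞ (fun p : ℝ × V => (F.u ((ls F C).pr (c (stp a b p.1))), p.2)) (t0, z0) :=
      (huc.contDiffAt.comp (t0, z0) contDiffAt_fst).prodMk contDiffAt_snd
    exact (e1.comp (f := fun p : ℝ × V => (F.u ((ls F C).pr (c (stp a b p.1))), p.2)) (t0, z0)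
      e2).contDiffWithinAt
  · -- left end
    intro t ht i z hz
    rw [hAu, stp_left a b ht]
    refine (F.iso (F.ball_of_mem hma)).right _ ?_
    exact (F.T_eq q0 m.q hma.1 _).mpr ((hcone _).mp (P0.mem_cone hz))
  · -- right end
    intro t ht i z hz
    rw [hAu, hAu, stp_right a b ht, stp_right a b (by norm_num)]
  · -- classes
    intro t
    refine ⟨(m0.trIn ((ls F C).pr (c (stp a b t))) (hmem t)).cone, ?_⟩
    have e1 : c (stp a b t) = (ls F C).tr (c y0) ((ls F C).pr (c (stp a b t))) := (hc _ (stp_mem hab t)).2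
    have e2 : (MQ.mk m0).s ((ls F C).pr (c (stp a b t))) =
        MQ.mk (m0.trIn ((ls F C).pr (c (stp a b t))) (hmem t)) := MQ.s_mk_mem m0 (hmem t)
    have e3 : (ls F C).tr (c y0) ((ls F C).pr (c (stp a b t))) = (MQ.mk m0).s ((ls F C).pr (c (stp a b t))) := by
      rw [← hy0]; rfl
    exact (e1.trans (e3.trans e2)).symm

/-- near a point the path is the transport of its value there -/
theorem path_loc {c : ℝ → (ls F C).Tot} {I : Set ℝ} (hc : ContinuousOn c I) {y0 : ℝ}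
    (hy0 : y0 ∈ I) : ∀ᶠ y in 𝓝[I] y0, (ls F C).pr (c y) ∈ F.U ((ls F C).pr (c y0)) ∧
      c y = (ls F C).tr (c y0) ((ls F C).pr (c y)) := by
  have h1 : Tendsto c (𝓝[I] y0) (map ((ls F C).tr (c y0)) (𝓝 ((ls F C).pr (c y0)))) := by
    rw [← (ls F C).nhds_eq]; exact hc y0 hy0
  have h2 : (ls F C).tr (c y0) '' (F.U ((ls F C).pr (c y0))) ∈ map ((ls F C).tr (c y0)) (𝓝 ((ls F C).pr (c y0))) :=
    image_mem_map ((F.U_open _).mem_nhds (F.U_mem _))
  filter_upwards [h1 h2] with y hy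
  obtain ⟨q, hq, he⟩ := hy
  have e : (ls F C).pr (c y) = q := by
    rw [← he]; exact (ls F C).pr_tr _ hq
  rw [e]
  exact ⟨hq, he.symm⟩

end

end Crest.Agent.R281.Ehp_461
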