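import Crest.Agent.R281.Ehr10_268

/-!
# R281 (S0424), PER-HOL (helper268, second hand), part 11: holomorphic forms on the markings

* `QCF F`      : one `CF` (655) over `F.R q0` for every `q0`, compatible; `re`, `im : QBF F`
* `QCF.cw m i c z v w` : the complex value of the pull back along the transport of the marking `m`
                 `re_at`, `im_at`, `cw_apply`, `hol` (holomorphic in `c` on the ball), `typ`
* `qcf`        : the `QCF` over 871's `qfam` from 867's polynomial data
* `mem`, `mem_cone`, `mem_cx`, `mark_cx` : the members, their tangent spaces are complex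
* `qcf_cw`, `qcf_nd`, `qcf_typ` : value, nondegeneracy, type on the members
-/

set_option autoImplicit false
set_option linter.unusedSectionVars false
set_option synthInstance.maxHeartbeats 200000
set_option maxSynthPendingDepth 3

open Set Filter Topology Complex
open scoped ContDiff

namespace Crest.Agent.R281.Ehr11_268

open Crest.Agent.R281.HkR_835 Crest.Agent.R281.Ehr2_268 Crest.Agent.R281.Dif_268
open Crest.Agent.R281.Ehr4_268 Crest.Agent.R281.Ehr6_268 Crest.Agent.R281.Ehr8_268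
open Crest.Agent.R281.Phl_655 Crest.Agent.R281.AF_867 Crest.Agent.R281.KrB4_871
open Crest.Agent.R281.QF_871 Crest.Agent.R281.Ehr9_268 Crest.Agent.R281.Ehr10_268

noncomputable section

universe uq

section gen

variable {Q : Type uq} [TopologicalSpace Q] {E H : Type} [NormedAddCommGroup E]
    [NormedSpace ℂ E] [NormedAddCommGroup H] [NormedSpace ℂ H] {V X : Type}
    [NormedAddCommGroup V] [NormedSpace ℝ V] [TopologicalSpace X]
    {F : QFam Q E H} {C : RCh V X}

/-- holomorphic basic forms on the cones of the family -/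
structure QCF (F : QFam Q E H) where
  β : ∀ q0, CF (F.R q0)
  compat : ∀ q0, ∀ q ∈ (F.e q0).source, ∀ x u v, Vel (F.R q) (F.u q) x u →
    Vel (F.R q) (F.u q) x v → (β q0).sg (F.u q) x u v = (β q).sg (F.u q) x u v

namespace QCF

variable (b : QCF F)

/-- real forms -/
def part (π : ℂ →L[ℝ] ℝ) : QBF F where
  β q0 := (b.β q0).part π
  compat q0 q hq x u v hu hv := congrArg π (b.compat q0 q hq x u v hu hv)

/-- real part -/
def re : QBF F := b.part reCLM

/-- imaginary part -/
def im : QBF F := b.part imCLM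

/-- the complex value of the pull back along the transport of the marking `m` -/
def cw (m : Mark F C) (i : m.C'.ι) (c : E) (z v w : V) : ℂ := (b.β m.q).cw i m.pf c z v w

theorem re_at (m : Mark F C) {c : E} (hc : c ∈ Metric.ball (F.u m.q) (F.r m.q)) (i : m.C'.ι)
    (z v w : V) : (b.re.at' m hc).w i z v w = (b.cw m i c z v w).re :=
  (cw_re (σ := b.β m.q) (F := m.pf) (i := i) c z v w).symm

theorem im_at (m : Mark F C) {c : E} (hc : c ∈ Metric.ball (F.u m.q) (F.r m.q)) (i : m.C'.ι)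
    (z v w : V) : (b.im.at' m hc).w i z v w = (b.cw m i c z v w).im :=
  (cw_im (σ := b.β m.q) (F := m.pf) (i := i) c z v w).symm

/-- the lift -/
theorem lift_pf (m : Mark F C) {c : E} (hc : c ∈ Metric.ball (F.u m.q) (F.r m.q)) {i : m.C'.ι}
    {z : V} (hz : z ∈ (m.C'.e i).target) : Lift m.pf i c z (fun p => m.pf.u i p.1 p.2) := by
  have h1 : ∀ᶠ p : E × V in 𝓝 (c, z),
      p ∈ Metric.ball (F.u m.q) (F.r m.q) ×ˢ (m.C'.e i).target :=
    (Metric.isOpen_ball.prod (m.C'.e i).open_target).mem_nhds ⟨hc, hz⟩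
  filter_upwards [h1] with p hp
  refine ⟨fam_contDiffAt m.P (F.hM m.q) m.coneS hp.1 hp.2
    ((m.P.sm i).contDiffAt ((m.C'.e i).open_target.mem_nhds hp.2)),
    ⟨1, one_ne_zero, (one_smul ℂ _).symm⟩, ?_⟩
  exact fam_holo m.P (F.hM m.q) m.coneS hp.1 hp.2

theorem dz_pf (m : Mark F C) {c : E} (hc : c ∈ Metric.ball (F.u m.q) (F.r m.q)) {i : m.C'.ι}
    {z : V} (hz : z ∈ (m.C'.e i).target) (v : V) :
    dz (fun p : E × V => m.pf.u i p.1 p.2) (c, z) v = fderiv ℝ (m.pf.u i c) z v := by
  have h1 := hasFDerivAt_dz (lift_pf m hc hz).diff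
  have h2 : HasFDerivAt (m.pf.u i c) (dz (fun p : E × V => m.pf.u i p.1 p.2) (c, z)) z := h1
  rw [h2.fderiv]

theorem cw_apply (m : Mark F C) {c : E} (hc : c ∈ Metric.ball (F.u m.q) (F.r m.q)) {i : m.C'.ι}
    {z : V} (hz : z ∈ (m.C'.e i).target) (v w : V) :
    b.cw m i c z v w = (b.β m.q).sg c (m.pf.u i c z) (fderiv ℝ (m.pf.u i c) z v)
      (fderiv ℝ (m.pf.u i c) z w) := by
  have h := Phl_655.cw_apply (σ := b.β m.q) (F.cn m.q) (pf_in m) hc hz (lift_pf m hc hz) v w
  rw [dz_pf m hc hz, dz_pf m hc hz] at h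
  exact h

/-- **holomorphic in the parameter** -/
theorem hol (m : Mark F C) {i : m.C'.ι} {z : V} (hz : z ∈ (m.C'.e i).target) (v w : V) :
    DifferentiableOn ℂ (fun c => b.cw m i c z v w) (Metric.ball (F.u m.q) (F.r m.q)) :=
  fun _ hc => (CF.hol (σ := b.β m.q) (F.cn m.q) (pf_in m) hc hz v w).differentiableWithinAt

/-- **type (2,0)** -/
theorem typ (m : Mark F C) {c : E} (hc : c ∈ Metric.ball (F.u m.q) (F.r m.q)) {i : m.C'.ι}
    {z : V} (hz : z ∈ (m.C'.e i).target) {v v' w : V} {a : ℂ}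
    (hv : I • fderiv ℝ (m.pf.u i c) z v = fderiv ℝ (m.pf.u i c) z v' + a • m.pf.u i c z) :
    b.cw m i c z v' w = I * b.cw m i c z v w := by
  rw [← dz_pf m hc hz, ← dz_pf m hc hz] at hv
  exact CF.type (σ := b.β m.q) (F.cn m.q) (pf_in m) hc hz (lift_pf m hc hz) hv

end QCF

end gen

section qcf

variable {Q : Type uq} [TopologicalSpace Q] {E0 : Type} [NormedAddCommGroup E0]
  [NormedSpace ℂ E0] {n N : ℕ} {R : Type*} [CommRing R]

/-- the coefficients are analytic over the target of the chart -/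
theorem analyticAt_evL' {u : Q → E0} (hu : IsLocalHomeomorph u) {ev : Q → (R →+* ℂ)} {r : R}
    (han : AnE u fun q => ev q r) (q0 : Q) {c : E0} (hc : c ∈ (locE hu q0).target) :
    AnalyticAt ℂ (fun p => evL hu ev q0 p r) c := by
  obtain ⟨φ, h1, h2⟩ := han ((locE hu q0).symm c)
  rw [u_symm hu hc] at h1
  refine h1.congr ?_
  have ht : (locE hu q0).target ∈ 𝓝 c := (locE hu q0).open_target.mem_nhds hc
  have h4 : Tendsto (locE hu q0).symm (𝓝 c) (𝓝 ((locE hu q0).symm c)) :=
    (locE hu q0).continuousAt_symm hc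
  filter_upwards [ht, h4.eventually h2] with p hp hp2
  show φ p = evL hu ev q0 p r
  have h8 : ev ((locE hu q0).symm p) r = φ (u ((locE hu q0).symm p)) := hp2
  rw [evL, if_pos hp, h8, u_symm hu hp]

variable [FiniteDimensional ℂ E0] {u : Q → E0} (hu : IsLocalHomeomorph u) (c : Cert n N R)
  (ev : Q → (R →+* ℂ)) (han : ∀ r, AnE u fun q => ev q r) {D : FDat (Fin (N + 1)) R}
  (hX : D.Exact) (hI : ∀ q, (D.map (ev q)).Imp (MvPolynomial.map (ev q) '' c.E))

/-- the local polynomial forms -/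
def qjf (q0 : Q) : JForm ((qfam hu c ev han).R q0) (Fin (N + 1)) :=
  jf (ev := evL hu ev q0) (E := c.E) (fun _ hp => hp.1) D hX
    (fun _ _ hp r => analyticAt_evL' hu (han r) q0 hp.2)
    (fun p _ hp => by
      have h1 : evL hu ev q0 p = ev ((locE hu q0).symm p) := if_pos hp.2
      rw [h1]
      exact hI _)

theorem qjf_s (q0 : Q) (j : Fin (N + 1)) :
    (qjf hu c ev han hX hI q0).s j = sj (evL hu ev q0) D j := rfl

theorem sj_congr {ev₁ ev₂ : E0 → (R →+* ℂ)} {p : E0} (h : ev₁ p = ev₂ p) (j : Fin (N + 1))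
    (x : EuclideanSpace ℂ (Fin (N + 1))) : sj ev₁ D j (p, x) = sj ev₂ D j (p, x) := by
  unfold sj
  refine Finset.sum_congr rfl fun k _ => Finset.sum_congr rfl fun l _ => ?_
  have h1 : val ev₁ (D.s j k l) (p, x) = val ev₂ (D.s j k l) (p, x) := by
    unfold val
    rw [h]
  rw [h1]

/-- **the holomorphic form on the family** -/
def qcf : QCF (qfam hu c ev han) where
  β q0 := (qjf hu c ev han hX hI q0).cf ((qfam hu c ev han).cn q0)
  compat q0 q hq x v w _ _ := by
    have h1 : evL hu ev q0 (u q) = evL hu ev q (u q) := by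
      rw [evL_u hu ev q0 hq, evL_u hu ev q (mem_locE hu q)]
    show (qjf hu c ev han hX hI q0).val (u q) x v w = (qjf hu c ev han hX hI q).val (u q) x v w
    unfold JForm.val
    have h2 : ∀ j, (qjf hu c ev han hX hI q0).s j (u q, x) =
        (qjf hu c ev han hX hI q).s j (u q, x) := fun j => sj_congr h1 j x
    by_cases h : ∃ j : Fin (N + 1), (qjf hu c ev han hX hI q).X j x ≠ 0
    · have h' : ∃ j : Fin (N + 1), (qjf hu c ev han hX hI q0).X j x ≠ 0 := h
      rw [dif_pos h, dif_pos h', h2]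
      rfl
    · have h' : ¬ ∃ j : Fin (N + 1), (qjf hu c ev han hX hI q0).X j x ≠ 0 := h
      rw [dif_neg h, dif_neg h']

variable {V X : Type} [NormedAddCommGroup V] [NormedSpace ℝ V] [TopologicalSpace X]
  [FiniteDimensional ℝ V] {C : RCh V X}

/-- the member at the parameter `p` along the transport of a marking -/
def mem (m : Mark (qfam hu c ev han) C) {p : E0}
    (hp : p ∈ Metric.ball ((qfam hu c ev han).u m.q) ((qfam hu c ev han).r m.q)) :
    HEmb m.C' (EuclideanSpace ℂ (Fin (N + 1))) :=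
  famEmb m.P ((qfam hu c ev han).hM m.q) m.coneS hp

theorem mem_u (m : Mark (qfam hu c ev han) C) {p : E0}
    (hp : p ∈ Metric.ball ((qfam hu c ev han).u m.q) ((qfam hu c ev han).r m.q)) (i : m.C'.ι) :
    (mem hu c ev han m hp).u i = m.pf.u i p := rfl

theorem mem_cone (m : Mark (qfam hu c ev han) C) {p : E0}
    (hp : p ∈ Metric.ball ((qfam hu c ev han).u m.q) ((qfam hu c ev han).r m.q))
    (w : EuclideanSpace ℂ (Fin (N + 1))) :
    w ∈ (mem hu c ev han m hp).cone ↔ w ∈ c.cone (evL hu ev m.q p) :=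
  (famEmb_cone m.P ((qfam hu c ev han).hM m.q) m.coneS hp w).symm

/-- the members have complex tangent spaces -/
theorem mem_cx (hV : Module.finrank ℝ V = 2 * n) (m : Mark (qfam hu c ev han) C) {p : E0}
    (hp : p ∈ Metric.ball ((qfam hu c ev han).u m.q) ((qfam hu c ev han).r m.q)) :
    (mem hu c ev han m hp).Cx :=
  cx_of_cert c (evL hu ev m.q p) hV _ fun w hw => (mem_cone hu c ev han m hp w).mp hw

/-- the markings have complex tangent spaces -/
theorem mark_cx (hV : Module.finrank ℝ V = 2 * n) (m : Mark (qfam hu c ev han) C) : m.P.Cx :=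
  cx_of_cert c (ev m.q) hV m.P fun w hw => (m.cone w).mp hw

/-- value of the form on a member, in a coordinate `j` -/
theorem qcf_cw (m : Mark (qfam hu c ev han) C) {p : E0}
    (hp : p ∈ Metric.ball ((qfam hu c ev han).u m.q) ((qfam hu c ev han).r m.q)) {i : m.C'.ι}
    {z : V} (hz : z ∈ (m.C'.e i).target) {j : Fin (N + 1)} (hj : m.pf.u i p z j ≠ 0) (v w : V) :
    (qcf hu c ev han hX hI).cw m i p z v w * m.pf.u i p z j ^ D.m =
      (D.map (evL hu ev m.q p)).b j (fun k => m.pf.u i p z k)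
        (fun k => fderiv ℝ (m.pf.u i p) z v k) (fun k => fderiv ℝ (m.pf.u i p) z w k) := by
  have h0 := QCF.lift_pf m hp hz
  have hv : ∀ v, Vel ((qfam hu c ev han).R m.q) p (m.pf.u i p z) (fderiv ℝ (m.pf.u i p) z v) := by
    intro v
    have h1 := h0.vel ((qfam hu c ev han).cn m.q) (pf_in m) hp hz v
    rw [QCF.dz_pf m hp hz] at h1
    exact h1
  have hin : (p, m.pf.u i p z) ∈ (qfam hu c ev han).R m.q := pf_in m i p hp z hz
  have h2 : (qcf hu c ev han hX hI).cw m i p z v w = (qjf hu c ev han hX hI m.q).val p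
      (m.pf.u i p z) (fderiv ℝ (m.pf.u i p) z v) (fderiv ℝ (m.pf.u i p) z w) :=
    (qcf hu c ev han hX hI).cw_apply m hp hz v w
  have hj' : (qjf hu c ev han hX hI m.q).X j (m.pf.u i p z) ≠ 0 := hj
  rw [h2, JForm.val_eq _ hin hj' (hv v) (hv w)]
  have h3 : (qjf hu c ev han hX hI m.q).X j (m.pf.u i p z) = m.pf.u i p z j := rfl
  have h4 : (qjf hu c ev han hX hI m.q).m = D.m := rfl
  rw [h3, h4, div_mul_cancel₀ _ (pow_ne_zero _ hj)]
  exact sj_apply (ev := evL hu ev m.q) D j (p, m.pf.u i p z) _ _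

/-- **the form is nondegenerate on the members** -/
theorem qcf_nd (hV : Module.finrank ℝ V = 2 * n) (m : Mark (qfam hu c ev han) C) {p : E0}
    (hp : p ∈ Metric.ball ((qfam hu c ev han).u m.q) ((qfam hu c ev han).r m.q)) {i : m.C'.ι}
    {z : V} (hz : z ∈ (m.C'.e i).target) {v : V}
    (h0 : ∀ w, (qcf hu c ev han hX hI).cw m i p z v w = 0) : v = 0 := by
  obtain ⟨j, hj⟩ : ∃ j, m.pf.u i p z j ≠ 0 := by
    by_contra hcon
    push Not at hcon
    refine (mem hu c ev han m hp).ne i z hz ?_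
    ext j
    exact hcon j
  have hI' : (D.map (evL hu ev m.q p)).Imp (MvPolynomial.map (evL hu ev m.q p) '' c.E) := by
    have h1 : evL hu ev m.q p = ev ((locE hu m.q).symm p) :=
      if_pos ((qfam hu c ev han).ball_target m.q hp)
    rw [h1]
    exact hI _
  refine nd_of_imp c (evL hu ev m.q p) hV hX hI' (mem hu c ev han m hp)
    (fun w hw => (mem_cone hu c ev han m hp w).mp hw) hz (j := j) hj fun w => ?_
  have h2 := qcf_cw hu c ev han hX hI m hp hz hj v w
  rw [h0 w, zero_mul] at h2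
  exact h2.symm

/-- **type (2,0), nondegenerate** : for every `v` there is `v'` (`= i v`) with
`σ(v', w) = i σ(v, w)` -/
theorem qcf_typ (hV : Module.finrank ℝ V = 2 * n) (m : Mark (qfam hu c ev han) C) {p : E0}
    (hp : p ∈ Metric.ball ((qfam hu c ev han).u m.q) ((qfam hu c ev han).r m.q)) {i : m.C'.ι}
    {z : V} (hz : z ∈ (m.C'.e i).target) (v : V) :
    ∃ (v' : V) (a : ℂ), I • fderiv ℝ (m.pf.u i p) z v =
        fderiv ℝ (m.pf.u i p) z v' + a • m.pf.u i p z ∧
      ∀ w, (qcf hu c ev han hX hI).cw m i p z v' w =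
        I * (qcf hu c ev han hX hI).cw m i p z v w := by
  obtain ⟨v', a, h⟩ := mem_cx hu c ev han hV m hp i z hz v
  exact ⟨v', a, h, fun w => QCF.typ _ m hp hz h⟩

end qcf

end

end Crest.Agent.R281.Ehr11_268
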