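import Crest.Agent.R281.Ehr11_268
import Crest.Agent.R281.QF5_871
import Crest.Agent.R281.Pe6_313
import Crest.Agent.R281.Blk5_592
import Crest.Agent.R281.GTi2_989

/-!
# R281 (S0424), PER-HOL / G28 (helper268), part 12: the algebraic symplectic form of a marking

* `PolF F n R`   : polynomial 2-form (867's `FDat`) on the cones of a `QFam`, identities required
                   pointwise; covers 871's `qfam`, `qfamP`, `qfamPM`, `qfamC`
* `PolF.qcf`     : the `QCF` (holomorphic forms on the markings)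
* `PolF.cw_eq`   : `cw * u_j^m = b_j(u; Du v, Du w)` at every parameter, every `j`
* `PolF.cx`, `PolF.typ`, `PolF.nd` : type and nondegeneracy at a marking (313's `Typ`, `Nd`)
* `PolF.hsymp`   : the holomorphic symplectic form of a marking on an atlas `A`, `HolA m.P b A`;
                   `hsymp_w`, `hsymp_re`, `hsymp_im`
* `PolF.formC`   : 989's `FormC` for all sections `U` lifting the embedding
* `polP`, `polC` : the instances over 871's families
-/

set_option autoImplicit false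
set_option linter.unusedSectionVars false
set_option synthInstance.maxHeartbeats 200000
set_option maxSynthPendingDepth 3

open Set Filter Topology Complex
open scoped ContDiff Matrix

namespace Crest.Agent.R281.Ehr12_268

open Crest.Agent.R275 Crest.Agent.R275.Geo Crest.Agent.R275.Core144 Crest.Agent.R275.GC293
open Crest.Agent.R273.SteinC_794 Crest.Agent.R273.SerA_945 Crest.Agent.R273.Defs_333
open Crest.Agent.R273.Fam_835 Crest.Agent.R281.Defs_273
open Crest.Agent.R281.HkR_835 Crest.Agent.R281.Ehr2_268 Crest.Agent.R281.Dif_268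
open Crest.Agent.R281.Ehr4_268 Crest.Agent.R281.Ehr6_268 Crest.Agent.R281.Ehr8_268
open Crest.Agent.R281.Phl_655 Crest.Agent.R281.AF_867 Crest.Agent.R281.KrB4_871
open Crest.Agent.R281.Kr_488 Crest.Agent.R281.KrB1_871
open Crest.Agent.R281.QF_871 Crest.Agent.R281.Ehr9_268 Crest.Agent.R281.Ehr10_268
open Crest.Agent.R281.Ehr11_268 Crest.Agent.R281.Pe_313

noncomputable section

universe uq

/-! ### pointwise polynomial forms -/

section pt

variable {P : Type} [NormedAddCommGroup P] [NormedSpace ℂ P] {N n : ℕ} {R : Type*} [CommRing R]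
  {ev : P → (R →+* ℂ)}

/-- the `JForm` of polynomial data, identities at every point -/
def jfP {E : Set (MvPolynomial (Fin (N + 1)) R)} {S : Set (P × EuclideanSpace ℂ (Fin (N + 1)))}
    (hS : S ⊆ KC ev E) (D : FDat (Fin (N + 1)) R) (hm : 3 ≤ D.m)
    (hX : ∀ c x, (c, x) ∈ S → (D.map (ev c)).Exact)
    (han : ∀ c x, (c, x) ∈ S → ∀ r, AnalyticAt ℂ (fun p => ev p r) c)
    (hI : ∀ c x, (c, x) ∈ S → (D.map (ev c)).Imp (MvPolynomial.map (ev c) '' E)) :
    JForm S (Fin (N + 1)) where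
  m := D.m
  hm := le_trans (by norm_num) hm
  X j := EuclideanSpace.proj j
  s := sj ev D
  cover c x hx := by
    by_contra hcon
    push Not at hcon
    refine (hS hx).1 ?_
    ext j
    exact hcon j
  hol j c x hx := by
    filter_upwards [(analyticAt_sj (han c x hx) D j x).eventually_analyticAt] with p hp
    exact hp.contDiffAt
  alt j p hp u v := by
    rw [sj_apply, sj_apply]
    exact FDat.b_alt j _ (hX p.1 p.2 hp) _ _
  hom j c x hx a _ u v := by
    rw [sj_apply, sj_apply]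
    exact b_scale (hX c x hx) j a _ _ _
  eul j c x hx v := by
    rw [sj_apply]
    exact FDat.b_self_left j _ (hX c x hx) _
  agr i j c x hx u v hu hv := by
    rw [sj_apply, sj_apply]
    refine (hI c x hx).agr (fun i => x i) _ _ ?_ (tanE_of_vel hS hu) (tanE_of_vel hS hv) i j
    rintro _ ⟨p, hp, rfl⟩
    exact (hS hx).2 p hp
  clo j c x hx _ u v w hu hv hw := by
    rw [fderiv_sj (han c x hx), fderiv_sj (han c x hx), fderiv_sj (han c x hx), sj_apply, sj_apply,
      sj_apply]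
    refine (hI c x hx).clo (fun i => x i) _ _ _ ?_ (tanE_of_vel hS hu) (tanE_of_vel hS hv)
      (tanE_of_vel hS hw) j
    rintro _ ⟨p, hp, rfl⟩
    exact (hS hx).2 p hp

theorem TS_map (φ : R →+* ℂ) (E : Set (MvPolynomial (Fin (N + 1)) R)) (x : Fin (N + 1) → ℂ) :
    TS (RingHom.id ℂ) (MvPolynomial.map φ '' E) x = TS φ E x := by
  ext t
  rw [mem_TS, mem_TS]
  have h : MvPolynomial.map (RingHom.id ℂ) '' (MvPolynomial.map φ '' E) =
      MvPolynomial.map φ '' E := by
    rw [Set.image_image]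
    exact Set.image_congr fun q _ => MvPolynomial.map_id (MvPolynomial.map φ q)
  rw [h]

theorem finrank_TS_pt {φ : R →+* ℂ} {E : Set (MvPolynomial (Fin (N + 1)) R)} {κ : KDat n N R}
    (h : (mapK κ φ).Good (MvPolynomial.map φ '' E)) {x : Fin (N + 1) → ℂ}
    (hd : MvPolynomial.eval x (MvPolynomial.map φ κ.dG) ≠ 0) :
    Module.finrank ℂ (TS φ E x) ≤ n + 1 := by
  rw [← TS_map]
  refine finrank_TS_of_good h ?_
  rw [MvPolynomial.map_id, dG_map]
  exact hd

theorem self_mem_TS_pt {φ : R →+* ℂ} {E : Set (MvPolynomial (Fin (N + 1)) R)}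
    (hom : ∀ F ∈ E, ∃ m, (MvPolynomial.map φ F).IsHomogeneous m)
    {x : EuclideanSpace ℂ (Fin (N + 1))}
    (hx : ∀ F ∈ E, MvPolynomial.eval (fun i => x i) (MvPolynomial.map φ F) = 0) :
    x ∈ TS φ E (fun i => x i) := by
  rintro _ ⟨F, hF, rfl⟩
  obtain ⟨m, hm⟩ := hom F hF
  rw [dE_self hm, hx F hF, mul_zero]

end pt

/-! ### polynomial forms on a family -/

variable {Q : Type uq} [TopologicalSpace Q] {E0 : Type} [NormedAddCommGroup E0]
  [NormedSpace ℂ E0] {n N : ℕ} {R : Type*} [CommRing R]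

/-- polynomial 2-form on the cones of a family -/
structure PolF (F : QFam Q E0 (EuclideanSpace ℂ (Fin (N + 1)))) (n : ℕ) (R : Type*)
    [CommRing R] where
  E : Set (MvPolynomial (Fin (N + 1)) R)
  D : FDat (Fin (N + 1)) R
  ev : Q → (R →+* ℂ)
  evl : Q → E0 → (R →+* ℂ)
  exact : ∀ q, (D.map (ev q)).Exact
  sub : ∀ q0, F.R q0 ⊆ KC (evl q0) E
  an : ∀ q0, ∀ c ∈ (F.e q0).target, ∀ r, AnalyticAt ℂ (fun p => evl q0 p r) c
  eq : ∀ q0, ∀ q ∈ (F.e q0).source, evl q0 (F.u q) = ev q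
  imp : ∀ q, (D.map (ev q)).Imp (MvPolynomial.map (ev q) '' E)
  hom : ∀ q, ∀ G ∈ E, ∃ m, (MvPolynomial.map (ev q) G).IsHomogeneous m
  dim : ∀ q, ∀ w ∈ F.S q, Module.finrank ℂ (TS (ev q) E fun i => w i) ≤ n + 1

namespace PolF

variable {F : QFam Q E0 (EuclideanSpace ℂ (Fin (N + 1)))} (p : PolF F n R)

theorem eq' {q0 : Q} {c : E0} (hc : c ∈ (F.e q0).target) :
    p.evl q0 c = p.ev ((F.e q0).symm c) := by
  have h1 : (F.e q0).symm c ∈ (F.e q0).source := (F.e q0).map_target hc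
  rw [← p.eq q0 _ h1, ← F.coe q0 _ h1, (F.e q0).right_inv hc]

theorem two (q : Q) : 3 ≤ p.D.m := (p.exact q).two

theorem exact_l {q0 : Q} {c : E0} (hc : c ∈ (F.e q0).target) : (p.D.map (p.evl q0 c)).Exact := by
  rw [p.eq' hc]
  exact p.exact _

theorem imp_l {q0 : Q} {c : E0} (hc : c ∈ (F.e q0).target) :
    (p.D.map (p.evl q0 c)).Imp (MvPolynomial.map (p.evl q0 c) '' p.E) := by
  rw [p.eq' hc]
  exact p.imp _

/-- the local polynomial forms -/
def jf (q0 : Q) : JForm (F.R q0) (Fin (N + 1)) :=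
  jfP (ev := p.evl q0) (E := p.E) (p.sub q0) p.D (p.two q0) (fun _ _ h => p.exact_l h.2)
    (fun _ _ h r => p.an q0 _ h.2 r) (fun _ _ h => p.imp_l h.2)

theorem jf_s (q0 : Q) (j : Fin (N + 1)) : (p.jf q0).s j = sj (p.evl q0) p.D j := rfl

theorem sj_congr' {D : FDat (Fin (N + 1)) R} {ev₁ ev₂ : E0 → (R →+* ℂ)} {c : E0}
    (h : ev₁ c = ev₂ c) (j : Fin (N + 1)) (x : EuclideanSpace ℂ (Fin (N + 1))) :
    sj ev₁ D j (c, x) = sj ev₂ D j (c, x) := by
  unfold sj
  refine Finset.sum_congr rfl fun k _ => Finset.sum_congr rfl fun l _ => ?_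
  have h1 : KrB4_871.val ev₁ (D.s j k l) (c, x) = KrB4_871.val ev₂ (D.s j k l) (c, x) := by
    unfold KrB4_871.val
    rw [h]
  rw [h1]

/-- **the holomorphic form on the family** -/
def qcf : QCF F where
  β q0 := (p.jf q0).cf (F.cn q0)
  compat q0 q hq x v w _ _ := by
    have h1 : p.evl q0 (F.u q) = p.evl q (F.u q) := by
      rw [p.eq q0 q hq, p.eq q q (F.mem q)]
    show (p.jf q0).val (F.u q) x v w = (p.jf q).val (F.u q) x v w
    unfold JForm.val
    have h2 : ∀ j, (p.jf q0).s j (F.u q, x) = (p.jf q).s j (F.u q, x) :=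
      fun j => sj_congr' h1 j x
    by_cases h : ∃ j : Fin (N + 1), (p.jf q0).X j x ≠ 0
    · have h' : ∃ j : Fin (N + 1), (p.jf q).X j x ≠ 0 := h
      rw [dif_pos h, dif_pos h', h2]
      rfl
    · have h' : ¬ ∃ j : Fin (N + 1), (p.jf q).X j x ≠ 0 := h
      rw [dif_neg h, dif_neg h']

variable {V X : Type} [NormedAddCommGroup V] [NormedSpace ℝ V] [TopologicalSpace X]
  {C : RCh V X}

/-- **the value of the form** along the transport of a marking -/
theorem cw_eq (m : Mark F C) {c : E0} (hc : c ∈ Metric.ball (F.u m.q) (F.r m.q)) {i : m.C'.ι}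
    {z : V} (hz : z ∈ (m.C'.e i).target) (j : Fin (N + 1)) (v w : V) :
    p.qcf.cw m i c z v w * m.pf.u i c z j ^ p.D.m =
      (p.D.map (p.evl m.q c)).b j (fun k => m.pf.u i c z k)
        (fun k => fderiv ℝ (m.pf.u i c) z v k) (fun k => fderiv ℝ (m.pf.u i c) z w k) := by
  have h0 := QCF.lift_pf m hc hz
  have hv : ∀ v, Vel (F.R m.q) c (m.pf.u i c z) (fderiv ℝ (m.pf.u i c) z v) := by
    intro v
    have h1 := h0.vel (F.cn m.q) (pf_in m) hc hz v
    rw [QCF.dz_pf m hc hz] at h1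
    exact h1
  have hin : (c, m.pf.u i c z) ∈ F.R m.q := pf_in m i c hc z hz
  have h2 : p.qcf.cw m i c z v w = (p.jf m.q).val c
      (m.pf.u i c z) (fderiv ℝ (m.pf.u i c) z v) (fderiv ℝ (m.pf.u i c) z w) :=
    p.qcf.cw_apply m hc hz v w
  obtain ⟨j0, hj0⟩ := (p.jf m.q).cover c _ hin
  have key : ∀ j, (p.jf m.q).s j (c, m.pf.u i c z) (fderiv ℝ (m.pf.u i c) z v)
      (fderiv ℝ (m.pf.u i c) z w) = (p.D.map (p.evl m.q c)).b j (fun k => m.pf.u i c z k)
        (fun k => fderiv ℝ (m.pf.u i c) z v k) (fun k => fderiv ℝ (m.pf.u i c) z w k) :=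
    fun j => sj_apply (ev := p.evl m.q) p.D j (c, m.pf.u i c z) _ _
  have h3 := (p.jf m.q).agr j0 j c _ hin _ _ (hv v) (hv w)
  rw [key, key] at h3
  rw [h2, JForm.val_eq _ hin hj0 (hv v) (hv w), key]
  have hx : ∀ j, (p.jf m.q).X j (m.pf.u i c z) = m.pf.u i c z j := fun _ => rfl
  have hm : (p.jf m.q).m = p.D.m := rfl
  rw [hx] at hj0
  rw [hx, hx, hm] at h3
  rw [hx, hm]
  have h4 : m.pf.u i c z j0 ^ p.D.m ≠ 0 := pow_ne_zero _ hj0
  field_simp
  linear_combination -h3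

/-- the derivative at the base point -/
theorem fderiv_pf (m : Mark F C) {i : m.C'.ι} {z : V} (hz : z ∈ (m.C'.e i).target) :
    fderiv ℝ (m.pf.u i (F.u m.q)) z = fderiv ℝ (m.P.u i) z := by
  refine Filter.EventuallyEq.fderiv_eq ?_
  filter_upwards [(m.C'.e i).open_target.mem_nhds hz] with y hy
  exact pf_id m hy

/-- the complex value at the marking -/
def val (m : Mark F C) (i : m.C'.ι) (z v w : V) : ℂ := p.qcf.cw m i (F.u m.q) z v w

theorem mem_ball (m : Mark F C) : F.u m.q ∈ Metric.ball (F.u m.q) (F.r m.q) :=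
  F.ball_of_mem (F.U_mem m.q)

theorem val_re (m : Mark F C) (i : m.C'.ι) (z v w : V) :
    (p.qcf.re.form' m).w i z v w = (p.val m i z v w).re := p.qcf.re_at m (mem_ball m) i z v w

theorem val_im (m : Mark F C) (i : m.C'.ι) (z v w : V) :
    (p.qcf.im.form' m).w i z v w = (p.val m i z v w).im := p.qcf.im_at m (mem_ball m) i z v w

/-- **the value at the marking** -/
theorem val_eq (m : Mark F C) {i : m.C'.ι} {z : V} (hz : z ∈ (m.C'.e i).target)
    (j : Fin (N + 1)) (v w : V) :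
    p.val m i z v w * m.P.u i z j ^ p.D.m = (p.D.map (p.ev m.q)).b j (fun k => m.P.u i z k)
      (fun k => fderiv ℝ (m.P.u i) z v k) (fun k => fderiv ℝ (m.P.u i) z w k) := by
  have h := p.cw_eq m (mem_ball m) hz j v w
  rw [pf_id m hz, fderiv_pf m hz, p.eq m.q m.q (F.mem m.q)] at h
  exact h

variable [FiniteDimensional ℝ V]

/-- the equations on the embedded manifold -/
theorem eqs (m : Mark F C) {w : EuclideanSpace ℂ (Fin (N + 1))} (hw : w ∈ m.P.cone) :
    w ≠ 0 ∧ ∀ G ∈ p.E, MvPolynomial.eval (fun i => w i) (MvPolynomial.map (p.ev m.q) G) = 0 := by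
  have h1 : (F.u m.q, w) ∈ F.R m.q := (F.R_iff (F.mem m.q) w).mpr ((m.cone w).mp hw)
  have h2 := p.sub m.q h1
  refine ⟨h2.1, fun G hG => ?_⟩
  have h3 := h2.2 G hG
  rw [← p.eq m.q m.q (F.mem m.q)]
  exact h3

theorem fderiv_mem (m : Mark F C) {i : m.C'.ι} {z : V} (hz : z ∈ (m.C'.e i).target) (v : V) :
    fderiv ℝ (m.P.u i) z v ∈ TS (p.ev m.q) p.E (fun k => m.P.u i z k) :=
  tanE_of_vel (ev := fun _ : ℂ => p.ev m.q) (S := KC (fun _ : ℂ => p.ev m.q) p.E) (fun _ h => h)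
    (vel_member m.P hz v fun _ hw => p.eqs m hw)

/-- the tangent space is `image Du + ℂ u` -/
theorem span (hV : Module.finrank ℝ V = 2 * n) (m : Mark F C) {i : m.C'.ι} {z : V}
    (hz : z ∈ (m.C'.e i).target) {t : EuclideanSpace ℂ (Fin (N + 1))}
    (ht : t ∈ TS (p.ev m.q) p.E (fun k => m.P.u i z k)) :
    ∃ (v : V) (a : ℂ), t = fderiv ℝ (m.P.u i) z v + a • m.P.u i z :=
  span_of_dim _ (p.dim m.q _ ((m.cone _).mp (m.P.mem_cone hz))) hV (fderiv ℝ (m.P.u i) z)
    (m.P.ne i z hz) (fun v => p.fderiv_mem m hz v)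
    (self_mem_TS_pt (p.hom m.q) (p.eqs m (m.P.mem_cone hz)).2)
    (fun v hv => m.P.imm i z hz v hv) ht

include p in
/-- **the tangent spaces are complex** -/
theorem cx (hV : Module.finrank ℝ V = 2 * n) (m : Mark F C) : m.P.Cx := fun _ _ hz v =>
  p.span hV m hz ((TS (p.ev m.q) p.E _).smul_mem I (p.fderiv_mem m hz v))

/-- **type (2,0)** -/
theorem typ_val (m : Mark F C) {i : m.C'.ι} {z : V} (hz : z ∈ (m.C'.e i).target) {v v' : V}
    (hv : IRel m.P i z v v') (w : V) : p.val m i z v' w = I * p.val m i z v w := by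
  obtain ⟨a, h⟩ := hv
  refine QCF.typ p.qcf m (mem_ball m) hz (a := a) ?_
  rw [fderiv_pf m hz, pf_id m hz]
  exact h

/-- **nondegeneracy** -/
theorem nd_val (hV : Module.finrank ℝ V = 2 * n) (m : Mark F C) {i : m.C'.ι} {z : V}
    (hz : z ∈ (m.C'.e i).target) {v : V} (h0 : ∀ w, p.val m i z v w = 0) : v = 0 := by
  obtain ⟨j, hj⟩ : ∃ j, m.P.u i z j ≠ 0 := by
    by_contra hcon
    push Not at hcon
    refine m.P.ne i z hz ?_
    ext j
    exact hcon j
  have hb : ∀ w, (p.D.map (p.ev m.q)).b j (fun k => m.P.u i z k)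
      (fun k => fderiv ℝ (m.P.u i) z v k) (fun k => fderiv ℝ (m.P.u i) z w k) = 0 := by
    intro w
    rw [← p.val_eq m hz j v w, h0 w, zero_mul]
  have hon : OnE (MvPolynomial.map (p.ev m.q) '' p.E) (fun k => m.P.u i z k) := by
    rintro _ ⟨G, hG, rfl⟩
    exact (p.eqs m (m.P.mem_cone hz)).2 G hG
  obtain ⟨a, ha⟩ := (p.imp m.q).nd (fun k => m.P.u i z k) (fun k => fderiv ℝ (m.P.u i) z v k) j
    hon (p.fderiv_mem m hz v) (fun t ht => by
      obtain ⟨w, b, hw⟩ := p.span hV m hz (t := WithLp.toLp 2 t) ht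
      have h1 : t = (fun k => fderiv ℝ (m.P.u i) z w k) + b • fun k => m.P.u i z k := by
        funext k
        exact congrArg (fun s : EuclideanSpace ℂ (Fin (N + 1)) => s k) hw
      rw [h1, FDat.b_add_right, FDat.b_smul_right, FDat.b_self_right j _ (p.exact m.q), hb w,
        mul_zero, add_zero]) hj
  refine m.P.imm i z hz v ⟨a, ?_⟩
  ext k
  exact congrFun ha k

/-- 313's `Typ` -/
theorem typ (m : Mark F C) : Typ m.P (p.qcf.re.form' m) (p.qcf.im.form' m) := by
  intro i z hz v v' u hv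
  rw [val_re, val_im, p.typ_val m hz hv]
  simp

/-- 313's `Nd` -/
theorem nd (hV : Module.finrank ℝ V = 2 * n) (m : Mark F C) : Nd (p.qcf.re.form' m) := by
  intro i z hz v h0
  have hT := p.typ m
  have alt1 : ∀ u v, (p.qcf.re.form' m).w i z u v = -(p.qcf.re.form' m).w i z v u :=
    fun u v => (p.qcf.re.form' m).alt i z hz u v
  have alt2 : ∀ u v, (p.qcf.im.form' m).w i z u v = -(p.qcf.im.form' m).w i z v u :=
    fun u v => (p.qcf.im.form' m).alt i z hz u v
  refine p.nd_val hV m hz fun u => ?_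
  obtain ⟨u', hu'⟩ := exists_iRel (p.cx hV m) hz u
  have h1 := hT i z hz u u' v hu'
  have h2 : (p.qcf.im.form' m).w i z v u = 0 := by
    rw [alt2, ← h1, alt1, h0, neg_zero]
  apply Complex.ext
  · rw [← val_re, h0]
    rfl
  · rw [← val_im, h2]
    rfl

/-! ### the symplectic form on a holomorphic atlas -/

variable {A : Atl n X} {K : ℕ} {m : Mark F C}
  {b : EuclideanSpace ℂ (Fin (N + 1)) ≃L[ℂ] (Fin (K + 1) → ℂ)}

/-- **the algebraic symplectic form of a marking** -/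
def hsymp (hV : Module.finrank ℝ V = 2 * n) (hA : HolA m.P b A) : HSymp A :=
  hA.hsymp (p.typ m) (p.nd hV m)

/-- the value -/
theorem hsymp_w (hV : Module.finrank ℝ V = 2 * n) (hA : HolA m.P b A) {a : A.ι} {z : Cn n}
    (hz : z ∈ (A.e a).target) (u v : Cn n) :
    ((hA.cmp.F (p.qcf.re.form' m)).w a z u v : ℂ) +
      I * ((hA.cmp.F (p.qcf.im.form' m)).w a z u v : ℂ) =
      sb ((p.hsymp hV hA).s a ((A.e a).symm z)) u v := hA.hsymp_w (p.typ m) (p.nd hV m) hz u v

/-- real part -/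
theorem hsymp_re (hV : Module.finrank ℝ V = 2 * n) (hA : HolA m.P b A) {a : A.ι} {z : Cn n}
    (hz : z ∈ (A.e a).target) (u v : Cn n) :
    (hA.cmp.F (p.qcf.re.form' m)).w a z u v =
      (sb ((p.hsymp hV hA).s a ((A.e a).symm z)) u v).re := by
  rw [← p.hsymp_w hV hA hz]
  simp

/-- imaginary part -/
theorem hsymp_im (hV : Module.finrank ℝ V = 2 * n) (hA : HolA m.P b A) {a : A.ι} {z : Cn n}
    (hz : z ∈ (A.e a).target) (u v : Cn n) :
    (hA.cmp.F (p.qcf.im.form' m)).w a z u v =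
      (sb ((p.hsymp hV hA).s a ((A.e a).symm z)) u v).im := by
  rw [← p.hsymp_w hV hA hz]
  simp

/-- the value, in the real chart `i` -/
theorem hsymp_val (hV : Module.finrank ℝ V = 2 * n) (hA : HolA m.P b A) {a : A.ι} {i : m.C'.ι}
    {z : Cn n} (hz : z ∈ mov m.C' (ofAtl A) i a) (u v : Cn n) :
    sb ((p.hsymp hV hA).s a ((A.e a).symm z)) u v =
      p.val m i (mt m.C' (ofAtl A) i a z) (fderiv ℝ (mt m.C' (ofAtl A) i a) z u)
        (fderiv ℝ (mt m.C' (ofAtl A) i a) z v) := by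
  rw [← p.hsymp_w hV hA hz.1, Cmp.F_w hA.cmp _ hz, Cmp.F_w hA.cmp _ hz, val_re, val_im, mul_comm]
  exact Complex.re_add_im _

end PolF

/-! ### sections lifting an embedding -/

section lift

variable {V X : Type} [NormedAddCommGroup V] [NormedSpace ℝ V] [TopologicalSpace X]
  {C' : RCh V X} {A : Atl n X} {P : HEmb C' (EuclideanSpace ℂ (Fin (N + 1)))}
  {U : Fin (N + 1) → Fn A}

/-- `U` are homogeneous coordinates of the embedding `P` in the charts of `A` -/
structure LiftU (P : HEmb C' (EuclideanSpace ℂ (Fin (N + 1)))) (A : Atl n X)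
    (U : Fin (N + 1) → Fn A) : Prop where
  hol : ∀ k a, HolAt A a univ (U k a)
  eq : ∀ a i, ∀ x ∈ (A.e a).source, x ∈ (C'.e i).source → ∃ c : ℂ, c ≠ 0 ∧
    ∀ k, U k a x = c * P.u i (C'.e i x) k

/-- the map to the projective space -/
def LiftU.mapD (h : LiftU P A U) : Blk_592.MapD A (Fin (N + 1)) where
  F a x k := U k a x
  hol a k := h.hol k a
  ne a x hx h0 := by
    obtain ⟨i, hi⟩ := C'.cover x
    obtain ⟨c, hc, h1⟩ := h.eq a i x hx hi
    refine P.ne i _ ((C'.e i).map_source hi) ?_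
    ext k
    have h2 : U k a x = 0 := congrFun h0 k
    rw [h1 k] at h2
    exact (mul_eq_zero.1 h2).resolve_left hc
  tr a a' x hx := by
    obtain ⟨i, hi⟩ := C'.cover x
    obtain ⟨c, hc, h1⟩ := h.eq a i x hx.1 hi
    obtain ⟨c', hc', h2⟩ := h.eq a' i x hx.2 hi
    refine ⟨c * c'⁻¹, funext fun k => ?_⟩
    show U k a x = c * c'⁻¹ * U k a' x
    rw [h1, h2, mul_assoc, inv_mul_cancel_left₀ hc']

theorem LiftU.lk (h : LiftU P A U) (hcmp : Cmp C' (ofAtl A)) :
    Blk_592.Lk h.mapD (fun i z => (fun k => P.u i z k : Fin (N + 1) → ℂ)) where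
  cmp := hcmp
  sm i := contDiffOn_pi.2 fun k => by
    have h1 : ContDiff ℝ ∞ (fun w : EuclideanSpace ℂ (Fin (N + 1)) => w k) :=
      ((EuclideanSpace.proj k : EuclideanSpace ℂ (Fin (N + 1)) →L[ℂ] ℂ).restrictScalars
        ℝ).contDiff
    exact h1.comp_contDiffOn (P.sm i)
  eq a i x hx hi := by
    obtain ⟨c, hc, h1⟩ := h.eq a i x hx hi
    exact ⟨c, hc, funext fun k => h1 k⟩

/-- the derivatives of the sections -/
theorem LiftU.deriv (h : LiftU P A U) (hcmp : Cmp C' (ofAtl A)) {i : C'.ι} {a : A.ι} {z : Cn n}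
    (hz : z ∈ mov C' (ofAtl A) i a) : ∃ (c : ℂ) (b : Cn n → ℂ), c ≠ 0 ∧
      (∀ k, U k a ((A.e a).symm z) = c * P.u i (mt C' (ofAtl A) i a z) k) ∧
      ∀ ξ k, df A a (U k a) ((A.e a).symm z) ξ =
        c * fderiv ℝ (P.u i) (mt C' (ofAtl A) i a z) (fderiv ℝ (mt C' (ofAtl A) i a) z ξ) k +
          b ξ * P.u i (mt C' (ofAtl A) i a z) k := by
  have hy : mt C' (ofAtl A) i a z ∈ (C'.e i).target := (Cmp.mt_mem hz).1
  obtain ⟨c, b, hc, h1, h2⟩ := Blk_592.LkAt.deriv hcmp hz ((h.lk hcmp).at hy)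
  refine ⟨c, b, hc, fun k => congrFun h1 k, fun ξ k => ?_⟩
  have h3 := congrFun (h2 ξ) k
  have hza : z ∈ (A.e a).target := hz.1
  have hd : DifferentiableAt ℂ (fun w => h.mapD.F a ((A.e a).symm w)) z :=
    differentiableAt_pi.2 fun k =>
      (h.mapD.diffOn a k).differentiableAt ((A.e a).open_target.mem_nhds hza)
  have h4 : df A a (U k a) ((A.e a).symm z) ξ =
      fderiv ℝ (fun w => h.mapD.F a ((A.e a).symm w)) z ξ k := by
    rw [hd.fderiv_restrictScalars ℝ]
    have h5 : HasFDerivAt (fun w => h.mapD.F a ((A.e a).symm w) k)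
        ((ContinuousLinearMap.proj k).comp
          (fderiv ℂ (fun w => h.mapD.F a ((A.e a).symm w)) z)) z :=
      (hasFDerivAt_pi'.1 hd.hasFDerivAt) k
    unfold df
    rw [(A.e a).right_inv hza]
    have h6 : (fun w => U k a ((A.e a).symm w)) = fun w => h.mapD.F a ((A.e a).symm w) k := rfl
    rw [h6, h5.fderiv]
    rfl
  have h5 : HasFDerivAt (fun z => (fun k => P.u i z k : Fin (N + 1) → ℂ))
      (((EuclideanSpace.equiv (Fin (N + 1)) ℂ : EuclideanSpace ℂ (Fin (N + 1)) →L[ℂ]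
        (Fin (N + 1) → ℂ)).restrictScalars ℝ).comp (fderiv ℝ (P.u i)
          (mt C' (ofAtl A) i a z))) (mt C' (ofAtl A) i a z) := by
    have h6 : HasFDerivAt (P.u i) (fderiv ℝ (P.u i) (mt C' (ofAtl A) i a z))
        (mt C' (ofAtl A) i a z) :=
      (((P.sm i).contDiffAt ((C'.e i).open_target.mem_nhds hy)).differentiableAt
        (by simp)).hasFDerivAt
    exact HasFDerivAt.comp (g := fun w : EuclideanSpace ℂ (Fin (N + 1)) =>
      EuclideanSpace.equiv (Fin (N + 1)) ℂ w) (f := P.u i) _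
      ((EuclideanSpace.equiv (Fin (N + 1)) ℂ : EuclideanSpace ℂ (Fin (N + 1)) →L[ℂ]
        (Fin (N + 1) → ℂ)).restrictScalars ℝ).hasFDerivAt h6
  rw [h4, h3, h5.fderiv]
  rfl

/-- the matrix of the pull back of a polynomial form -/
theorem mat_eq (D : FDat (Fin (N + 1)) ℂ) (U : Fin (N + 1) → Fn A) (a : A.ι) (x : X)
    (j : Fin (N + 1)) (α β : Fin n) :
    ((DF U a x)ᵀ * evM U (D.s j) a x * DF U a x) α β =
      D.b j (fun k => U k a x) (fun k => DF U a x k α) (fun k => DF U a x k β) := by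
  rw [Matrix.mul_apply]
  unfold FDat.b
  rw [Finset.sum_comm]
  refine Finset.sum_congr rfl fun l _ => ?_
  rw [Matrix.mul_apply, Finset.sum_mul]
  refine Finset.sum_congr rfl fun k _ => ?_
  rw [Matrix.transpose_apply, evM_apply]
  ring

theorem sb_single (s : Matrix (Fin n) (Fin n) ℂ) (α β : Fin n) :
    sb s (EuclideanSpace.single α 1) (EuclideanSpace.single β 1) = s α β := by
  unfold sb
  rw [Finset.sum_eq_single α, Finset.sum_eq_single β]
  · simp
  · intro b _ hb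
    simp [hb]
  · simp
  · intro b _ hb
    simp [hb]
  · simp

/-- uniqueness of the form -/
theorem formC_uniq {D : FDat (Fin (N + 1)) ℂ} {U : Fin (N + 1) → Fn A} {σ σ' : H2 A}
    (h : GTi_989.FormC D U σ) (h' : GTi_989.FormC D U σ')
    (hnz : ∀ i, ∀ x ∈ (A.e i).source, ∃ k, U k i x ≠ 0) (i : A.ι) (x : X)
    (hx : x ∈ (A.e i).source) : σ.s i x = σ'.s i x := by
  obtain ⟨k, hk⟩ := hnz i x hx
  have h1 := (h k i x hx).trans (h' k i x hx).symm
  exact smul_right_injective _ (pow_ne_zero D.m hk) h1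

end lift

namespace PolF

variable {F : QFam Q E0 (EuclideanSpace ℂ (Fin (N + 1)))} (p : PolF F n R)
  {V X : Type} [NormedAddCommGroup V] [NormedSpace ℝ V] [TopologicalSpace X]
  {C : RCh V X} [FiniteDimensional ℝ V] {A : Atl n X} {K : ℕ} {m : Mark F C}
  {b : EuclideanSpace ℂ (Fin (N + 1)) ≃L[ℂ] (Fin (K + 1) → ℂ)}

/-- **989's `FormC`** -/
theorem formC (hV : Module.finrank ℝ V = 2 * n) (hA : HolA m.P b A) {U : Fin (N + 1) → Fn A}
    (hU : LiftU m.P A U) : GTi_989.FormC (p.D.map (p.ev m.q)) U (p.hsymp hV hA).toH2 := by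
  intro j a x hx
  have hz : A.e a x ∈ (A.e a).target := (A.e a).map_source hx
  obtain ⟨i, hi⟩ := m.C'.cover x
  have hm : A.e a x ∈ mov m.C' (ofAtl A) i a := by
    refine ⟨hz, ?_⟩
    show (A.e a).symm (A.e a x) ∈ (m.C'.e i).source
    rw [(A.e a).left_inv hx]
    exact hi
  obtain ⟨c, β, hc, h1, h2⟩ := hU.deriv hA.cmp hm
  rw [(A.e a).left_inv hx] at h1 h2
  set y := mt m.C' (ofAtl A) i a (A.e a x) with hy
  have hyt : y ∈ (m.C'.e i).target := (Cmp.mt_mem hm).1
  ext s t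
  rw [mat_eq, Matrix.smul_apply, smul_eq_mul]
  have h3 := p.hsymp_val hV hA hm (EuclideanSpace.single s 1) (EuclideanSpace.single t 1)
  rw [(A.e a).left_inv hx, sb_single, ← hy] at h3
  rw [h3]
  have e0 : (fun k => U k a x) = c • (fun k => m.P.u i y k : Fin (N + 1) → ℂ) := funext h1
  have e1 : ∀ s : Fin n, (fun k => DF U a x k s) =
      c • (fun k => fderiv ℝ (m.P.u i) y (fderiv ℝ (mt m.C' (ofAtl A) i a) (A.e a x)
        (EuclideanSpace.single s 1)) k : Fin (N + 1) → ℂ) +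
        β (EuclideanSpace.single s 1) • (fun k => m.P.u i y k : Fin (N + 1) → ℂ) := by
    intro s
    funext k
    exact h2 _ k
  rw [e0, e1, e1, b_scale (p.exact m.q)]
  simp only [FDat.b_add_left, FDat.b_add_right, FDat.b_smul_left, FDat.b_smul_right,
    FDat.b_self_left _ _ (p.exact m.q), FDat.b_self_right _ _ (p.exact m.q), mul_zero, add_zero]
  rw [← p.val_eq m hyt j, h1 j]
  have h4 := p.two m.q
  have h5 : p.D.m = (p.D.m - 2) + 2 := by omega
  have h6 : (p.D.map (p.ev m.q)).m = p.D.m := rfl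
  rw [h6]
  have h7 : c ^ p.D.m = c ^ (p.D.m - 2) * c ^ 2 := by rw [← pow_add, ← h5]
  rw [mul_pow, h7]
  ring

end PolF

end

end Crest.Agent.R281.Ehr12_268
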