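import Crest.Agent.R281.Ehr13_268
import Crest.Agent.R281.Phb7_267
import Crest.Agent.R281.Md2_252

/-!
# R281 (S0424), PER-HOL / G28 (helper268), part 14: classes of the algebraic form

* `toPhb`        : `Ehr11_268.QCF F → Phb_267.QCF F` (the same real and imaginary parts)
* `form_F`       : the form of a marking on `C` read in the atlas `A` is `hA.cmp.F (form' m)`
* `form_re`, `form_im` : `hc.F (re.form m) = Re sb σ`, `hc.F (im.form m) = Im sb σ`
* `cls_re`, `cls_im`, `ex_of_cl` : classes in `HdR C`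
-/

set_option autoImplicit false
set_option linter.unusedSectionVars false
set_option maxSynthPendingDepth 5

open Set Filter Topology Complex
open scoped ContDiff Matrix

namespace Crest.Agent.R281.Ehr14_268

open Crest.Agent.R275 Crest.Agent.R275.Geo Crest.Agent.R275.Core144 Crest.Agent.R275.GC293
open Crest.Agent.R273.SteinC_794 Crest.Agent.R273.SerA_945 Crest.Agent.R273.Defs_333
open Crest.Agent.R273.Fam_835 Crest.Agent.R281.Defs_273
open Crest.Agent.R281.HkR_835 Crest.Agent.R281.Ehr2_268 Crest.Agent.R281.Dif_268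
open Crest.Agent.R281.Ehr4_268 Crest.Agent.R281.CL_473 Crest.Agent.R281.Ehr6_268
open Crest.Agent.R281.Cdr_234 Crest.Agent.R281.Ehr7_268 Crest.Agent.R281.Ehr8_268
open Crest.Agent.R281.Phl_655 Crest.Agent.R281.Pe_313 Crest.Agent.R281.Ehr11_268
open Crest.Agent.R281.Ehr12_268 Crest.Agent.R281.Ti_846

noncomputable section

universe uq

section ad

variable {Q : Type uq} [TopologicalSpace Q] {E H : Type} [NormedAddCommGroup E]
    [NormedSpace ℂ E] [NormedAddCommGroup H] [NormedSpace ℂ H] {V X : Type}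
    [NormedAddCommGroup V] [NormedSpace ℝ V] [TopologicalSpace X]
    {F : QFam Q E H} {C : RCh V X}

/-- to 267's carrier -/
def toPhb (b : Ehr11_268.QCF F) : Phb_267.QCF F := ⟨b.β, b.compat⟩

@[simp] theorem toPhb_re (b : Ehr11_268.QCF F) : (toPhb b).re = b.re := rfl

@[simp] theorem toPhb_im (b : Ehr11_268.QCF F) : (toPhb b).im = b.im := rfl

variable {n : ℕ} {A : Atl n X}

/-- the form of a marking, read in another chart system -/
theorem form_F {V'' : Type} [NormedAddCommGroup V''] [NormedSpace ℝ V''] {C'' : RCh V'' X}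
    (β : QBF F) (m : Mark F C) (hc : Cmp C C'') (h' : Cmp m.C' C'') :
    Eqv (hc.F (β.form m)) (h'.F (β.form' m)) := by
  have e1 : Eqv (hc.F (β.form m)) ((SMap.ofCmp hc).pull (β.form m)) :=
    (Crest.Agent.R281.Nef_252.cmp_F hc _).symm
  have e2 := (pull_comp (SMap.ofCmp m.cmp.symm) (SMap.ofCmp hc) (β.form' m)).symm
  refine e1.trans (e2.trans ?_)
  refine Eqv.trans ?_ (Crest.Agent.R281.Nef_252.cmp_F h' _)
  exact fun _ _ _ _ _ => rfl

end ad

section pol

variable {Q : Type uq} [TopologicalSpace Q] {E0 : Type} [NormedAddCommGroup E0]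
  [NormedSpace ℂ E0] {n N : ℕ} {R : Type*} [CommRing R]
  {F : QFam Q E0 (EuclideanSpace ℂ (Fin (N + 1)))} (p : PolF F n R)
  {V X : Type} [NormedAddCommGroup V] [NormedSpace ℝ V] [TopologicalSpace X]
  {C : RCh V X} [FiniteDimensional ℝ V] {A : Atl n X} {K : ℕ} {m : Mark F C}
  {b : EuclideanSpace ℂ (Fin (N + 1)) ≃L[ℂ] (Fin (K + 1) → ℂ)}

/-- **the real part of the symplectic form is the form of the marking** -/
theorem form_re (hV : Module.finrank ℝ V = 2 * n) (hA : HolA m.P b A) (hc : Cmp C (ofAtl A))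
    {a : A.ι} {z : Cn n} (hz : z ∈ (A.e a).target) (u v : Cn n) :
    (hc.F (p.qcf.re.form m)).w a z u v =
      (sb ((p.hsymp hV hA).s a ((A.e a).symm z)) u v).re :=
  (form_F _ m hc hA.cmp a z hz u v).trans (p.hsymp_re hV hA hz u v)

/-- **the imaginary part** -/
theorem form_im (hV : Module.finrank ℝ V = 2 * n) (hA : HolA m.P b A) (hc : Cmp C (ofAtl A))
    {a : A.ι} {z : Cn n} (hz : z ∈ (A.e a).target) (u v : Cn n) :
    (hc.F (p.qcf.im.form m)).w a z u v =
      (sb ((p.hsymp hV hA).s a ((A.e a).symm z)) u v).im :=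
  (form_F _ m hc hA.cmp a z hz u v).trans (p.hsymp_im hV hA hz u v)

/-- from classes to exact differences -/
theorem ex_of_cl {w w' : F2 C} (h : cl w = cl w') : Ex (w - w') :=
  (ex_sub_iff w w').mpr (cl_eq_iff.mp h)

variable [CompactSpace X] [T2Space X]

/-- the class of the real part of the form of a marking -/
theorem cls_re (m : Mark F C) : (p.qcf.re.natF C).cls (MQ.mk m) = cl (p.qcf.re.form m) := rfl

theorem cls_im (m : Mark F C) : (p.qcf.im.natF C).cls (MQ.mk m) = cl (p.qcf.im.form m) := rfl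

end pol

end

end Crest.Agent.R281.Ehr14_268
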