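import Crest.Agent.R281.Ehr12_268
import Crest.Agent.R281.Alg1_867

/-!
# R281 (S0424), G28 (F) (helper268), part 15: the algebraic form of a static member

* `SEq P Y s1 s2` : `P` has the cone of the complex certificate `Y`, complex tangent spaces, and
                    `(s1 + i s2) u_j^m = b_j(u; Du, Du)`
* `SEq.typ`, `SEq.nd`  : 313's `Typ`, `Nd`
* `SEq.hsymp`     : the symplectic form on any atlas with `HolA P b A`; `hsymp_re`, `hsymp_im`,
                    `hsymp_val`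
* `SEq.formC`     : 989's `FormC Y.D U σ` for all sections `U` lifting `P`
* `memA_seq`, `memA_form` : the same for 867's `MemA`
-/

set_option autoImplicit false
set_option linter.unusedSectionVars false
set_option synthInstance.maxHeartbeats 200000
set_option maxSynthPendingDepth 3

open Set Filter Topology Complex
open scoped ContDiff Matrix

namespace Crest.Agent.R281.Ehr15_268

open Crest.Agent.R275 Crest.Agent.R275.Geo Crest.Agent.R275.Core144 Crest.Agent.R275.GC293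
open Crest.Agent.R273.SteinC_794 Crest.Agent.R273.SerA_945 Crest.Agent.R273.Defs_333
open Crest.Agent.R273.Fam_835 Crest.Agent.R281.Defs_273
open Crest.Agent.R281.HkR_835 Crest.Agent.R281.Ehr2_268
open Crest.Agent.R281.AF_867 Crest.Agent.R281.KrB4_871 Crest.Agent.R281.CA_867
open Crest.Agent.R281.Phl_655 Crest.Agent.R281.Ehr9_268 Crest.Agent.R281.Ehr10_268
open Crest.Agent.R281.Pe_313 Crest.Agent.R281.Ehr12_268

noncomputable section

section stat

variable {n N : ℕ} {V X : Type} [NormedAddCommGroup V] [NormedSpace ℝ V] [TopologicalSpace X]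
  {C' : RCh V X} {A : Atl n X} {P : HEmb C' (EuclideanSpace ℂ (Fin (N + 1)))}
  {Y : CDat n N ℂ} {s1 s2 : F2 C'}

/-- **the algebraic form of the certificate `Y` on the embedded manifold `P`** -/
structure SEq (P : HEmb C' (EuclideanSpace ℂ (Fin (N + 1)))) (Y : CDat n N ℂ) (s1 s2 : F2 C') :
    Prop where
  ok : Y.Ok
  cone : ∀ w, w ∈ P.cone ↔ w ≠ 0 ∧ OnE (range Y.G) fun k => w k
  cx : P.Cx
  eq : ∀ i, ∀ z ∈ (C'.e i).target, ∀ (j : Fin (N + 1)) (v v' : V),
    ((s1.w i z v v' : ℂ) + (s2.w i z v v' : ℂ) * I) * P.u i z j ^ Y.D.m =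
      Y.D.b j (fun k => P.u i z k) (fun k => fderiv ℝ (P.u i) z v k)
        (fun k => fderiv ℝ (P.u i) z v' k)

namespace SEq

/-- the complex value -/
def val (s1 s2 : F2 C') (i : C'.ι) (z v w : V) : ℂ := (s1.w i z v w : ℂ) + (s2.w i z v w : ℂ) * I

theorem val_re (i : C'.ι) (z v w : V) : (val s1 s2 i z v w).re = s1.w i z v w := by simp [val]

theorem val_im (i : C'.ι) (z v w : V) : (val s1 s2 i z v w).im = s2.w i z v w := by simp [val]

theorem exists_ne (P : HEmb C' (EuclideanSpace ℂ (Fin (N + 1)))) {i : C'.ι} {z : V}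
    (hz : z ∈ (C'.e i).target) : ∃ j, P.u i z j ≠ 0 := by
  by_contra hcon
  push Not at hcon
  refine P.ne i z hz ?_
  ext j
  exact hcon j

variable (h : SEq P Y s1 s2)
include h

/-- **type** -/
theorem typ_val {i : C'.ι} {z : V} (hz : z ∈ (C'.e i).target) {v v' : V} (hv : IRel P i z v v')
    (w : V) : val s1 s2 i z v' w = I * val s1 s2 i z v w := by
  obtain ⟨a, ha⟩ := hv
  obtain ⟨j, hj⟩ := exists_ne P hz
  have h1 := h.eq i z hz j v w
  have h2 := h.eq i z hz j v' w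
  have h3 : (fun k => fderiv ℝ (P.u i) z v' k) =
      I • (fun k => fderiv ℝ (P.u i) z v k : Fin (N + 1) → ℂ) +
        (-a) • (fun k => P.u i z k : Fin (N + 1) → ℂ) := by
    funext k
    have h4 := congrArg (fun s : EuclideanSpace ℂ (Fin (N + 1)) => s k) ha
    have h5 : I * fderiv ℝ (P.u i) z v k = fderiv ℝ (P.u i) z v' k + a * P.u i z k := h4
    show fderiv ℝ (P.u i) z v' k = I * fderiv ℝ (P.u i) z v k + -a * P.u i z k
    linear_combination -h5
  rw [h3, FDat.b_add_left, FDat.b_smul_left, FDat.b_smul_left, FDat.b_self_left j _ h.ok.exact,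
    mul_zero, add_zero, ← h1] at h2
  have h6 : P.u i z j ^ Y.D.m ≠ 0 := pow_ne_zero _ hj
  unfold val
  refine mul_right_cancel₀ h6 ?_
  rw [h2, mul_assoc]

theorem typ : Typ P s1 s2 := by
  intro i z hz v v' u hv
  have h1 := congrArg Complex.re (h.typ_val hz hv u)
  rw [val_re] at h1
  rw [h1]
  simp [val]

variable [FiniteDimensional ℝ V]

/-- the tangent space is `image Du + ℂ u` -/
theorem span (hV : Module.finrank ℝ V = 2 * n) {i : C'.ι} {z : V} (hz : z ∈ (C'.e i).target)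
    {t : Fin (N + 1) → ℂ} (ht : TanE (range Y.G) (fun k => P.u i z k) t) :
    ∃ (v : V) (a : ℂ), t = (fun k => fderiv ℝ (P.u i) z v k) + a • fun k => P.u i z k := by
  have hc := (h.cone _).mp (P.mem_cone hz)
  have hc0 : (fun k => P.u i z k) ≠ (0 : Fin (N + 1) → ℂ) := by
    intro h0
    apply hc.1
    ext k
    exact congrFun h0 k
  let e : EuclideanSpace ℂ (Fin (N + 1)) ≃ₗ[ℂ] (Fin (N + 1) → ℂ) :=
    (EuclideanSpace.equiv (Fin (N + 1)) ℂ).toLinearEquiv
  let T : Submodule ℂ (EuclideanSpace ℂ (Fin (N + 1))) :=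
    (TanS (range Y.G) fun k => P.u i z k).map (e.symm : (Fin (N + 1) → ℂ) →ₗ[ℂ] _)
  have hmem : ∀ s : EuclideanSpace ℂ (Fin (N + 1)), s ∈ T ↔
      TanE (range Y.G) (fun k => P.u i z k) fun k => s k := by
    intro s
    constructor
    · rintro ⟨t, ht, rfl⟩
      exact ht
    · intro hs
      exact ⟨fun k => s k, hs, by ext k; rfl⟩
  have hT : Module.finrank ℂ T ≤ n + 1 := by
    have h1 : Module.finrank ℂ T = Module.finrank ℂ (TanS (range Y.G) fun k => P.u i z k) :=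
      LinearEquiv.finrank_map_eq e.symm _
    rw [h1, h.ok.finrank hc0 hc.2]
  have hself : P.u i z ∈ T := by
    rw [hmem]
    rintro _ ⟨l, rfl⟩
    obtain ⟨m, hm⟩ := h.ok.hom l
    rw [dE_self hm, hc.2 _ ⟨l, rfl⟩, mul_zero]
  have hD : ∀ v, fderiv ℝ (P.u i) z v ∈ T := by
    intro v
    rw [hmem]
    have h1 := tanE_of_vel (ev := fun _ : ℂ => RingHom.id ℂ) (E := range Y.G)
      (S := KC (fun _ : ℂ => RingHom.id ℂ) (range Y.G)) (fun _ h => h)
      (vel_member P hz v fun w hw => by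
        refine ⟨((h.cone w).mp hw).1, ?_⟩
        rintro _ ⟨l, rfl⟩
        have h2 := ((h.cone w).mp hw).2 _ ⟨l, rfl⟩
        show MvPolynomial.eval _ (MvPolynomial.map (RingHom.id ℂ) _) = 0
        rw [MvPolynomial.map_id]
        exact h2)
    rintro _ ⟨l, rfl⟩
    have h3 := h1 _ ⟨_, ⟨l, rfl⟩, rfl⟩
    rwa [MvPolynomial.map_id] at h3
  obtain ⟨v, a, hva⟩ := span_of_dim T hT hV (fderiv ℝ (P.u i) z) (P.ne i z hz) hD hself
    (fun v hv => P.imm i z hz v hv) (t := WithLp.toLp 2 t) ((hmem _).mpr ht)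
  refine ⟨v, a, ?_⟩
  funext k
  exact congrArg (fun s : EuclideanSpace ℂ (Fin (N + 1)) => s k) hva

/-- the derivatives are tangent -/
theorem tan {i : C'.ι} {z : V} (hz : z ∈ (C'.e i).target) (v : V) :
    TanE (range Y.G) (fun k => P.u i z k) fun k => fderiv ℝ (P.u i) z v k := by
  have h1 := tanE_of_vel (ev := fun _ : ℂ => RingHom.id ℂ) (E := range Y.G)
    (S := KC (fun _ : ℂ => RingHom.id ℂ) (range Y.G)) (fun _ h => h)
    (vel_member P hz v fun w hw => by
      refine ⟨((h.cone w).mp hw).1, ?_⟩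
      rintro _ ⟨l, rfl⟩
      have h2 := ((h.cone w).mp hw).2 _ ⟨l, rfl⟩
      show MvPolynomial.eval _ (MvPolynomial.map (RingHom.id ℂ) _) = 0
      rw [MvPolynomial.map_id]
      exact h2)
  rintro _ ⟨l, rfl⟩
  have h3 := h1 _ ⟨_, ⟨l, rfl⟩, rfl⟩
  rwa [MvPolynomial.map_id] at h3

/-- **nondegeneracy** -/
theorem nd_val (hV : Module.finrank ℝ V = 2 * n) {i : C'.ι} {z : V} (hz : z ∈ (C'.e i).target)
    {v : V} (h0 : ∀ w, val s1 s2 i z v w = 0) : v = 0 := by
  obtain ⟨j, hj⟩ := exists_ne P hz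
  have hb : ∀ w, Y.D.b j (fun k => P.u i z k) (fun k => fderiv ℝ (P.u i) z v k)
      (fun k => fderiv ℝ (P.u i) z w k) = 0 := by
    intro w
    rw [← h.eq i z hz j v w]
    have h1 := h0 w
    unfold val at h1
    rw [h1, zero_mul]
  obtain ⟨a, ha⟩ := h.ok.imp_id.nd (fun k => P.u i z k) (fun k => fderiv ℝ (P.u i) z v k) j
    ((h.cone _).mp (P.mem_cone hz)).2 (h.tan hz v) (fun t ht => by
      obtain ⟨w, b, hw⟩ := h.span hV hz ht
      rw [hw, FDat.b_add_right, FDat.b_smul_right, FDat.b_self_right j _ h.ok.exact, hb w,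
        mul_zero, add_zero]) hj
  refine P.imm i z hz v ⟨a, ?_⟩
  ext k
  exact congrFun ha k

theorem nd (hV : Module.finrank ℝ V = 2 * n) : Nd s1 := by
  intro i z hz v h0
  refine h.nd_val hV hz fun u => ?_
  obtain ⟨u', hu'⟩ := exists_iRel h.cx hz u
  have h1 := h.typ i z hz u u' v hu'
  have h2 : s2.w i z v u = 0 := by
    rw [s2.alt i z hz v u, ← h1, s1.alt i z hz u' v, h0, neg_zero]
  unfold val
  rw [h0, h2]
  simp

variable {K : ℕ} {b : EuclideanSpace ℂ (Fin (N + 1)) ≃L[ℂ] (Fin (K + 1) → ℂ)}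

/-- **the algebraic symplectic form** on any holomorphic atlas of `P` -/
def hsymp (hV : Module.finrank ℝ V = 2 * n) (hA : HolA P b A) : HSymp A :=
  hA.hsymp h.typ (h.nd hV)

theorem hsymp_w (hV : Module.finrank ℝ V = 2 * n) (hA : HolA P b A) {a : A.ι} {z : Cn n}
    (hz : z ∈ (A.e a).target) (u v : Cn n) :
    ((hA.cmp.F s1).w a z u v : ℂ) + I * ((hA.cmp.F s2).w a z u v : ℂ) =
      sb ((h.hsymp hV hA).s a ((A.e a).symm z)) u v := hA.hsymp_w h.typ (h.nd hV) hz u v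

/-- real part -/
theorem hsymp_re (hV : Module.finrank ℝ V = 2 * n) (hA : HolA P b A) {a : A.ι} {z : Cn n}
    (hz : z ∈ (A.e a).target) (u v : Cn n) :
    (hA.cmp.F s1).w a z u v = (sb ((h.hsymp hV hA).s a ((A.e a).symm z)) u v).re := by
  rw [← h.hsymp_w hV hA hz]
  simp

/-- imaginary part -/
theorem hsymp_im (hV : Module.finrank ℝ V = 2 * n) (hA : HolA P b A) {a : A.ι} {z : Cn n}
    (hz : z ∈ (A.e a).target) (u v : Cn n) :
    (hA.cmp.F s2).w a z u v = (sb ((h.hsymp hV hA).s a ((A.e a).symm z)) u v).im := by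
  rw [← h.hsymp_w hV hA hz]
  simp

theorem hsymp_val (hV : Module.finrank ℝ V = 2 * n) (hA : HolA P b A) {a : A.ι} {i : C'.ι}
    {z : Cn n} (hz : z ∈ mov C' (ofAtl A) i a) (u v : Cn n) :
    sb ((h.hsymp hV hA).s a ((A.e a).symm z)) u v =
      val s1 s2 i (mt C' (ofAtl A) i a z) (fderiv ℝ (mt C' (ofAtl A) i a) z u)
        (fderiv ℝ (mt C' (ofAtl A) i a) z v) := by
  rw [← h.hsymp_w hV hA hz.1, Cmp.F_w hA.cmp _ hz, Cmp.F_w hA.cmp _ hz, mul_comm]
  rfl

/-- **989's `FormC`** -/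
theorem formC (hV : Module.finrank ℝ V = 2 * n) (hA : HolA P b A) {U : Fin (N + 1) → Fn A}
    (hU : LiftU P A U) : GTi_989.FormC Y.D U (h.hsymp hV hA).toH2 := by
  intro j a x hx
  have hz : A.e a x ∈ (A.e a).target := (A.e a).map_source hx
  obtain ⟨i, hi⟩ := C'.cover x
  have hm : A.e a x ∈ mov C' (ofAtl A) i a := by
    refine ⟨hz, ?_⟩
    show (A.e a).symm (A.e a x) ∈ (C'.e i).source
    rw [(A.e a).left_inv hx]
    exact hi
  obtain ⟨c, β, hc, h1, h2⟩ := hU.deriv hA.cmp hm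
  rw [(A.e a).left_inv hx] at h1 h2
  set y := mt C' (ofAtl A) i a (A.e a x) with hy
  have hyt : y ∈ (C'.e i).target := (Cmp.mt_mem hm).1
  ext s t
  rw [mat_eq, Matrix.smul_apply, smul_eq_mul]
  have h3 := h.hsymp_val hV hA hm (EuclideanSpace.single s 1) (EuclideanSpace.single t 1)
  rw [(A.e a).left_inv hx, Ehr12_268.sb_single, ← hy] at h3
  rw [h3]
  have e0 : (fun k => U k a x) = c • (fun k => P.u i y k : Fin (N + 1) → ℂ) := funext h1
  have e1 : ∀ s : Fin n, (fun k => DF U a x k s) =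
      c • (fun k => fderiv ℝ (P.u i) y (fderiv ℝ (mt C' (ofAtl A) i a) (A.e a x)
        (EuclideanSpace.single s 1)) k : Fin (N + 1) → ℂ) +
        β (EuclideanSpace.single s 1) • (fun k => P.u i y k : Fin (N + 1) → ℂ) := by
    intro s
    funext k
    exact h2 _ k
  rw [e0, e1, e1, b_scale h.ok.exact]
  simp only [FDat.b_add_left, FDat.b_add_right, FDat.b_smul_left, FDat.b_smul_right,
    FDat.b_self_left _ _ h.ok.exact, FDat.b_self_right _ _ h.ok.exact, mul_zero, add_zero]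
  rw [← h.eq i y hyt j, h1 j]
  have h4 := h.ok.exact.two
  have h5 : Y.D.m = (Y.D.m - 2) + 2 := by omega
  have h7 : c ^ Y.D.m = c ^ (Y.D.m - 2) * c ^ 2 := by rw [← pow_add, ← h5]
  unfold val
  rw [mul_pow, h7]
  ring

end SEq

/-- **the sections of `HolA.toProj`** lift the embedding -/
theorem liftU_toProj {b : EuclideanSpace ℂ (Fin (N + 1)) ≃L[ℂ] (Fin (N + 1) → ℂ)}
    (hb : ∀ w k, b w k = w k) (hA : HolA P b A) (κ : A.ι → Fin (N + 1))
    (hκ : ∀ a, (A.e a).source ⊆ OX P b (κ a)) :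
    LiftU P A (fun k => Crest.Agent.R273.FS_333.sec (hA.toProj κ hκ) k) where
  hol k a := (Crest.Agent.R273.FS_333.isHS_sec (hA.toProj κ hκ) k).hol a
  eq a i x hx hi := by
    have h1 := (mem_OX hi).1 (hκ a hx)
    refine ⟨(b (P.u i (C'.e i x)) (κ a))⁻¹, inv_ne_zero h1.2, fun k => ?_⟩
    refine (Crest.Agent.R273.FS_333.sec_eq (hA.toProj κ hκ) hx k).trans ?_
    show nuX P b (κ a) x k = _
    rw [nuX_eq hi (hκ a hx)]
    show (b (P.u i (C'.e i x)) (κ a))⁻¹ * b (P.u i (C'.e i x)) k = _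
    rw [hb _ k]

end stat

/-! ### 867's members -/

section memA

open Crest.Agent.R281.Alg_867 Crest.Agent.R281.Alg_998

variable {n N : ℕ} {X : Type} [TopologicalSpace X] {C : RCh (Cn (2 * n)) X}
  {Q : F2 C →ₗ[ℝ] F2 C →ₗ[ℝ] ℝ} {F : Frm C Q} {A : F2 C} {Y : CDat (2 * n) N ℂ} {κ : ℝ}
  {β τ : ℂ} {H : HkT C}

theorem memA_seq (m : MemA F A Y κ β τ H) (hY : Y.Ok) : SEq m.P Y m.s1 m.s2 where
  ok := hY
  cone := m.cone
  cx := m.cx.cx m.cmp
  eq := m.s_eq

theorem finrank_Cn (d : ℕ) : Module.finrank ℝ (Cn d) = 2 * d := by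
  rw [Module.finrank_eq_card_basis (Crest.Agent.R281.Ti_846.bc d)]
  simp [mul_comm]

/-- **(F)**: the algebraic form of a member and `FormC` -/
theorem memA_form (m : MemA F A Y κ β τ H) (hY : Y.Ok) {A' : Atl (2 * n) X}
    (h : HolA m.P (CB_867.bE N) A') (κ' : A'.ι → Fin (N + 1))
    (hκ' : ∀ a, (A'.e a).source ⊆ OX m.P (CB_867.bE N) (κ' a)) :
    ∃ σ : HSymp A', GTi_989.FormC Y.D
        (fun k => Crest.Agent.R273.FS_333.sec (h.toProj κ' hκ') k) σ.toH2 ∧
      (∀ a, ∀ z ∈ (A'.e a).target, ∀ u v : Geo.Cn (2 * n),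
        (h.cmp.F m.s1).w a z u v = (sb (σ.s a ((A'.e a).symm z)) u v).re) ∧
      ∀ a, ∀ z ∈ (A'.e a).target, ∀ u v : Geo.Cn (2 * n),
        (h.cmp.F m.s2).w a z u v = (sb (σ.s a ((A'.e a).symm z)) u v).im :=
  ⟨(memA_seq m hY).hsymp (finrank_Cn _) h,
    (memA_seq m hY).formC (finrank_Cn _) h (liftU_toProj (fun _ _ => rfl) h κ' hκ'),
    fun _ _ hz u v => (memA_seq m hY).hsymp_re (finrank_Cn _) h hz u v,
    fun _ _ hz u v => (memA_seq m hY).hsymp_im (finrank_Cn _) h hz u v⟩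

end memA

end

end Crest.Agent.R281.Ehr15_268
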