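import Crest.Agent.R281.Ehr4_268
import Crest.Agent.R281.Lift1_461

/-!
# R281 (S0424), B4-EHR (helper268), part 5: transition maps are smooth; families over a path

* `exists_over`   : two members with the same cone (any two chart systems) differ by a smooth map
* `over_difG`     : ... by a diffeomorphism, when both chart systems are compatible with `C`
* `htriv_of_path` : two smooth families over `ℝ` with the same cones and the same start differ by
                    a map which acts trivially on `H²`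
-/

set_option autoImplicit false
set_option maxSynthPendingDepth 5
set_option linter.unusedSectionVars false

open Set Filter Topology Complex
open scoped ContDiff

namespace Crest.Agent.R281.Ehr4_268

open Crest.Agent.R281.HkR_835 Crest.Agent.R281.Ehr2_268 Crest.Agent.R281.Dif_268
open Crest.Agent.R281.Lift_461

noncomputable section

variable {V X : Type} [NormedAddCommGroup V] [NormedSpace ℝ V] [TopologicalSpace X]
  [FiniteDimensional ℝ V] [CompactSpace X] [T2Space X]
variable {H : Type} [NormedAddCommGroup H] [NormedSpace ℂ H] [FiniteDimensional ℂ H]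
variable {C C₁ C₂ C₃ : RCh V X}

/-- a path of members as a family over `ℝ` -/
def efam (A : ℝ → HEmb C H)
    (hA : ∀ i, ContDiffOn ℝ ∞ (fun p : ℝ × V => (A p.1).u i p.2) (univ ×ˢ (C.e i).target)) :
    EFam C H (univ : Set ℝ) where
  U i s z := (A s).u i z
  sm := hA
  ne i s _ z hz := (A s).ne i z hz
  tr i j z hz s _ := (A s).tr i j z hz
  inj i j s _ z hz z' hz' h := (A s).inj i j z hz z' hz' h
  imm i s _ z hz v h := (A s).imm i z hz v h

/-- the point of `X` below a vector of the cone -/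
theorem exists_point (P : HEmb C H) {w : H} (hw : w ∈ P.cone) :
    ∃ x, ∃ i, x ∈ (C.e i).source ∧ ∃ a : ℂ, a ≠ 0 ∧ w = a • P.u i (C.e i x) := by
  obtain ⟨i, z, hz, a, ha, h⟩ := hw
  refine ⟨(C.e i).symm z, i, (C.e i).map_target hz, a, ha, ?_⟩
  rw [(C.e i).right_inv hz]
  exact h

/-- transition of two paths of members: the raw map -/
theorem exists_trans (A : ℝ → HEmb C₁ H) (B : ℝ → HEmb C₂ H)
    (hA : ∀ i, ContDiffOn ℝ ∞ (fun p : ℝ × V => (A p.1).u i p.2) (univ ×ˢ (C₁.e i).target))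
    (hB : ∀ i, ContDiffOn ℝ ∞ (fun p : ℝ × V => (B p.1).u i p.2) (univ ×ˢ (C₂.e i).target))
    (hAB : ∀ s, (A s).cone = (B s).cone) :
    ∃ g : SMap (prodR C₁) C₂, ∀ s, Over (A s) (B s) (fun x => g.f (s, x)) := by
  classical
  -- pointwise choice
  have key : ∀ (s : ℝ) (x : X), ∃ y, ∀ i, ∀ z ∈ (C₁.e i).target, (C₁.e i).symm z = x →
      ∀ j, ∀ z' ∈ (C₂.e j).target, (C₂.e j).symm z' = y →
        ∃ a : ℂ, a ≠ 0 ∧ (A s).u i z = a • (B s).u j z' := by
    intro s x
    obtain ⟨i0, z0, hz0, hx0⟩ := exists_coord C₁ x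
    have h1 : (A s).u i0 z0 ∈ (B s).cone := by rw [← hAB]; exact (A s).mem_cone hz0
    obtain ⟨j0, z1, hz1, a, ha, h2⟩ := h1
    refine ⟨(C₂.e j0).symm z1, fun i z hz hx j z' hz' hy => ?_⟩
    obtain ⟨b, hb, h3⟩ := same_point (A s) hz hz0 (by rw [hx0, hx])
    obtain ⟨c, hc, h4⟩ := same_point (B s) hz1 hz' hy
    exact ⟨b * (a * c), mul_ne_zero hb (mul_ne_zero ha hc), by
      rw [h3, h2, h4, smul_smul, smul_smul, mul_assoc]⟩
  choose pt hpt using key
  have hover : ∀ s, Over (A s) (B s) (fun x => pt s x) := by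
    intro s i z hz j z' hz' he
    exact hpt s _ i z hz rfl j z' hz' he
  let F : EFam C₂ H (univ : Set ℝ) := efam B hB
  -- `pt` is below
  have hbelow : ∀ (s : ℝ) (i : C₁.ι) (z : V), z ∈ (C₁.e i).target →
      F.Below s ((A s).u i z) (pt s ((C₁.e i).symm z)) := by
    intro s i z hz
    obtain ⟨j, z', hz', hy⟩ := exists_coord C₂ (pt s ((C₁.e i).symm z))
    obtain ⟨a, ha, h⟩ := hover s i z hz j z' hz' hy
    refine ⟨j, ?_, a, ha, ?_⟩
    · rw [← hy]; exact (C₂.e j).map_target hz'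
    · rw [← hy, (C₂.e j).right_inv hz']; exact h
  -- joint smoothness in charts
  have hθ : ∀ (i : C₁.ι) (p : ℝ × V), p.2 ∈ (C₁.e i).target →
      ContDiffAt ℝ ∞ (fun p : ℝ × V => (A p.1).u i p.2) p := fun i p hp =>
    (hA i).contDiffAt ((isOpen_univ.prod (C₁.e i).open_target).mem_nhds ⟨mem_univ _, hp⟩)
  have hev : ∀ (i : C₁.ι) (p : ℝ × V), p.2 ∈ (C₁.e i).target →
      ∀ᶠ q : ℝ × V in 𝓝 p, F.Below q.1 ((A q.1).u i q.2) (pt q.1 ((C₁.e i).symm q.2)) := by
    intro i p hp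
    have h1 : ∀ᶠ q : ℝ × V in 𝓝 p, q.2 ∈ (C₁.e i).target :=
      continuousAt_snd.eventually ((C₁.e i).open_target.mem_nhds hp)
    filter_upwards [h1] with q hq using hbelow q.1 i q.2 hq
  have hcont : Continuous (fun q : ℝ × X => pt q.1 q.2) := by
    rw [continuous_iff_continuousAt]
    rintro ⟨s, x⟩
    obtain ⟨i, hi⟩ := C₁.cover x
    have hz : C₁.e i x ∈ (C₁.e i).target := (C₁.e i).map_source hi
    have h1 : Tendsto (fun q : ℝ × V => pt q.1 ((C₁.e i).symm q.2)) (𝓝 (s, C₁.e i x))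
        (𝓝 (pt s ((C₁.e i).symm (C₁.e i x)))) :=
      F.tendsto_pt isOpen_univ (κ := fun q : ℝ × V => q.1) (θ := fun q => (A q.1).u i q.2)
        (pt := fun q => pt q.1 ((C₁.e i).symm q.2)) (q1 := (s, C₁.e i x)) continuousAt_fst
        (hθ i _ hz).continuousAt (mem_univ _) (hev i _ hz)
    rw [(C₁.e i).left_inv hi] at h1
    have h2 : Tendsto (fun q : ℝ × X => (q.1, C₁.e i q.2)) (𝓝 (s, x)) (𝓝 (s, C₁.e i x)) :=
      continuousAt_fst.prodMk (((C₁.e i).continuousAt hi).comp (x := (s, x)) continuousAt_snd)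
    refine (h1.comp h2).congr' ?_
    have h3 : ∀ᶠ q : ℝ × X in 𝓝 (s, x), q.2 ∈ (C₁.e i).source :=
      continuousAt_snd.eventually ((C₁.e i).open_source.mem_nhds hi)
    filter_upwards [h3] with q hq
    simp only [Function.comp_apply]
    rw [(C₁.e i).left_inv hq]
  refine ⟨⟨fun q => pt q.1 q.2, hcont, ?_⟩, hover⟩
  intro j (i : C₁.ι) p hp
  have hp1 : p.2 ∈ (C₁.e i).target := (prodR_target i p).mp hp.1
  have hp2 : pt p.1 ((C₁.e i).symm p.2) ∈ (C₂.e j).source := hp.2
  have h1 := F.lift isOpen_univ (n := ∞) (by simp) le_rfl (κ := fun q : ℝ × V => q.1)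
    (θ := fun q => (A q.1).u i q.2) (pt := fun q => pt q.1 ((C₁.e i).symm q.2)) (q1 := p)
    contDiffAt_fst (hθ i p hp1) (mem_univ _) (hev i p hp1) hp2
  exact h1.1.contDiffWithinAt

/-- two members with the same cone differ by a smooth map -/
theorem exists_over (P : HEmb C₁ H) (P' : HEmb C₂ H) (h : P.cone = P'.cone) :
    ∃ g : SMap C₁ C₂, Over P P' g.f := by
  obtain ⟨g, hg⟩ := exists_trans (fun _ => P) (fun _ => P')
    (fun i => (P.sm i).comp contDiffOn_snd fun p hp => hp.2)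
    (fun i => (P'.sm i).comp contDiffOn_snd fun p hp => hp.2) (fun _ => h)
  exact ⟨g.comp (slice C₁ 0), hg 0⟩

/-- ... by a diffeomorphism -/
theorem over_difG (h₁ : Cmp C C₁) (h₂ : Cmp C C₂) (P : HEmb C₁ H) (P' : HEmb C₂ H)
    (h : P.cone = P'.cone) : ∃ φ : difG C, Over P P' φ.1 := by
  obtain ⟨a, ha⟩ := exists_over P P' h
  obtain ⟨b, hb⟩ := exists_over P' P h.symm
  have hab : b.f ∘ a.f = id := ha.inv_eq hb
  have hba : a.f ∘ b.f = id := hb.inv_eq ha
  let φ : X ≃ₜ X :=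
    { toFun := a.f, invFun := b.f, left_inv := fun x => congrFun hab x,
      right_inv := fun x => congrFun hba x, continuous_toFun := a.cont,
      continuous_invFun := b.cont }
  refine ⟨⟨φ, ⟨((SMap.ofCmp h₂).comp a).comp (SMap.ofCmp h₁.symm), rfl⟩,
    ⟨((SMap.ofCmp h₁).comp b).comp (SMap.ofCmp h₂.symm), rfl⟩⟩, ha⟩

/-- a path of members and a second one with the same start -/
theorem htriv_of_path (A B : ℝ → HEmb C H)
    (hA : ∀ i, ContDiffOn ℝ ∞ (fun p : ℝ × V => (A p.1).u i p.2) (univ ×ˢ (C.e i).target))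
    (hB : ∀ i, ContDiffOn ℝ ∞ (fun p : ℝ × V => (B p.1).u i p.2) (univ ×ˢ (C.e i).target))
    (hAB : ∀ s, (A s).cone = (B s).cone)
    (h0 : ∀ i, ∀ z ∈ (C.e i).target, (A 0).u i z = (B 0).u i z) :
    ∃ f, Over (A 1) (B 1) f ∧ HTriv C f := by
  obtain ⟨g, hg⟩ := exists_trans A B hA hB hAB
  refine ⟨_, hg 1, htriv_of_homotopy g fun x => ?_⟩
  have h1 : Over (A 0) (B 0) id := Over.of_eq h0
  exact congrFun ((hg 0).uniq h1) x

end

end Crest.Agent.R281.Ehr4_268
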