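import Crest.Agent.R240.SmInt
import Crest.Agent.R281.T5M_808

/-!
# R281, (t3) of the core (helper368), part 1: closed 2-forms with zero periods on
`T^N × ball` are exact

`prim_tube` : a closed `ℤ^N`-periodic 2-form `x` on the tube `tube N R` whose horizontal mean
values vanish is `dη` with `η` smooth and `ℤ^N`-periodic (explicit: radial homotopy in the second
variable together with averaging over the translations in the first variable)
-/

set_option autoImplicit false
set_option maxSynthPendingDepth 3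

open MeasureTheory Set Filter Topology Metric
open scoped ContDiff

namespace Crest.Agent.R281.Exo_368

open Crest.Agent.R281.Mc673
open Crest.Agent.R281.T5M_808
open Crest.Agent.R238.Sch (ee)
open Crest.Agent.R275.Tor812 (box volume_box)
open Crest.Agent.R240.SmJ (dx hasFDerivAt_dx contDiffOn_dx hasFDerivAt_integral
  contDiffOn_integral)

noncomputable section

variable {N : ℕ}

/-- projection to the second factor -/
def pj (N : ℕ) : W N →L[ℝ] W N :=
  (ContinuousLinearMap.inr ℝ (V N) (V N)).comp (ContinuousLinearMap.snd ℝ (V N) (V N))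

@[simp] theorem pj_apply (p : W N) : pj N p = (0, p.2) := rfl

/-- horizontal vectors -/
def hv (N : ℕ) : (Fin N → ℝ) →L[ℝ] W N :=
  (ContinuousLinearMap.inl ℝ (V N) (V N)).comp
    ((EuclideanSpace.equiv (Fin N) ℝ).symm : (Fin N → ℝ) →L[ℝ] V N)

@[simp] theorem hv_apply (a : Fin N → ℝ) : hv N a = (WithLp.toLp 2 a, 0) := rfl

/-- parameters: translation and homotopy parameter -/
abbrev Pm (N : ℕ) := (Fin N → ℝ) × ℝ

/-- the velocity of the homotopy -/
def gv (N : ℕ) (q : W N × Pm N) : W N := hv N q.2.1 - pj N q.1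

/-- the homotopy -/
def gm (N : ℕ) (q : W N × Pm N) : W N := q.1 + q.2.2 • gv N q

/-- the differential of the homotopy -/
def gd (N : ℕ) (s : ℝ) : W N →L[ℝ] W N := ContinuousLinearMap.id ℝ (W N) - s • pj N

theorem gm_snd (q : W N × Pm N) : (gm N q).2 = (1 - q.2.2) • q.1.2 := by
  simp only [gm, gv, Prod.snd_add, Prod.smul_snd, Prod.snd_sub, hv_apply, pj_apply, zero_sub]
  rw [sub_smul, one_smul, smul_neg, sub_eq_add_neg]

theorem gd_apply (s : ℝ) (u : W N) : gd N s u = u - s • pj N u := rfl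

theorem contDiff_gv : ContDiff ℝ ∞ (gv N) := by
  unfold gv
  exact ((hv N).contDiff.comp (contDiff_fst.comp contDiff_snd)).sub
    ((pj N).contDiff.comp contDiff_fst)

theorem contDiff_gm : ContDiff ℝ ∞ (gm N) := by
  unfold gm
  exact contDiff_fst.add ((contDiff_snd.comp contDiff_snd).smul contDiff_gv)

/-- the domain of the integrand -/
def sO (N : ℕ) (R : ℝ) : Set (W N × Pm N) := gm N ⁻¹' tube N R

theorem isOpen_sO (R : ℝ) : IsOpen (sO N R) := (isOpen_tube R).preimage contDiff_gm.continuous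

/-- the compact set of parameters -/
def kK (N : ℕ) : Set (Pm N) := Icc 0 1 ×ˢ Icc 0 1

theorem isCompact_kK : IsCompact (kK N) := isCompact_Icc.prod isCompact_Icc

theorem mem_sO {R : ℝ} {p : W N} (hp : p ∈ tube N R) {q : Pm N} (hq : q.2 ∈ Icc (0:ℝ) 1) :
    (p, q) ∈ sO N R := by
  show ‖(gm N (p, q)).2‖ < R
  rw [gm_snd, norm_smul, Real.norm_eq_abs, abs_of_nonneg (by linarith [hq.2])]
  have h1 : ‖p.2‖ < R := hp
  have h2 : (1 - q.2) * ‖p.2‖ ≤ 1 * ‖p.2‖ :=
    mul_le_mul_of_nonneg_right (by linarith [hq.1]) (norm_nonneg _)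
  show (1 - q.2) * ‖p.2‖ < R
  linarith

theorem sub_sO {R : ℝ} : tube N R ×ˢ kK N ⊆ sO N R := fun q hq => mem_sO hq.1 hq.2.2

/-- the integrand of the primitive -/
def zt (x : Fo N) (q : W N × Pm N) : W N →L[ℝ] ℝ := (x (gm N q) (gv N q)).comp (gd N q.2.2)

theorem zt_apply (x : Fo N) (q : W N × Pm N) (u : W N) :
    zt x q u = x (gm N q) (gv N q) (gd N q.2.2 u) := rfl

variable {x : Fo N} {R : ℝ}

theorem contDiffOn_zt (hx : ClF R x) : ContDiffOn ℝ ∞ (zt x) (sO N R) := by
  have h1 : ContDiffOn ℝ ∞ (fun q => x (gm N q)) (sO N R) :=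
    hx.sm.comp contDiff_gm.contDiffOn (fun _ hq => hq)
  have h2 : ContDiff ℝ ∞ (fun q : W N × Pm N => gd N q.2.2) := by
    unfold gd
    exact contDiff_const.sub ((contDiff_snd.comp contDiff_snd).smul contDiff_const)
  exact (h1.clm_apply contDiff_gv.contDiffOn).clm_comp h2.contDiffOn

/-- derivative of the integrand in the point -/
theorem dx_zt (hx : ClF R x) {q : W N × Pm N} (hq : q ∈ sO N R) (u v : W N) :
    dx (zt x) q u v =
      fderiv ℝ x (gm N q) (gd N q.2.2 u) (gv N q) (gd N q.2.2 v) +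
        x (gm N q) (-pj N u) (gd N q.2.2 v) := by
  have hd : DifferentiableAt ℝ (zt x) q :=
    ((contDiffOn_zt hx).contDiffAt ((isOpen_sO R).mem_nhds hq)).differentiableAt (by simp)
  have h1 := hasFDerivAt_dx hd
  -- direct computation
  have hg : HasFDerivAt (fun p => gm N (p, q.2)) (gd N q.2.2) q.1 := by
    have e : (fun p : W N => gm N (p, q.2)) =
        fun p => gd N q.2.2 p + q.2.2 • hv N q.2.1 := by
      funext p
      simp only [gm, gv, gd_apply, smul_sub]
      abel
    rw [e]
    exact (gd N q.2.2).hasFDerivAt.add_const _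
  have hv' : HasFDerivAt (fun p => gv N (p, q.2)) (-pj N) q.1 := by
    have := (pj N).hasFDerivAt (x := q.1) |>.const_sub (hv N q.2.1)
    exact this
  have hxd : HasFDerivAt x (fderiv ℝ x (gm N q)) (gm N (q.1, q.2)) := (hx.da hq).hasFDerivAt
  have h2 : HasFDerivAt (fun p => x (gm N (p, q.2))) ((fderiv ℝ x (gm N q)).comp (gd N q.2.2))
      q.1 := HasFDerivAt.comp q.1 hxd hg
  have h3 := h2.clm_apply hv'
  have h4 : HasFDerivAt (fun p => zt x (p, q.2) v) _ q.1 :=
    h3.clm_apply (hasFDerivAt_const (gd N q.2.2 v) q.1)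
  have h5 : HasFDerivAt (fun p => zt x (p, q.2) v) _ q.1 :=
    h1.clm_apply (hasFDerivAt_const v q.1)
  have h6 := h5.unique h4
  have h7 := congrArg (fun T : W N →L[ℝ] ℝ => T u) h6
  have h8 : x (gm N q) (-pj N u) = -(x (gm N q) (pj N u)) := map_neg _ _
  rw [h8, add_comm]
  simpa using h7

/-- the form along the homotopy -/
def hh (x : Fo N) (p : W N) (a : Fin N → ℝ) (u v : W N) (s : ℝ) : ℝ :=
  x (gm N (p, (a, s))) (gd N s u) (gd N s v)

/-- the difference of the derivatives of the integrand is the derivative along the homotopy -/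
theorem hasDerivAt_hh (hx : ClF R x) {p : W N} (hp : p ∈ tube N R) (a : Fin N → ℝ) {s : ℝ}
    (hs : s ∈ Icc (0:ℝ) 1) (u v : W N) :
    HasDerivAt (hh x p a u v)
      (dx (zt x) (p, (a, s)) u v - dx (zt x) (p, (a, s)) v u) s := by
  have hq : ((p, (a, s)) : W N × Pm N) ∈ sO N R := mem_sO hp hs
  rw [dx_zt hx hq, dx_zt hx hq]
  set m : W N := gv N (p, (a, s)) with hm
  set z : W N := gm N (p, (a, s)) with hz
  have hzt : z ∈ tube N R := hq
  have hg : HasDerivAt (fun s => gm N (p, (a, s))) m s := by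
    have h1 : HasDerivAt (fun s : ℝ => s • m) ((1:ℝ) • m) s := (hasDerivAt_id s).smul_const m
    rw [one_smul] at h1
    exact h1.const_add p
  have hgd : ∀ w : W N, HasDerivAt (fun s => gd N s w) (-pj N w) s := by
    intro w
    have h1 : HasDerivAt (fun s : ℝ => s • pj N w) ((1:ℝ) • pj N w) s :=
      (hasDerivAt_id s).smul_const _
    rw [one_smul] at h1
    exact h1.const_sub w
  have hxd : HasFDerivAt x (fderiv ℝ x z) (gm N (p, (a, s))) := (hx.da hzt).hasFDerivAt
  have h2 : HasDerivAt (fun s => x (gm N (p, (a, s)))) (fderiv ℝ x z m) s :=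
    hxd.comp_hasDerivAt s hg
  have h3 := (h2.clm_apply (hgd u)).clm_apply (hgd v)
  refine h3.congr_deriv ?_
  have hcl := hx.cl z hzt m (gd N s u) (gd N s v)
  have hal : ∀ a' b' c', fderiv ℝ x z a' b' c' = - fderiv ℝ x z a' c' b' := by
    intro a' b' c'
    have e1 : (fun y => x y b' c') =ᶠ[𝓝 z] fun y => -(x y c' b') := by
      filter_upwards [(isOpen_tube R).mem_nhds hzt] with y hy using hx.alt y hy b' c'
    have hf : ∀ b' c', HasFDerivAt (fun y => x y b' c')
        (((fderiv ℝ x z).flip b').flip c') z := by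
      intro b' c'
      have := ((hx.da hzt).hasFDerivAt.clm_apply (hasFDerivAt_const b' z)).clm_apply
        (hasFDerivAt_const c' z)
      refine this.congr_fderiv ?_
      ext w <;> simp
    have e2 := ((hf c' b').neg.congr_of_eventuallyEq e1).unique (hf b' c')
    have e3 := congrArg (fun T : W N →L[ℝ] ℝ => T a') e2
    simpa using e3.symm
  have ha1 := hx.alt z hzt (gd N s u) (-pj N v)
  have ha2 := hal (gd N s v) (gd N s u) m
  have ha3 := hal (gd N s v) m (gd N s u)
  have ha4 := hal (gd N s u) (gd N s v) m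
  show (fderiv ℝ x z m) (gd N s u) (gd N s v) + x z (-pj N u) (gd N s v) +
      x z (gd N s u) (-pj N v) =
    fderiv ℝ x z (gd N s u) m (gd N s v) + x z (-pj N u) (gd N s v) -
      (fderiv ℝ x z (gd N s v) m (gd N s u) + x z (-pj N v) (gd N s u))
  linarith

end

end Crest.Agent.R281.Exo_368
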