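import Crest.Agent.R281.Exo1_368

/-!
# R281, (t3) of the core (helper368), part 2: the primitive

`prim_tube` : a closed `ℤ^N`-periodic 2-form `x` on the tube `tube N R` whose horizontal mean
values vanish is `dη` with `η` smooth and `ℤ^N`-periodic
-/

set_option autoImplicit false
set_option maxSynthPendingDepth 3

open MeasureTheory Set Filter Topology Metric
open scoped ContDiff

namespace Crest.Agent.R281.Exo_368

open Crest.Agent.R281.Mc673
open Crest.Agent.R281.T5M_808
open Crest.Agent.R238.Sch (ee sum_ee)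
open Crest.Agent.R275.Tor812 (box volume_box box_eq_pi)
open Crest.Agent.R240.SmJ (dx hasFDerivAt_dx contDiffOn_dx hasFDerivAt_integral
  contDiffOn_integral)

noncomputable section

variable {N : ℕ} {x : Fo N} {R : ℝ}

/-- the primitive -/
def eta (x : Fo N) (p : W N) : W N →L[ℝ] ℝ := -∫ q in kK N, zt x (p, q)

theorem contDiffOn_eta (hx : ClF R x) : ContDiffOn ℝ ∞ (eta x) (tube N R) :=
  (contDiffOn_integral (isOpen_sO R) (isOpen_tube R) isCompact_kK sub_sO volume
    (contDiffOn_zt hx)).neg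

theorem cont_slice {F : Type} [NormedAddCommGroup F] {g : W N × Pm N → F}
    (hg : ContinuousOn g (sO N R)) {p : W N} (hp : p ∈ tube N R) :
    IntegrableOn (fun q => g (p, q)) (kK N) volume := by
  refine ContinuousOn.integrableOn_compact isCompact_kK ?_
  exact hg.comp (by fun_prop) (fun q hq => mem_sO hp hq.2)

theorem fderiv_eta (hx : ClF R x) {p : W N} (hp : p ∈ tube N R) (u v : W N) :
    fderiv ℝ (eta x) p u v = -∫ q in kK N, dx (zt x) (p, q) u v := by
  have h1 := (hasFDerivAt_integral (isOpen_sO R) (isOpen_tube R) isCompact_kK sub_sO volume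
    (contDiffOn_zt hx) hp).neg
  have h2 : fderiv ℝ (eta x) p = -∫ q in kK N, dx (zt x) (p, q) := h1.fderiv
  have hc : ContinuousOn (dx (zt x)) (sO N R) :=
    (contDiffOn_dx (isOpen_sO R) (contDiffOn_zt hx)).continuousOn
  have i1 := cont_slice hc hp
  have i2 : IntegrableOn (fun q => dx (zt x) (p, q) u) (kK N) volume :=
    cont_slice (hc.clm_apply continuousOn_const) hp
  rw [h2]
  show -((∫ q in kK N, dx (zt x) (p, q)) u v) = _
  rw [ContinuousLinearMap.integral_apply i1, ContinuousLinearMap.integral_apply i2]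

theorem gm_zero (p : W N) (a : Fin N → ℝ) : gm N (p, (a, 0)) = p := by
  simp [gm]

theorem gd_zero (u : W N) : gd N 0 u = u := by simp [gd_apply]

theorem gm_one (p : W N) (a : Fin N → ℝ) :
    gm N (p, (a, 1)) = (WithLp.toLp 2 a + p.1, 0) := by
  refine Prod.ext ?_ ?_
  · simp [gm, gv, add_comm]
  · simp [gm, gv]

theorem gd_one (u : W N) : gd N 1 u = (u.1, 0) := by
  refine Prod.ext ?_ ?_ <;> simp [gd_apply]

theorem sp_row (hR : 0 < R) (hx : ClF R x) (u v : V N) :
    SP (fun θ : V N => x (θ, 0) (u, 0) (v, 0)) := by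
  have hz : ∀ θ : V N, ((θ, 0) : W N) ∈ tube N R := fun θ => by
    show ‖(0 : V N)‖ < R
    rw [norm_zero]; exact hR
  refine ⟨?_, fun m θ => ?_⟩
  · refine contDiff_iff_contDiffAt.2 fun θ => ?_
    have h1 : ContDiffAt ℝ ∞ (fun θ : V N => x (θ, 0)) θ :=
      ContDiffAt.comp θ (hx.cda (p := (θ, 0)) (hz θ)) (contDiffAt_id.prodMk contDiffAt_const)
    exact (h1.clm_apply contDiffAt_const).clm_apply contDiffAt_const
  · show x (θ + kv m, 0) _ _ = _
    rw [hx.per m (θ, 0) (hz θ)]

theorem mn_row (hR : 0 < R) (hx : ClF R x)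
    (h0 : ∀ j k, mn (fun θ => x (θ, 0) (ee j, 0) (ee k, 0)) = 0) (u v : V N) :
    mn (fun θ => x (θ, 0) (u, 0) (v, 0)) = 0 := by
  have e : (fun θ : V N => x (θ, 0) (u, 0) (v, 0)) =
      fun θ => ∑ j, ∑ k, (u j * v k) * x (θ, 0) (ee j, 0) (ee k, 0) := by
    funext θ
    have hu : ((u, 0) : W N) = ∑ j, u j • ((ee j, 0) : W N) := by
      refine Prod.ext ?_ ?_
      · rw [Prod.fst_sum]; exact sum_ee u
      · rw [Prod.snd_sum]; simp
    have hv : ((v, 0) : W N) = ∑ j, v j • ((ee j, 0) : W N) := by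
      refine Prod.ext ?_ ?_
      · rw [Prod.fst_sum]; exact sum_ee v
      · rw [Prod.snd_sum]; simp
    have e1 : x (θ, 0) (u, 0) = ∑ j, u j • x (θ, 0) (ee j, 0) := by
      rw [hu, map_sum]
      exact Finset.sum_congr rfl fun j _ => map_smul _ _ _
    have e2 : ∀ L : W N →L[ℝ] ℝ, L (v, 0) = ∑ k, v k * L (ee k, 0) := by
      intro L
      rw [hv, map_sum]
      exact Finset.sum_congr rfl fun j _ => by rw [map_smul, smul_eq_mul]
    rw [e2, e1, Finset.sum_comm]
    refine Finset.sum_congr rfl fun k _ => ?_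
    rw [sum_apply, Finset.mul_sum]
    refine Finset.sum_congr rfl fun j _ => ?_
    rw [smul_apply, smul_eq_mul]
    ring
  rw [e]
  have hs : ∀ j k, SP (fun θ : V N => (u j * v k) * x (θ, 0) (ee j, 0) (ee k, 0)) := fun j k =>
    (SP.const _).mul (sp_row hR hx _ _)
  rw [mn_sum _ fun j _ => SP.sum _ fun k _ => hs j k]
  refine Finset.sum_eq_zero fun j _ => ?_
  rw [mn_sum _ fun k _ => hs j k]
  refine Finset.sum_eq_zero fun k _ => ?_
  rw [mn_mul, h0, mul_zero]

theorem mn_eq_Icc (f : V N → ℝ) :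
    ∫ a in Icc (0 : Fin N → ℝ) 1, f (WithLp.toLp 2 a) = mn f := by
  unfold mn
  refine setIntegral_congr_set ?_
  have h := Measure.univ_pi_Ioc_ae_eq_Icc (μ := fun _ : Fin N => (volume : Measure ℝ))
    (f := (0 : Fin N → ℝ)) (g := 1)
  have e : box (0 : Fin N → ℝ) = pi univ fun i => Ioc ((0 : Fin N → ℝ) i) ((1 : Fin N → ℝ) i) := by
    rw [box_eq_pi]; simp
  rw [e]
  exact h.symm

/-- **a closed 2-form on `T^N × ball` with zero horizontal mean values is exact** -/
theorem prim_tube (hx : ClF R x)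
    (h0 : ∀ j k, mn (fun θ => x (θ, 0) (ee j, 0) (ee k, 0)) = 0) :
    ContDiffOn ℝ ∞ (eta x) (tube N R) ∧
    (∀ k : Fin N → ℤ, ∀ p ∈ tube N R, eta x (p.1 + kv k, p.2) = eta x p) ∧
    ∀ p ∈ tube N R, ∀ u v, fderiv ℝ (eta x) p u v - fderiv ℝ (eta x) p v u = x p u v := by
  refine ⟨contDiffOn_eta hx, ?_, ?_⟩
  · intro k p hp
    unfold eta
    congr 1
    refine setIntegral_congr_fun isCompact_kK.measurableSet fun q hq => ?_
    have h1 : gv N ((p.1 + kv k, p.2), q) = gv N (p, q) := by simp [gv]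
    have h2 : gm N ((p.1 + kv k, p.2), q) = ((gm N (p, q)).1 + kv k, (gm N (p, q)).2) := by
      unfold gm
      rw [h1]
      refine Prod.ext ?_ ?_
      · simp only [Prod.fst_add]; abel
      · simp
    show zt x ((p.1 + kv k, p.2), q) = zt x (p, q)
    unfold zt
    rw [h1, h2, hx.per k _ (mem_sO hp hq.2)]
  · intro p hp u v
    have hR : 0 < R := lt_of_le_of_lt (norm_nonneg _) hp
    have hc : ContinuousOn (dx (zt x)) (sO N R) :=
      (contDiffOn_dx (isOpen_sO R) (contDiffOn_zt hx)).continuousOn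
    have hcu : ∀ u v : W N, ContinuousOn (fun q => dx (zt x) q u v) (sO N R) := fun u v =>
      (hc.clm_apply continuousOn_const).clm_apply continuousOn_const
    have i1 := cont_slice (hcu u v) hp
    have i2 := cont_slice (hcu v u) hp
    rw [fderiv_eta hx hp, fderiv_eta hx hp]
    have e1 : -(∫ q in kK N, dx (zt x) (p, q) u v) - -(∫ q in kK N, dx (zt x) (p, q) v u) =
        -∫ q in kK N, (dx (zt x) (p, q) u v - dx (zt x) (p, q) v u) := by
      rw [integral_sub i1 i2]; ring
    rw [e1]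
    have i3 : IntegrableOn (fun q : Pm N => dx (zt x) (p, q) u v - dx (zt x) (p, q) v u)
        (kK N) volume := i1.sub i2
    have e2 : ∫ q in kK N, (dx (zt x) (p, q) u v - dx (zt x) (p, q) v u) =
        ∫ a in Icc (0 : Fin N → ℝ) 1, ∫ s in Icc (0:ℝ) 1,
          (dx (zt x) (p, (a, s)) u v - dx (zt x) (p, (a, s)) v u) :=
      setIntegral_prod _ i3
    have e3 : ∀ a : Fin N → ℝ, ∫ s in Icc (0:ℝ) 1,
        (dx (zt x) (p, (a, s)) u v - dx (zt x) (p, (a, s)) v u) =
        x (WithLp.toLp 2 a + p.1, 0) (u.1, 0) (v.1, 0) - x p u v := by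
      intro a
      rw [integral_Icc_eq_integral_Ioc, ← intervalIntegral.integral_of_le zero_le_one]
      have hu : uIcc (0:ℝ) 1 = Icc 0 1 := uIcc_of_le zero_le_one
      rw [intervalIntegral.integral_eq_sub_of_hasDerivAt (f := hh x p a u v)
        (fun s hs => hasDerivAt_hh hx hp a (by rwa [hu] at hs) u v) ?_]
      · unfold hh
        rw [gm_one, gm_zero, gd_one, gd_one, gd_zero, gd_zero]
      · refine ContinuousOn.intervalIntegrable ?_
        rw [hu]
        have hm : MapsTo (fun s : ℝ => ((p, (a, s)) : W N × Pm N)) (Icc 0 1) (sO N R) :=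
          fun s hs => mem_sO hp hs
        exact ((hcu u v).comp (by fun_prop) hm).sub ((hcu v u).comp (by fun_prop) hm)
    rw [e2]
    simp_rw [e3]
    have hsp := sp_row hR hx u.1 v.1
    have hcf : Continuous fun a : Fin N → ℝ =>
        x (WithLp.toLp 2 a + p.1, 0) (u.1, 0) (v.1, 0) := by
      have h1 : Continuous fun a : Fin N → ℝ => (WithLp.toLp 2 a + p.1 : V N) :=
        (PiLp.continuous_toLp 2 _).add continuous_const
      exact hsp.cont.comp h1
    rw [integral_sub (hcf.continuousOn.integrableOn_compact isCompact_Icc)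
      (continuousOn_const.integrableOn_compact isCompact_Icc)]
    have e4 : ∫ a in Icc (0 : Fin N → ℝ) 1, x (WithLp.toLp 2 a + p.1, 0) (u.1, 0) (v.1, 0) = 0 := by
      have h1 := mn_eq_Icc (fun θ : V N => x (θ + p.1, 0) (u.1, 0) (v.1, 0))
      rw [h1]
      have h2 := mn_shift hsp p.1
      rw [h2, mn_row hR hx h0]
    have e5 : ∫ _a in Icc (0 : Fin N → ℝ) 1, x p u v = x p u v := by
      rw [setIntegral_const]
      have : (volume : Measure (Fin N → ℝ)).real (Icc 0 1) = 1 := by
        rw [measureReal_def, Real.volume_Icc_pi]; simp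
      rw [this, one_smul]
    rw [e4, e5]
    ring

end

end Crest.Agent.R281.Exo_368
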