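import Crest.Agent.R281.Exo2_368
import Crest.Agent.R281.Per5_368
import Crest.Agent.R281.T5D_808
import Mathlib.Analysis.Calculus.InverseFunctionTheorem.ContDiff

/-!
# R281, (t3) of the core (helper368), part 3: exactness on the open tube in `X`

* `ExOn C U v`     : the closed 2-form `v` is exact on the open set `U ⊆ X`
* `TubeO C N R Θ`  : `Θ : tube N R → X` smooth, local diffeomorphism, injective modulo `ℤ^N`
* `TubeO.isOpen`   : the image is open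
* `TubeO.exOn`     : zero horizontal means ==> exact on `Θ (tube N R)`
* `TubeO.exOn_per` : zero periods ==> exact on `Θ (tube N R)`
* `ExOn.per_zero`  : exact on `U` ==> all periods over periodic maps into `U` vanish
-/

set_option autoImplicit false
set_option maxSynthPendingDepth 3

open MeasureTheory Set Filter Topology Metric
open scoped ContDiff

namespace Crest.Agent.R281.Exo_368

open Crest.Agent.R281.Mc673
open Crest.Agent.R281.T5M_808
open Crest.Agent.R281.HkR_835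
open Crest.Agent.R281.Cdr_234 (sh isOpen_sh)
open Crest.Agent.R281.Per_368
open Crest.Agent.R238.Sch (ee)

noncomputable section

variable {V' X : Type} [NormedAddCommGroup V'] [NormedSpace ℝ V'] [TopologicalSpace X]

/-- `v` is exact on the open set `U` -/
def ExOn (C : RCh V' X) (U : Set X) (v : F2 C) : Prop :=
  ∃ θ : C.ι → V' → V' →L[ℝ] ℝ, (∀ i, ContDiffOn ℝ ∞ (θ i) (sh C i U)) ∧
    (∀ i j, ∀ z ∈ C.ov i j, (C.e i).symm z ∈ U → ∀ u,
      θ i z u = θ j (C.t i j z) (fderiv ℝ (C.t i j) z u)) ∧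
    ∀ i, ∀ z ∈ sh C i U, ∀ a b,
      fderiv ℝ (θ i) z a b - fderiv ℝ (θ i) z b a = v.w i z a b

/-- **exact on `U` ==> zero periods over periodic maps into `U`** -/
theorem ExOn.per_zero {C : RCh V' X} {U : Set X} (hU : IsOpen U) {v : F2 C} (hE : ExOn C U v)
    {E : Type*} [NormedAddCommGroup E] [NormedSpace ℝ E] {S : Set E} {Φ : E → X}
    (h : SmI C S Φ) (hm : ∀ ζ ∈ S, Φ ζ ∈ U) {z a b : E}
    (ha : ∀ ζ ∈ S, ζ + a ∈ S → Φ (ζ + a) = Φ ζ) (hb : ∀ ζ ∈ S, ζ + b ∈ S → Φ (ζ + b) = Φ ζ)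
    (hin : ∀ s ∈ Icc (0:ℝ) 1, ∀ t ∈ Icc (0:ℝ) 1, pt z a b s t ∈ S) :
    per (pull v Φ) z a b = 0 := by
  obtain ⟨θ, hs, ht, hd⟩ := hE
  have hSU : S ∩ Φ ⁻¹' U = S := by
    ext ζ; exact ⟨fun hζ => hζ.1, fun hζ => ⟨hζ, hm ζ hζ⟩⟩
  have hsm : ContDiffOn ℝ ∞ (pull1 C θ Φ) S := by
    have := h.pull1_smooth hU hs ht
    rwa [hSU] at this
  have key : ∀ l : E, (∀ ζ ∈ S, ζ + l ∈ S → Φ (ζ + l) = Φ ζ) → ∀ ζ ∈ S, ζ + l ∈ S →
      pull1 C θ Φ (ζ + l) = pull1 C θ Φ ζ := by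
    intro l hl ζ hζ hζl
    have hi := ci_mem C (Φ ζ)
    have hi' : Φ (ζ + l) ∈ (C.e (ci C (Φ ζ))).source := by rw [hl ζ hζ hζl]; exact hi
    rw [h.pull1_eq ht hζ (hm ζ hζ) hi, h.pull1_eq ht hζl (hm _ hζl) hi']
    have e1 : fderiv ℝ (fun y => C.e (ci C (Φ ζ)) (Φ y)) (ζ + l) =
        fderiv ℝ (fun y => C.e (ci C (Φ ζ)) (Φ y)) ζ := by
      have e2 := fderiv_comp_add_right (f := fun y => C.e (ci C (Φ ζ)) (Φ y)) (x := ζ) (𝕜 := ℝ) l
      rw [← e2]
      refine Filter.EventuallyEq.fderiv_eq ?_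
      have hO : ∀ᶠ y in 𝓝 ζ, y + l ∈ S :=
        (continuous_add_const l).continuousAt.eventually (h.op.mem_nhds hζl)
      filter_upwards [h.op.mem_nhds hζ, hO] with y hy hyl
      rw [hl y hy hyl]
    refine ContinuousLinearMap.ext fun u => ?_
    rw [pb1_apply, pb1_apply, e1, hl ζ hζ hζl]
  refine per_exact (U := S) h.op (η := pull1 C θ Φ) ?_ hin (fun ζ hζ => ?_) (key a ha) (key b hb)
  · exact hsm.of_le (by exact_mod_cast le_top)
  · exact h.pull1_d v hU hs ht hd hζ (hm ζ hζ) a b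

/-- `Θ : tube N R → X` smooth, a local diffeomorphism, injective modulo `ℤ^N` -/
structure TubeO (C : RCh V' X) (N : ℕ) (R : ℝ) (Θ : W N → X) : Prop where
  sm : SmI C (tube N R) Θ
  bij : ∀ p ∈ tube N R, ∀ i, Θ p ∈ (C.e i).source →
    Function.Bijective (fderiv ℝ (fun q => C.e i (Θ q)) p)
  eq_iff : ∀ p ∈ tube N R, ∀ q ∈ tube N R, Θ p = Θ q ↔ ∃ k : Fin N → ℤ, p = (q.1 + kv k, q.2)

theorem _root_.Crest.Agent.R281.T5D_808.TubeD.toO {C : RCh V' X} {w w' : F2 C} {N : ℕ}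
    {R Λ δ : ℝ} {Θ : W N → X} (h : T5D_808.TubeD C w w' N R Λ δ Θ) : TubeO C N R Θ :=
  ⟨h.sm, h.bij, h.eq_iff⟩

namespace TubeO

variable {C : RCh V' X} {N : ℕ} {R : ℝ} {Θ : W N → X}

/-- local inverse of `Θ` -/
theorem exists_inv (h : TubeO C N R Θ) {p : W N} (hp : p ∈ tube N R) {i : C.ι}
    (hi : Θ p ∈ (C.e i).source) :
    ∃ ψ : V' → W N, ContDiffAt ℝ ∞ ψ (C.e i (Θ p)) ∧ ψ (C.e i (Θ p)) = p ∧
      ∀ᶠ z in 𝓝 (C.e i (Θ p)), ψ z ∈ tube N R ∧ Θ (ψ z) ∈ (C.e i).source ∧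
        C.e i (Θ (ψ z)) = z ∧ Θ (ψ z) = (C.e i).symm z ∧
        ContDiffAt ℝ ∞ ψ z ∧
        (∀ u, fderiv ℝ ψ z (fderiv ℝ (fun q => C.e i (Θ q)) (ψ z) u) = u) ∧
        (∀ u, fderiv ℝ (fun q => C.e i (Θ q)) (ψ z) (fderiv ℝ ψ z u) = u) := by
  have hf : ContDiffAt ℝ ∞ (fun q => C.e i (Θ q)) p := h.sm.smAt hp hi
  set f : W N → V' := fun q => C.e i (Θ q) with hfdef
  have hb := h.bij p hp i hi
  have : FiniteDimensional ℝ V' := LinearEquiv.finiteDimensional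
    (LinearEquiv.ofBijective (fderiv ℝ f p : W N →ₗ[ℝ] V') hb)
  have : CompleteSpace V' := FiniteDimensional.complete ℝ V'
  set f' : W N ≃L[ℝ] V' :=
    (LinearEquiv.ofBijective (fderiv ℝ f p : W N →ₗ[ℝ] V') hb).toContinuousLinearEquiv with hf'
  have hff : HasFDerivAt f (f' : W N →L[ℝ] V') p := by
    have h1 := (hf.differentiableAt (by simp)).hasFDerivAt
    exact h1
  have h1n : (1 : WithTop ℕ∞) ≤ ∞ := by exact_mod_cast le_top
  set ψ : V' → W N := hf.localInverse hff (by simp) with hψ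
  have hψs : ContDiffAt ℝ ∞ ψ (f p) := hf.to_localInverse hff (by simp)
  have hst := hf.hasStrictFDerivAt' hff (by simp)
  have hψp : ψ (f p) = p := hst.localInverse_apply_image
  have hr : ∀ᶠ z in 𝓝 (f p), f (ψ z) = z := hst.eventually_right_inverse
  have hl : ∀ᶠ q in 𝓝 p, ψ (f q) = q := hst.eventually_left_inverse
  have hψc : Tendsto ψ (𝓝 (f p)) (𝓝 p) := by
    have := hψs.continuousAt
    rwa [ContinuousAt, hψp] at this
  have hO : ∀ᶠ q in 𝓝 p, q ∈ tube N R ∧ Θ q ∈ (C.e i).source :=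
    (h.sm.isOpen_pre (C.e i).open_source).mem_nhds ⟨hp, hi⟩
  have hsm : ∀ᶠ z in 𝓝 (f p), ContDiffAt ℝ ∞ ψ z := by
    have hsO : IsOpen {q : W N | q ∈ tube N R ∧ Θ q ∈ (C.e i).source} :=
      h.sm.isOpen_pre (C.e i).open_source
    -- use the inverse function theorem at the nearby points
    set e := hf.toOpenPartialHomeomorph f hff (by simp) with he
    have hes : e.symm = ψ := rfl
    have hec : (e : W N → V') = f := rfl
    have hpt : f p ∈ e.target := hf.image_mem_toOpenPartialHomeomorph_target hff (by simp)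
    have hft : ∀ᶠ z in 𝓝 (f p), z ∈ e.target := e.open_target.mem_nhds hpt
    filter_upwards [hft, hψc.eventually hO] with z hz hzO
    have hbz := h.bij (ψ z) hzO.1 i hzO.2
    have hfz : ContDiffAt ℝ ∞ f (e.symm z) := h.sm.smAt hzO.1 hzO.2
    have h3 : HasFDerivAt e (((LinearEquiv.ofBijective (fderiv ℝ f (ψ z) : W N →ₗ[ℝ] V')
        hbz).toContinuousLinearEquiv : W N ≃L[ℝ] V') : W N →L[ℝ] V') (e.symm z) :=
      (hfz.differentiableAt (by simp)).hasFDerivAt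
    exact e.contDiffAt_symm hz h3 hfz
  refine ⟨ψ, hψs, hψp, ?_⟩
  have hψO := hψc.eventually hO
  have hψl := hψc.eventually hl.eventually_nhds
  filter_upwards [hr, hr.eventually_nhds, hψO, hsm, hψl] with z hz hz' hzO hzs hzl
  have hzs' : (C.e i).symm z = Θ (ψ z) := by
    conv_lhs => rw [← hz]
    exact (C.e i).left_inv hzO.2
  have hdf : HasFDerivAt f (fderiv ℝ f (ψ z)) (ψ z) := (h.sm.diffAt hzO.1 hzO.2).hasFDerivAt
  have hdψ : HasFDerivAt ψ (fderiv ℝ ψ z) z := (hzs.differentiableAt (by simp)).hasFDerivAt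
  refine ⟨hzO.1, hzO.2, hz, hzs'.symm, hzs, fun u => ?_, fun u => ?_⟩
  · have h1 : HasFDerivAt (fun q => ψ (f q)) ((fderiv ℝ ψ z).comp (fderiv ℝ f (ψ z))) (ψ z) := by
      have hdψ' : HasFDerivAt ψ (fderiv ℝ ψ z) (f (ψ z)) := by rw [hz]; exact hdψ
      exact hdψ'.comp (ψ z) hdf
    have h2 : HasFDerivAt (fun q => ψ (f q)) (ContinuousLinearMap.id ℝ (W N)) (ψ z) :=
      (hasFDerivAt_id _).congr_of_eventuallyEq hzl
    exact congrArg (fun T : W N →L[ℝ] W N => T u) (h1.unique h2)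
  · have h1 : HasFDerivAt (fun y => f (ψ y)) ((fderiv ℝ f (ψ z)).comp (fderiv ℝ ψ z)) z :=
      hdf.comp z hdψ
    have h2 : HasFDerivAt (fun y => f (ψ y)) (ContinuousLinearMap.id ℝ V') z :=
      (hasFDerivAt_id _).congr_of_eventuallyEq hz'
    exact congrArg (fun T : V' →L[ℝ] V' => T u) (h1.unique h2)

/-- the image of the tube is open -/
theorem isOpen (h : TubeO C N R Θ) : IsOpen (Θ '' tube N R) := by
  rw [isOpen_iff_mem_nhds]
  rintro x ⟨p, hp, rfl⟩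
  have hi := ci_mem C (Θ p)
  set i := ci C (Θ p) with hidef
  obtain ⟨ψ, -, -, hev⟩ := h.exists_inv hp hi
  have h1 : ∀ᶠ y in 𝓝 (Θ p), y ∈ (C.e i).source := (C.e i).open_source.mem_nhds hi
  have h2 := ((C.e i).continuousAt hi).eventually hev
  filter_upwards [h1, h2] with y hy hy2
  refine ⟨ψ (C.e i y), hy2.1, ?_⟩
  rw [hy2.2.2.2.1, (C.e i).left_inv hy]

/-- periodicity of the differential -/
theorem fderiv_per (h : TubeO C N R Θ) {p : W N} (hp : p ∈ tube N R) (k : Fin N → ℤ) (i : C.ι) :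
    fderiv ℝ (fun q => C.e i (Θ q)) (p.1 + kv k, p.2) = fderiv ℝ (fun q => C.e i (Θ q)) p := by
  have e0 : ((p.1 + kv k, p.2) : W N) = p + ((kv k, 0) : W N) := by
    refine Prod.ext rfl ?_
    simp
  have e2 := fderiv_comp_add_right (f := fun q => C.e i (Θ q)) (x := p) (𝕜 := ℝ)
    ((kv k, 0) : W N)
  rw [e0, ← e2]
  refine Filter.EventuallyEq.fderiv_eq ?_
  filter_upwards [(isOpen_tube R).mem_nhds hp] with y hy
  have hy' : y + ((kv k, 0) : W N) ∈ tube N R := by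
    show ‖(y + ((kv k, 0) : W N)).2‖ < R
    rw [Prod.snd_add, add_zero]
    exact hy
  have : Θ (y + ((kv k, 0) : W N)) = Θ y := by
    refine (h.eq_iff _ hy' _ hy).2 ⟨k, ?_⟩
    refine Prod.ext rfl ?_
    simp
  rw [this]

open Classical in
/-- transport of a periodic 1-form on the tube to `X` -/
def tX (C : RCh V' X) (N : ℕ) (R : ℝ) (Θ : W N → X) (η : W N → W N →L[ℝ] ℝ) (i : C.ι) (z : V') :
    V' →L[ℝ] ℝ :=
  if h : ∃ q : W N × (V' →L[ℝ] W N), q.1 ∈ tube N R ∧ Θ q.1 = (C.e i).symm z ∧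
      (∀ u, q.2 (fderiv ℝ (fun y => C.e i (Θ y)) q.1 u) = u) ∧
      (∀ u, fderiv ℝ (fun y => C.e i (Θ y)) q.1 (q.2 u) = u)
  then (η h.choose.1).comp h.choose.2 else 0

theorem tX_eq (h : TubeO C N R Θ) {η : W N → W N →L[ℝ] ℝ}
    (hη : ∀ k : Fin N → ℤ, ∀ p ∈ tube N R, η (p.1 + kv k, p.2) = η p) {i : C.ι} {z : V'} {p : W N}
    (hp : p ∈ tube N R) (hz : Θ p = (C.e i).symm z) {L : V' →L[ℝ] W N}
    (hL : ∀ u, L (fderiv ℝ (fun y => C.e i (Θ y)) p u) = u)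
    (hL' : ∀ u, fderiv ℝ (fun y => C.e i (Θ y)) p (L u) = u) :
    tX C N R Θ η i z = (η p).comp L := by
  have hex : ∃ q : W N × (V' →L[ℝ] W N), q.1 ∈ tube N R ∧ Θ q.1 = (C.e i).symm z ∧
      (∀ u, q.2 (fderiv ℝ (fun y => C.e i (Θ y)) q.1 u) = u) ∧
      (∀ u, fderiv ℝ (fun y => C.e i (Θ y)) q.1 (q.2 u) = u) := ⟨(p, L), hp, hz, hL, hL'⟩
  unfold tX
  rw [dif_pos hex]
  obtain ⟨h1, h2, h3, h4⟩ := hex.choose_spec
  set q := hex.choose
  obtain ⟨k, hk⟩ := (h.eq_iff q.1 h1 p hp).1 (h2.trans hz.symm)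
  have e1 : η q.1 = η p := by rw [hk, hη k p hp]
  have e2 : fderiv ℝ (fun y => C.e i (Θ y)) q.1 = fderiv ℝ (fun y => C.e i (Θ y)) p := by
    rw [hk, h.fderiv_per hp]
  have e3 : q.2 = L := by
    refine ContinuousLinearMap.ext fun u => ?_
    have h5 := h3 (L u)
    rw [e2, hL'] at h5
    exact h5
  rw [e1, e3]

/-- local form of the transported 1-form -/
theorem tX_local (h : TubeO C N R Θ) {η : W N → W N →L[ℝ] ℝ}
    (hη : ∀ k : Fin N → ℤ, ∀ p ∈ tube N R, η (p.1 + kv k, p.2) = η p) {i : C.ι} {p : W N}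
    (hp : p ∈ tube N R) (hi : Θ p ∈ (C.e i).source) :
    ∃ ψ : V' → W N, ContDiffAt ℝ ∞ ψ (C.e i (Θ p)) ∧ ψ (C.e i (Θ p)) = p ∧
      (∀ u, fderiv ℝ ψ (C.e i (Θ p)) (fderiv ℝ (fun q => C.e i (Θ q)) p u) = u) ∧
      (∀ u, fderiv ℝ (fun q => C.e i (Θ q)) p (fderiv ℝ ψ (C.e i (Θ p)) u) = u) ∧
      tX C N R Θ η i =ᶠ[𝓝 (C.e i (Θ p))] pb1 η ψ := by
  obtain ⟨ψ, hs, hψp, hev⟩ := h.exists_inv hp hi
  have h0 := hev.self_of_nhds
  refine ⟨ψ, hs, hψp, ?_, ?_, ?_⟩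
  · have := h0.2.2.2.2.2.1
    rwa [hψp] at this
  · have := h0.2.2.2.2.2.2
    rwa [hψp] at this
  · filter_upwards [hev] with z hz
    exact h.tX_eq hη hz.1 hz.2.2.2.1 hz.2.2.2.2.2.1 hz.2.2.2.2.2.2

/-- **a periodic primitive on the tube gives exactness on the image** -/
theorem exOn_of_prim (h : TubeO C N R Θ) {v : F2 C} {η : W N → W N →L[ℝ] ℝ}
    (hs : ContDiffOn ℝ ∞ η (tube N R))
    (hη : ∀ k : Fin N → ℤ, ∀ p ∈ tube N R, η (p.1 + kv k, p.2) = η p)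
    (hd : ∀ p ∈ tube N R, ∀ a b, fderiv ℝ η p a b - fderiv ℝ η p b a = pull v Θ p a b) :
    ExOn C (Θ '' tube N R) v := by
  refine ⟨tX C N R Θ η, ?_, ?_, ?_⟩
  · rintro i z ⟨hz, p, hp, hpz⟩
    have hi : Θ p ∈ (C.e i).source := by rw [hpz]; exact (C.e i).map_target hz
    have hez : C.e i (Θ p) = z := by rw [hpz, (C.e i).right_inv hz]
    obtain ⟨ψ, hψ, hψp, -, -, hev⟩ := h.tX_local hη hp hi
    rw [hez] at hψ hψp hev
    have hηp : ContDiffAt ℝ ∞ η (ψ z) := by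
      rw [hψp]; exact hs.contDiffAt ((isOpen_tube R).mem_nhds hp)
    have h1 : ContDiffAt ℝ ∞ (fun y => η (ψ y)) z := hηp.comp z hψ
    have h2 : ContDiffAt ℝ ∞ (fderiv ℝ ψ) z := hψ.fderiv_right (by simp)
    have h3 : ContDiffAt ℝ ∞ (pb1 η ψ) z := h1.clm_comp h2
    exact (h3.congr_of_eventuallyEq hev).contDiffWithinAt
  · rintro i j z hz ⟨p, hp, hpz⟩ u
    have hi : Θ p ∈ (C.e i).source := by rw [hpz]; exact (C.e i).map_target hz.1
    have hj : Θ p ∈ (C.e j).source := by rw [hpz]; exact hz.2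
    have hez : C.e i (Θ p) = z := by rw [hpz, (C.e i).right_inv hz.1]
    obtain ⟨ψ, -, -, hL, hL', -⟩ := h.tX_local hη hp hi
    obtain ⟨ψ', -, -, hM, hM', -⟩ := h.tX_local hη hp hj
    rw [hez] at hL hL'
    have hsj : Θ p = (C.e j).symm (C.t i j z) := by
      show Θ p = (C.e j).symm (C.e j ((C.e i).symm z))
      rw [(C.e j).left_inv hz.2, hpz]
    have htz : C.e j (Θ p) = C.t i j z := by
      show C.e j (Θ p) = C.e j ((C.e i).symm z)
      rw [hpz]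
    rw [htz] at hM hM'
    rw [h.tX_eq hη hp hpz hL hL', h.tX_eq hη hp hsj hM hM']
    show η p (fderiv ℝ ψ z u) = η p (fderiv ℝ ψ' (C.t i j z) (fderiv ℝ (C.t i j) z u))
    have hch := h.sm.fderiv_change hp hi hj
    rw [hez] at hch
    have h5 : fderiv ℝ (C.t i j) z u =
        fderiv ℝ (fun y => C.e j (Θ y)) p (fderiv ℝ ψ z u) := by
      rw [hch]
      show _ = fderiv ℝ (C.t i j) z (fderiv ℝ (fun y => C.e i (Θ y)) p (fderiv ℝ ψ z u))
      rw [hL']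
    rw [h5, hM]
  · rintro i z ⟨hz, p, hp, hpz⟩ a b
    have hi : Θ p ∈ (C.e i).source := by rw [hpz]; exact (C.e i).map_target hz
    have hez : C.e i (Θ p) = z := by rw [hpz, (C.e i).right_inv hz]
    obtain ⟨ψ, hψ, hψp, hL, hL', hev⟩ := h.tX_local hη hp hi
    rw [hez] at hψ hψp hL hL' hev
    have hηp : ContDiffAt ℝ ∞ η (ψ z) := by
      rw [hψp]; exact hs.contDiffAt ((isOpen_tube R).mem_nhds hp)
    rw [hev.fderiv_eq]
    have h1 := dd_pb1 (θ := η) (φ := ψ) (z := z) (hηp.differentiableAt (by simp)) hψ a b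
    rw [dd_apply, dd_apply] at h1
    rw [h1, hψp, hd p hp, h.sm.pull_eq v hp hi, pl_apply, hL', hL', hez]

variable [FiniteDimensional ℝ V']

/-- the pull back of a closed 2-form to the tube -/
theorem clF (h : TubeO C N R Θ) (v : F2 C) : ClF R (pull v Θ) where
  sm := h.sm.pull_smooth v
  alt p hp a b := (h.sm.pull_cl v).alt p hp a b
  cl p hp a b c := (h.sm.pull_cl v).closed p hp a b c
  per k p hp := by
    have hl : ∀ ζ ∈ tube N R, ζ + ((kv k, 0) : W N) ∈ tube N R ∧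
        Θ (ζ + ((kv k, 0) : W N)) = Θ ζ := by
      intro ζ hζ
      have hy' : ζ + ((kv k, 0) : W N) ∈ tube N R := by
        show ‖(ζ + ((kv k, 0) : W N)).2‖ < R
        rw [Prod.snd_add, add_zero]
        exact hζ
      refine ⟨hy', (h.eq_iff _ hy' _ hζ).2 ⟨k, ?_⟩⟩
      refine Prod.ext rfl ?_
      simp
    have h1 := h.sm.pull_add v hl hp
    have e0 : ((p.1 + kv k, p.2) : W N) = p + ((kv k, 0) : W N) := by
      refine Prod.ext rfl ?_
      simp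
    rw [e0, h1]

/-- **(t3) zero horizontal means ==> `v` is exact on the open tube** -/
theorem exOn (h : TubeO C N R Θ) {v : F2 C}
    (h0 : ∀ j k, mn (fun θ => pull v Θ (θ, 0) (ee j, 0) (ee k, 0)) = 0) :
    ExOn C (Θ '' tube N R) v := by
  obtain ⟨h1, h2, h3⟩ := prim_tube (h.clF v) h0
  exact h.exOn_of_prim h1 h2 h3

/-- **(t3) zero periods ==> `v` is exact on the open tube** -/
theorem exOn_per (h : TubeO C N R Θ) (hR : 0 < R) {v : F2 C}
    (h0 : ∀ j k, ∀ θ : V N, per (pull v Θ) ((θ, 0) : W N) (ee j, 0) (ee k, 0) = 0) :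
    ExOn C (Θ '' tube N R) v :=
  h.exOn fun j k => mn_zero hR (h.clF v) j k (h0 j k)

end TubeO

end

end Crest.Agent.R281.Exo_368
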