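import Crest.Agent.R281.Exo3_368
import Crest.Agent.R281.TubT_831

/-!
# R281, (t3) of the core (helper368), part 4: the periods over the fibres of a holomorphic tube

* `pvt_of_exOn` : if the image of the holomorphic tube `Ψ` lies in an open set on which every
  closed form orthogonal to `e` is exact, then `PVT Q e D Ψ l`
* `ExOn.mono`   : restriction to a smaller open set
* `exOn_tubeD`  : the form in which `T5F_808.core` delivers the periods
-/

set_option autoImplicit false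
set_option maxSynthPendingDepth 3

open MeasureTheory Set Filter Topology Metric
open scoped ContDiff

namespace Crest.Agent.R281.Exo_368

open Crest.Agent.R275.Geo
open Crest.Agent.R281.HkR_835
open Crest.Agent.R281.Cdr_234 (sh isOpen_sh)
open Crest.Agent.R281.Per_368
open Crest.Agent.R281.Tub_831

noncomputable section

variable {V' X : Type} [NormedAddCommGroup V'] [NormedSpace ℝ V'] [TopologicalSpace X]
  {C : RCh V' X}

theorem ExOn.mono {U U' : Set X} (hUU : U' ⊆ U) {v : F2 C}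
    (h : ExOn C U v) : ExOn C U' v := by
  obtain ⟨θ, h1, h2, h3⟩ := h
  refine ⟨θ, fun i => (h1 i).mono fun z hz => ⟨hz.1, hUU hz.2⟩,
    fun i j z hz hzU => h2 i j z hz (hUU hzU), fun i z hz => h3 i z ⟨hz.1, hUU hz.2⟩⟩

/-- periods over the fibres of a map `Ψ : D × ℂⁿ → X` which is periodic fibre by fibre -/
theorem ExOn.per_fiber {U : Set X} (hU : IsOpen U) {v : F2 C} (hE : ExOn C U v)
    {E F : Type} [NormedAddCommGroup E] [NormedSpace ℝ E] [NormedAddCommGroup F]
    [NormedSpace ℝ F] {D : Set E} {Ψ : E × F → X} (h : SmI C (D ×ˢ univ) Ψ) {y : E} (hy : y ∈ D)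
    (hm : ∀ x : F, Ψ (y, x) ∈ U) {a b : F} (ha : ∀ x, Ψ (y, x + a) = Ψ (y, x))
    (hb : ∀ x, Ψ (y, x + b) = Ψ (y, x)) (x : F) :
    per (pull v Ψ) (y, x) (0, a) (0, b) = 0 := by
  set L : F →L[ℝ] E × F := ContinuousLinearMap.inr ℝ E F with hL
  have hLc : ∀ x : F, ((y, 0) : E × F) + L x = (y, x) := fun x => by simp [hL]
  have hS : (fun p : F => ((y, 0) : E × F) + L p) ⁻¹' (D ×ˢ univ) = univ := by
    ext p
    simp only [mem_preimage, hLc, mem_prod, mem_univ, and_true, iff_true]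
    exact hy
  have h1 : SmI C univ (fun p : F => Ψ (((y, 0) : E × F) + L p)) := by
    have := h.comp_affine L (y, 0)
    rwa [hS] at this
  have h2 := ExOn.per_zero hU hE h1 (fun ζ _ => by rw [hLc]; exact hm ζ) (z := x) (a := a)
    (b := b) (fun ζ _ _ => by rw [hLc, hLc, ha]) (fun ζ _ _ => by rw [hLc, hLc, hb])
    (fun _ _ _ _ => mem_univ _)
  rw [h.per_pull_affine L (y, 0) v (fun s _ t _ => by rw [hLc]; exact ⟨hy, mem_univ _⟩), hLc]
    at h2
  exact h2

open Crest.Agent.R281.Mc673 in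
open Crest.Agent.R238.Sch (ee) in
/-- (t3) in the form in which `T5F_808.core` delivers the periods -/
theorem exOn_tubeD [FiniteDimensional ℝ V'] {w w' : F2 C} {N : ℕ} {R Λ δ : ℝ} {Θ : W N → X}
    (h : T5D_808.TubeD C w w' N R Λ δ Θ) (hR : 0 < R) {v : F2 C}
    (h0 : ∀ p ∈ tube N R, ∀ j k, per (pull v Θ) p (ee j, 0) (ee k, 0) = 0) :
    IsOpen (Θ '' tube N R) ∧ ExOn C (Θ '' tube N R) v :=
  ⟨h.toO.isOpen, h.toO.exOn_per hR fun j k θ => h0 (θ, 0) (by
    show ‖(0 : Mc673.V N)‖ < R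
    rw [norm_zero]; exact hR) j k⟩

/-- **the periods over the tori of a holomorphic tube inside a set where the forms are exact** -/
theorem pvt_of_exOn {Q : F2 C →ₗ[ℝ] F2 C →ₗ[ℝ] ℝ} {e : F2 C} {J : C.ι → V' → V' →L[ℝ] V'}
    {w w' : F2 C} {n : ℕ} {D : Set (Cn n)} {Ψ : Cn n × Cn n → X}
    {l : Fin (2 * n) → Cn n → Cn n} {τ : Cn n → Cn n → Cn n → ℂ}
    (h : HolTube C J w w' n D Ψ l τ) {U : Set X} (hU : IsOpen U)
    (hm : ∀ y ∈ D, ∀ x, Ψ (y, x) ∈ U) (hE : ∀ v : F2 C, Q v e = 0 → ExOn C U v) :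
    PVT Q e D Ψ l := by
  intro v hv y hy x j k
  have key : ∀ j, ∀ x, Ψ (y, x + l j y) = Ψ (y, x) := by
    intro j x
    refine (h.eq_iff y hy y hy _ _).2 ⟨rfl, Pi.single j 1, ?_⟩
    rw [Finset.sum_eq_single j]
    · simp
    · intro k _ hk
      rw [Pi.single_eq_of_ne hk]; simp
    · intro hj; exact absurd (Finset.mem_univ j) hj
  exact (hE v hv).per_fiber hU h.sm hy (fun x => hm y hy x) (key j) (key k) x

end

end Crest.Agent.R281.Exo_368
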