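import Crest.Agent.R281.Ehp3_461

/-!
# R281 (S0424), exact-speed lifts (helper581), part 1: transport of a family, extension by one chart

* `Ch c y0 y`     : the point `c y` is the transport of `c y0`
* `trP`           : transport of a member inside one neighbourhood of transport, `trP_rep`
* `smooth_tr`     : the transport of a jointly smooth family is jointly smooth
* `ext_right`     : extension of an exact family over a further chart
-/

set_option autoImplicit false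
set_option maxSynthPendingDepth 5
set_option linter.unusedSectionVars false

open Set Filter Topology Complex
open scoped ContDiff

namespace Crest.Agent.R281.Exs_581

open Crest.Agent.R281.HkR_835 Crest.Agent.R281.Ehr2_268 Crest.Agent.R281.Dif_268
open Crest.Agent.R281.Ehr4_268 Crest.Agent.R281.CL_473 Crest.Agent.R281.Ehr6_268
open Crest.Agent.R281.Ehp_461

noncomputable section

universe uq

variable {Q : Type uq} [TopologicalSpace Q] {E H : Type} [NormedAddCommGroup E]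
  [NormedSpace ℂ E] [NormedAddCommGroup H] [NormedSpace ℂ H]
variable {V X : Type} [NormedAddCommGroup V] [NormedSpace ℝ V] [TopologicalSpace X]
variable [FiniteDimensional ℝ V] [CompactSpace X] [T2Space X] [FiniteDimensional ℂ H]
variable {F : QFam Q E H} {C C' : RCh V X}

/-- `c y` is the transport of `c y0` -/
def Ch (c : ℝ → (ls F C).Tot) (y0 y : ℝ) : Prop :=
  (ls F C).pr (c y) ∈ F.U ((ls F C).pr (c y0)) ∧ c y = (ls F C).tr (c y0) ((ls F C).pr (c y))

theorem Ch.ev {c : ℝ → (ls F C).Tot} (hc : Continuous c) (y0 : ℝ) :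
    ∀ᶠ y in 𝓝 y0, Ch c y0 y := by
  have h := path_loc (I := univ) hc.continuousOn (mem_univ y0)
  rwa [nhdsWithin_univ] at h

section trP

variable {cmp : Cmp C C'} {c : ℝ → (ls F C).Tot} {y0 y y' : ℝ} {P : HEmb C' H}

/-- transport of a member over `c y` to a member over `c y'` -/
def trP (h : Ch c y0 y) (h' : Ch c y0 y') (hP : Rep cmp (c y) P) : HEmb C' H :=
  (((mk' cmp ((ls F C).pr (c y)) P hP.choose).back ((ls F C).pr (c y0)) h.1).trIn
    ((ls F C).pr (c y')) h'.1).P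

theorem trP_u (h : Ch c y0 y) (h' : Ch c y0 y') (hP : Rep cmp (c y) P) (i : C'.ι) (z : V) :
    (trP h h' hP).u i z = F.Φ ((ls F C).pr (c y0)) (F.u ((ls F C).pr (c y')))
      (F.Ψ ((ls F C).pr (c y0)) (F.u ((ls F C).pr (c y))) (P.u i z)) := rfl

theorem trP_rep (h : Ch c y0 y) (h' : Ch c y0 y') (hP : Rep cmp (c y) P) :
    Rep cmp (c y') (trP h h' hP) := by
  set q0 : Q := (ls F C).pr (c y0) with hq0
  have hm : MQ.mk (mk' cmp ((ls F C).pr (c y)) P hP.choose) = c y := hP.choose_spec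
  set m : Mark F C := mk' cmp ((ls F C).pr (c y)) P hP.choose with hmdef
  have hma : m.q ∈ F.U q0 := h.1
  set m0 : Mark F C := m.back q0 hma with hm0
  have hy0 : (MQ.mk m0 : MQ F C) = c y0 := by
    have e1 : (ls F C).tr (c y0) ((ls F C).pr (c y)) = c y := h.2.symm
    have e2 : (MQ.mk m0).s m.q = MQ.mk m := by
      rw [MQ.s_mk_mem m0 (show m.q ∈ F.U m0.q from hma)]
      exact MQ.sound (trIn_back m hma)
    have e3 : (ls F C).tr (MQ.mk m0 : MQ F C) ((ls F C).pr (c y)) = c y := by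
      have : (MQ.mk m0).s m.q = c y := e2.trans hm
      exact this
    exact ((ls F C).tr_inj (x := c y0) (y := (MQ.mk m0 : MQ F C)) rfl h.1
      (e1.trans e3.symm)).symm
  have hmem : (ls F C).pr (c y') ∈ F.U m0.q := h'.1
  refine ⟨(m0.trIn ((ls F C).pr (c y')) hmem).cone, ?_⟩
  have e1 : c y' = (ls F C).tr (c y0) ((ls F C).pr (c y')) := h'.2
  have e2 : (MQ.mk m0).s ((ls F C).pr (c y')) = MQ.mk (m0.trIn ((ls F C).pr (c y')) hmem) :=
    MQ.s_mk_mem m0 hmem
  have e3 : (ls F C).tr (c y0) ((ls F C).pr (c y')) = (MQ.mk m0).s ((ls F C).pr (c y')) := by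
    rw [← hy0]; rfl
  exact (e1.trans (e3.trans e2)).symm

theorem memT (h : Ch c y0 y) (hP : Rep cmp (c y) P) {i : C'.ι} {z : V}
    (hz : z ∈ (C'.e i).target) :
    (F.u ((ls F C).pr (c y)), P.u i z) ∈ F.T ((ls F C).pr (c y0)) :=
  (F.T_eq _ _ h.1.1 _).mpr ((hP.cone _).mp (P.mem_cone hz))

theorem trP_self (h : Ch c y0 y) (h' : Ch c y0 y) (hP : Rep cmp (c y) P) :
    EqT (trP h h' hP) P := fun i z hz => by
  rw [trP_u]
  exact (F.hM _).right _ (F.ball_of_mem h.1) _ (memT h hP hz)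

end trP

/-- **the transport of a jointly smooth family is jointly smooth** -/
theorem smooth_tr {cmp : Cmp C C'} {c : ℝ → (ls F C).Tot} {y0 : ℝ}
    (hs : ContDiff ℝ ∞ fun t => F.u ((ls F C).pr (c t))) {α β : ℝ → ℝ} {A : ℝ → HEmb C' H}
    {t0 : ℝ} (hα : ContDiffAt ℝ ∞ α t0) (hβ : ContDiffAt ℝ ∞ β t0)
    (hch : ∀ᶠ t in 𝓝 t0, Ch c y0 (α t) ∧ Ch c y0 (β t) ∧ Rep cmp (c (β t)) (A t))
    {i : C'.ι} {z0 : V} (hz : z0 ∈ (C'.e i).target)
    (hA : ContDiffAt ℝ ∞ (fun p : ℝ × V => (A p.1).u i p.2) (t0, z0)) :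
    ContDiffAt ℝ ∞ (fun p : ℝ × V => F.Φ ((ls F C).pr (c y0)) (F.u ((ls F C).pr (c (α p.1))))
      (F.Ψ ((ls F C).pr (c y0)) (F.u ((ls F C).pr (c (β p.1)))) ((A p.1).u i p.2))) (t0, z0) := by
  set q0 : Q := (ls F C).pr (c y0) with hq0
  obtain ⟨ha0, hb0, hr0⟩ := hch.self_of_nhds
  have g0 : ∀ {γ : ℝ → ℝ}, ContDiffAt ℝ ∞ γ t0 →
      ContDiffAt ℝ ∞ (fun p : ℝ × V => F.u ((ls F C).pr (c (γ p.1)))) (t0, z0) := by
    intro γ hγ
    have h1 : ContDiffAt ℝ ∞ (fun t => F.u ((ls F C).pr (c (γ t)))) t0 :=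
      hs.contDiffAt.comp t0 hγ
    exact ContDiffAt.comp (g := fun t => F.u ((ls F C).pr (c (γ t)))) (f := Prod.fst) (t0, z0) h1
      contDiffAt_fst
  have hev : ∀ᶠ p : ℝ × V in 𝓝 (t0, z0), (Ch c y0 (α p.1) ∧ Ch c y0 (β p.1) ∧
      Rep cmp (c (β p.1)) (A p.1)) ∧ p.2 ∈ (C'.e i).target :=
    ((continuous_fst.tendsto (t0, z0)).eventually hch).and
      (continuousAt_snd.eventually ((C'.e i).open_target.mem_nhds hz))
  -- the inverse transport
  have h1 : ContDiffAt ℝ ∞ (fun p : ℝ × V => F.Ψ q0 (F.u ((ls F C).pr (c (β p.1))))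
      ((A p.1).u i p.2)) (t0, z0) := by
    obtain ⟨G, hG, hGe⟩ := (F.hM q0).ext' _ (F.ball_of_mem hb0.1) _ (memT hb0 hr0 hz)
    have hp : ContDiffAt ℝ ∞ (fun p : ℝ × V => (F.u ((ls F C).pr (c (β p.1))),
        (A p.1).u i p.2)) (t0, z0) := (g0 hβ).prodMk hA
    refine ((hG.of_le le_top).comp (f := fun p : ℝ × V => (F.u ((ls F C).pr (c (β p.1))),
        (A p.1).u i p.2)) (t0, z0) hp).congr_of_eventuallyEq ?_
    filter_upwards [hev, hp.continuousAt.eventually hGe] with p hp1 hp2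
    exact (hp2 (memT hp1.1.2.1 hp1.1.2.2 hp1.2)).symm
  have hm : (F.u q0, F.Ψ q0 (F.u ((ls F C).pr (c (β t0)))) ((A t0).u i z0)) ∈ F.T q0 :=
    (F.hM q0).maps' _ (F.ball_of_mem hb0.1) _ (memT hb0 hr0 hz)
  obtain ⟨G, hG, hGe, -⟩ := (F.hM q0).ext _ (F.ball_of_mem ha0.1) _ hm
  have hp : ContDiffAt ℝ ∞ (fun p : ℝ × V => (F.u ((ls F C).pr (c (α p.1))),
      F.Ψ q0 (F.u ((ls F C).pr (c (β p.1)))) ((A p.1).u i p.2))) (t0, z0) := (g0 hα).prodMk h1
  refine ((hG.of_le le_top).comp (f := fun p : ℝ × V => (F.u ((ls F C).pr (c (α p.1))),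
      F.Ψ q0 (F.u ((ls F C).pr (c (β p.1)))) ((A p.1).u i p.2))) (t0, z0)
      hp).congr_of_eventuallyEq ?_
  filter_upwards [hev, hp.continuousAt.eventually hGe] with p hp1 hp2
  refine (hp2 ?_).symm
  exact (F.hM q0).maps' _ (F.ball_of_mem hp1.1.2.1.1) _ (memT hp1.1.2.1 hp1.1.2.2 hp1.2)

/-! ### smooth stops -/

/-- smooth function which is `t` for `t ≤ a` and `b` for `b ≤ t` -/
def stop (a b t : ℝ) : ℝ := t + (b - t) * Real.smoothTransition ((t - a) / (b - a))

theorem stop_contDiff (a b : ℝ) : ContDiff ℝ ∞ (stop a b) := by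
  have h1 : ContDiff ℝ ∞ fun t : ℝ => (t - a) / (b - a) :=
    (contDiff_id.sub contDiff_const).div_const _
  have h2 : ContDiff ℝ ∞ Real.smoothTransition := Real.smoothTransition.contDiff
  exact contDiff_id.add ((contDiff_const.sub contDiff_id).mul (h2.comp h1))

theorem stop_left {a b t : ℝ} (hab : a < b) (h : t ≤ a) : stop a b t = t := by
  rw [stop, Real.smoothTransition.zero_of_nonpos
    (div_nonpos_of_nonpos_of_nonneg (by linarith) (by linarith))]
  ring

theorem stop_right {a b t : ℝ} (hab : a < b) (h : b ≤ t) : stop a b t = b := by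
  rw [stop, Real.smoothTransition.one_of_one_le ((one_le_div (by linarith)).mpr (by linarith))]
  ring

theorem stop_le {a b : ℝ} (hab : a < b) (t : ℝ) : stop a b t ≤ b := by
  rcases le_total b t with h | h
  · rw [stop_right hab h]
  · have h1 := Real.smoothTransition.le_one ((t - a) / (b - a))
    rw [stop]
    nlinarith [sub_nonneg.mpr h]

theorem le_stop {a b t : ℝ} (h : t ≤ b) : t ≤ stop a b t := by
  have h1 := Real.smoothTransition.nonneg ((t - a) / (b - a))
  rw [stop]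
  nlinarith [mul_nonneg (sub_nonneg.mpr h) h1]

theorem lt_stop {a b k t : ℝ} (hab : a < b) (hk : k < b) (h : k < t) : k < stop a b t := by
  rcases le_total b t with h1 | h1
  · rw [stop_right hab h1]; exact hk
  · exact h.trans_le (le_stop h1)

/-- **extension over one chart, to the right** -/
theorem ext_right {cmp : Cmp C C'} {c : ℝ → (ls F C).Tot}
    (hs : ContDiff ℝ ∞ fun t => F.u ((ls F C).pr (c t))) {a s s' y0 κ : ℝ} (hκ : κ < s)
    (has : a < s) (hss : s ≤ s') (hch : ∀ y ∈ Icc s s', ∀ᶠ y' in 𝓝 y, Ch c y0 y')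
    {A : ℝ → HEmb C' H} (hA : SmP A) (hR : ∀ t ∈ Icc a s, Rep cmp (c t) (A t)) :
    ∃ A' : ℝ → HEmb C' H, SmP A' ∧ (∀ t ∈ Icc a s', Rep cmp (c t) (A' t)) ∧
      ∀ t ≤ κ, EqT (A' t) (A t) := by
  obtain ⟨ε, hε, hU⟩ : ∃ ε > 0, ∀ y, s - ε < y → y < s' + ε → Ch c y0 y := by
    obtain ⟨ε1, h1, h1'⟩ := Metric.eventually_nhds_iff.mp (hch s ⟨le_rfl, hss⟩)
    obtain ⟨ε2, h2, h2'⟩ := Metric.eventually_nhds_iff.mp (hch s' ⟨hss, le_rfl⟩)
    refine ⟨min ε1 ε2, lt_min h1 h2, fun y hy hy' => ?_⟩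
    have e1 := min_le_left ε1 ε2
    have e2 := min_le_right ε1 ε2
    rcases lt_or_ge y s with h3 | h3
    · refine h1' ?_
      rw [Real.dist_eq, abs_lt]
      constructor <;> linarith
    · rcases lt_or_ge s' y with h4 | h4
      · refine h2' ?_
        rw [Real.dist_eq, abs_lt]
        constructor <;> linarith
      · exact (hch y ⟨h3, h4⟩).self_of_nhds
  obtain ⟨k0, hk0, hk0s⟩ := exists_between (max_lt hκ (max_lt has (show s - ε < s by linarith)))
  obtain ⟨k1, hk1, hk1s⟩ := exists_between hk0s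
  obtain ⟨k2, hk2, hk2s⟩ := exists_between hk1s
  have b1 : κ < k0 := (le_max_left _ _).trans_lt hk0
  have b2 : a < k0 := ((le_max_left _ _).trans (le_max_right _ _)).trans_lt hk0
  have b3 : s - ε < k0 := ((le_max_right _ _).trans (le_max_right _ _)).trans_lt hk0
  set η : ℝ → ℝ := stop k2 s with hη
  set θ : ℝ → ℝ := stop s' (s' + ε / 2) with hθ
  have hse : s' < s' + ε / 2 := by linarith
  have hη1 : ∀ t, max (η t) k0 ∈ Icc k0 s := fun t =>
    ⟨le_max_right _ _, max_le (stop_le hk2s t) hk0s.le⟩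
  have hθ1 : ∀ t, max (θ t) k0 ∈ Icc k0 (s' + ε / 2) := fun t =>
    ⟨le_max_right _ _, max_le (stop_le hse t) (by linarith)⟩
  have cη : ∀ t, Ch c y0 (max (η t) k0) := fun t =>
    hU _ (b3.trans_le (hη1 t).1) (by have := (hη1 t).2; linarith)
  have cθ : ∀ t, Ch c y0 (max (θ t) k0) := fun t =>
    hU _ (b3.trans_le (hθ1 t).1) (by have := (hθ1 t).2; linarith)
  have rη : ∀ t, Rep cmp (c (max (η t) k0)) (A (max (η t) k0)) := fun t =>
    hR _ ⟨b2.le.trans (hη1 t).1, (hη1 t).2⟩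
  let B : ℝ → HEmb C' H := fun t => trP (cη t) (cθ t) (rη t)
  have hηk : ∀ {t}, k0 < t → max (η t) k0 = η t := fun {t} ht =>
    max_eq_left (lt_stop hk2s hk0s ht).le
  have hθk : ∀ {t}, k0 < t → max (θ t) k0 = θ t := fun {t} ht =>
    max_eq_left (lt_stop hse (by linarith) ht).le
  have hBA : ∀ t, k0 < t → t ≤ k2 → EqT (B t) (A t) := by
    intro t ht ht' i z hz
    have e1 : max (η t) k0 = t := by rw [hηk ht]; exact stop_left hk2s ht'
    have e2 : max (θ t) k0 = t := by rw [hθk ht]; exact stop_left hse (by linarith)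
    have e3 : (B t).u i z = F.Φ ((ls F C).pr (c y0)) (F.u ((ls F C).pr (c (max (θ t) k0))))
      (F.Ψ ((ls F C).pr (c y0)) (F.u ((ls F C).pr (c (max (η t) k0))))
        ((A (max (η t) k0)).u i z)) := rfl
    rw [e3, e1, e2]
    have h3 : Ch c y0 t := e1 ▸ cη t
    have h4 : Rep cmp (c t) (A t) := e1 ▸ rη t
    exact (F.hM _).right _ (F.ball_of_mem h3.1) _ (memT h3 h4 hz)
  refine ⟨fun t => if t ≤ k1 then A t else B t, ?_, ?_, ?_⟩
  · rintro i ⟨t0, z0⟩ ⟨-, hz0⟩
    refine ContDiffAt.contDiffWithinAt ?_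
    rcases lt_or_ge t0 k2 with h | h
    · refine (hA.at i t0 hz0).congr_of_eventuallyEq ?_
      have e1 : ∀ᶠ p : ℝ × V in 𝓝 (t0, z0), p.1 < k2 :=
        (continuous_fst.tendsto (t0, z0)).eventually (eventually_lt_nhds h)
      have e2 : ∀ᶠ p : ℝ × V in 𝓝 (t0, z0), p.2 ∈ (C'.e i).target :=
        continuousAt_snd.eventually ((C'.e i).open_target.mem_nhds hz0)
      filter_upwards [e1, e2] with p hp1 hp2
      split_ifs with h5
      · rfl
      · exact hBA p.1 (hk1.trans (not_le.mp h5)) hp1.le i p.2 hp2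
    · have ht0 : k1 < t0 := hk2.trans_le h
      have hk : k0 < t0 := hk1.trans ht0
      have h1 : ContDiffAt ℝ ∞ (fun p : ℝ × V => (A (η p.1)).u i p.2) (t0, z0) := by
        have e2 : ContDiffAt ℝ ∞ (fun p : ℝ × V => (η p.1, p.2)) (t0, z0) :=
          ((stop_contDiff k2 s).contDiffAt.comp (t0, z0) contDiffAt_fst).prodMk contDiffAt_snd
        exact (hA.at i (η t0) hz0).comp (f := fun p : ℝ × V => (η p.1, p.2)) (t0, z0) e2
      have h2 := smooth_tr (cmp := cmp) (y0 := y0) hs (α := θ) (β := η) (A := fun t => A (η t))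
        (t0 := t0) (stop_contDiff s' (s' + ε / 2)).contDiffAt (stop_contDiff k2 s).contDiffAt
        (by
          filter_upwards [eventually_gt_nhds hk] with t ht
          have e1 := cθ t
          have e2 := cη t
          have e3 := rη t
          rw [hθk ht] at e1
          rw [hηk ht] at e2 e3
          exact ⟨e1, e2, e3⟩) hz0 h1
      refine h2.congr_of_eventuallyEq ?_
      have e1 : ∀ᶠ p : ℝ × V in 𝓝 (t0, z0), k1 < p.1 :=
        (continuous_fst.tendsto (t0, z0)).eventually (eventually_gt_nhds ht0)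
      filter_upwards [e1] with p hp
      have e4 : k0 < p.1 := hk1.trans hp
      have e3 : (B p.1).u i p.2 = F.Φ ((ls F C).pr (c y0))
        (F.u ((ls F C).pr (c (max (θ p.1) k0))))
        (F.Ψ ((ls F C).pr (c y0)) (F.u ((ls F C).pr (c (max (η p.1) k0))))
          ((A (max (η p.1) k0)).u i p.2)) := rfl
      rw [if_neg (not_le.mpr hp), e3, hηk e4, hθk e4]
  · intro t ht
    dsimp only
    split_ifs with h
    · exact hR t ⟨ht.1, h.trans (hk2.trans hk2s).le⟩
    · have h1 : k1 < t := not_le.mp h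
      have h2 : Rep cmp (c (max (θ t) k0)) (B t) := trP_rep (cη t) (cθ t) (rη t)
      have h3 : max (θ t) k0 = t := by
        rw [hθk (hk1.trans h1)]; exact stop_left hse ht.2
      rwa [h3] at h2
  · intro t ht
    show EqT (if t ≤ k1 then A t else B t) (A t)
    rw [if_pos (ht.trans (b1.trans hk1).le)]
    exact EqT.refl _

end

end Crest.Agent.R281.Exs_581
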