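import Crest.Agent.R281.Exs1_581

/-!
# R281 (S0424), exact-speed lifts (helper581), part 2: paths on the whole line

* `right`, `left`   : extension of an exact family to a larger compact interval
* `exists_exact`    : **exact-speed lift**: over every continuous path `c : ℝ → (ls F C).Tot` with
                      smooth projection to the parameter space there is a jointly smooth family of
                      members `A : ℝ → HEmb C' H`, `A t` over `c t` for ALL `t`, `A 0 = P0`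
-/

set_option autoImplicit false
set_option maxSynthPendingDepth 5
set_option linter.unusedSectionVars false

open Set Filter Topology Complex
open scoped ContDiff

namespace Crest.Agent.R281.Exs_581

open Crest.Agent.R281.HkR_835 Crest.Agent.R281.Ehr2_268 Crest.Agent.R281.Dif_268
open Crest.Agent.R281.Ehr4_268 Crest.Agent.R281.CL_473 Crest.Agent.R281.Ehr6_268
open Crest.Agent.R281.Ehp_461

noncomputable section

universe uq

variable {Q : Type uq} [TopologicalSpace Q] {E H : Type} [NormedAddCommGroup E]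
  [NormedSpace ℂ E] [NormedAddCommGroup H] [NormedSpace ℂ H]
variable {V X : Type} [NormedAddCommGroup V] [NormedSpace ℝ V] [TopologicalSpace X]
variable [FiniteDimensional ℝ V] [CompactSpace X] [T2Space X] [FiniteDimensional ℂ H]
variable {F : QFam Q E H} {C C' : RCh V X}

/-- exact family over `c` on `[a, b]` -/
structure ExF (cmp : Cmp C C') (c : ℝ → (ls F C).Tot) (a b : ℝ) (A : ℝ → HEmb C' H) : Prop where
  sm : SmP A
  rep : ∀ t ∈ Icc a b, Rep cmp (c t) (A t)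

theorem right {cmp : Cmp C C'} {c : ℝ → (ls F C).Tot} (hc : Continuous c)
    (hs : ContDiff ℝ ∞ fun t => F.u ((ls F C).pr (c t))) {a s b κ : ℝ} (hκ : κ < s)
    (has : a < s) (hsb : s ≤ b) {A : ℝ → HEmb C' H} (hA : ExF cmp c a s A) :
    ∃ A' : ℝ → HEmb C' H, ExF cmp c a b A' ∧ ∀ t ≤ κ, EqT (A' t) (A t) := by
  let O : Icc s b → Set (Icc s b) := fun y0 => {y | ∀ᶠ y' in 𝓝 (y : ℝ), Ch c y0 y'}
  obtain ⟨t, ht0, htm, ⟨m, hm⟩, ht⟩ := exists_monotone_Icc_subset_open_cover_Icc hsb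
    (c := O) (fun y0 => isOpen_setOfPred_eventually_nhds.preimage continuous_subtype_val)
    (fun y _ => mem_iUnion.mpr ⟨y, Ch.ev hc y⟩)
  have key : ∀ n, ∃ A' : ℝ → HEmb C' H, ExF cmp c a (t n) A' ∧ ∀ x ≤ κ, EqT (A' x) (A x) := by
    intro n
    induction n with
    | zero =>
      rw [ht0]
      exact ⟨A, hA, fun x _ => EqT.refl _⟩
    | succ n ih =>
      obtain ⟨A', hA', he⟩ := ih
      obtain ⟨y0, hy0⟩ := ht n
      have h1 : s ≤ t n := (t n).2.1
      obtain ⟨A'', h2, h3, h4⟩ := ext_right (cmp := cmp) hs (y0 := y0) (hκ.trans_le h1)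
        (has.trans_le h1) (show (t n : ℝ) ≤ t (n + 1) from htm (Nat.le_succ n))
        (fun y hy => by
          have h5 : y ∈ Icc s b := ⟨h1.trans hy.1, hy.2.trans (t (n + 1)).2.2⟩
          exact hy0 (show (⟨y, h5⟩ : Icc s b) ∈ Icc (t n) (t (n + 1)) from ⟨hy.1, hy.2⟩))
        hA'.sm hA'.rep
      exact ⟨A'', ⟨h2, h3⟩, fun x hx => (h4 x hx).trans (he x hx)⟩
  obtain ⟨A', h1, h2⟩ := key m
  rw [hm m le_rfl] at h1
  exact ⟨A', h1, h2⟩

theorem left {cmp : Cmp C C'} {c : ℝ → (ls F C).Tot} (hc : Continuous c)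
    (hs : ContDiff ℝ ∞ fun t => F.u ((ls F C).pr (c t))) {a s b κ : ℝ} (hκ : s < κ)
    (hsb : s < b) (has : a ≤ s) {A : ℝ → HEmb C' H} (hA : ExF cmp c s b A) :
    ∃ A' : ℝ → HEmb C' H, ExF cmp c a b A' ∧ ∀ t, κ ≤ t → EqT (A' t) (A t) := by
  have hn : ContDiff ℝ ∞ fun t : ℝ => -t := contDiff_neg
  obtain ⟨A', h1, h2⟩ := right (cmp := cmp) (c := fun t => c (-t)) (hc.comp continuous_neg)
    (hs.comp hn) (a := -b) (s := -s) (b := -a) (κ := -κ) (by linarith) (by linarith)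
    (by linarith) (A := fun t => A (-t)) ⟨hA.sm.comp hn, fun t ht => hA.rep (-t)
      ⟨by linarith [ht.2], by linarith [ht.1]⟩⟩
  refine ⟨fun t => A' (-t), ⟨h1.sm.comp hn, fun t ht => ?_⟩, fun t ht => ?_⟩
  · have h3 := h1.rep (-t) ⟨by linarith [ht.2], by linarith [ht.1]⟩
    simpa only [neg_neg] using h3
  · have h3 := h2 (-t) (by linarith)
    simpa only [neg_neg] using h3

/-- the local family -/
theorem exists_local {cmp : Cmp C C'} {c : ℝ → (ls F C).Tot} (hc : Continuous c)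
    (hs : ContDiff ℝ ∞ fun t => F.u ((ls F C).pr (c t))) {P0 : HEmb C' H}
    (h0 : Rep cmp (c 0) P0) : ∃ (ε : ℝ) (A : ℝ → HEmb C' H), 0 < ε ∧ ExF cmp c (-ε) ε A ∧
      EqT (A 0) P0 := by
  obtain ⟨r, hr, hr'⟩ := Metric.eventually_nhds_iff.mp (Ch.ev hc 0)
  set ε : ℝ := r / 2 with hε
  have hε0 : 0 < ε := by positivity
  -- smooth cut-off of the identity
  let θ : ℝ → ℝ := fun t => t * Real.smoothTransition (2 - (t / ε) ^ 2)
  have hθs : ContDiff ℝ ∞ θ := by
    have h1 : ContDiff ℝ ∞ fun t : ℝ => 2 - (t / ε) ^ 2 :=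
      contDiff_const.sub ((contDiff_id.div_const _).pow 2)
    have h2 : ContDiff ℝ ∞ Real.smoothTransition := Real.smoothTransition.contDiff
    exact contDiff_id.mul (h2.comp h1)
  have hθ1 : ∀ t ∈ Icc (-ε) ε, θ t = t := by
    intro t ht
    have h1 : (t / ε) ^ 2 ≤ 1 := by
      rw [sq_le_one_iff_abs_le_one, abs_div, abs_of_pos hε0, div_le_one hε0]
      exact abs_le.mpr ht
    show t * Real.smoothTransition (2 - (t / ε) ^ 2) = t
    rw [Real.smoothTransition.one_of_one_le (by linarith), mul_one]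
  have hθ2 : ∀ t, |θ t| < r := by
    intro t
    show |t * Real.smoothTransition (2 - (t / ε) ^ 2)| < r
    rw [abs_mul, abs_of_nonneg (Real.smoothTransition.nonneg _)]
    rcases lt_or_ge |t| r with h | h
    · have h1 := Real.smoothTransition.le_one (2 - (t / ε) ^ 2)
      nlinarith [abs_nonneg t]
    · have h1 : 2 ≤ (t / ε) ^ 2 := by
        have h2 : 2 ≤ |t / ε| := by
          rw [abs_div, abs_of_pos hε0, le_div_iff₀ hε0]
          rw [hε]
          linarith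
        nlinarith [sq_abs (t / ε)]
      rw [Real.smoothTransition.zero_of_nonpos (by linarith), mul_zero]
      exact hr
  have hch : ∀ t, Ch c 0 (θ t) := fun t => hr' (by simpa [Real.dist_eq] using hθ2 t)
  have hch0 : Ch c 0 0 := hr' (by simpa using hr)
  refine ⟨ε, fun t => trP hch0 (hch t) h0, hε0, ⟨?_, ?_⟩, ?_⟩
  · rintro i ⟨t0, z0⟩ ⟨-, hz0⟩
    have h1 : ContDiffAt ℝ ∞ (fun p : ℝ × V => P0.u i p.2) (t0, z0) :=
      ContDiffAt.comp (g := P0.u i) (t0, z0)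
        ((P0.sm i).contDiffAt ((C'.e i).open_target.mem_nhds hz0)) contDiffAt_snd
    have h2 := smooth_tr (cmp := cmp) (y0 := 0) hs (α := θ) (β := fun _ => (0 : ℝ))
      (A := fun _ => P0) (t0 := t0) hθs.contDiffAt contDiffAt_const
      (Eventually.of_forall fun t => ⟨hch t, hch0, h0⟩) hz0 h1
    exact h2.contDiffWithinAt
  · intro t ht
    have h1 : Rep cmp (c (θ t)) (trP hch0 (hch t) h0) := trP_rep hch0 (hch t) h0
    exact (congrArg c (hθ1 t ht)) ▸ h1
  · have h1 : θ 0 = 0 := hθ1 0 ⟨by linarith, hε0.le⟩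
    intro i z hz
    show F.Φ ((ls F C).pr (c 0)) (F.u ((ls F C).pr (c (θ 0))))
      (F.Ψ ((ls F C).pr (c 0)) (F.u ((ls F C).pr (c 0))) (P0.u i z)) = P0.u i z
    rw [h1]
    exact (F.hM _).right _ (F.ball_of_mem hch0.1) _ (memT hch0 h0 hz)

/-- **exact-speed lift** of a smooth path of the marked cover -/
theorem exists_exact {cmp : Cmp C C'} {c : ℝ → (ls F C).Tot} (hc : Continuous c)
    (hs : ContDiff ℝ ∞ fun t => F.u ((ls F C).pr (c t))) {P0 : HEmb C' H}
    (h0 : Rep cmp (c 0) P0) : ∃ A : ℝ → HEmb C' H, SmP A ∧ EqT (A 0) P0 ∧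
      ∀ t, Rep cmp (c t) (A t) := by
  -- the sequence of families
  have step : ∀ (n : ℕ) (A : ℝ → HEmb C' H), ExF cmp c (-((n : ℝ) + 1)) ((n : ℝ) + 1) A →
      ∃ A' : ℝ → HEmb C' H, ExF cmp c (-(((n + 1 : ℕ) : ℝ) + 1)) (((n + 1 : ℕ) : ℝ) + 1) A' ∧
        ∀ t : ℝ, |t| ≤ (n : ℝ) + 1 / 2 → EqT (A' t) (A t) := by
    intro n A hA
    have hn : (0 : ℝ) ≤ n := Nat.cast_nonneg n
    obtain ⟨A1, h1, h1'⟩ := right hc hs (κ := n + 1 / 2) (by linarith) (by linarith)
      (show (n : ℝ) + 1 ≤ (n + 1 : ℕ) + 1 by push_cast; linarith) hA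
    obtain ⟨A2, h2, h2'⟩ := left hc hs (κ := -(n + 1 / 2)) (by linarith) (by push_cast; linarith)
      (show -(((n + 1 : ℕ) : ℝ) + 1) ≤ -((n : ℝ) + 1) by push_cast; linarith) h1
    refine ⟨A2, h2, fun t ht => ?_⟩
    have h3 := abs_le.mp ht
    exact (h2' t h3.1).trans (h1' t h3.2)
  obtain ⟨ε, A, hε, hA, hA0⟩ := exists_local hc hs h0
  -- the first family
  obtain ⟨B0, hB0, hB00⟩ : ∃ B0 : ℝ → HEmb C' H, ExF cmp c (-(((0 : ℕ) : ℝ) + 1)) (((0 : ℕ) : ℝ) + 1) B0 ∧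
      EqT (B0 0) P0 := by
    set δ : ℝ := min ε 1 with hδ
    have hδ0 : 0 < δ := lt_min hε one_pos
    have hδ1 : δ ≤ 1 := min_le_right _ _
    have hA' : ExF cmp c (-δ) δ A := ⟨hA.sm, fun t ht => hA.rep t
      ⟨by have := min_le_left ε 1; linarith [ht.1], ht.2.trans (min_le_left _ _)⟩⟩
    obtain ⟨A1, h1, h1'⟩ := right hc hs (κ := δ / 2) (by linarith) (by linarith)
      (show δ ≤ ((0 : ℕ) : ℝ) + 1 by push_cast; linarith) hA'
    obtain ⟨A2, h2, h2'⟩ := left hc hs (κ := -(δ / 2)) (by linarith) (by push_cast; linarith)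
      (show -(((0 : ℕ) : ℝ) + 1) ≤ -δ by push_cast; linarith) h1
    exact ⟨A2, h2, ((h2' 0 (by linarith)).trans (h1' 0 (by linarith))).trans hA0⟩
  let S : ∀ n : ℕ, {A : ℝ → HEmb C' H // ExF cmp c (-((n : ℝ) + 1)) ((n : ℝ) + 1) A} := fun n =>
    Nat.rec (motive := fun n => {A : ℝ → HEmb C' H //
        ExF cmp c (-(((n : ℕ) : ℝ) + 1)) (((n : ℕ) : ℝ) + 1) A})
      ⟨B0, hB0⟩ (fun n A => ⟨(step n A.1 A.2).choose, (step n A.1 A.2).choose_spec.1⟩) n
  have hS : ∀ (n : ℕ) (t : ℝ), |t| ≤ (n : ℝ) + 1 / 2 → EqT ((S (n + 1)).1 t) ((S n).1 t) := fun n t ht =>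
    (step n (S n).1 (S n).2).choose_spec.2 t ht
  have hS' : ∀ n m : ℕ, n ≤ m → ∀ t : ℝ, |t| ≤ (n : ℝ) + 1 / 2 → EqT ((S m).1 t) ((S n).1 t) := by
    intro n m hnm
    induction m, hnm using Nat.le_induction with
    | base => exact fun t _ => EqT.refl _
    | succ m hnm ih =>
      intro t ht
      have h1 : (n : ℝ) ≤ m := by exact_mod_cast hnm
      exact (hS m t (by linarith)).trans (ih t ht)
  refine ⟨fun t => (S ⌈|t|⌉₊).1 t, smP_of_loc fun t0 => ?_, ?_, fun t => ?_⟩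
  · obtain ⟨n, hn⟩ := exists_nat_gt |t0|
    refine ⟨(S n).1, (S n).2.sm, ?_⟩
    filter_upwards [(continuous_abs.tendsto t0).eventually (eventually_lt_nhds hn)] with t ht
    have h1 : ⌈|t|⌉₊ ≤ n := Nat.ceil_le.mpr ht.le
    have h2 : |t| ≤ (⌈|t|⌉₊ : ℝ) := Nat.le_ceil _
    exact (hS' _ _ h1 t (by linarith)).symm
  · have h1 : ⌈|(0 : ℝ)|⌉₊ = 0 := by simp
    show EqT ((S ⌈|(0 : ℝ)|⌉₊).1 0) P0
    rw [h1]
    exact hB00
  · have h2 : |t| ≤ (⌈|t|⌉₊ : ℝ) := Nat.le_ceil _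
    have h3 := abs_le.mp h2
    exact (S ⌈|t|⌉₊).2.rep t ⟨by linarith, by linarith⟩

end

end Crest.Agent.R281.Exs_581
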