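import Crest.Agent.R281.Ehr13_268
import Crest.Agent.R281.Alg1_867
import Crest.Agent.R281.HkP2_508

/-!
# R281 (S0424), static node, part (F) (helper998): the form of a member with its algebraic data

Static versions of 268's Ehr12: `P : HEmb C' (EuclideanSpace ℂ (Fin (N + 1)))` on the cone of the
complex certificate `Y : CDat n N ℂ`, `s₁ + i s₂` the form of `Y.D` on `P` (`SEq`).

* `crt`         : 871's `Cert` of an exact certificate
* `SEq.typ`, `SEq.nd`, `cx_of_ok` : type `(2,0)`, nondegenerate, complex tangent spaces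
* `formC_of`    : 989's `FormC Y.D U σ` for all `U` lifting the embedding
* `sgA`         : the holomorphic symplectic form of `m : MemA ..` on an atlas `HolA m.P b A'`
* `sgA_w`       : its value = `s₁ + i s₂` (hypothesis of 252's `memA_sig`)
* `sgA_formC`   : `FormC Y.D (fun k => sec (h.toProj κ hκ) k) (sgA ..).toH2`
-/

set_option autoImplicit false
set_option linter.unusedSectionVars false
set_option synthInstance.maxHeartbeats 200000
set_option maxSynthPendingDepth 3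

open Set Filter Topology Complex
open scoped ContDiff Matrix

namespace Crest.Agent.R281.Fc_998

open Crest.Agent.R275 Crest.Agent.R275.Geo Crest.Agent.R275.Core144 Crest.Agent.R275.GC293
open Crest.Agent.R273.SteinC_794 Crest.Agent.R273.SerA_945 Crest.Agent.R273.Defs_333
open Crest.Agent.R273.Fam_835 Crest.Agent.R281.Defs_273
open Crest.Agent.R281.HkR_835 Crest.Agent.R281.Ehr2_268
open Crest.Agent.R281.Phl_655 hiding Cn
open Crest.Agent.R281.AF_867 Crest.Agent.R281.KrB4_871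
open Crest.Agent.R281.Kr_488 Crest.Agent.R281.KrB1_871 Crest.Agent.R281.CA_867
open Crest.Agent.R281.QF_871 Crest.Agent.R281.Ehr9_268 Crest.Agent.R281.Ehr10_268
open Crest.Agent.R281.Pe_313 Crest.Agent.R281.Ehr12_268 Crest.Agent.R281.Ehr13_268
open Crest.Agent.R281.GTi_989 (FormC)
open Crest.Agent.R281.Alg_998 Crest.Agent.R281.Alg_867

noncomputable section

/-! ### certificates -/

section cert

variable {n N : ℕ} {Y : CDat n N ℂ}

/-- 871's certificate -/
def crt (hY : Y.Ok) : Cert n N ℂ where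
  E := range Y.G
  hom := by
    rintro _ ⟨l, rfl⟩
    exact hY.hom l
  ι := Fin Y.q
  κ := Y.κ
  good := hY.good
  m := Y.m
  cov := hY.cov

theorem fdat_map_id {κ R : Type*} [CommRing R] (D : FDat κ R) : D.map (RingHom.id R) = D := by
  obtain ⟨m, s⟩ := D
  have h1 : (fun j => (s j).map (MvPolynomial.map (RingHom.id R))) = s := by
    funext j
    ext1 k l
    exact MvPolynomial.map_id _
  show (⟨m, fun j => (s j).map (MvPolynomial.map (RingHom.id R))⟩ : FDat κ R) = ⟨m, s⟩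
  rw [h1]

theorem mem_crt (hY : Y.Ok) {w : EuclideanSpace ℂ (Fin (N + 1))} (h0 : w ≠ 0)
    (h : OnE (range Y.G) fun k => w k) : w ∈ (crt hY).cone (RingHom.id ℂ) := by
  refine ⟨h0, fun F hF => ?_⟩
  rw [MvPolynomial.map_id]
  exact h F hF

end cert

section static

variable {V X : Type} [NormedAddCommGroup V] [NormedSpace ℝ V] [TopologicalSpace X]
  {C' : RCh V X} {n N : ℕ} {Y : CDat n N ℂ} {P : HEmb C' (EuclideanSpace ℂ (Fin (N + 1)))}
  {s₁ s₂ : F2 C'}

/-- `s₁ + i s₂` is the form of `Y.D` on the embedded manifold -/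
def SEq (Y : CDat n N ℂ) (P : HEmb C' (EuclideanSpace ℂ (Fin (N + 1)))) (s₁ s₂ : F2 C') : Prop :=
  ∀ i, ∀ z ∈ (C'.e i).target, ∀ (j : Fin (N + 1)) (v v' : V),
    ((s₁.w i z v v' : ℂ) + (s₂.w i z v v' : ℂ) * I) * P.u i z j ^ Y.D.m =
      Y.D.b j (fun k => P.u i z k) (fun k => fderiv ℝ (P.u i) z v k)
        (fun k => fderiv ℝ (P.u i) z v' k)

theorem exists_ne (P : HEmb C' (EuclideanSpace ℂ (Fin (N + 1)))) {i : C'.ι} {z : V}
    (hz : z ∈ (C'.e i).target) : ∃ j, P.u i z j ≠ 0 := by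
  by_contra hcon
  push Not at hcon
  refine P.ne i z hz ?_
  ext j
  exact hcon j

/-- type `(2,0)`, complex value -/
theorem SEq.typ_val (hX : Y.D.Exact) (hs : SEq Y P s₁ s₂) {i : C'.ι} {z : V}
    (hz : z ∈ (C'.e i).target) {v v' : V} (hv : IRel P i z v v') (w : V) :
    (s₁.w i z v' w : ℂ) + (s₂.w i z v' w : ℂ) * I =
      I * ((s₁.w i z v w : ℂ) + (s₂.w i z v w : ℂ) * I) := by
  obtain ⟨c, hc⟩ := hv
  obtain ⟨j, hj⟩ := exists_ne P hz
  have h1 := hs i z hz j v' w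
  have h2 := hs i z hz j v w
  have e : (fun k => fderiv ℝ (P.u i) z v' k : Fin (N + 1) → ℂ) =
      I • (fun k => fderiv ℝ (P.u i) z v k : Fin (N + 1) → ℂ) +
        (-c) • (fun k => P.u i z k : Fin (N + 1) → ℂ) := by
    funext k
    have h3 := congrArg (fun s : EuclideanSpace ℂ (Fin (N + 1)) => s k) hc
    have h4 : I * fderiv ℝ (P.u i) z v k = fderiv ℝ (P.u i) z v' k + c * P.u i z k := h3
    show fderiv ℝ (P.u i) z v' k = I * fderiv ℝ (P.u i) z v k + -c * P.u i z k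
    rw [h4]
    ring
  rw [e, FDat.b_add_left, FDat.b_smul_left, FDat.b_smul_left, FDat.b_self_left _ _ hX, mul_zero,
    add_zero, ← h2] at h1
  refine mul_right_cancel₀ (pow_ne_zero Y.D.m hj) ?_
  rw [h1]
  ring

/-- 313's `Typ` -/
theorem SEq.typ (hX : Y.D.Exact) (hs : SEq Y P s₁ s₂) : Typ P s₁ s₂ := by
  intro i z hz v v' u hv
  have h := congrArg Complex.re (hs.typ_val hX hz hv u)
  simpa using h

variable [FiniteDimensional ℝ V]

/-- complex tangent spaces -/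
theorem cx_of_ok (hY : Y.Ok) (hV : Module.finrank ℝ V = 2 * n)
    (hc : ∀ w ∈ P.cone, w ≠ 0 ∧ OnE (range Y.G) fun k => w k) : P.Cx :=
  cx_of_cert (crt hY) (RingHom.id ℂ) hV P fun w hw => mem_crt hY (hc w hw).1 (hc w hw).2

/-- nondegeneracy of the complex form -/
theorem SEq.nd_val (hY : Y.Ok) (hV : Module.finrank ℝ V = 2 * n)
    (hc : ∀ w ∈ P.cone, w ≠ 0 ∧ OnE (range Y.G) fun k => w k) (hs : SEq Y P s₁ s₂) {i : C'.ι}
    {z : V} (hz : z ∈ (C'.e i).target) {v : V}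
    (h0 : ∀ w, (s₁.w i z v w : ℂ) + (s₂.w i z v w : ℂ) * I = 0) : v = 0 := by
  obtain ⟨j, hj⟩ := exists_ne P hz
  have hI : (Y.D.map (RingHom.id ℂ)).Imp (MvPolynomial.map (RingHom.id ℂ) '' (crt hY).E) := by
    have h1 := hY.imp (RingHom.id ℂ)
    have h2 : MvPolynomial.map (RingHom.id ℂ) '' (crt hY).E =
        range fun l => MvPolynomial.map (RingHom.id ℂ) (Y.G l) := (range_comp _ _).symm
    rw [h2]
    exact h1
  refine nd_of_imp (crt hY) (RingHom.id ℂ) hV (D := Y.D) hY.exact hI P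
    (fun w hw => mem_crt hY (hc w hw).1 (hc w hw).2) hz hj fun w => ?_
  rw [fdat_map_id, ← hs i z hz j v w, h0 w, zero_mul]

/-- 313's `Nd` -/
theorem SEq.nd (hY : Y.Ok) (hV : Module.finrank ℝ V = 2 * n)
    (hc : ∀ w ∈ P.cone, w ≠ 0 ∧ OnE (range Y.G) fun k => w k) (hs : SEq Y P s₁ s₂) : Nd s₁ := by
  intro i z hz v h0
  refine hs.nd_val hY hV hc hz fun u => ?_
  obtain ⟨u', hu'⟩ := exists_iRel (cx_of_ok hY hV hc) hz u
  have h1 := hs.typ hY.exact i z hz u u' v hu'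
  have h2 : s₂.w i z v u = 0 := by
    rw [s₂.alt i z hz v u, ← h1, s₁.alt i z hz u' v, h0, neg_zero]
  rw [h0, h2]
  simp

end static

/-! ### `FormC` -/

section formC

variable {V X : Type} [NormedAddCommGroup V] [NormedSpace ℝ V] [TopologicalSpace X]
  {C' : RCh V X} {n N : ℕ} {Y : CDat n N ℂ} {P : HEmb C' (EuclideanSpace ℂ (Fin (N + 1)))}
  {s₁ s₂ : F2 C'} {A : Atl n X} {K : ℕ}
  {b : EuclideanSpace ℂ (Fin (N + 1)) ≃L[ℂ] (Fin (K + 1) → ℂ)}

/-- the value of the form in the real chart `i` -/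
theorem hsymp_val (ht : Typ P s₁ s₂) (hn : Nd s₁) (hA : HolA P b A) {a : A.ι} {i : C'.ι}
    {z : Cn n} (hz : z ∈ mov C' (ofAtl A) i a) (u v : Cn n) :
    sb ((hA.hsymp ht hn).s a ((A.e a).symm z)) u v =
      (s₁.w i (mt C' (ofAtl A) i a z) (fderiv ℝ (mt C' (ofAtl A) i a) z u)
        (fderiv ℝ (mt C' (ofAtl A) i a) z v) : ℂ) +
      (s₂.w i (mt C' (ofAtl A) i a z) (fderiv ℝ (mt C' (ofAtl A) i a) z u)
        (fderiv ℝ (mt C' (ofAtl A) i a) z v) : ℂ) * I := by
  rw [← hA.hsymp_w ht hn hz.1, Cmp.F_w hA.cmp _ hz, Cmp.F_w hA.cmp _ hz, mul_comm I]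

/-- **989's `FormC`** -/
theorem formC_of (hX : Y.D.Exact) (hs : SEq Y P s₁ s₂) (ht : Typ P s₁ s₂) (hn : Nd s₁)
    (hA : HolA P b A) {U : Fin (N + 1) → Fn A} (hU : LiftU P A U) :
    FormC Y.D U (hA.hsymp ht hn).toH2 := by
  intro j a x hx
  have hz : A.e a x ∈ (A.e a).target := (A.e a).map_source hx
  obtain ⟨i, hi⟩ := C'.cover x
  have hm : A.e a x ∈ mov C' (ofAtl A) i a := by
    refine ⟨hz, ?_⟩
    show (A.e a).symm (A.e a x) ∈ (C'.e i).source
    rw [(A.e a).left_inv hx]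
    exact hi
  obtain ⟨c, β, hc, h1, h2⟩ := hU.deriv hA.cmp hm
  rw [(A.e a).left_inv hx] at h1 h2
  set y := mt C' (ofAtl A) i a (A.e a x) with hy
  have hyt : y ∈ (C'.e i).target := (Cmp.mt_mem hm).1
  ext s t
  rw [mat_eq, Matrix.smul_apply, smul_eq_mul]
  have h3 := hsymp_val ht hn hA hm (EuclideanSpace.single s 1) (EuclideanSpace.single t 1)
  rw [(A.e a).left_inv hx, Ehr12_268.sb_single, ← hy] at h3
  rw [h3]
  have e0 : (fun k => U k a x) = c • (fun k => P.u i y k : Fin (N + 1) → ℂ) := funext h1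
  have e1 : ∀ s : Fin n, (fun k => DF U a x k s) =
      c • (fun k => fderiv ℝ (P.u i) y (fderiv ℝ (mt C' (ofAtl A) i a) (A.e a x)
        (EuclideanSpace.single s 1)) k : Fin (N + 1) → ℂ) +
        β (EuclideanSpace.single s 1) • (fun k => P.u i y k : Fin (N + 1) → ℂ) := by
    intro s
    funext k
    exact h2 _ k
  rw [e0, e1, e1, b_scale hX]
  simp only [FDat.b_add_left, FDat.b_add_right, FDat.b_smul_left, FDat.b_smul_right,
    FDat.b_self_left _ _ hX, FDat.b_self_right _ _ hX, mul_zero, add_zero]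
  rw [← hs i y hyt, h1 j]
  have h4 := hX.two
  have h5 : Y.D.m = (Y.D.m - 2) + 2 := by omega
  have h7 : c ^ Y.D.m = c ^ (Y.D.m - 2) * c ^ 2 := by rw [← pow_add, ← h5]
  rw [mul_pow, h7]
  ring

end formC

/-! ### the member of the end -/

section memA

variable {n N : ℕ} {X : Type} [TopologicalSpace X] {C : RCh (Cn (2 * n)) X}
  {Q : F2 C →ₗ[ℝ] F2 C →ₗ[ℝ] ℝ} {F : Frm C Q} {A : F2 C} {Y : CDat (2 * n) N ℂ} {κ : ℝ}
  {β τ : ℂ} {H : HkT C}

theorem finrank_Cn2 (n : ℕ) : Module.finrank ℝ (Cn n) = 2 * n := by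
  have h : Module.finrank ℝ (Cn n) = 2 * Module.finrank ℂ (Cn n) :=
    finrank_real_of_complex (Cn n)
  rw [h, finrank_euclideanSpace_fin]

theorem MemA.seq (m : MemA F A Y κ β τ H) : SEq Y m.P m.s1 m.s2 := m.s_eq

theorem MemA.typ (hY : Y.Ok) (m : MemA F A Y κ β τ H) : Typ m.P m.s1 m.s2 :=
  (MemA.seq m).typ hY.exact

theorem MemA.nd (hY : Y.Ok) (m : MemA F A Y κ β τ H) : Nd m.s1 :=
  (MemA.seq m).nd hY (finrank_Cn2 _) fun w hw => (m.cone w).1 hw

variable {A' : Atl (2 * n) X}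

/-- **the holomorphic symplectic form of a member of the end** -/
def sgA (hY : Y.Ok) (m : MemA F A Y κ β τ H) (h : HolA m.P (CB_867.bE N) A') : HSymp A' :=
  h.hsymp (MemA.typ hY m) (MemA.nd hY m)

/-- its value (the hypothesis of 252's `memA_sig`) -/
theorem sgA_w (hY : Y.Ok) (m : MemA F A Y κ β τ H) (h : HolA m.P (CB_867.bE N) A') (i : A'.ι)
    (z : Cn (2 * n)) (hz : z ∈ (A'.e i).target) (u v : Cn (2 * n)) :
    sb (HkP2_508.sl (sgA hY m h).toH2 i z) u v =
      ((h.cmp.F m.s1).w i z u v : ℂ) + I * ((h.cmp.F m.s2).w i z u v : ℂ) :=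
  (h.hsymp_w (MemA.typ hY m) (MemA.nd hY m) hz u v).symm

/-- **`FormC`** for all lifting sections -/
theorem sgA_formC' (hY : Y.Ok) (m : MemA F A Y κ β τ H) (h : HolA m.P (CB_867.bE N) A')
    {U : Fin (N + 1) → Fn A'} (hU : LiftU m.P A' U) : FormC Y.D U (sgA hY m h).toH2 :=
  formC_of hY.exact (MemA.seq m) (MemA.typ hY m) (MemA.nd hY m) h hU

/-- **`FormC`** for the sections of `HolA.toProj` -/
theorem sgA_formC (hY : Y.Ok) (m : MemA F A Y κ β τ H) (h : HolA m.P (CB_867.bE N) A')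
    (κ' : A'.ι → Fin (N + 1)) (hκ' : ∀ a, (A'.e a).source ⊆ OX m.P (CB_867.bE N) (κ' a)) :
    FormC Y.D (fun k => Crest.Agent.R273.FS_333.sec (h.toProj κ' hκ') k) (sgA hY m h).toH2 :=
  sgA_formC' hY m h (liftU_toProj (fun _ _ => rfl) h κ' hκ')

end memA

end

end Crest.Agent.R281.Fc_998
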