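import Crest.Agent.R281.Sk7_474
import Crest.Agent.R281.Aga3_581
import Crest.Agent.R281.OpG6_941
import Crest.Agent.R281.Kap_975

/-!
# R281 (S0424), SKEL281 (helper474): the current top

Closed here: `RoadP` (581, 313, 998, ...), `OpenP` (941, 330, 763, ...); `KappaP` from `QTubP`
(975).
-/

set_option autoImplicit false
set_option linter.unusedSectionVars false

namespace Crest.Agent.R281.Sk_474

open Crest.Agent.R281.Defs_273 Crest.Agent.R281.RkD_902

/-- the node `RoadP` -/
theorem roadM : RoadP AlgM := Aga_581.road

/-- the node `OpenP` -/
theorem openM : OpenP TubM := OpG_941.openP_of centreP OpG_941.torP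

/-- **`Main281` from the node `KappaP`** -/
theorem main281_of_kappa (kappa : KappaP AlgM TubM) : Main281 :=
  main281_of7 boxM roadM chartEndM toriM kappa openM Mvs_713.semiP

/-- **`Main281` from the quantified tube** -/
theorem main281_of_qtub (h : KapD_975.QTubP AlgM) : Main281 :=
  main281_of_kappa (Kap_975.kappaP_of AlgM TubM h)

end Crest.Agent.R281.Sk_474
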