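import Crest.Agent.R281.Rd_548
import Crest.Agent.R281.Sk8_474

/-!
# Row 281 (S0424): `QTubP` and `Main281` without hypotheses (helper548)
-/

set_option autoImplicit false

namespace Crest.Agent.R281.Fin_548

open Crest.Agent.R281

/-- **(K1)** -/
theorem qtubP : KapD_975.QTubP Alg_867.Alg := Qb_975.qtubP_of_mq (Qb_975.mq_of Rd_548.real_data)

/-- **the main theorem of row 281 in atlas form** -/
theorem main281 : Defs_273.Main281 := Sk_474.main281_of_qtub qtubP

end Crest.Agent.R281.Fin_548
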