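import Crest.Agent.R281.Un3_360

/-!
# R281 (S0424), UNIQ (helper360), part 4: the witness on the conjugate submanifold

* `cj_eval`   : values of homogeneous polynomials at conjugate points;
* `WS P D S y0 k` : a section `u` of `(O(1) ⊗ L⁻ᵏ)ᵐ` on the set `S`, not vanishing at `y0`, such that
                the `u * ∏ w (β l)` are the polynomials `q β`;
* `exists_ws` : existence on `S = σ(T)` if `L|_T` is flat.
-/

set_option autoImplicit false
set_option linter.unusedSectionVars false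

open Set Filter Topology Complex
open scoped ContDiff Matrix ComplexConjugate

namespace Crest.Agent.R281.Un_360

open Crest.Agent.R275 Crest.Agent.R275.Geo Crest.Agent.R275.Core144
open Crest.Agent.R273.SerA_945 Crest.Agent.R273.SerB_945 Crest.Agent.R273.SerC_945
open Crest.Agent.R273.SerE_945 Crest.Agent.R273.TD3_733 Crest.Agent.R273.FS_333
open Crest.Agent.R273.Defs_333 Crest.Agent.R273.SteinC_794 Crest.Agent.R273.HM_333
open Crest.Agent.R273.Kah_333
open Crest.Agent.R273.Map_835 Crest.Agent.R273.PB_835 Crest.Agent.R273.Chow_313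
open Crest.Agent.R281.AF_867

noncomputable section

variable {d N : ℕ} {T M : Type} [TopologicalSpace T] [TopologicalSpace M]
  {B : Atl d T} {A : Atl N M} {j : T → M}

/-- change of charts, with a nonzero factor -/
theorem tr_ne (P : ProjD A) {i i' : A.ι} {x : M} (hi : x ∈ (A.e i).source)
    (hi' : x ∈ (A.e i').source) : ∃ c : ℂ, c ≠ 0 ∧ P.F i x = c • P.F i' x := by
  obtain ⟨c, hc⟩ := P.tr i i' x ⟨hi, hi'⟩
  refine ⟨c, fun h0 => P.ne i x hi ?_, hc⟩
  rw [hc, h0, zero_smul]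

theorem eval_conj {κ : Type*} (σ : ℂ ≃+* ℂ) (v : κ → ℂ) (p : MvPolynomial κ ℂ) :
    MvPolynomial.eval (fun k => σ (v k)) (MvPolynomial.map (σ : ℂ →+* ℂ) p) =
      σ (MvPolynomial.eval v p) := by
  rw [MvPolynomial.eval_map]
  exact (MvPolynomial.eval₂_comp (σ : ℂ →+* ℂ) _ p).symm

/-- conjugate points, in all charts -/
theorem Cj.all {P : ProjD A} {σ : ℂ ≃+* ℂ} {x y : M} (h : Cj P σ x y) {i i' : A.ι}
    (hi : x ∈ (A.e i).source) (hi' : y ∈ (A.e i').source) :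
    ∃ c : ℂ, c ≠ 0 ∧ P.F i' y = c • fun k => σ (P.F i x k) := by
  obtain ⟨i1, i2, h1, h2, c, hc, hcy⟩ := h
  obtain ⟨a, ha0, ha⟩ := tr_ne P hi' h2
  obtain ⟨b, hb0, hb⟩ := tr_ne P h1 hi
  refine ⟨a * c * σ b, mul_ne_zero (mul_ne_zero ha0 hc) ((map_ne_zero σ).2 hb0), ?_⟩
  rw [ha, hcy]
  funext k
  have hbk := congrFun hb k
  simp only [Pi.smul_apply, smul_eq_mul] at hbk ⊢
  rw [hbk, map_mul]
  ring

theorem cj_eval {P : ProjD A} {σ : ℂ ≃+* ℂ} {x y : M} (h : Cj P σ x y) {i i' : A.ι}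
    (hi : x ∈ (A.e i).source) (hi' : y ∈ (A.e i').source) {p : MvPolynomial (Fin (P.N + 1)) ℂ}
    {e : ℕ} (hp : p.IsHomogeneous e) : ∃ c : ℂ, c ≠ 0 ∧
      MvPolynomial.eval (P.F i' y) (MvPolynomial.map (σ : ℂ →+* ℂ) p) =
        c * σ (MvPolynomial.eval (P.F i x) p) := by
  obtain ⟨c, hc, e1⟩ := h.all hi hi'
  refine ⟨c ^ e, pow_ne_zero _ hc, ?_⟩
  rw [e1, eval_smul (hp.map _), eval_conj]

/-- the witness on a set `S` -/
structure WS (P : ProjD A) {L : LB A} (D : LDat P L) (S : Set M) (y0 : M) (k : ℕ) where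
  m : ℕ
  mpos : 1 ≤ m
  q : (Fin (k * m) → Fin D.r) → MvPolynomial (Fin (P.N + 1)) ℂ
  hom : ∀ β, (q β).IsHomogeneous (m + D.a * (k * m))
  u : A.ι → M → ℂ
  eq : ∀ i, ∀ y ∈ (A.e i).source, y ∈ S → ∀ β,
    MvPolynomial.eval (P.F i y) (q β) = u i y * ∏ l, D.w (β l) i y
  ne : ∀ i, y0 ∈ (A.e i).source → u i y0 ≠ 0

variable [T2Space T] [CompactSpace T] [ConnectedSpace T] [Finite B.ι]

theorem exists_ws (I : Sbm B A j) {P : ProjD A} {L : LB A} (D : LDat P L) (hf : I.Flat L)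
    {σ : ℂ ≃+* ℂ} (hσ : D.Fix σ) (k : ℕ) {x0 : T} {y0 : M} (hy0 : Cj P σ (j x0) y0) :
    Nonempty (WS P D (I.Conj P σ) y0 k) := by
  classical
  obtain ⟨m, hm, u, hu, hu0, p, hp, hpe⟩ := I.exists_wit D hf (k := k) x0
  -- the relations
  have hrel : ∀ (β β' : Fin (k * m) → Fin D.r) (ι : Fin (k * m) → Fin D.s) (i : A.ι) (y : M),
      y ∈ (A.e i).source → y ∈ I.Conj P σ →
      MvPolynomial.eval (P.F i y) (MvPolynomial.map (σ : ℂ →+* ℂ) (p β)) *
          ∏ l, (D.w (β' l) i y * D.v (ι l) i y) =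
        MvPolynomial.eval (P.F i y) (MvPolynomial.map (σ : ℂ →+* ℂ) (p β')) *
          ∏ l, (D.w (β l) i y * D.v (ι l) i y) := by
    intro β β' ι i y hi hy
    have hW : ∀ b : Fin (k * m) → Fin D.r, (∏ l, D.W (b l) (ι l)).IsHomogeneous
        (∑ _l : Fin (k * m), (D.a + D.b)) := fun b =>
      MvPolynomial.IsHomogeneous.prod _ _ _ fun l _ => D.hom (b l) (ι l)
    have h1 := conj_rel I (σ := σ) (p := p β * ∏ l, D.W (β' l) (ι l) - p β' * ∏ l, D.W (β l) (ι l))
      (((hp β).mul (hW β')).sub ((hp β').mul (hW β))) (fun i x hx => by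
        rw [map_sub, map_mul, map_mul, map_prod, map_prod, ← hpe β i x hx, ← hpe β' i x hx]
        have h2 : ∀ b : Fin (k * m) → Fin D.r, ∏ l, MvPolynomial.eval (P.F (I.R.r i) (j x))
            (D.W (b l) (ι l)) = (∏ l, D.w (b l) (I.R.r i) (j x)) *
              ∏ l, D.v (ι l) (I.R.r i) (j x) := by
          intro b
          rw [← Finset.prod_mul_distrib]
          exact Finset.prod_congr rfl fun l _ => (D.eq _ _ _ _ (I.R.sub i x hx)).symm
        rw [h2, h2]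
        ring) hy hi
    rw [map_sub, map_sub, map_mul, map_mul, map_mul, map_mul, map_prod, map_prod, map_prod,
      map_prod, sub_eq_zero] at h1
    have h3 : ∀ b : Fin (k * m) → Fin D.r, ∏ l, MvPolynomial.eval (P.F i y)
        (MvPolynomial.map (σ : ℂ →+* ℂ) (D.W (b l) (ι l))) =
          ∏ l, (D.w (b l) i y * D.v (ι l) i y) := by
      intro b
      exact Finset.prod_congr rfl fun l _ => by rw [hσ, D.eq _ _ _ _ hi]
    rw [h3, h3] at h1
    exact h1
  have hrel' : ∀ (β β' : Fin (k * m) → Fin D.r) (i : A.ι) (y : M),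
      y ∈ (A.e i).source → y ∈ I.Conj P σ →
      MvPolynomial.eval (P.F i y) (MvPolynomial.map (σ : ℂ →+* ℂ) (p β)) *
          ∏ l, D.w (β' l) i y =
        MvPolynomial.eval (P.F i y) (MvPolynomial.map (σ : ℂ →+* ℂ) (p β')) *
          ∏ l, D.w (β l) i y := by
    intro β β' i y hi hy
    obtain ⟨l0, hl0⟩ := D.vne i y hi
    have h1 := hrel β β' (fun _ => l0) i y hi hy
    rw [Finset.prod_mul_distrib, Finset.prod_mul_distrib, ← mul_assoc, ← mul_assoc] at h1
    refine mul_right_cancel₀ ?_ h1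
    exact Finset.prod_ne_zero_iff.2 fun _ _ => hl0
  have hne : Nonempty (Fin D.r) := by
    obtain ⟨i1, hi1⟩ := A.cover y0
    exact ⟨(D.wne i1 y0 hi1).choose⟩
  choose! w0 hw0 using D.wne
  refine ⟨⟨m, hm, fun β => MvPolynomial.map (σ : ℂ →+* ℂ) (p β), fun β => (hp β).map _,
    fun i y => MvPolynomial.eval (P.F i y) (MvPolynomial.map (σ : ℂ →+* ℂ)
      (p fun _ => w0 i y)) / ∏ _l : Fin (k * m), D.w (w0 i y) i y, fun i y hi hy β => ?_,
    fun i hi => ?_⟩⟩
  · have h1 : ∏ _l : Fin (k * m), D.w (w0 i y) i y ≠ 0 :=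
      Finset.prod_ne_zero_iff.2 fun _ _ => hw0 i y hi
    rw [div_mul_eq_mul_div, eq_div_iff h1]
    exact hrel' β (fun _ => w0 i y) i y hi hy
  · -- not zero at `y0`
    intro h0
    have hy : y0 ∈ I.Conj P σ := ⟨x0, hy0⟩
    have h1 : ∏ _l : Fin (k * m), D.w (w0 i y0) i y0 ≠ 0 :=
      Finset.prod_ne_zero_iff.2 fun _ _ => hw0 i y0 hi
    have h2 : ∀ β : Fin (k * m) → Fin D.r,
        MvPolynomial.eval (P.F i y0) (MvPolynomial.map (σ : ℂ →+* ℂ) (p β)) = 0 := by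
      intro β
      have h3 := hrel' β (fun _ => w0 i y0) i y0 hi hy
      rw [(div_eq_zero_iff.1 h0).resolve_right h1, zero_mul] at h3
      exact (mul_eq_zero.1 h3).resolve_right h1
    obtain ⟨i0, hi0⟩ := B.cover x0
    have hr := I.R.sub i0 x0 hi0
    obtain ⟨c, hc, h4⟩ := cj_eval hy0 hr hi (hp fun _ => w0 (I.R.r i0) (j x0))
    rw [h2, eq_comm, mul_eq_zero, or_iff_right hc, map_eq_zero, ← hpe _ i0 x0 hi0] at h4
    rcases mul_eq_zero.1 h4 with h5 | h5
    · exact hu0 i0 hi0 h5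
    · exact Finset.prod_ne_zero_iff.2 (fun _ _ => hw0 (I.R.r i0) (j x0) hr) h5

end

end Crest.Agent.R281.Un_360
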