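import Crest.Agent.R281.Flt2_877
import Crest.Agent.R281.Un4_360

/-!
# Row 281 (S0424), FLAT-T, part 3 (helper877): `L|_T` is flat

`flat_of_rho` : `Φ : ℂᵈ → M` holomorphic with injective derivative, `Φ c = Φ c'` iff `c - c'` is in
                the lattice, `I : Sbm B A j` with the same range, `ρ` periodic with
                `hess ρ = hess (- log (h.w i (Φ z)))` ==> `I.Flat L`
`flat_of_tor` : zero periods of the curvature over the lattice ==> `I.Flat L`
-/

set_option autoImplicit false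
set_option linter.unusedSectionVars false
set_option maxSynthPendingDepth 3

open MeasureTheory Filter Topology Set Complex
open scoped ContDiff Real ComplexConjugate Matrix

namespace Crest.Agent.R281.Flt_877

open Crest.Agent.R275.Tor812 Crest.Agent.R275.Geo Crest.Agent.R275.Core144
open Crest.Agent.R275.EDR890 Crest.Agent.R273.Hess_333 Crest.Agent.R273.HessB_333
open Crest.Agent.R273.Defs_333 Crest.Agent.R273.HM_333 Crest.Agent.R273.Kah_333
open Crest.Agent.R273.Map_835 Crest.Agent.R273.PB_835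
open Crest.Agent.R281.HkR_835 Crest.Agent.R281.Per_368 Crest.Agent.R281.Nef_252
open Crest.Agent.R281.Un_360

noncomputable section

variable {d N : ℕ} {Y M : Type} [TopologicalSpace Y] [TopologicalSpace M] {A : Atl N M}
  {B : Atl d Y} {j : Y → M} {L : LB A}

section Lift

variable [T2Space M] [CompactSpace Y] (Z : Sbm B A j) {Φ : Cn d → M} {Ψ : Cn d → Y}

include Z in
theorem Ψ_cont (hΦ : Continuous Φ) (hΨ : ∀ z, j (Ψ z) = Φ z) : Continuous Ψ := by
  have h1 : Topology.IsClosedEmbedding j := Z.hol.cont.isClosedEmbedding Z.inj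
  rw [h1.isInducing.continuous_iff]
  have : j ∘ Ψ = Φ := funext hΨ
  rw [this]
  exact hΦ

include Z in
/-- the lift is holomorphic in the charts, with injective derivative -/
theorem lift_hol (hΦ : HolC A Φ)
    (himm : ∀ z i, Φ z ∈ (A.e i).source → Function.Injective (fderiv ℂ (fun w => A.e i (Φ w)) z))
    (hΨ : ∀ z, j (Ψ z) = Φ z) {i' : B.ι} {z : Cn d} (hz : Ψ z ∈ (B.e i').source) :
    DifferentiableAt ℂ (fun w => B.e i' (Ψ w)) z ∧
      Function.Injective (fderiv ℂ (fun w => B.e i' (Ψ w)) z) := by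
  have hc := Ψ_cont Z hΦ.cont hΨ
  set i := Z.R.r i' with hi
  have hji : ∀ y ∈ (B.e i').source, j y ∈ (A.e i).source := fun y hy => Z.R.sub i' y hy
  set E : Cn d → Cn d := fun w => B.e i' (Ψ w) with hE
  have hEc : ContinuousAt E z := (B.e i').continuousAt hz |>.comp hc.continuousAt
  have hEt : E z ∈ (B.e i').target := (B.e i').map_source hz
  have hEd : E z ∈ dm B A j i' i := ⟨hEt, by
    show j ((B.e i').symm (B.e i' (Ψ z))) ∈ (A.e i).source
    rw [(B.e i').left_inv hz]
    exact hji _ hz⟩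
  have hΦi : Φ z ∈ (A.e i).source := by
    rw [← hΨ z]
    exact hji _ hz
  have hev : ∀ᶠ w in 𝓝 z, Ψ w ∈ (B.e i').source :=
    hc.continuousAt.preimage_mem_nhds ((B.e i').open_source.mem_nhds hz)
  have hrd : ∀ᶠ w in 𝓝 z, rd B A j i' i (E w) = A.e i (Φ w) := by
    filter_upwards [hev] with w hw
    show A.e i (j ((B.e i').symm (B.e i' (Ψ w)))) = _
    rw [(B.e i').left_inv hw, hΨ]
  -- left inverse of the derivative
  set D : Cn d →L[ℂ] Cn N := fderiv ℂ (rd B A j i' i) (E z) with hD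
  have hDinj : Function.Injective D := Z.imm i' i _ hEd
  have hker : LinearMap.ker (D : Cn d →ₗ[ℂ] Cn N) = ⊥ := LinearMap.ker_eq_bot.2 hDinj
  obtain ⟨p, hp⟩ := LinearMap.exists_leftInverse_of_injective (D : Cn d →ₗ[ℂ] Cn N) hker
  set P : Cn N →L[ℂ] Cn d := LinearMap.toContinuousLinearMap p with hP
  have hPD : ∀ v, P (D v) = v := fun v => by
    exact LinearMap.congr_fun hp v
  have hrda : AnalyticAt ℂ (rd B A j i' i) (E z) := Z.hol.analyticAt hEd
  set S : Cn d → Cn d := fun u => P (rd B A j i' i u) with hS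
  have hSs : HasStrictFDerivAt S ((ContinuousLinearEquiv.refl ℂ (Cn d)) : Cn d →L[ℂ] Cn d) (E z) := by
    have h1 : HasStrictFDerivAt S (P.comp D) (E z) :=
      P.hasStrictFDerivAt.comp (E z) hrda.hasStrictFDerivAt
    have h2 : P.comp D = ((ContinuousLinearEquiv.refl ℂ (Cn d)) : Cn d →L[ℂ] Cn d) := by
      ext v : 1
      exact hPD v
    rwa [h2] at h1
  have hinv := hSs.eventually_left_inverse
  have hEeq : E =ᶠ[𝓝 z] fun w => hSs.localInverse S _ (E z) (P (A.e i (Φ w))) := by
    filter_upwards [hEc.eventually hinv, hrd] with w hw hw'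
    rw [← hw']
    exact hw.symm
  have hEdiff : DifferentiableAt ℂ E z := by
    have h1 := hSs.to_localInverse
    have h2 : DifferentiableAt ℂ (fun w => P (A.e i (Φ w))) z :=
      P.differentiableAt.comp z (hΦ.hol i z hΦi)
    have h3 : P (A.e i (Φ z)) = S (E z) := by
      rw [← hrd.self_of_nhds]
    have h4 : DifferentiableAt ℂ (hSs.localInverse S _ (E z)) (P (A.e i (Φ z))) := by
      rw [h3]
      exact h1.hasFDerivAt.differentiableAt
    exact (DifferentiableAt.comp z (g := hSs.localInverse S _ (E z))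
      (f := fun w => P (A.e i (Φ w))) h4 h2).congr_of_eventuallyEq hEeq
  refine ⟨hEdiff, ?_⟩
  have hchain : fderiv ℂ (fun w => A.e i (Φ w)) z = D.comp (fderiv ℂ E z) := by
    have h1 : (fun w => A.e i (Φ w)) =ᶠ[𝓝 z] fun w => rd B A j i' i (E w) := by
      filter_upwards [hrd] with w hw
      exact hw.symm
    rw [h1.fderiv_eq]
    exact (hrda.differentiableAt.hasFDerivAt.comp z hEdiff.hasFDerivAt).fderiv
  have h1 := himm z i hΦi
  rw [hchain] at h1
  exact Function.Injective.of_comp h1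

end Lift

/-! ### the flat metric -/

section Flat

variable [T2Space M] [CompactSpace Y] (Z : Sbm B A j) {Φ : Cn d → M} {δ : Type} [Fintype δ]
  {T : (δ → ℝ) ≃L[ℝ] Cn d}

include Z in
/-- a potential along the torus gives a flat metric on `L|_T` -/
theorem flat_of_rho (hΦ : HolC A Φ)
    (himm : ∀ z i, Φ z ∈ (A.e i).source → Function.Injective (fderiv ℂ (fun w => A.e i (Φ w)) z))
    (hr : range j = range Φ)
    (hper : ∀ c c', Φ c = Φ c' → ∃ k : δ → ℤ, c = c' + T (fun i => (k i : ℝ)))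
    (h : HM L) {ρ : Cn d → ℝ} (hρ : ContDiff ℝ ∞ ρ) (hρp : PerT T ρ)
    (hρh : ∀ i z, Φ z ∈ (A.e i).source → hess ρ z = hess (pw h Φ i) z) : Z.Flat L := by
  classical
  -- the lift
  have hex : ∀ z, ∃ y, j y = Φ z := fun z => by
    have : Φ z ∈ range j := by rw [hr]; exact mem_range_self z
    exact this
  choose Ψ hΨ using hex
  have hex' : ∀ y, ∃ z, Φ z = j y := fun y => by
    have : j y ∈ range Φ := by rw [← hr]; exact mem_range_self y
    exact this
  choose cc' hcc using hex'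
  have hsurj : ∀ y, Ψ (cc' y) = y := fun y => Z.inj (by rw [hΨ, hcc])
  set ρY : Y → ℝ := fun y => ρ (cc' y) with hρY
  have hρΨ : ∀ z, ρY (Ψ z) = ρ z := by
    intro z
    obtain ⟨k, hk⟩ := hper (cc' (Ψ z)) z (by rw [hcc, hΨ])
    show ρ (cc' (Ψ z)) = ρ z
    rw [hk, hρp k z]
  have hc := Ψ_cont Z hΦ.cont hΨ
  have hlift := fun {i' : B.ι} {z : Cn d} (hz : Ψ z ∈ (B.e i').source) =>
    lift_hol Z hΦ himm hΨ hz
  have hop : ∀ i' : B.ι, IsOpen (Ψ ⁻¹' (B.e i').source) := fun i' => (B.e i').open_source.preimage hc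
  have hEa : ∀ {i' : B.ι} {z : Cn d}, Ψ z ∈ (B.e i').source →
      AnalyticAt ℂ (fun w => B.e i' (Ψ w)) z := fun {i' z} hz =>
    Crest.Agent.R266.SCV.analyticOnNhd_of_differentiableOn (hop i')
      (fun w hw => (hlift hw).1.differentiableWithinAt) z hz
  -- smoothness of `ρY`
  have hρYs : B.Sm ρY := by
    intro i' u hu
    set y : Y := (B.e i').symm u with hy
    have hyi : y ∈ (B.e i').source := (B.e i').map_target hu
    set z := cc' y with hz
    have hzy : Ψ z = y := hsurj y
    have hzi : Ψ z ∈ (B.e i').source := by rw [hzy]; exact hyi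
    set E : Cn d → Cn d := fun w => B.e i' (Ψ w) with hE
    have hEz : E z = u := by
      show B.e i' (Ψ z) = u
      rw [hzy, hy, (B.e i').right_inv hu]
    obtain ⟨hd, hinj⟩ := hlift hzi
    have hsurjD : Function.Surjective (fderiv ℂ E z) :=
      LinearMap.surjective_of_injective (f := (fderiv ℂ E z : Cn d →ₗ[ℂ] Cn d)) hinj
    let e : Cn d ≃L[ℂ] Cn d := ContinuousLinearEquiv.ofBijective (fderiv ℂ E z)
      (LinearMap.ker_eq_bot.2 hinj) (LinearMap.range_eq_top.2 hsurjD)
    have hee : (e : Cn d →L[ℂ] Cn d) = fderiv ℂ E z := by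
      ext v : 1
      rfl
    have hsE : HasStrictFDerivAt E (e : Cn d →L[ℂ] Cn d) z := by
      rw [hee]
      exact (hEa hzi).hasStrictFDerivAt
    have hcE : ContDiffAt ℂ ∞ E z := (hEa hzi).contDiffAt
    set R := hsE.localInverse E e z with hR
    have hRc : ContDiffAt ℂ ∞ R (E z) := by
      have := hcE.to_localInverse (f' := e) hsE.hasFDerivAt (by simp)
      exact this
    have hright := hsE.eventually_right_inverse
    have hRz : R (E z) = z := hsE.localInverse_apply_image
    have hmem : ∀ᶠ u' in 𝓝 (E z), Ψ (R u') ∈ (B.e i').source := by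
      have h1 : Tendsto R (𝓝 (E z)) (𝓝 z) := by
        have := hRc.continuousAt.tendsto
        rwa [hRz] at this
      exact h1.eventually ((hop i').mem_nhds hzi)
    have hev : (fun u' => ρY ((B.e i').symm u')) =ᶠ[𝓝 u] fun u' => ρ (R u') := by
      rw [← hEz]
      filter_upwards [hright, hmem] with u' h1 h2
      rw [← hρΨ (R u')]
      have h3 : B.e i' (Ψ (R u')) = u' := h1
      have h4 : (B.e i').symm u' = Ψ (R u') := by
        calc (B.e i').symm u' = (B.e i').symm (B.e i' (Ψ (R u'))) := by rw [h3]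
          _ = Ψ (R u') := (B.e i').left_inv h2
      rw [h4]
    have hcomp : ContDiffAt ℝ ∞ (fun u' => ρ (R u')) u := by
      rw [← hEz]
      exact hρ.contDiffAt.comp (E z) (hRc.restrict_scalars ℝ)
    exact (hcomp.congr_of_eventuallyEq hev).contDiffWithinAt
  have hnρ : B.Sm (fun y => - ρY y) := fun i' => (hρYs i').neg
  -- the metric
  set hY : HM (Z.L L) := (PB.ref Z.hol Z.R L).pullHM Z.hol h with hhY
  have hYw : ∀ i', ∀ y ∈ (B.e i').source, hY.w i' y = h.w (Z.R.r i') (j y) := by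
    intro i' y hy
    have h1 := (PB.ref Z.hol Z.R L).pullHM_w Z.hol h hy (Z.R.sub i' y hy)
    have h2 : (PB.ref Z.hol Z.R L).c i' (Z.R.r i') y = 1 := L.self _ _
    rw [h2, norm_one, one_pow, div_one] at h1
    exact h1
  refine ⟨tw hY _ hnρ, fun i' y hy => ?_⟩
  rw [cur_tw hY hnρ i' hy]
  -- compare the Hessians on `ℂᵈ`
  set z := cc' y with hz
  have hzy : Ψ z = y := hsurj y
  have hzi : Ψ z ∈ (B.e i').source := by rw [hzy]; exact hy
  set E : Cn d → Cn d := fun w => B.e i' (Ψ w) with hE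
  obtain ⟨hd, hinj⟩ := hlift hzi
  have hΦi : Φ z ∈ (A.e (Z.R.r i')).source := by
    rw [← hΨ z]
    exact Z.R.sub i' _ hzi
  have hevz : ∀ᶠ w in 𝓝 z, Ψ w ∈ (B.e i').source := (hop i').mem_nhds hzi
  have hEt : E z ∈ (B.e i').target := (B.e i').map_source hzi
  have e1 : pw h Φ (Z.R.r i') =ᶠ[𝓝 z] fun w => hY.wt i' (E w) := by
    filter_upwards [hevz] with w hw
    show - Real.log (h.w (Z.R.r i') (Φ w)) = - Real.log (hY.w i' ((B.e i').symm (B.e i' (Ψ w))))
    rw [(B.e i').left_inv hw, hYw i' _ hw, hΨ]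
  have e2 : ρ =ᶠ[𝓝 z] fun w => (fun u => ρY ((B.e i').symm u)) (E w) := by
    filter_upwards [hevz] with w hw
    show ρ w = ρY ((B.e i').symm (B.e i' (Ψ w)))
    rw [(B.e i').left_inv hw, hρΨ]
  have c1 : ContDiffAt ℝ ∞ (hY.wt i') (E z) := wt_contDiffAt hY i' hEt
  have c2 : ContDiffAt ℝ ∞ (fun u => ρY ((B.e i').symm u)) (E z) :=
    (hρYs i').contDiffAt ((B.e i').open_target.mem_nhds hEt)
  have k1 := hρh (Z.R.r i') z hΦi
  rw [hess_congr e1, hess_congr e2,
    Crest.Agent.R273.LeviR_155.hess_compR (hEa hzi) (c1.of_le (by norm_cast)),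
    Crest.Agent.R273.LeviR_155.hess_compR (hEa hzi) (c2.of_le (by norm_cast))] at k1
  have hsurjD : Function.Surjective (fderiv ℂ E z) :=
    LinearMap.surjective_of_injective (f := (fderiv ℂ E z : Cn d →ₗ[ℂ] Cn d)) hinj
  have k2 : hess (fun u => ρY ((B.e i').symm u)) (E z) = hess (hY.wt i') (E z) := by
    refine hb_ext fun a b => ?_
    obtain ⟨u, rfl⟩ := hsurjD a
    obtain ⟨v, rfl⟩ := hsurjD b
    have := congrArg (fun G => hb G u v) k1
    simp only [hb_pull] at this
    exact this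
  have hEy : E z = B.e i' y := by
    show B.e i' (Ψ z) = _
    rw [hzy]
  have k3 : hsf B (fun y => - ρY y) i' y = - hess (fun u => ρY ((B.e i').symm u)) (B.e i' y) := by
    show hess (fun u => - ρY ((B.e i').symm u)) (B.e i' y) = _
    rw [← hEy]
    exact hess_neg c2
  have k4 : cur hY i' y = hess (hY.wt i') (B.e i' y) := rfl
  rw [k3, k4, ← hEy, k2, add_neg_cancel]

/-- the linear equivalence of a real basis -/
theorem exists_T {l : Fin (2 * d) → Cn d} (hl : LinearIndependent ℝ l) :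
    ∃ T : (Fin (2 * d) → ℝ) ≃L[ℝ] Cn d, (∀ x, T x = ∑ k, x k • l k) ∧ ∀ k, T (ev k) = l k := by
  classical
  have hcard : Fintype.card (Fin (2 * d)) = Module.finrank ℝ (Cn d) := by
    rw [Fintype.card_fin, finrank_real_of_complex, finrank_euclideanSpace, Fintype.card_fin]
  let b := Module.Basis.mk hl (hl.span_eq_top_of_card_eq_finrank' hcard).ge
  have hb : ∀ k, b k = l k := fun k => by
    rw [Module.Basis.mk_apply]
  let T : (Fin (2 * d) → ℝ) ≃L[ℝ] Cn d := b.equivFun.symm.toContinuousLinearEquiv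
  have hT : ∀ x, T x = ∑ k, x k • l k := by
    intro x
    show b.equivFun.symm x = _
    rw [Module.Basis.equivFun_symm_apply]
    simp only [hb]
  refine ⟨T, hT, fun k => ?_⟩
  rw [hT, Finset.sum_eq_single k]
  · rw [ev_same, one_smul]
  · intro b' _ hb'
    rw [ev_ne hb', zero_smul]
  · simp

include Z in
/-- **FLAT-T**: zero periods of the curvature over the lattice of the torus ==> `L|_T` is flat -/
theorem flat_of_tor (hc : Continuous Φ)
    (hol : ∀ c i, Φ c ∈ (A.e i).source → DifferentiableAt ℂ (fun z => A.e i (Φ z)) c ∧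
      Function.Injective (fderiv ℂ (fun z => A.e i (Φ z)) c))
    {l : Fin (2 * d) → Cn d} (hl : LinearIndependent ℝ l)
    (hΦ : ∀ c c', Φ c = Φ c' ↔ ∃ m : Fin (2 * d) → ℤ, c - c' = ∑ k, (m k : ℝ) • l k)
    (hr : range j = range Φ) (h : HM L)
    (hper : ∀ a b x, Crest.Agent.R281.Per_368.per (pull (curK h).f2 Φ) x (l a) (l b) = 0) :
    Z.Flat L := by
  obtain ⟨T, hT, hTl⟩ := exists_T hl
  have hH : HolC A Φ := ⟨hc, fun i z hz => (hol z i hz).1⟩
  have hp : PerT T Φ := by
    intro k z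
    rw [hΦ]
    exact ⟨k, by rw [hT]; abel⟩
  have hz := mean_of_per (curK h).f2 hH.smI hp (fun a b x => by rw [hTl, hTl]; exact hper a b x)
  obtain ⟨ρ, h1, h2, h3⟩ := exists_rho T hp h hH hz
  refine flat_of_rho Z hH (fun z i hz => (hol z i hz).2) hr (T := T) ?_ h h1 h2 h3
  intro c c' hcc
  obtain ⟨k, hk⟩ := (hΦ c c').1 hcc
  exact ⟨k, by rw [hT, ← hk]; abel⟩

end Flat

end

end Crest.Agent.R281.Flt_877
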