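import Crest.Agent.R281.Ti5_846
import Crest.Agent.R281.Dif3_268

/-!
# GEOM-INST, part 1 (row 281, helper473): diffeomorphisms and the intersection form

`X` compact connected, `C` an oriented chart system.  A diffeomorphism preserves or reverses the
orientation; the integral of a product of closed 2-forms is multiplied by `±1`.

* `intT_abs`  : change of chart system for densities
* `det_cases` : the local determinants of a diffeomorphism have constant sign
* `II_pull`   : `∫ φ^*w₁ ∧ … ∧ φ^*w_N = s ∫ w₁ ∧ … ∧ w_N`, `s = ±1`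
-/

set_option autoImplicit false
set_option linter.unusedSectionVars false

open Set Filter Topology MeasureTheory
open scoped ContDiff

namespace Crest.Agent.R281.GI_473

open Crest.Agent.R281.HkR_835
open Crest.Agent.R281.Ti_846 (ovc isOpen_ovc integrableOn_cpt Ori RPart TopF intT cont_psi
  cont_psi_symm psi_zero TP TP_comp' II)
open Crest.Agent.R281.Dif_268

noncomputable section

variable {V X : Type} [NormedAddCommGroup V] [NormedSpace ℝ V] [FiniteDimensional ℝ V]
  [MeasurableSpace V] [BorelSpace V] (μ : Measure V) [μ.IsAddHaarMeasure] [TopologicalSpace X]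

/-- **change of chart** for densities -/
theorem chg_abs (e e' : OpenPartialHomeomorph X V) {g g' : V → ℝ}
    (hsm : DifferentiableOn ℝ (fun z => e' (e.symm z)) (ovc e e'))
    (hz : ∀ z ∈ e.target, e.symm z ∉ e'.source → g z = 0)
    (hz' : ∀ z ∈ e'.target, e'.symm z ∉ e.source → g' z = 0)
    (htr : ∀ z ∈ ovc e e', g z = |(fderiv ℝ (fun z => e' (e.symm z)) z).det| * g' (e' (e.symm z))) :
    ∫ z in e.target, g z ∂μ = ∫ z in e'.target, g' z ∂μ := by
  have hS := isOpen_ovc e e'
  have hS' := isOpen_ovc e' e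
  have h1 : ∫ z in e.target, g z ∂μ = ∫ z in ovc e e', g z ∂μ :=
    setIntegral_eq_of_subset_of_forall_sdiff_eq_zero e.open_target.measurableSet
      (fun z hz => hz.1) fun z hz1 => hz z hz1.1 fun h => hz1.2 ⟨hz1.1, h⟩
  have h2 : ∫ z in e'.target, g' z ∂μ = ∫ z in ovc e' e, g' z ∂μ :=
    setIntegral_eq_of_subset_of_forall_sdiff_eq_zero e'.open_target.measurableSet
      (fun z hz => hz.1) fun z hz1 => hz' z hz1.1 fun h => hz1.2 ⟨hz1.1, h⟩
  have him : (fun z => e' (e.symm z)) '' ovc e e' = ovc e' e := by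
    ext y
    constructor
    · rintro ⟨z, hz, rfl⟩
      refine ⟨e'.map_source hz.2, ?_⟩
      show e'.symm (e' (e.symm z)) ∈ e.source
      rw [e'.left_inv hz.2]
      exact e.map_target hz.1
    · intro hy
      refine ⟨e (e'.symm y), ⟨e.map_source hy.2, ?_⟩, ?_⟩
      · rw [e.left_inv hy.2]
        exact e'.map_target hy.1
      · show e' (e.symm (e (e'.symm y))) = y
        rw [e.left_inv hy.2, e'.right_inv hy.1]
  have hinj : InjOn (fun z => e' (e.symm z)) (ovc e e') := by
    intro z hz y hy h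
    have h1 : e.symm z = e.symm y := e'.injOn hz.2 hy.2 h
    exact e.symm.injOn hz.1 hy.1 h1
  have h3 := integral_image_eq_integral_abs_det_fderiv_smul μ hS.measurableSet
    (fun z hz => ((hsm z hz).differentiableAt (hS.mem_nhds hz)).hasFDerivAt.hasFDerivWithinAt)
    hinj g'
  rw [h1, h2, ← him, h3]
  refine setIntegral_congr_fun hS.measurableSet fun z hz => ?_
  rw [htr z hz, smul_eq_mul]

variable {C C' : RCh V X} [CompactSpace X]

/-- **independence** of the partition and of the charts, for densities -/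
theorem intT_abs (h : ∀ i j, ContDiffOn ℝ ∞ (fun z => C'.e j ((C.e i).symm z))
      (ovc (C.e i) (C'.e j)))
    (P : RPart C) (P' : RPart C') (D : TopF C) (D' : TopF C')
    (hD : ∀ i j, ∀ z ∈ ovc (C.e i) (C'.e j), D.D i z =
      |(fderiv ℝ (fun z => C'.e j ((C.e i).symm z)) z).det| * D'.D j (C'.e j ((C.e i).symm z))) :
    intT μ P D = intT μ P' D' := by
  have e1 : intT μ P D = ∑ k, ∑ l, ∫ z in (C.e (P.c k)).target,
      P'.ψ l ((C.e (P.c k)).symm z) * (P.ψ k ((C.e (P.c k)).symm z) * D.D (P.c k) z) ∂μ := by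
    unfold intT
    refine Finset.sum_congr rfl fun k _ => ?_
    rw [← integral_finsetSum]
    · refine setIntegral_congr_fun (C.e (P.c k)).open_target.measurableSet fun z _ => ?_
      rw [← Finset.sum_mul, P'.sum_one, one_mul]
    · intro l _
      refine integrableOn_cpt μ (C.e (P.c k)) (Kc := tsupport (P.ψ k))
        (isClosed_tsupport _).isCompact (P.sub k) ?_ ?_
      · exact (cont_psi_symm P' l _).mul ((cont_psi_symm P k _).mul (D.cont _))
      · intro z _ hz
        rw [psi_zero P k hz, zero_mul, mul_zero]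
  have e2 : intT μ P' D' = ∑ l, ∑ k, ∫ z in (C'.e (P'.c l)).target,
      P'.ψ l ((C'.e (P'.c l)).symm z) *
        (P.ψ k ((C'.e (P'.c l)).symm z) * D'.D (P'.c l) z) ∂μ := by
    unfold intT
    refine Finset.sum_congr rfl fun l _ => ?_
    rw [← integral_finsetSum]
    · refine setIntegral_congr_fun (C'.e (P'.c l)).open_target.measurableSet fun z _ => ?_
      rw [← Finset.mul_sum, ← Finset.sum_mul, P.sum_one, one_mul]
    · intro k _
      refine integrableOn_cpt μ (C'.e (P'.c l)) (Kc := tsupport (P'.ψ l))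
        (isClosed_tsupport _).isCompact (P'.sub l) ?_ ?_
      · exact (cont_psi_symm P' l _).mul ((cont_psi_symm P k _).mul (D'.cont _))
      · intro z _ hz
        rw [psi_zero P' l hz, zero_mul]
  rw [e1, e2, Finset.sum_comm]
  refine Finset.sum_congr rfl fun l _ => Finset.sum_congr rfl fun k _ => ?_
  refine chg_abs μ (C.e (P.c k)) (C'.e (P'.c l)) ((h _ _).differentiableOn (by simp))
    ?_ ?_ ?_
  · intro z _ hz
    rw [psi_zero P' l fun h1 => hz (P'.sub l h1), zero_mul]
  · intro z _ hz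
    rw [psi_zero P k fun h1 => hz (P.sub k h1), zero_mul, mul_zero]
  · intro z hz
    rw [hD _ _ z hz, (C'.e (P'.c l)).left_inv hz.2]
    ring

/-- the multiple of a top form -/
def scT (s : ℝ) (D : TopF C) : TopF C where
  D i z := s * D.D i z
  cont i := continuousOn_const.mul (D.cont i)
  tr i j z hz := by rw [D.tr i j z hz]; ring

theorem intT_scT (P : RPart C) (s : ℝ) (D : TopF C) : intT μ P (scT s D) = s * intT μ P D := by
  unfold intT
  rw [Finset.mul_sum]
  refine Finset.sum_congr rfl fun k _ => ?_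
  rw [← integral_const_mul]
  refine integral_congr_ae (Eventually.of_forall fun z => ?_)
  change _ * (s * _) = s * (_ * _)
  ring

/-- the partition of unity transported by a homeomorphism -/
def mapPart (P : RPart C) (φ : X ≃ₜ X) : RPart (mapCh C φ) where
  σ := P.σ
  c := P.c
  ψ k x := P.ψ k (φ.symm x)
  sm := fun k (i : C.ι) => by
    have h1 := P.sm k i
    have h2 : ((mapCh C φ).e i).target = (C.e i).target := mapCh_target (C := C) φ i
    rw [h2]
    refine h1.congr fun z _ => ?_
    have h3 : ((mapCh C φ).e i).symm z = φ ((C.e i).symm z) := mapCh_symm (C := C) φ i z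
    show P.ψ k (φ.symm (((mapCh C φ).e i).symm z)) = P.ψ k ((C.e i).symm z)
    rw [h3, φ.symm_apply_apply]
  sub k := by
    intro x hx
    rw [mapCh_source]
    apply P.sub k
    have h1 : tsupport (fun x => P.ψ k (φ.symm x)) = φ.symm ⁻¹' tsupport (P.ψ k) := by
      unfold tsupport
      have : Function.support (fun x => P.ψ k (φ.symm x)) = φ.symm ⁻¹' Function.support (P.ψ k) :=
        rfl
      rw [this, φ.symm.preimage_closure]
    rw [h1] at hx
    exact hx
  sum_one x := P.sum_one (φ.symm x)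

/-- the top form transported by a homeomorphism -/
def mapT (D : TopF C) (φ : X ≃ₜ X) : TopF (mapCh C φ) where
  D := D.D
  cont := fun (i : C.ι) => by
    have h2 : ((mapCh C φ).e i).target = (C.e i).target := mapCh_target (C := C) φ i
    rw [h2]; exact D.cont i
  tr := fun (i j : C.ι) z hz => by
    have h1 : (mapCh C φ).ov i j = C.ov i j := mapCh_ov (C := C) φ i j
    have h2 : (mapCh C φ).t i j = C.t i j := funext fun z => mapCh_t (C := C) φ i j z
    rw [h1] at hz
    rw [h2]
    exact D.tr i j z hz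

theorem intT_map (P : RPart C) (D : TopF C) (φ : X ≃ₜ X) :
    intT μ (mapPart P φ) (mapT D φ) = intT μ P D := by
  unfold intT
  refine Finset.sum_congr rfl fun k _ => ?_
  have h2 : ((mapCh C φ).e (P.c k)).target = (C.e (P.c k)).target := mapCh_target φ _
  change ∫ z in ((mapCh C φ).e (P.c k)).target,
    P.ψ k (φ.symm (((mapCh C φ).e (P.c k)).symm z)) * D.D (P.c k) z ∂μ = _
  rw [h2]
  refine setIntegral_congr_fun (C.e (P.c k)).open_target.measurableSet fun z _ => ?_
  have h3 : ((mapCh C φ).e (P.c k)).symm z = φ ((C.e (P.c k)).symm z) :=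
    mapCh_symm (C := C) φ (P.c k) z
  change P.ψ k (φ.symm (((mapCh C φ).e (P.c k)).symm z)) * D.D (P.c k) z =
    P.ψ k ((C.e (P.c k)).symm z) * D.D (P.c k) z
  rw [h3, φ.symm_apply_apply]

/-! ### the sign of a diffeomorphism -/

section sign

omit [MeasurableSpace V] [BorelSpace V] [CompactSpace X] in
theorem det_comp' (S T : V →L[ℝ] V) : (S.comp T).det = S.det * T.det := by
  simp only [ContinuousLinearMap.det, ContinuousLinearMap.toLinearMap_comp, LinearMap.det_comp]

omit [MeasurableSpace V] [BorelSpace V] [CompactSpace X] in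
/-- the local determinant is not zero -/
theorem det_ne {g : SMap C' C} {g' : SMap C C'} (hgg : g'.f ∘ g.f = _root_.id) {i : C.ι} {j : C'.ι}
    {z : V} (hz : z ∈ dom C C' g.f i j) : (fderiv ℝ (loc C C' g.f i j) z).det ≠ 0 := by
  have h1 : z ∈ dom C' C' (g'.f ∘ g.f) j j := by
    rw [hgg]; exact ⟨hz.1, (C'.e j).map_target hz.1⟩
  have h2 : loc C' C' (g'.f ∘ g.f) j j =ᶠ[𝓝 z] _root_.id := by
    filter_upwards [(C'.e j).open_target.mem_nhds hz.1] with y hy
    rw [hgg]
    exact (C'.e j).right_inv hy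
  have h3 : (fderiv ℝ (loc C' C g'.f j i) (loc C C' g.f i j z)).comp
      (fderiv ℝ (loc C C' g.f i j) z) = ContinuousLinearMap.id ℝ V := by
    ext v
    have := g'.dloc_comp g hz h1 v
    rw [h2.fderiv_eq, fderiv_id] at this
    exact this.symm
  intro h0
  have h4 := congrArg ContinuousLinearMap.det h3
  rw [det_comp', h0, mul_zero] at h4
  simp [ContinuousLinearMap.det] at h4

omit [MeasurableSpace V] [BorelSpace V] [CompactSpace X] in
/-- the sign of the local determinant does not depend on the charts -/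
theorem det_sign (hC : Ori C) (hC' : Ori C') (g : SMap C' C) {i i' : C.ι} {j j' : C'.ι} {z z' : V}
    (hz : z ∈ dom C C' g.f i j) (hz' : z' ∈ dom C C' g.f i' j')
    (he : (C'.e j).symm z = (C'.e j').symm z') (h : 0 < (fderiv ℝ (loc C C' g.f i j) z).det) :
    0 < (fderiv ℝ (loc C C' g.f i' j') z').det := by
  -- move to the charts `i, j'`
  have hov : z' ∈ C'.ov j' j := ⟨hz'.1, by rw [← he]; exact (C'.e j).map_target hz.1⟩
  have htz : C'.t j' j z' = z := by
    show C'.e j ((C'.e j').symm z') = z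
    rw [← he, (C'.e j).right_inv hz.1]
  have hz2 : z' ∈ dom C C' g.f i j' := ⟨hz'.1, by rw [← he]; exact hz.2⟩
  have h1 : (fderiv ℝ (loc C C' g.f i j) z).comp (fderiv ℝ (C'.t j' j) z') =
      fderiv ℝ (loc C C' g.f i j') z' := by
    ext v
    have := g.dloc_t hov hz2 v
    rw [htz] at this
    exact this
  have h2 : 0 < (fderiv ℝ (loc C C' g.f i j') z').det := by
    rw [← h1, det_comp']
    exact mul_pos h (hC' _ _ _ hov)
  have h3 : (fderiv ℝ (C.t i i') (loc C C' g.f i j' z')).comp (fderiv ℝ (loc C C' g.f i j') z') =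
      fderiv ℝ (loc C C' g.f i' j') z' := by
    ext v
    exact g.dt_loc hz2 hz' v
  rw [← h3, det_comp']
  exact mul_pos (hC _ _ _ (g.loc_ov hz2 hz')) h2

omit [MeasurableSpace V] [BorelSpace V] [CompactSpace X] in
/-- **the local determinants of a diffeomorphism have constant sign** -/
theorem det_cases [PreconnectedSpace X] (hC : Ori C) (hC' : Ori C') {g : SMap C' C}
    {g' : SMap C C'} (hgg : g'.f ∘ g.f = _root_.id) :
    (∀ i j, ∀ z ∈ dom C C' g.f i j, 0 < (fderiv ℝ (loc C C' g.f i j) z).det) ∨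
    (∀ i j, ∀ z ∈ dom C C' g.f i j, (fderiv ℝ (loc C C' g.f i j) z).det < 0) := by
  set S : Set X := {x | ∃ i j, ∃ z ∈ dom C C' g.f i j, (C'.e j).symm z = x ∧
    0 < (fderiv ℝ (loc C C' g.f i j) z).det} with hS
  set S' : Set X := {x | ∃ i j, ∃ z ∈ dom C C' g.f i j, (C'.e j).symm z = x ∧
    (fderiv ℝ (loc C C' g.f i j) z).det < 0} with hS'
  have hcont : ∀ i j, ∀ z ∈ dom C C' g.f i j,
      ContinuousAt (fun y => (fderiv ℝ (loc C C' g.f i j) y).det) z := by
    intro i j z hz
    have h1 : ContinuousAt (fderiv ℝ (loc C C' g.f i j)) z :=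
      ((g.contDiffAt_loc hz).fderiv_right (m := 0) (by simp)).continuousAt
    exact ContinuousLinearMap.continuous_det.continuousAt.comp h1
  have hopen : ∀ (p : ℝ → Prop), IsOpen {t | p t} → IsOpen {x : X | ∃ i j,
      ∃ z ∈ dom C C' g.f i j, (C'.e j).symm z = x ∧
        p (fderiv ℝ (loc C C' g.f i j) z).det} := by
    intro p hp
    rw [isOpen_iff_mem_nhds]
    rintro x ⟨i, j, z, hz, rfl, hpz⟩
    have h1 : ∀ᶠ y in 𝓝 z, y ∈ dom C C' g.f i j ∧ p (fderiv ℝ (loc C C' g.f i j) y).det :=
      ((g.isOpen_dom i j).eventually_mem hz).and ((hcont i j z hz).eventually (hp.mem_nhds hpz))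
    have h2 : Tendsto (C'.e j) (𝓝 ((C'.e j).symm z)) (𝓝 z) := by
      have := (C'.e j).continuousAt ((C'.e j).map_target hz.1)
      rwa [ContinuousAt, (C'.e j).right_inv hz.1] at this
    filter_upwards [h2.eventually h1, (C'.e j).open_source.mem_nhds ((C'.e j).map_target hz.1)] with
      x hx hxs
    exact ⟨i, j, C'.e j x, hx.1, (C'.e j).left_inv hxs, hx.2⟩
  have hSo : IsOpen S := hopen (fun t => 0 < t) isOpen_Ioi
  have hSo' : IsOpen S' := hopen (fun t => t < 0) isOpen_Iio
  have hcov : (univ : Set X) ⊆ S ∪ S' := by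
    intro x _
    obtain ⟨j, hj⟩ := C'.cover x
    have hz : C'.e j x ∈ (C'.e j).target := (C'.e j).map_source hj
    obtain ⟨i, hi⟩ := g.exists_dom hz
    rcases lt_or_gt_of_ne (det_ne hgg hi) with h | h
    · exact Or.inr ⟨i, j, _, hi, (C'.e j).left_inv hj, h⟩
    · exact Or.inl ⟨i, j, _, hi, (C'.e j).left_inv hj, h⟩
  have hdisj : ∀ x, ¬ (x ∈ S ∧ x ∈ S') := by
    rintro x ⟨⟨i, j, z, hz, hx, h⟩, ⟨i', j', z', hz', hx', h'⟩⟩
    have := det_sign hC hC' g hz hz' (hx.trans hx'.symm) h
    linarith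
  have hmain : (univ : Set X) ⊆ S ∨ (univ : Set X) ⊆ S' := by
    refine isPreconnected_univ.subset_or_subset hSo hSo' ?_ hcov
    rw [Set.disjoint_left]
    exact fun x h1 h2 => hdisj x ⟨h1, h2⟩
  rcases hmain with h | h
  · left
    intro i j z hz
    obtain ⟨i', j', z', hz', hx, hp⟩ := h (mem_univ ((C'.e j).symm z))
    exact det_sign hC hC' g hz' hz hx hp
  · right
    intro i j z hz
    rcases lt_or_gt_of_ne (det_ne hgg hz) with h1 | h1
    · exact h1
    · exact absurd ⟨⟨i, j, z, hz, rfl, h1⟩, h (mem_univ _)⟩ (hdisj ((C'.e j).symm z))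

end sign

/-! ### the intersection form -/

variable {K : Type} [Fintype K] [DecidableEq K]

/-- **the integral of the pull backs under a diffeomorphism** -/
theorem II_pull_gen [PreconnectedSpace X] (hC : Ori C) (hC' : Ori C')
    (b : Module.Basis (K × Fin 2) ℝ V) (P : RPart C) (P' : RPart C') (φ : X ≃ₜ X) (g : SMap C' C)
    (g' : SMap C C') (hg : g.f = φ) (hg' : g'.f = φ.symm) : ∃ s : ℝ, (s = 1 ∨ s = -1) ∧
      ∀ w : K → F2 C, II μ b P' (fun k => g.pull (w k)) = s * II μ b P w := by
  have hgg : g'.f ∘ g.f = _root_.id := by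
    rw [hg, hg']; funext x; exact φ.symm_apply_apply x
  have key : ∃ s : ℝ, (s = 1 ∨ s = -1) ∧ ∀ i j, ∀ z ∈ dom C C' g.f i j,
      (fderiv ℝ (loc C C' g.f i j) z).det = |(fderiv ℝ (loc C C' g.f i j) z).det| * s := by
    rcases det_cases hC hC' hgg with h | h
    · exact ⟨1, Or.inl rfl, fun i j z hz => by rw [abs_of_pos (h i j z hz), mul_one]⟩
    · exact ⟨-1, Or.inr rfl, fun i j z hz => by rw [abs_of_neg (h i j z hz)]; ring⟩
  obtain ⟨s, hs, hkey⟩ := key
  refine ⟨s, hs, fun w => ?_⟩
  -- the charts `e_j ∘ φ`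
  have hsrc : ∀ (i : C'.ι) (j : C.ι), ovc (C'.e i) ((mapCh C φ.symm).e j) = dom C C' g.f j i := by
    intro i j
    ext z
    have h1 := mapCh_source (C := C) φ.symm j ((C'.e i).symm z)
    show z ∈ (C'.e i).target ∧ (C'.e i).symm z ∈ ((mapCh C φ.symm).e j).source ↔
      z ∈ (C'.e i).target ∧ g.f ((C'.e i).symm z) ∈ (C.e j).source
    rw [h1, hg]
    rfl
  have hfun : ∀ (i : C'.ι) (j : C.ι), (fun z => (mapCh C φ.symm).e j ((C'.e i).symm z)) =
      loc C C' g.f j i := by
    intro i j
    funext z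
    have h1 := mapCh_e (C := C) φ.symm j ((C'.e i).symm z)
    show (mapCh C φ.symm).e j ((C'.e i).symm z) = C.e j (g.f ((C'.e i).symm z))
    rw [h1, hg]
    rfl
  have h1 : II μ b P' (fun k => g.pull (w k)) =
      intT μ (mapPart P φ.symm) (mapT (scT s (TopF.of b w)) φ.symm) := by
    refine intT_abs μ (C := C') (C' := mapCh C φ.symm) (fun i (j : C.ι) => ?_) P' _ _ _
      fun i (j : C.ι) z hz => ?_
    · rw [hfun, hsrc]; exact g.sm j i
    · rw [hfun]
      rw [hsrc] at hz
      have h2' : (mapCh C φ.symm).e j ((C'.e i).symm z) = loc C C' g.f j i z :=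
        congrFun (hfun i j) z
      rw [h2']
      change TP b (fun k => (g.pull (w k)).w i z) =
        _ * (s * TP b (fun k => (w k).w j (loc C C' g.f j i z)))
      rw [TP_comp' b (fderiv ℝ (loc C C' g.f j i) z) fun k u v => g.pull_w (w k) hz u v,
        ← mul_assoc, ← hkey j i z hz]
  rw [h1, intT_map, intT_scT]
  rfl

/-- the same for a diffeomorphism of `(X, C)` -/
theorem II_pull [PreconnectedSpace X] (hC : Ori C) (b : Module.Basis (K × Fin 2) ℝ V)
    (P : RPart C) (φ : difG C) : ∃ s : ℝ, (s = 1 ∨ s = -1) ∧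
      ∀ g : SMap C C, g.f = φ.1 → ∀ w : K → F2 C,
        II μ b P (fun k => g.pull (w k)) = s * II μ b P w := by
  obtain ⟨g0, hg0⟩ := φ.2.1
  obtain ⟨g1, hg1⟩ := φ.2.2
  obtain ⟨s, hs, h⟩ := II_pull_gen μ hC hC b P P φ.1 g0 g1 hg0 hg1
  refine ⟨s, hs, fun g hg w => ?_⟩
  have hgg0 : g = g0 := SMap.ext' (by rw [hg, hg0])
  subst hgg0
  exact h w

/-- the same for two compatible oriented chart systems on `X` -/
theorem II_ofCmp [PreconnectedSpace X] (hC : Ori C) (hC' : Ori C')
    (b : Module.Basis (K × Fin 2) ℝ V) (P : RPart C) (P' : RPart C') (hcmp : Cmp C C') :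
    ∃ s : ℝ, (s = 1 ∨ s = -1) ∧
      ∀ w : K → F2 C, II μ b P' (fun k => (SMap.ofCmp hcmp).pull (w k)) = s * II μ b P w :=
  II_pull_gen μ hC hC' b P P' (Homeomorph.refl X) (SMap.ofCmp hcmp) (SMap.ofCmp hcmp.symm) rfl rfl

end

end Crest.Agent.R281.GI_473
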