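import Crest.Agent.R281.Un9_360

/-!
# R281 (S0424), KAPPA-1 road UNIQ (helper360), glue 1: refinement of the atlas

* `refHM`      : the metric on the refined atlas; `refHM_wt`
* `QPsh.ref`   : a potential passes to a refinement
* `Good.ref`   : a good point passes to a refinement
-/

set_option autoImplicit false
set_option linter.unusedSectionVars false

open Set Filter Topology Complex MeasureTheory
open scoped ContDiff Matrix ComplexConjugate

namespace Crest.Agent.R281.Un_360

open Crest.Agent.R275 Crest.Agent.R275.Geo Crest.Agent.R275.Core144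
open Crest.Agent.R273.Defs_333 Crest.Agent.R273.HM_333
open Crest.Agent.R273.Map_835 Crest.Agent.R273.PB_835

noncomputable section

variable {N : ℕ} {M : Type} [TopologicalSpace M] {A A' : Atl N M}

/-- the metric on the refined atlas -/
def refHM (hid : HolMap A' A id) (R : Ref A' A id) {L : LB A} (h : HM L) :
    HM (pullLB hid R L) := (PB.ref hid R L).pullHM hid h

theorem refHM_w (hid : HolMap A' A id) (R : Ref A' A id) {L : LB A} (h : HM L) {i : A'.ι}
    {x : M} (hx : x ∈ (A'.e i).source) : (refHM hid R h).w i x = h.w (R.r i) x := by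
  have hx' : x ∈ (A.e (R.r i)).source := R.sub i x hx
  have h1 := (PB.ref hid R L).pullHM_w hid h (i := i) (j := R.r i) (x := x) hx hx'
  have h2 : (PB.ref hid R L).c i (R.r i) x = 1 := L.self _ _
  rw [h2, norm_one, one_pow, div_one] at h1
  exact h1

theorem refHM_wt (hid : HolMap A' A id) (R : Ref A' A id) {L : LB A} (h : HM L) {i : A'.ι}
    {x : M} (hx : x ∈ (A'.e i).source) :
    (refHM hid R h).wt i (A'.e i x) = h.wt (R.r i) (A.e (R.r i) x) := by
  have hx' : x ∈ (A.e (R.r i)).source := R.sub i x hx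
  simp only [HM.wt, (A'.e i).left_inv hx, (A.e (R.r i)).left_inv hx', refHM_w hid R h hx]

theorem HolBall.ref (hid : HolMap A' A id) (R : Ref A' A id) {i : A'.ι} {d : ℕ} {ψ : Cn d → M}
    {z : Cn d} {r : ℝ} (hb : HolBall A' i ψ z r) : HolBall A (R.r i) ψ z r := by
  obtain ⟨hr, U, hU, hz, hs, hd⟩ := hb
  refine ⟨hr, U, hU, hz, fun w hw => R.sub i _ (hs w hw), fun w hw => ?_⟩
  have h1 : DifferentiableAt ℂ (rd A' A id i (R.r i)) (A'.e i (ψ w)) :=
    hid.diffAt (mem_dm (hs w hw) (R.sub i _ (hs w hw)))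
  have h2 : DifferentiableAt ℂ (fun w => A'.e i (ψ w)) w := hd.differentiableAt (hU.mem_nhds hw)
  have h3 : DifferentiableAt ℂ (fun w => rd A' A id i (R.r i) (A'.e i (ψ w))) w :=
    DifferentiableAt.comp (g := rd A' A id i (R.r i)) w h1 h2
  refine (h3.congr_of_eventuallyEq ?_).differentiableWithinAt
  filter_upwards [hU.mem_nhds hw] with y hy
  show A.e (R.r i) (ψ y) = A.e (R.r i) ((A'.e i).symm (A'.e i (ψ y)))
  rw [(A'.e i).left_inv (hs y hy)]

theorem SubB.congr {φ : M → ℝ} {G : Set M} {g g' : M → ℝ} {d : ℕ} {ψ : Cn d → M} {z : Cn d}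
    {r : ℝ} (h : SubB φ G g ψ z r) (hr : 0 < r)
    (he : ∀ w ∈ Metric.closedBall z r, g (ψ w) = g' (ψ w)) : SubB φ G g' ψ z r := by
  refine ⟨h.ae, h.int, ?_⟩
  rw [← he z (Metric.mem_closedBall_self hr.le)]
  refine h.sub.trans (le_of_eq ?_)
  rw [setAverage_eq, setAverage_eq]
  congr 1
  refine setIntegral_congr_fun Metric.isOpen_ball.measurableSet fun w hw => ?_
  show φ (ψ w) + g (ψ w) = φ (ψ w) + g' (ψ w)
  rw [he w (Metric.ball_subset_closedBall hw)]

/-- a potential passes to a refinement -/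
def QPsh.ref (hid : HolMap A' A id) (R : Ref A' A id) {L : LB A} {h : HM L} (Q : QPsh h) :
    QPsh (refHM hid R h) where
  φ := Q.φ
  G := Q.G
  C := Q.C
  le := Q.le
  sm d i ψ z r hb hG := by
    have hb' := hb
    obtain ⟨hr, U, hU, hz, hs, hd⟩ := hb'
    refine (Q.sm d (R.r i) ψ z r (hb.ref hid R) hG).congr hr fun w hw => ?_
    exact (refHM_wt hid R h (hs w (hz hw))).symm

/-- a good point passes to a refinement -/
def Good.ref (hid : HolMap A' A id) (R : Ref A' A id) {L : LB A} {h : HM L} {Q : QPsh h}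
    {T' : Set M} {x : M} (g : Good Q T' x) : Good (Q.ref hid R) T' x where
  mem := g.mem
  W := g.W
  oW := g.oW
  xW := g.xW
  m := g.m
  f := g.f
  hol i := by
    intro z hz
    have hx := (A'.e i).map_target hz.1
    have h0 : z ∈ dm A' A id i (R.r i) := ⟨hz.1, R.sub i _ hx⟩
    have h1 : DifferentiableAt ℂ (rd A' A id i (R.r i)) z := hid.diffAt h0
    have h2 : rd A' A id i (R.r i) z ∈ (A.e (R.r i)).target ∩ (A.e (R.r i)).symm ⁻¹' g.W := by
      refine ⟨(A.e (R.r i)).map_source (R.sub i _ hx), ?_⟩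
      show (A.e (R.r i)).symm (A.e (R.r i) ((A'.e i).symm z)) ∈ g.W
      have h6 : (A'.e i).symm z ∈ (A.e (R.r i)).source := R.sub i _ hx
      rw [(A.e (R.r i)).left_inv h6]
      exact hz.2
    have h3 : IsOpen ((A.e (R.r i)).target ∩ (A.e (R.r i)).symm ⁻¹' g.W) :=
      (A.e (R.r i)).isOpen_inter_preimage_symm g.oW
    have h4 := (g.hol (R.r i)).differentiableAt (h3.mem_nhds h2)
    have h5 : DifferentiableAt ℂ (fun w => g.f ((A.e (R.r i)).symm (rd A' A id i (R.r i) w))) z :=
      DifferentiableAt.comp (g := fun w => g.f ((A.e (R.r i)).symm w)) z h4 h1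
    refine (h5.congr_of_eventuallyEq ?_).differentiableWithinAt
    filter_upwards [(A'.e i).open_target.mem_nhds hz.1] with w hw
    show g.f ((A'.e i).symm w) = g.f ((A.e (R.r i)).symm (A.e (R.r i) ((A'.e i).symm w)))
    have h6 : (A'.e i).symm w ∈ (A.e (R.r i)).source := R.sub i _ ((A'.e i).map_target hw)
    rw [(A.e (R.r i)).left_inv h6]
  lvl := g.lvl
  c := g.c
  cpos := g.cpos
  sm d i ψ z r hb hW hG := by
    have hb' := hb
    obtain ⟨hr, U, hU, hz, hs, hd⟩ := hb'
    refine (g.sm d (R.r i) ψ z r (hb.ref hid R) hW hG).congr hr fun w hw => ?_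
    rw [← refHM_wt hid R h (hs w (hz hw))]

end

end Crest.Agent.R281.Un_360
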