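import Crest.Agent.R281.Kd12_22
import Crest.Agent.R281.KpU1_360
import Crest.Agent.R281.HkM2_835
import Crest.Agent.R281.Kas2_975

/-!
# Row 281, GU2 (helper877): the fibres of a tube of tori at the chart member

* `smI_tot`, `pull_tot`, `per_tot` : the total map of a holomorphic tube; periods on the fibres
* `lag`        : (a) the fibres are Lagrangian for `H.sig hA`
* `per_zero`   : (b) the curvature of a metric on a line bundle whose class is a multiple of `e` has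
                 zero periods on the fibres; `per_zero_pres`, `per_zero_ref` : the presentation of a
                 member, and on a refinement
-/

set_option autoImplicit false
set_option linter.unusedSectionVars false
set_option maxSynthPendingDepth 3

open Set Filter Topology Complex Module
open scoped ContDiff

namespace Crest.Agent.R281.Gu_877

open Crest.Agent.R275.Geo Crest.Agent.R275.Core144 Crest.Agent.R275.EDR890
open Crest.Agent.R275.GC293
open Crest.Agent.R273.Defs_333 Crest.Agent.R273.Kah_333 Crest.Agent.R273.HM_333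
open Crest.Agent.R273.Map_835 (HolMap)
open Crest.Agent.R273.PB_835 (LBih Ref pullLB)
open Crest.Agent.R260.ACM_580 Crest.Agent.R260.NNB_580
open Crest.Agent.R281.HkP2_508 Crest.Agent.R281.HkP3_508
open Crest.Agent.R281.HkR_835 Crest.Agent.R281.Ti_846 Crest.Agent.R281.Dif_268
open Crest.Agent.R281.NefO_476
open Crest.Agent.R281.Nef_252
open Crest.Agent.R281.Per_368 (per pull SmI pt per_pull_comb ci ci_mem pl pl_apply)
open Crest.Agent.R281.Kd_22
open Crest.Agent.R281.RkD_902 (Ctx Given Pres)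
open Crest.Agent.R281.PL_713 (PL)
open Crest.Agent.R281.Tub_831 (HolTube PVT)
open Crest.Agent.R281.Un_360 (refHM)

noncomputable section

/-! ### the total map -/

section tot

variable {d : ℕ} {X : Type} [TopologicalSpace X] {A : Atl d X} {F B : Type}
  [NormedAddCommGroup F] [NormedSpace ℂ F] [NormedAddCommGroup B] [NormedSpace ℂ B]

/-- the total map of a holomorphic tube is smooth -/
theorem smI_tot (T : HTube A F B) : SmI (ofAtl A) ((univ : Set F) ×ˢ T.Om) T.P where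
  op := isOpen_univ.prod T.isOpen
  cont p hp := (T.cont p hp.2).continuousWithinAt
  sm i := by
    rintro p ⟨hp, hi⟩
    exact ((T.an_chart hp.2 hi).restrictScalars (𝕜 := ℝ)).contDiffAt.contDiffWithinAt

/-- pull back along the total map, in the fibre directions -/
theorem pull_tot (T : HTube A F B) (w : F2 (ofAtl A)) {b : B} (hb : b ∈ T.Om) (c u v : F) :
    pull w T.P (c, b) (u, 0) (v, 0) = pull w (fun c => T.P (c, b)) c u v := by
  have hm : ((c, b) : F × B) ∈ (univ : Set F) ×ˢ T.Om := ⟨mem_univ _, hb⟩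
  obtain ⟨i, hi⟩ := (ofAtl A).cover (T.P (c, b))
  rw [(smI_tot T).pull_eq w hm hi, (T.smI hb).pull_eq w (mem_univ c) hi, pl_apply, pl_apply]
  have h1 : ∀ u : F, fderiv ℝ (fun c => (ofAtl A).e i (T.P (c, b))) c u =
      fderiv ℝ (fun q => (ofAtl A).e i (T.P q)) (c, b) (u, 0) := by
    intro u
    have h2 := ((smI_tot T).diffAt hm hi).hasFDerivAt
    have h3 : HasFDerivAt (fun c : F => (c, b)) (ContinuousLinearMap.inl ℝ F B) c :=
      (hasFDerivAt_id c).prodMk (hasFDerivAt_const b c)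
    have h4 := (HasFDerivAt.comp (g := fun q => (ofAtl A).e i (T.P q))
      (f := fun c : F => (c, b)) c h2 h3).fderiv
    have h5 : ((fun q => (ofAtl A).e i (T.P q)) ∘ fun c : F => (c, b)) =
        fun c => (ofAtl A).e i (T.P (c, b)) := rfl
    rw [h5] at h4
    rw [h4]; rfl
  rw [h1, h1]

/-- the periods of a form on the fibres -/
theorem per_tot (T : HTube A F B) (w : F2 (ofAtl A)) {b : B} (hb : b ∈ T.Om) (c u v : F) :
    per (pull w T.P) (c, b) (u, 0) (v, 0) = per (pull w fun c => T.P (c, b)) c u v := by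
  unfold per
  refine intervalIntegral.integral_congr fun s _ => intervalIntegral.integral_congr fun t _ => ?_
  have h3 : pt ((c, b) : F × B) (u, 0) (v, 0) s t = (pt c u v s t, b) := by
    simp [pt]
  show pull w T.P (pt (c, b) (u, 0) (v, 0) s t) (u, 0) (v, 0) =
    pull w (fun c => T.P (c, b)) (pt c u v s t) u v
  rw [h3]
  exact pull_tot T w hb _ _ _

end tot

/-! ### the chart member -/

section mem

variable {V X : Type} [NormedAddCommGroup V] [NormedSpace ℝ V] [TopologicalSpace X] {d n : ℕ}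
  {C : RCh V X} {A A' : Atl d X}

/-- the forms of the triple vanish on the fibres -/
theorem pull_vert {J : C.ι → V → V →L[ℝ] V} {w w' : F2 C} {D : Set (Cn n)}
    {Ψ : Cn n × Cn n → X} {l : Fin (2 * n) → Cn n → Cn n} {τ : Cn n → Cn n → Cn n → ℂ}
    (hT : HolTube C J w w' n D Ψ l τ) {y : Cn n} (hy : y ∈ D) (x u v : Cn n) :
    pull w Ψ (y, x) (0, u) (0, v) = 0 ∧ pull w' Ψ (y, x) (0, u) (0, v) = 0 := by
  have h0 := hT.symp (y, x) hy 0 0
  have h1 := hT.symp (y, x) hy (0, u) (0, v)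
  simp only [map_zero, Prod.fst_zero, Prod.snd_zero,
    PiLp.zero_apply, mul_zero, sub_zero, Finset.sum_const_zero, zero_add, Complex.ofReal_zero] at h0
  simp only [PiLp.zero_apply, mul_zero, zero_mul, sub_zero, Finset.sum_const_zero, zero_add] at h1
  rw [← h0] at h1
  have h2 := congrArg Complex.re h1
  have h3 := congrArg Complex.im h1
  simp at h2 h3
  exact ⟨h2, h3⟩

/-- **(a)** the fibres are Lagrangian -/
theorem lag {H : HkT C} (hA : Cp (H.acm 0) A) {J : C.ι → V → V →L[ℝ] V} {D : Set (Cn n)}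
    {Ψ : Cn n × Cn n → X} {l : Fin (2 * n) → Cn n → Cn n} {τ : Cn n → Cn n → Cn n → ℂ}
    (hT : HolTube C J (H.om 1) (H.om 2) n D Ψ l τ) (T : HTube A (Cn n) (Cn n)) (hOm : T.Om ⊆ D)
    (hP : ∀ b ∈ T.Om, ∀ c, T.P (c, b) = Ψ (b, c)) :
    ∀ b ∈ T.Om, ∀ c i, T.P (c, b) ∈ (A.e i).source → ∀ u v : Cn n,
      sb ((H.sig hA).s i (T.P (c, b))) (fderiv ℂ (fun q => A.e i (T.P q)) (c, b) (u, 0))
        (fderiv ℂ (fun q => A.e i (T.P q)) (c, b) (v, 0)) = 0 := by
  intro b hb c i hi u v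
  have hz : A.e i (T.P (c, b)) ∈ (A.e i).target := (A.e i).map_source hi
  have hS := T.smI hb
  have e0 : ∀ w : F2 C, pull w (fun c => T.P (c, b)) c u v = pull w Ψ (b, c) (0, u) (0, v) := by
    intro w
    have h2 : (fun c => T.P (c, b)) = fun c => Ψ (b, c) := by
      funext c; exact hP b hb c
    rw [h2]
    exact pull_fib hT.sm w (hOm hb) _ _ _
  have e1 : ∀ k, ((H.onA hA).om k).w i (A.e i (T.P (c, b)))
      (fderiv ℂ (fun q => A.e i (T.P q)) (c, b) (u, 0))
      (fderiv ℂ (fun q => A.e i (T.P q)) (c, b) (v, 0)) = pull (H.om k) Ψ (b, c) (0, u) (0, v) := by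
    intro k
    rw [← e0, ← pull_F (cmp_of_cp hA) hS (H.om k) (mem_univ _),
      hS.pull_eq ((cmp_of_cp hA).F (H.om k)) (mem_univ c) (i := i) hi, pl_apply]
    have e2 := T.fib_fderiv hb hi
    have e3 : ∀ u, fderiv ℝ (fun c => (ofAtl A).e i (T.P (c, b))) c u =
      fderiv ℂ (fun q => A.e i (T.P q)) (c, b) (u, 0) := e2
    rw [e3, e3]
    rfl
  have h1 := S0_om1 (H.onA hA) (onA_J H hA) hz
  have h2 := S0_om2 (H.onA hA) (onA_J H hA) hz
  have h3 := pull_vert hT (hOm hb) c u v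
  have f1 := e1 1
  have f2 := e1 2
  rw [← h1, f2H_w, h3.1] at f1
  rw [← h2, f2H_I_w, h3.2] at f2
  have hsl : sl ((H.onA hA).S0 (onA_J H hA)) i (A.e i (T.P (c, b))) =
      (H.sig hA).s i (T.P (c, b)) := by
    show (H.sig hA).s i ((A.e i).symm (A.e i (T.P (c, b)))) = _
    rw [(A.e i).left_inv hi]
  rw [hsl] at f1 f2
  exact Complex.ext f1 f2

/-- **(b)** zero periods -/
theorem per_zero {Q : F2 C →ₗ[ℝ] F2 C →ₗ[ℝ] ℝ} {e : F2 C} {H : HkT C} (hA : Cp (H.acm 0) A)
    {L : LB A} (h : HM L) {c₀ : ℝ} (hcl : Ex ((curK h).f2 - c₀ • (cmp_of_cp hA).F e))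
    (hee : Q e e = 0) {J : C.ι → V → V →L[ℝ] V} {w w' : F2 C} {D : Set (Cn n)}
    {Ψ : Cn n × Cn n → X} {l : Fin (2 * n) → Cn n → Cn n} {τ : Cn n → Cn n → Cn n → ℂ}
    (hT : HolTube C J w w' n D Ψ l τ) (hPV : PVT Q e D Ψ l)
    (T : HTube A (Cn n) (Cn n)) (hOm : T.Om ⊆ D) (hP : ∀ b ∈ T.Om, ∀ c, T.P (c, b) = Ψ (b, c)) :
    ∀ b ∈ T.Om, ∀ c j k, per (pull (curK h).f2 T.P) (c, b) (l j b, 0) (l k b, 0) = 0 := by
  intro b hb c j k
  rw [per_tot T _ hb]
  have hS := T.smI hb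
  have hfib : (fun c => T.P (c, b)) = fun c => Ψ (b, c) := by
    funext c; exact hP b hb c
  have hΛ : ∀ m ∈ range (fun k => l k b), ∀ ζ ∈ (univ : Set (Cn n)),
      ζ + m ∈ (univ : Set (Cn n)) ∧ T.P (ζ + m, b) = T.P (ζ, b) := by
    rintro _ ⟨k, rfl⟩ ζ _
    refine ⟨mem_univ _, ?_⟩
    rw [hP b hb, hP b hb]
    refine (hT.eq_iff b (hOm hb) b (hOm hb) _ _).2 ⟨rfl, fun i => if i = k then 1 else 0, ?_⟩
    simp
  refine per_pull_comb (κ := Unit) (b := fun _ => (cmp_of_cp hA).F e) (t := fun _ => c₀) hS hΛ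
    (by simpa using hcl) ⟨j, rfl⟩ ⟨k, rfl⟩ (fun _ _ => mem_univ _) fun _ => ?_
  have h1 := hPV e hee b (hOm hb) c j k
  rw [← h1]
  unfold per
  refine intervalIntegral.integral_congr fun s _ => intervalIntegral.integral_congr fun t _ => ?_
  have h3 : pt ((b, c) : Cn n × Cn n) (0, l j b) (0, l k b) s t =
      (b, pt c (l j b) (l k b) s t) := by
    simp [pt]
  show pull ((cmp_of_cp hA).F e) (fun c => T.P (c, b)) (pt c (l j b) (l k b) s t) (l j b) (l k b) =
      pull e Ψ (pt (b, c) (0, l j b) (0, l k b) s t) (0, l j b) (0, l k b)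
  rw [h3, pull_F (cmp_of_cp hA) hS e (mem_univ _), hfib]
  exact pull_fib hT.sm e (hOm hb) _ _ _

end mem

/-! ### the presentation of a member -/

section pres

variable {n : ℕ} {X : Type} [TopologicalSpace X] [CompactSpace X] [T2Space X]
  [SimplyConnectedSpace X] {C : RCh (Cn (2 * n)) X} {Q : F2 C →ₗ[ℝ] F2 C →ₗ[ℝ] ℝ} {H : HkT C}
  {L0 : PL C} {e : F2 C}

/-- zero periods for the presentation -/
theorem per_zero_pres (hG : Given Q H L0 e) (p : Pres n H L0)
    {J : C.ι → Cn (2 * n) → Cn (2 * n) →L[ℝ] Cn (2 * n)} {w w' : F2 C} {D : Set (Cn n)}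
    {Ψ : Cn n × Cn n → X} {l : Fin (2 * n) → Cn n → Cn n} {τ : Cn n → Cn n → Cn n → ℂ}
    (hT : HolTube C J w w' n D Ψ l τ) (hPV : PVT Q e D Ψ l)
    (T : HTube p.A (Cn n) (Cn n)) (hOm : T.Om ⊆ D)
    (hP : ∀ b ∈ T.Om, ∀ c, T.P (c, b) = Ψ (b, c)) :
    ∀ b ∈ T.Om, ∀ c j k, per (pull (curK p.h).f2 T.P) (c, b) (l j b, 0) (l k b, 0) = 0 :=
  per_zero p.cp p.h (pres_cls hG.lnk p) hG.ee hT hPV T hOm hP

/-- zero periods for the presentation, on an equivalent atlas `A'` which refines `p.A` -/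
theorem per_zero_ref (hG : Given Q H L0 e) (p : Pres n H L0) {A' : Atl (2 * n) X}
    (h1 : HolMap A' p.A id) (h2 : HolMap p.A A' id) (R : Ref A' p.A id)
    {J : C.ι → Cn (2 * n) → Cn (2 * n) →L[ℝ] Cn (2 * n)} {w w' : F2 C} {D : Set (Cn n)}
    {Ψ : Cn n × Cn n → X} {l : Fin (2 * n) → Cn n → Cn n} {τ : Cn n → Cn n → Cn n → ℂ}
    (hT : HolTube C J w w' n D Ψ l τ) (hPV : PVT Q e D Ψ l)
    (T : HTube A' (Cn n) (Cn n)) (hOm : T.Om ⊆ D)
    (hP : ∀ b ∈ T.Om, ∀ c, T.P (c, b) = Ψ (b, c)) :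
    ∀ b ∈ T.Om, ∀ c j k,
      per (pull (curK (refHM h1 R p.h)).f2 T.P) (c, b) (l j b, 0) (l k b, 0) = 0 := by
  have hA' : Cp (H.acm 0) A' := cp_of_hol p.cp h1 h2
  have h0 := pres_cls hG.lnk p
  have e1 : (cmp_of_cp p.cp).F (Real.pi • e) = Real.pi • (cmp_of_cp p.cp).F e :=
    (SkM_474.FL (cmp_of_cp p.cp)).map_smul Real.pi e
  have e2 : (cmp_of_cp hA').F (Real.pi • e) = Real.pi • (cmp_of_cp hA').F e :=
    (SkM_474.FL (cmp_of_cp hA')).map_smul Real.pi e
  rw [← e1] at h0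
  have h3 := cls_pull p.cp hA' h1 h2 R p.h (w := Real.pi • e) h0
  rw [e2] at h3
  exact per_zero (c₀ := Real.pi) hA' (refHM h1 R p.h) h3 hG.ee hT hPV T hOm hP

end pres

end

end Crest.Agent.R281.Gu_877
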