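import Crest.Agent.R281.GTi3_989
import Crest.Agent.R281.CB1_867

/-!
# R281 (S0424), STATIC-CONE (helper989): the sections of a member in the atlas

* `coneC_of_proj` : `Q : ProjD A` whose image is the zero set of the equations of `Y`
                    ==> `ConeC Y (lb Q) (sec Q)`
* `coneC_of_holA` : the same for `P : HEmb C (EuclideanSpace ℂ (Fin (N + 1)))`, `HolA P b A`, and
                    `P.cone = cone of Y`, `Q = toProj`
* `connM_of_holA` : hence `ConnM Y`
-/

set_option autoImplicit false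
set_option linter.unusedSectionVars false

open Polynomial Set Filter Topology Complex
open scoped Matrix

noncomputable section

namespace Crest.Agent.R281.HEc_989

open Crest.Agent.R275.Geo Crest.Agent.R275.Core144
open Crest.Agent.R273.Defs_333 Crest.Agent.R273.FS_333 Crest.Agent.R273.Fam_835
open Crest.Agent.R281.Defs_273
open Crest.Agent.R281.Kr_488 Crest.Agent.R281.AF_867 Crest.Agent.R281.CA_867
open Crest.Agent.R281.CB_867 Crest.Agent.R281.GTi_989
open Crest.Agent.R281.HkR_835 Crest.Agent.R281.Ehr2_268 Crest.Agent.R281.Pe_313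

variable {n : ℕ} {M : Type} [TopologicalSpace M] {A : Atl n M}

theorem sec_ext (Q : ProjD A) {i : A.ι} {x : M} (hx : x ∈ (A.e i).source) :
    (fun k => sec Q k i x) = Q.F i x := funext fun k => sec_eq Q hx k

/-- **the sections of a projective embedding** -/
theorem coneC_of_proj (Q : ProjD A) (Y : CDat n Q.N ℂ)
    (hm : ∀ v : Fin (Q.N + 1) → ℂ, v ≠ 0 →
      (OnE (range Y.G) v ↔ ∃ a, ∃ x ∈ (A.e a).source, ∃ c : ℂ, v = c • Q.F a x)) :
    ConeC Y (lb Q) fun k => sec Q k where
  hs k := isHS_sec Q k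
  inj i j x hx y hy h := by
    obtain ⟨c, hc⟩ := h
    refine Q.inj i j x hx y hy ⟨c, funext fun k => ?_⟩
    have h1 := hc k
    rw [sec_eq Q hx, sec_eq Q hy] at h1
    exact h1
  imm i x hx v h := by
    obtain ⟨c, hc⟩ := h
    have hz : A.e i x ∈ (A.e i).target := (A.e i).map_source hx
    have hxx : (A.e i).symm (A.e i x) = x := (A.e i).left_inv hx
    refine Q.imm i (A.e i x) hz v ⟨c, funext fun k => ?_⟩
    have h1 := hc k
    rw [← hxx, df_sec hz v k] at h1
    rw [h1]
    show c * sec Q k i ((A.e i).symm (A.e i x)) = c * Q.F i ((A.e i).symm (A.e i x)) k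
    rw [sec_eq Q ((A.e i).map_target hz)]
  nz i x hx := exists_sec_ne Q hx
  mem i x hx := by
    rw [sec_ext Q hx]
    exact (hm _ (Q.ne i x hx)).2 ⟨i, x, hx, 1, (one_smul ℂ _).symm⟩
  surj v hv hE := by
    obtain ⟨a, x, hx, c, hc⟩ := (hm v hv).1 hE
    refine ⟨a, x, hx, c, fun k => ?_⟩
    rw [sec_eq Q hx]
    exact congrFun hc k

section emb

variable {V X : Type} [NormedAddCommGroup V] [NormedSpace ℝ V] [TopologicalSpace X]
  {C : RCh V X} {N : ℕ} {P : HEmb C (EuclideanSpace ℂ (Fin (N + 1)))} {A : Atl n X}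

/-- the points of the cone -/
theorem mem_cone_iff (κ : A.ι → Fin (N + 1))
    (hκ : ∀ a, (A.e a).source ⊆ OX P (bE N) (κ a)) {v : Fin (N + 1) → ℂ} (hv : v ≠ 0) :
    (bE N).symm v ∈ P.cone ↔ ∃ a, ∃ x ∈ (A.e a).source, ∃ c : ℂ,
      v = c • nuX P (bE N) (κ a) x := by
  have hF : ∀ (a : A.ι) (x : X) (i : C.ι), x ∈ (A.e a).source → x ∈ (C.e i).source →
      nuX P (bE N) (κ a) x = (bE N (P.u i (C.e i x)) (κ a))⁻¹ • bE N (P.u i (C.e i x)) := by
    intro a x i hx hi
    rw [nuX_eq hi (hκ a hx)]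
    rfl
  constructor
  · rintro ⟨i, z, hz, c, hc, hw⟩
    have hx : (C.e i).symm z ∈ (C.e i).source := (C.e i).map_target hz
    obtain ⟨a, ha⟩ := A.cover ((C.e i).symm z)
    refine ⟨a, _, ha, c * bE N (P.u i z) (κ a), ?_⟩
    have h1 := hF a _ i ha hx
    rw [(C.e i).right_inv hz] at h1
    have hne : bE N (P.u i z) (κ a) ≠ 0 := by
      have := (Pe_313.mem_OX hx).1 (hκ a ha)
      rw [(C.e i).right_inv hz] at this
      exact this.2
    have h2 : v = c • bE N (P.u i z) := by
      rw [← map_smul, ← hw, ContinuousLinearEquiv.apply_symm_apply]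
    rw [h1, smul_smul, mul_assoc, mul_inv_cancel₀ hne, mul_one]
    exact h2
  · rintro ⟨a, x, hx, c, hw⟩
    obtain ⟨i, hi⟩ := C.cover x
    have h1 := hF a x i hx hi
    have hne : bE N (P.u i (C.e i x)) (κ a) ≠ 0 := ((Pe_313.mem_OX hi).1 (hκ a hx)).2
    have hc : c ≠ 0 := by
      rintro rfl
      rw [zero_smul] at hw
      exact hv hw
    refine ⟨i, C.e i x, (C.e i).map_source hi, c * (bE N (P.u i (C.e i x)) (κ a))⁻¹,
      mul_ne_zero hc (inv_ne_zero hne), ?_⟩
    apply (bE N).injective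
    rw [ContinuousLinearEquiv.apply_symm_apply, map_smul, hw, h1, smul_smul]

/-- **the sections of a member** -/
theorem coneC_of_holA (h : HolA P (bE N) A) (κ : A.ι → Fin (N + 1))
    (hκ : ∀ a, (A.e a).source ⊆ OX P (bE N) (κ a)) (Y : CDat n N ℂ)
    (hP : ∀ w, w ∈ P.cone ↔ w ≠ 0 ∧ OnE (range Y.G) fun i => w i) :
    ConeC Y (lb (h.toProj κ hκ)) fun k => sec (h.toProj κ hκ) k := by
  refine coneC_of_proj (h.toProj κ hκ) Y fun v hv => ?_
  have hv' : v ≠ (0 : Fin (N + 1) → ℂ) := hv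
  have h0 := mem_cone_iff κ hκ hv'
  rw [hP] at h0
  refine Iff.trans ?_ h0
  have h1 : (fun i => (bE N).symm v i) = v := by
    have := (bE N).apply_symm_apply v
    exact this
  have h2 : (bE N).symm v ≠ 0 := by
    intro h0
    apply hv'
    rw [← (bE N).apply_symm_apply v, h0, map_zero]
  constructor
  · intro h3
    refine ⟨h2, ?_⟩
    rw [h1]
    exact h3
  · rintro ⟨-, h3⟩
    rw [h1] at h3
    exact h3

end emb

end Crest.Agent.R281.HEc_989
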