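import Crest.Agent.R281.HEc1_989

/-!
# R281 (S0424), STATIC-CONE part 2 (helper989): the algebraic form of a member in the atlas

`P : HEmb C (EuclideanSpace ℂ (Fin (N + 1)))`, `s₁ s₂ : F2 C` with
`SEq : (s₁ + i s₂)(v, v') * u_j ^ m = D.b j u (Du v) (Du v')`, `D` exact:

* `typ_of_seq`  : `Typ P s₁ s₂`
* `formC_of_holA` : `FormC D (sec Q) (h.hsymp ht hnd).toH2`, `Q = toProj`
-/

set_option autoImplicit false
set_option linter.unusedSectionVars false

open Polynomial Set Filter Topology Complex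
open scoped Matrix

noncomputable section

namespace Crest.Agent.R281.HEc_989

open Crest.Agent.R275.Geo Crest.Agent.R275.Core144
open Crest.Agent.R273.Defs_333 Crest.Agent.R273.FS_333 Crest.Agent.R273.Fam_835
open Crest.Agent.R281.Defs_273 Crest.Agent.R273.SteinC_794
open Crest.Agent.R281.Kr_488 Crest.Agent.R281.AF_867 Crest.Agent.R281.CA_867
open Crest.Agent.R281.CB_867 Crest.Agent.R281.GTi_989
open Crest.Agent.R281.HkR_835 Crest.Agent.R281.Ehr2_268 Crest.Agent.R281.Pe_313

variable {n N : ℕ} {V X : Type} [NormedAddCommGroup V] [NormedSpace ℝ V] [TopologicalSpace X]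
  {C : RCh V X} {P : HEmb C (EuclideanSpace ℂ (Fin (N + 1)))} {A : Atl n X}
  {D : FDat (Fin (N + 1)) ℂ} {s₁ s₂ : F2 C}

/-- `s₁ + i s₂` is the form of `D` on the cone over the image of `P` -/
def SEq (P : HEmb C (EuclideanSpace ℂ (Fin (N + 1)))) (D : FDat (Fin (N + 1)) ℂ)
    (s₁ s₂ : F2 C) : Prop :=
  ∀ i, ∀ z ∈ (C.e i).target, ∀ (j : Fin (N + 1)) (v v' : V),
    ((s₁.w i z v v' : ℂ) + (s₂.w i z v v' : ℂ) * I) * P.u i z j ^ D.m =
      D.b j (fun k => P.u i z k) (fun k => fderiv ℝ (P.u i) z v k)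
        (fun k => fderiv ℝ (P.u i) z v' k)

theorem exists_u_ne {i : C.ι} {z : V} (hz : z ∈ (C.e i).target) : ∃ j, P.u i z j ≠ 0 := by
  by_contra hcon
  push Not at hcon
  exact P.ne i z hz (by ext j; exact hcon j)

/-- **type** -/
theorem typ_of_seq (hD : D.Exact) (h : SEq P D s₁ s₂) : Typ P s₁ s₂ := by
  intro i z hz v v' u hv
  obtain ⟨c, hc⟩ := hv
  obtain ⟨j, hj⟩ := exists_u_ne (P := P) hz
  have h1 : (fun k => fderiv ℝ (P.u i) z v' k) =
      I • (fun k => fderiv ℝ (P.u i) z v k) + (-c) • (fun k => P.u i z k) := by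
    have h2 : fderiv ℝ (P.u i) z v' = I • fderiv ℝ (P.u i) z v - c • P.u i z := by
      rw [hc, add_sub_cancel_right]
    funext k
    rw [h2]
    simp only [PiLp.sub_apply, PiLp.smul_apply, Pi.add_apply, Pi.smul_apply, smul_eq_mul]
    ring
  have h3 := h i z hz j v' u
  rw [h1, FDat.b_add_left, FDat.b_smul_left, FDat.b_smul_left, FDat.b_self_left _ _ hD, mul_zero,
    add_zero, ← h i z hz j v u, ← mul_assoc] at h3
  have h4 := mul_right_cancel₀ (pow_ne_zero _ hj) h3
  have h5 := congrArg Complex.re h4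
  simpa using h5

theorem b_scale_full (hD : D.Exact) (j : Fin (N + 1)) (c a a' : ℂ) (x v w : Fin (N + 1) → ℂ) :
    D.b j (c • x) (c • v - a • x) (c • w - a' • x) = c ^ D.m * D.b j x v w := by
  have hm : D.m = D.m - 2 + 2 := by have := hD.two; omega
  have e1 : c • v - a • x = c • v + (-a) • x := by rw [neg_smul, sub_eq_add_neg]
  have e2 : c • w - a' • x = c • w + (-a') • x := by rw [neg_smul, sub_eq_add_neg]
  rw [b_scale hD, e1, e2, FDat.b_add_left, FDat.b_add_right, FDat.b_add_right,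
    FDat.b_smul_left, FDat.b_smul_left, FDat.b_smul_left, FDat.b_smul_left, FDat.b_smul_right,
    FDat.b_smul_right, FDat.b_smul_right, FDat.b_smul_right, FDat.b_self_left _ _ hD,
    FDat.b_self_right _ _ hD, FDat.b_self_left _ _ hD]
  rw [show c ^ D.m = c ^ (D.m - 2) * c ^ 2 by rw [← pow_add, ← hm]]
  ring

theorem entry_eq (U : Fin (N + 1) → Crest.Agent.R273.SerA_945.Fn A) (j : Fin (N + 1)) (i : A.ι)
    (x : X) (a b : Fin n) :
    ((DF U i x)ᵀ * evM U (D.s j) i x * DF U i x) a b =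
      D.b j (fun k => U k i x) (dcol U i x a) (dcol U i x b) := by
  rw [Matrix.mul_apply]
  unfold FDat.b
  rw [Finset.sum_comm]
  refine Finset.sum_congr rfl fun l _ => ?_
  rw [Matrix.mul_apply, Finset.sum_mul]
  refine Finset.sum_congr rfl fun k _ => ?_
  rw [Matrix.transpose_apply, evM_apply]
  show DF U i x k a * MvPolynomial.eval (fun k => U k i x) (D.s j k l) * DF U i x l b =
    MvPolynomial.eval (fun k => U k i x) (D.s j k l) * (DF U i x k a * DF U i x l b)
  ring

/-- **the form of a member** -/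
theorem formC_of_holA (h : HolA P (bE N) A) (κ : A.ι → Fin (N + 1))
    (hκ : ∀ a, (A.e a).source ⊆ OX P (bE N) (κ a)) (hD : D.Exact) (hs : SEq P D s₁ s₂)
    (ht : Typ P s₁ s₂) (hnd : Nd s₁) :
    FormC D (fun k => sec (h.toProj κ hκ) k) (h.hsymp ht hnd).toH2 := by
  intro j a x hx
  set Q : ProjD A := h.toProj κ hκ with hQ
  set z : Cn n := A.e a x with hzdef
  have hz : z ∈ (A.e a).target := (A.e a).map_source hx
  have hxz : (A.e a).symm z = x := (A.e a).left_inv hx
  obtain ⟨i, hi⟩ := C.cover x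
  have hm : z ∈ mov C (ofAtl A) i a := ⟨hz, by
    show (A.e a).symm z ∈ (C.e i).source
    rw [hxz]
    exact hi⟩
  set y : V := mt C (ofAtl A) i a z with hy
  have hyt : y ∈ (C.e i).target := (Cmp.mt_mem hm).1
  have hk : (A.e a).symm z ∈ OX P (bE N) (κ a) := by rw [hxz]; exact hκ a hx
  have hyd : y ∈ dm P (bE N) (κ a) i := by
    have h1 := (Pe_313.mem_OX (P := P) (b := bE N) (k := κ a) hm.2).1 hk
    exact h1
  set lam : ℂ := (bE N (P.u i y) (κ a))⁻¹ with hlam
  -- the value and the derivatives of `Q.F`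
  have hF : nuX P (bE N) (κ a) x = lam • fun k => P.u i y k := by
    have h1 : nuX P (bE N) (κ a) ((A.e a).symm z) = nu P (bE N) (κ a) i y := h.nuX_mt hm hk
    rw [hxz] at h1
    exact h1
  have hdF : ∀ v : Cn n, ∃ c : ℂ,
      (fun k => fderiv ℂ (fun w => nuX P (bE N) (κ a) ((A.e a).symm w)) z v k) =
      lam • (fun k => fderiv ℝ (P.u i) y (fderiv ℝ (mt C (ofAtl A) i a) z v) k) -
        c • fun k => P.u i y k := by
    intro v
    have h1 := h.dnu hm hk v
    rw [fderiv_nu hyd] at h1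
    exact ⟨_, h1.symm⟩
  -- the identity
  have hkey : ∀ u v : Cn n, sb ((h.hsymp ht hnd).s a x) u v * nuX P (bE N) (κ a) x j ^ D.m =
      D.b j (nuX P (bE N) (κ a) x)
        (fun k => fderiv ℂ (fun w => nuX P (bE N) (κ a) ((A.e a).symm w)) z u k)
        (fun k => fderiv ℂ (fun w => nuX P (bE N) (κ a) ((A.e a).symm w)) z v k) := by
    intro u v
    obtain ⟨c, hc⟩ := hdF u
    obtain ⟨c', hc'⟩ := hdF v
    have h1 := h.hsymp_w ht hnd hz u v
    rw [hxz, Cmp.F_w h.cmp s₁ hm, Cmp.F_w h.cmp s₂ hm] at h1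
    have h2 := hs i y hyt j (fderiv ℝ (mt C (ofAtl A) i a) z u)
      (fderiv ℝ (mt C (ofAtl A) i a) z v)
    have h3 := b_scale_full hD j lam c c' (fun k => P.u i y k)
      (fun k => fderiv ℝ (P.u i) y (fderiv ℝ (mt C (ofAtl A) i a) z u) k)
      (fun k => fderiv ℝ (P.u i) y (fderiv ℝ (mt C (ofAtl A) i a) z v) k)
    rw [hc, hc', hF]
    refine Eq.trans ?_ h3.symm
    rw [← h2, ← h1]
    show _ * (lam * P.u i y j) ^ D.m = _
    rw [mul_pow]
    ring
  ext p q
  rw [entry_eq]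
  have hcol : ∀ p : Fin n, dcol (fun k : Fin (N + 1) => sec Q k) a x p =
      fun k => fderiv ℂ (fun w => nuX P (bE N) (κ a) ((A.e a).symm w)) z
        (EuclideanSpace.single p 1) k := by
    intro p
    funext k
    have h1 := df_sec (P := Q) hz (EuclideanSpace.single p 1) k
    rw [hxz] at h1
    exact h1
  have h4 := hkey (EuclideanSpace.single p 1) (EuclideanSpace.single q 1)
  rw [hcol, hcol]
  have h5 : (fun k : Fin (N + 1) => sec Q k a x) = nuX P (bE N) (κ a) x := sec_ext Q hx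
  rw [h5, ← h4]
  have h6 : sec Q j a x = nuX P (bE N) (κ a) x j := congrFun h5 j
  show sec Q j a x ^ D.m * (h.hsymp ht hnd).s a x p q = _
  rw [show sec Q j a x ^ D.m = nuX P (bE N) (κ a) x j ^ D.m from congrArg (· ^ D.m) h6, mul_comm]
  congr 1
  simp [sb]

end Crest.Agent.R281.HEc_989
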