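import Crest.Agent.R281.Al5_830
import Crest.Agent.R281.Ehr7_268
import Crest.Agent.R281.LI2_473

/-!
# R281 (S0424), PER-HOL, part 7 (helper655): the Hodge-Riemann relations at a member

`per_of` : `β i` closed real forms such that every positive combination is a Kaehler form for `J`,
`s1 + i s2` holomorphic symplectic for `J`, `q` the Beauville-Bogomolov-Fujiki form (`TopI`), positive
on one positive combination: `q s1 = q s2 > 0`, `s1 ⟂ s2`, `s1, s2 ⟂ β i`.

`per_cl` : the same on the classes, in the form of the field `per` of `LI_473.HM`.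
-/

set_option autoImplicit false
set_option linter.unusedSectionVars false
set_option maxSynthPendingDepth 3

open Set Filter Topology Function MeasureTheory
open scoped ContDiff

namespace Crest.Agent.R281.Per_655

open Crest.Agent.R275.EDR890
open Crest.Agent.R281.HkR_835
open Crest.Agent.R281.Ti_846 hiding pb pb_apply
open Crest.Agent.R281.NefO_476
open Crest.Agent.R281.Al_830
open Crest.Agent.R281.Cdr_234 (HdR)
open Crest.Agent.R281.Ehr7_268 (cl)

noncomputable section

variable {V X : Type} [NormedAddCommGroup V] [NormedSpace ℝ V] [TopologicalSpace X]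
  {C : RCh V X} {J : AJ C} {s1 s2 : F2 C}
  [FiniteDimensional ℝ V] [MeasurableSpace V] [BorelSpace V] {μ : Measure V}
  [μ.IsAddHaarMeasure] [CompactSpace X] [T2Space X] [ConnectedSpace X] {n : ℕ}
  {b : Module.Basis (Fin (n + n) × Fin 2) ℝ V} {P : RPart C} {q : QuadraticForm ℝ (F2 C)}

theorem polar_smul_left' (q : QuadraticForm ℝ (F2 C)) (a : ℝ) (x y : F2 C) :
    QuadraticMap.polar q (a • x) y = a * QuadraticMap.polar q x y := by
  rw [QuadraticMap.polar_smul_left, smul_eq_mul]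

theorem polar_smul_right' (q : QuadraticForm ℝ (F2 C)) (a : ℝ) (x y : F2 C) :
    QuadraticMap.polar q x (a • y) = a * QuadraticMap.polar q x y := by
  rw [QuadraticMap.polar_smul_right, smul_eq_mul]

/-- one Kaehler form -/
theorem per_one (T : TopI μ b P q) {om : F2 C} (D : HD J om s1 s2) (hq : 0 < q om) :
    q s1 = q s2 ∧ 0 < q s1 ∧ QuadraticMap.polar q s1 s2 = 0 ∧
      QuadraticMap.polar q om s1 = 0 ∧ QuadraticMap.polar q om s2 = 0 := by
  obtain ⟨H, r, hr, -, hex, h1, h2⟩ := T.exists_hk1 D hq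
  have h0 : q (H.om 0) = q om := T.q_coh hex
  have hq0 : 0 < q (H.om 0) := by rw [h0]; exact hq
  have e1 := T.q_om H hq0 1
  have e2 := T.q_om H hq0 2
  have p12 := T.polar_om H hq0 (k := 1) (l := 2) (by decide)
  have p01 := T.polar_om H hq0 (k := 0) (l := 1) (by decide)
  have p02 := T.polar_om H hq0 (k := 0) (l := 2) (by decide)
  rw [h1, QuadraticMap.map_smul, smul_eq_mul] at e1
  rw [h2, QuadraticMap.map_smul, smul_eq_mul] at e2
  rw [h1, h2, polar_smul_left', polar_smul_right'] at p12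
  rw [h1, polar_smul_right', T.polar_coh hex] at p01
  rw [h2, polar_smul_right', T.polar_coh hex] at p02
  have hr2 : 0 < r * r := mul_pos hr hr
  refine ⟨mul_left_cancel₀ hr2.ne' (e1.trans e2.symm), ?_, ?_, ?_, ?_⟩
  · exact (mul_pos_iff_of_pos_left hr2).mp (by rw [e1]; exact hq0)
  · exact (mul_eq_zero.mp ((mul_eq_zero.mp p12).resolve_left hr.ne')).resolve_left hr.ne'
  · exact (mul_eq_zero.mp p01).resolve_left hr.ne'
  · exact (mul_eq_zero.mp p02).resolve_left hr.ne'

/-- **the Hodge-Riemann relations** -/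
theorem per_of (T : TopI μ b P q) {κ : Type*} [Fintype κ] {β : κ → F2 C}
    (hD : ∀ l : κ → ℝ, (∀ i, 0 < l i) → HD J (∑ i, l i • β i) s1 s2) {l0 : κ → ℝ}
    (hl0 : ∀ i, 0 < l0 i) (hq : 0 < q (∑ i, l0 i • β i)) :
    q s1 = q s2 ∧ 0 < q s1 ∧ QuadraticMap.polar q s1 s2 = 0 ∧
      ∀ i, QuadraticMap.polar q s1 (β i) = 0 ∧ QuadraticMap.polar q s2 (β i) = 0 := by
  classical
  obtain ⟨h1, h2, h3, h4, h5⟩ := per_one T (hD l0 hl0) hq
  refine ⟨h1, h2, h3, fun i => ?_⟩
  set x : F2 C := ∑ i, l0 i • β i with hx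
  -- a small positive multiple of `β i`
  have hc : Continuous fun s : ℝ => q (x + s • β i) := by
    have : (fun s : ℝ => q (x + s • β i)) = fun s =>
        q x + s * QuadraticMap.polar q x (β i) + s ^ 2 * q (β i) := by
      funext s
      exact FujSig_358.q_line _ _ _ _
    rw [this]
    fun_prop
  have h6 : ∀ᶠ s in 𝓝[>] (0 : ℝ), 0 < q (x + s • β i) := by
    have h7 : ∀ᶠ s in 𝓝 (0 : ℝ), 0 < q (x + s • β i) :=
      hc.continuousAt.eventually
        (lt_mem_nhds (by show 0 < q (x + (0 : ℝ) • β i); rw [zero_smul, add_zero]; exact hq))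
    exact h7.filter_mono nhdsWithin_le_nhds
  obtain ⟨ε, h7, h8⟩ := (h6.and self_mem_nhdsWithin).exists
  have hε : (0 : ℝ) < ε := h8
  have e1 : ∑ j, (l0 j + if j = i then ε else 0) • β j = x + ε • β i := by
    simp only [add_smul, Finset.sum_add_distrib, ite_smul, zero_smul]
    rw [Finset.sum_ite_eq' Finset.univ i, if_pos (Finset.mem_univ i)]
  have hD' : HD J (x + ε • β i) s1 s2 := by
    rw [← e1]
    refine hD _ fun j => ?_
    split_ifs
    · exact add_pos (hl0 j) hε
    · rw [add_zero]; exact hl0 j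
  obtain ⟨-, -, -, h9, h10⟩ := per_one T hD' h7
  rw [QuadraticMap.polar_add_left, h4, polar_smul_left', zero_add] at h9
  rw [QuadraticMap.polar_add_left, h5, polar_smul_left', zero_add] at h10
  rw [QuadraticMap.polar_comm _ s1, QuadraticMap.polar_comm _ s2]
  exact ⟨(mul_eq_zero.mp h9).resolve_left hε.ne', (mul_eq_zero.mp h10).resolve_left hε.ne'⟩

/-- **the Hodge-Riemann relations on the classes**, the field `per` of `LI_473.HM` -/
theorem per_cl (T : TopI μ b P q) {Q : HdR C →ₗ[ℝ] HdR C →ₗ[ℝ] ℝ} {k : ℝ} (hk : 0 < k)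
    (hQ : ∀ x y : F2 C, Q (cl x) (cl y) = k * QuadraticMap.polar q x y)
    {κ : Type*} [Fintype κ] {β : κ → F2 C}
    (hD : ∀ l : κ → ℝ, (∀ i, 0 < l i) → HD J (∑ i, l i • β i) s1 s2) {l0 : κ → ℝ}
    (hl0 : ∀ i, 0 < l0 i) (hq : 0 < Q (∑ i, l0 i • cl (β i)) (∑ i, l0 i • cl (β i))) :
    Q (cl s1) (cl s1) = Q (cl s2) (cl s2) ∧ 0 < Q (cl s1) (cl s1) ∧ Q (cl s1) (cl s2) = 0 ∧
      ∀ i, Q (cl s1) (cl (β i)) = 0 ∧ Q (cl s2) (cl (β i)) = 0 := by
  have e0 : ∑ i, l0 i • cl (β i) = cl (∑ i, l0 i • β i) := by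
    have : ∀ x : F2 C, cl x = (exS C).mkQ x := fun _ => rfl
    rw [this, map_sum]
    rfl
  have e1 : ∀ x : F2 C, Q (cl x) (cl x) = k * (2 * q x) := by
    intro x
    rw [hQ, QuadraticMap.polar_self, two_nsmul]
    ring
  rw [e0, e1] at hq
  have hq' : 0 < q (∑ i, l0 i • β i) := by
    have := (mul_pos_iff_of_pos_left hk).mp hq
    linarith
  obtain ⟨h1, h2, h3, h4⟩ := per_of T hD hl0 hq'
  refine ⟨by rw [e1, e1, h1], by rw [e1]; positivity, by rw [hQ, h3, mul_zero], fun i => ?_⟩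
  rw [hQ, hQ, (h4 i).1, (h4 i).2, mul_zero]
  exact ⟨rfl, rfl⟩

end

end Crest.Agent.R281.Per_655
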