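import Crest.Agent.R281.GI1_473
import Crest.Agent.R281.Ph1_429
import Crest.Agent.R281.Phb7_267
import Crest.Agent.R281.Phl7_655
import Crest.Agent.R281.AlgDefs_998

/-!
# R281 (S0424), DIV 2, HM INSTANCE (helper790), part 1: the Fujiki form on classes, `LI_473.HM` from
Hodge data of a `QFam`

* `Fj μ b P QH`   : `QH` is a form on `HdR C` with the Fujiki relation (`Fj.of_top` from `TopI`)
* `Fj.holL`       : `QH (cl ·) y` sends holomorphic families to holomorphic functions (267's `HolL`)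
* `Fj.rG_q`       : an element of the group of the marked cover which fixes one positive class is an
                    isometry
* `frH`           : 473's `Fr` of 998's `Frm`
* `HD0 F C Fr κ`  : Hodge data: holomorphic form `b`, classes `β k` constant along the transports,
                    prescribed classes; `HD0.hm : HM (ls F C) Fr (Lz C) κ`; `HD0.hol` = the
                    hypothesis of 267's `HM.geomM`
-/

set_option autoImplicit false
set_option linter.unusedSectionVars false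
set_option maxSynthPendingDepth 5

open Set Filter Topology Complex MeasureTheory
open scoped ContDiff

namespace Crest.Agent.R281.Hmi_790

open Crest.Agent.R281.HkR_835 Crest.Agent.R281.Ehr2_268
open Crest.Agent.R281.Dif_268 hiding Coh symm2
open Crest.Agent.R281.Ehr4_268 Crest.Agent.R281.CL_473 Crest.Agent.R281.Ehr6_268
open Crest.Agent.R281.Cdr_234 Crest.Agent.R281.Ehr7_268 Crest.Agent.R281.LI_473
open Crest.Agent.R281.Ti_846 (IM IM_apply IM_perm RPart Ori II)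
open Crest.Agent.R281.Ehr8_268 (QBF)
open Crest.Agent.R281.Al_830 (TopI)
open Crest.Agent.R281.Alg_998 (Frm)

noncomputable section

universe uq

section sym

variable {V X : Type} [NormedAddCommGroup V] [NormedSpace ℝ V] [TopologicalSpace X]
  {C : RCh V X} {QH : HdR C →ₗ[ℝ] HdR C →ₗ[ℝ] ℝ}

theorem symm_of_cl {Q : F2 C →ₗ[ℝ] F2 C →ₗ[ℝ] ℝ} (hs : ∀ x y, Q x y = Q y x)
    (hQ : ∀ x y : F2 C, QH (cl x) (cl y) = Q x y) (x y : HdR C) : QH x y = QH y x := by
  obtain ⟨x, rfl⟩ := cl_surj x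
  obtain ⟨y, rfl⟩ := cl_surj y
  rw [hQ, hQ, hs]

end sym

section form

variable {V X : Type} [NormedAddCommGroup V] [NormedSpace ℝ V] [TopologicalSpace X]
  {C : RCh V X} [FiniteDimensional ℝ V] [MeasurableSpace V] [BorelSpace V] (μ : Measure V)
  [μ.IsAddHaarMeasure] [CompactSpace X] {n : ℕ}

/-- the class map, linear -/
def clL (C : RCh V X) : F2 C →ₗ[ℝ] HdR C where
  toFun := cl
  map_add' := cl_add
  map_smul' := cl_smul

/-- a form on the classes with the Fujiki relation -/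
structure Fj (b : Module.Basis (Fin (n + n) × Fin 2) ℝ V) (P : RPart C)
    (QH : HdR C →ₗ[ℝ] HdR C →ₗ[ℝ] ℝ) : Prop where
  npos : 0 < n
  ori : Ori C
  symm : ∀ x y, QH x y = QH y x
  fuj : ∃ c0 : ℝ, 0 < c0 ∧ ∀ x : F2 C, IM μ b P (fun _ => x) = c0 * (QH (cl x) (cl x)) ^ n

variable {μ} {b : Module.Basis (Fin (n + n) × Fin 2) ℝ V} {P : RPart C}
  {QH : HdR C →ₗ[ℝ] HdR C →ₗ[ℝ] ℝ}

/-- from 830's `TopI` -/
theorem Fj.of_top {q : QuadraticForm ℝ (F2 C)} (T : TopI μ b P q) {k : ℝ} (hk : 0 < k)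
    (hQ : ∀ x y : F2 C, QH (cl x) (cl y) = k * QuadraticMap.polar q x y) : Fj μ b P QH where
  npos := T.npos
  ori := T.ori
  symm x y := by
    obtain ⟨x, rfl⟩ := cl_surj x
    obtain ⟨y, rfl⟩ := cl_surj y
    rw [hQ, hQ, QuadraticMap.polar_comm]
  fuj := by
    refine ⟨((2 * k)⁻¹) ^ n, by positivity, fun x => ?_⟩
    rw [T.fuj, hQ, ← mul_pow]
    congr 1
    rw [QuadraticMap.polar_self, two_nsmul]
    field_simp
    ring

namespace Fj

variable (h : Fj μ b P QH)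
include h

/-- **267's `HolL`** -/
theorem holL {x0 : HdR C} (h0 : QH x0 x0 ≠ 0) (y : HdR C) :
    Phb_267.HolL C (fun w => QH (cl w) y) := by
  intro E _ _ B R T hB hf
  obtain ⟨c0, hc0, hF⟩ := h.fuj
  obtain ⟨y, rfl⟩ := cl_surj y
  obtain ⟨x0, rfl⟩ := cl_surj x0
  have hν : n ≠ 0 := h.npos.ne'
  have hsym : Ph1_429.Sym (c0⁻¹ • IM μ b P) := fun σ w => by
    rw [smul_apply, smul_apply, IM_perm]
  have hF' : ∀ x : F2 C, (c0⁻¹ • IM μ b P) (fun _ => x) =
      ((QH.compl₁₂ (clL C) (clL C)) x x) ^ n := by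
    intro x
    rw [smul_apply, hF, smul_eq_mul, ← mul_assoc, inv_mul_cancel₀ hc0.ne', one_mul]
    rfl
  have h1 := Ph1_429.hol_of hν (by rw [Fintype.card_fin]; ring) hsym
    (QH.compl₁₂ (clL C) (clL C)) (fun x y => h.symm _ _) hF' (x₀ := x0) h0 (D := B) R T
    (fun w k => by
      have h2 := (Phb_267.HolL.of_II μ b P w k E B R T hB hf).const_mul ((c0⁻¹ : ℝ) : ℂ)
      refine h2.congr fun q _ => ?_
      simp only [smul_apply, smul_eq_mul, IM_apply]
      push_cast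
      ring) y
  refine h1.congr fun q _ => ?_
  show ((QH (cl (R q)) (cl y) : ℝ) : ℂ) + ((QH (cl (T q)) (cl y) : ℝ) : ℂ) * I =
    ((QH (cl y) (cl (R q)) : ℝ) : ℂ) + ((QH (cl y) (cl (T q)) : ℝ) : ℂ) * I
  rw [h.symm (cl (R q)), h.symm (cl (T q))]

/-- **isometries** -/
theorem rG_q [PreconnectedSpace X] (g : difG C ⧸ tG C) {x0 : HdR C} (h0 : 0 < QH x0 x0)
    (hg : rG C g x0 = x0) (x y : HdR C) : QH (rG C g x) (rG C g y) = QH x y := by
  obtain ⟨c0, hc0, hF⟩ := h.fuj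
  obtain ⟨φ, rfl⟩ := QuotientGroup.mk_surjective g
  obtain ⟨s, -, hs⟩ := GI_473.II_pull μ h.ori b P φ⁻¹
  have h1 : ∀ w : F2 C, IM μ b P (fun _ => (invS φ).pull w) = s * IM μ b P (fun _ => w) :=
    fun w => hs (invS φ) (invS_f φ) (fun _ => w)
  refine Ph1_429.quad_g (ν := n) h.npos.ne' QH h.symm (rG C (QuotientGroup.mk φ)) (ε := s)
    (fun z => ?_) h0 (by rw [hg]) x y
  obtain ⟨w, rfl⟩ := cl_surj z
  have h2 := h1 w
  rw [hF, hF] at h2
  rw [rG_mk, hPull_cl]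
  have h3 : c0 * (QH (cl ((invS φ).pull w)) (cl ((invS φ).pull w))) ^ n =
      c0 * (s * (QH (cl w) (cl w)) ^ n) := by rw [h2]; ring
  exact mul_left_cancel₀ hc0.ne' h3

end Fj

end form

section frame

variable {V X : Type} [NormedAddCommGroup V] [NormedSpace ℝ V] [TopologicalSpace X]
  {C : RCh V X} {QH : HdR C →ₗ[ℝ] HdR C →ₗ[ℝ] ℝ} {Q : F2 C →ₗ[ℝ] F2 C →ₗ[ℝ] ℝ}

/-- the ternary frame on classes of 998's `Frm` -/
def frH (F : Frm C Q) (hs : ∀ x y, Q x y = Q y x) (hQ : ∀ x y : F2 C, QH (cl x) (cl y) = Q x y) :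
    Fr QH where
  sym := symm_of_cl hs hQ
  N := F.N
  N_pos := F.hN
  e := cl F.e
  v := cl F.v
  f := cl F.es
  ee := by rw [hQ, F.e_e]
  ev := by rw [hQ, F.e_v]
  vv := by rw [hQ, F.v_v]
  ff := by rw [hQ, F.es_es]
  fv := by rw [hQ, F.es_v]
  fe := by rw [hQ, F.es_e]

variable (F : Frm C Q) (hs : ∀ x y, Q x y = Q y x) (hQ : ∀ x y : F2 C, QH (cl x) (cl y) = Q x y)

@[simp] theorem frH_N : (frH F hs hQ).N = F.N := rfl
@[simp] theorem frH_e : (frH F hs hQ).e = cl F.e := rfl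
@[simp] theorem frH_v : (frH F hs hQ).v = cl F.v := rfl
@[simp] theorem frH_f : (frH F hs hQ).f = cl F.es := rfl

theorem frH_M : (frH F hs hQ).M = Submodule.span ℝ {cl F.es, cl F.v, cl F.e} := by
  apply le_antisymm
  · rintro _ ⟨w, rfl⟩
    rw [Fr.κ_apply]
    refine add_mem (add_mem (Submodule.smul_mem _ _ (Submodule.subset_span ?_))
      (Submodule.smul_mem _ _ (Submodule.subset_span ?_)))
      (Submodule.smul_mem _ _ (Submodule.subset_span ?_))
    · exact Or.inl rfl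
    · exact Or.inr (Or.inl rfl)
    · exact Or.inr (Or.inr rfl)
  · rw [Submodule.span_le]
    rintro x (rfl | rfl | rfl)
    · exact ⟨![1, 0, 0], (frH F hs hQ).κ_f⟩
    · exact ⟨![0, 1, 0], (frH F hs hQ).κ_v⟩
    · exact ⟨![0, 0, 1], (frH F hs hQ).κ_e⟩

end frame

/-! ### Hodge data over a `QFam` -/

section hm

variable {Q : Type uq} [TopologicalSpace Q] {E H : Type} [NormedAddCommGroup E]
    [NormedSpace ℂ E] [NormedAddCommGroup H] [NormedSpace ℂ H] {V X : Type}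
    [NormedAddCommGroup V] [NormedSpace ℝ V] [TopologicalSpace X]
    [FiniteDimensional ℝ V] [CompactSpace X] [T2Space X] [FiniteDimensional ℂ H]

/-- Hodge data over a `QFam` -/
structure HD0 (F : QFam Q E H) (C : RCh V X) {QH : HdR C →ₗ[ℝ] HdR C →ₗ[ℝ] ℝ} (Fr : Fr QH)
    (κ : Type) where
  /-- the holomorphic form -/
  b : Phb_267.QCF F
  /-- the forms with constant classes -/
  β : κ → QBF F
  β_s : ∀ k (x : MQ F C), ∀ q ∈ (ls F C).U ((ls F C).p x),
    ((β k).natF C).cls ((ls F C).s x q) = ((β k).natF C).cls x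
  /-- the prescribed classes -/
  cl0 : κ → HdR C
  /-- isometries -/
  r_q : ∀ g : difG C ⧸ tG C, (∀ k, rG C g (cl0 k) = cl0 k) →
    ∀ x y, QH (rG C g x) (rG C g y) = QH x y
  holL : ∀ y, Phb_267.HolL C (fun w => QH (cl w) y)
  mem_M : ∀ x, (∀ k, QH x (cl0 k) = 0) → x ∈ Fr.M
  perp : ∀ x ∈ Fr.M, ∀ k, QH x (cl0 k) = 0
  /-- Hodge-Riemann relations at the markings with the prescribed classes -/
  per : ∀ m : Mark F C, (∀ k, cl ((β k).form m) = cl0 k) →
    QH (cl (b.re.form m)) (cl (b.re.form m)) = QH (cl (b.im.form m)) (cl (b.im.form m)) ∧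
    0 < QH (cl (b.re.form m)) (cl (b.re.form m)) ∧
    QH (cl (b.re.form m)) (cl (b.im.form m)) = 0 ∧
    ∀ k, QH (cl (b.re.form m)) (cl0 k) = 0 ∧ QH (cl (b.im.form m)) (cl0 k) = 0

namespace HD0

variable {F : QFam Q E H} {C : RCh V X} {QH : HdR C →ₗ[ℝ] HdR C →ₗ[ℝ] ℝ} {Fr : Fr QH} {κ : Type}
  (D : HD0 F C Fr κ)

/-- **the instance** of 473's Hodge data -/
def hm : HM (ls F C) Fr (Lz C) κ where
  r := rG C
  r_mem g _ hx := rG_mem g hx
  cls k := ((D.β k).natF C).cls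
  cls_smul k g x := (D.β k).cls_smul g x
  cls_s k x q hq := D.β_s k x q hq
  cl := D.cl0
  r_q := D.r_q
  mem_M := D.mem_M
  perp := D.perp
  re := (D.b.re.natF C).cls
  im := (D.b.im.natF C).cls
  re_smul g x := D.b.re.cls_smul g x
  im_smul g x := D.b.im.cls_smul g x
  per x hx := by
    obtain ⟨m, rfl⟩ := MQ.exists_rep x
    exact D.per m hx
  cont0 x _ := (Phb_267.cont_of_QCF D.b Fr D.holL x).1
  cont1 x _ := (Phb_267.cont_of_QCF D.b Fr D.holL x).2
  conn := ls_conn F C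

@[simp] theorem hm_r : D.hm.r = rG C := rfl
@[simp] theorem hm_cls (k : κ) : D.hm.cls k = ((D.β k).natF C).cls := rfl
@[simp] theorem hm_cl : D.hm.cl = D.cl0 := rfl
@[simp] theorem hm_re : D.hm.re = (D.b.re.natF C).cls := rfl
@[simp] theorem hm_im : D.hm.im = (D.b.im.natF C).cls := rfl

end HD0

end hm

section hol

open Crest.Agent.R281.Am_957 Crest.Agent.R281.Sl_957

variable {H : Type} [NormedAddCommGroup H] [NormedSpace ℂ H]
    {V X : Type} [NormedAddCommGroup V] [NormedSpace ℝ V] [TopologicalSpace X]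
    {C : RCh V X} [FiniteDimensional ℝ V] [CompactSpace X] [T2Space X]
    [FiniteDimensional ℂ H] {k₀ ι : Type*} [Field k₀] [Algebra k₀ ℂ] {M : Fmt k₀ ι}
    {F : QFam (QM M) (Fin M.m → ℂ) H} {QH : HdR C →ₗ[ℝ] HdR C →ₗ[ℝ] ℝ} {Fr : Fr QH} {κ : Type}

/-- the hypothesis `hol` of `HM.geomM` -/
theorem HD0.hol (D : HD0 F C Fr κ) (hu : ∀ q : QM M, F.u q = q.1.1) (x : MQ F C) :
    ∃ φ₀ φ₁ : (Fin M.m → ℂ) → ℂ, AnalyticAt ℂ φ₀ ((ls F C).p x).1.1 ∧
      AnalyticAt ℂ φ₁ ((ls F C).p x).1.1 ∧ ∀ᶠ q in 𝓝 ((ls F C).p x),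
        Fr.z0 (D.hm.re ((ls F C).s x q)) (D.hm.im ((ls F C).s x q)) = φ₀ q.1.1 ∧
        Fr.z1 (D.hm.re ((ls F C).s x q)) (D.hm.im ((ls F C).s x q)) = φ₁ q.1.1 :=
  Phb_267.hol_of_QCF D.b Fr D.holL hu x

/-- **the geometry over the model** -/
def HD0.geomM (D : HD0 F C Fr κ) (hu : ∀ q : QM M, F.u q = q.1.1) :
    GeomM M Fr.N (Fr.Λ (Lz C)) D.hm.Gp D.hm.Mk :=
  D.hm.geomM fun x _ => D.hol hu x

end hol

end

end Crest.Agent.R281.Hmi_790
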