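import Crest.Agent.R281.Hmi1_790
import Crest.Agent.R281.Dv1_957
import Crest.Agent.R281.Qc2_377
import Crest.Agent.R281.RkD_902

/-!
# R281 (S0424), DIV 2, HM INSTANCE (helper790), part 2: 473's Hodge data for a type (957's `Ty`)

* `qs hC`       : 684's `QS Q` from 902's `Ctx`; `fj_of_ctx` : the Fujiki relation on the classes
* `qc T`        : the holomorphic form of the family of the type (377's `qcfC`)
* `Per T hQ`    : the Hodge-Riemann relations at the markings with the prescribed classes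
* `hd0`, **`hm`** : `HM T.L (frF F hQ) (Lz C) (Fin T.ρ)`; `hm_hol`, **`gm`** : 267's `GeomM`

-/

set_option autoImplicit false
set_option linter.unusedSectionVars false
set_option maxSynthPendingDepth 5

open Set Filter Topology Complex MeasureTheory
open scoped ContDiff

namespace Crest.Agent.R281.Hmi_790

open Crest.Agent.R275.Geo
open Crest.Agent.R281.HkR_835 Crest.Agent.R281.Ehr2_268
open Crest.Agent.R281.Dif_268 hiding Coh symm2
open Crest.Agent.R281.Ehr4_268 Crest.Agent.R281.CL_473 Crest.Agent.R281.Ehr6_268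
open Crest.Agent.R281.Cdr_234 Crest.Agent.R281.Ehr7_268 Crest.Agent.R281.LI_473
open Crest.Agent.R281.Ti_846 (IM IM_apply IM_perm RPart Ori II lc)
open Crest.Agent.R281.Ehr8_268 (QBF)
open Crest.Agent.R281.Al_830 (TopI)
open Crest.Agent.R281.Alg_998 (Frm)
open Crest.Agent.R281.Sta2_684 (QS)
open Crest.Agent.R281.Sta3_684 (Bq)
open Crest.Agent.R281.Dv_957 Crest.Agent.R281.Am_957 Crest.Agent.R281.Sl_957
open Crest.Agent.R281.Fuj7_207 (bn)
open Crest.Agent.R281.RkD_902 (Ctx)
open Crest.Agent.R281.Qc_377 (qcfC)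

noncomputable section

universe uq

/-- 268's holomorphic forms in 267's form -/
def toPhb {Q : Type uq} [TopologicalSpace Q] {E H : Type} [NormedAddCommGroup E]
    [NormedSpace ℂ E] [NormedAddCommGroup H] [NormedSpace ℂ H] {F : QFam Q E H}
    (b : Ehr11_268.QCF F) : Phb_267.QCF F := ⟨b.β, b.compat⟩

theorem toPhb_re {Q : Type uq} [TopologicalSpace Q] {E H : Type} [NormedAddCommGroup E]
    [NormedSpace ℂ E] [NormedAddCommGroup H] [NormedSpace ℂ H] {F : QFam Q E H}
    (b : Ehr11_268.QCF F) : (toPhb b).re = b.re := rfl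

theorem toPhb_im {Q : Type uq} [TopologicalSpace Q] {E H : Type} [NormedAddCommGroup E]
    [NormedSpace ℂ E] [NormedAddCommGroup H] [NormedSpace ℂ H] {F : QFam Q E H}
    (b : Ehr11_268.QCF F) : (toPhb b).im = b.im := rfl

section types

variable {V X : Type} [NormedAddCommGroup V] [NormedSpace ℝ V] [TopologicalSpace X]
  {C : RCh V X} {n : ℕ}

/-- the holomorphic form of the family of the type -/
def qc (T : Ty n C) : Ehr11_268.QCF T.F := qcfC T.K T.M T.nice T.good

variable [FiniteDimensional ℝ V] [CompactSpace X] [T2Space X] {Q : F2 C →ₗ[ℝ] F2 C →ₗ[ℝ] ℝ}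

/-- the class of the real part at a marking -/
def re (T : Ty n C) : MQ T.F C → HdR C := ((qc T).re.natF C).cls

/-- the class of the imaginary part at a marking -/
def im (T : Ty n C) : MQ T.F C → HdR C := ((qc T).im.natF C).cls

/-- **the Hodge-Riemann relations** at the markings with the prescribed classes -/
def Per (T : Ty n C) (hQ : QS Q) : Prop :=
  ∀ m : Mark T.F C, (∀ k, T.cls k (MQ.mk m) = T.pcl k) →
    Bq hQ (re T (MQ.mk m)) (re T (MQ.mk m)) = Bq hQ (im T (MQ.mk m)) (im T (MQ.mk m)) ∧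
    0 < Bq hQ (re T (MQ.mk m)) (re T (MQ.mk m)) ∧
    Bq hQ (re T (MQ.mk m)) (im T (MQ.mk m)) = 0 ∧
    ∀ k, Bq hQ (re T (MQ.mk m)) (T.pcl k) = 0 ∧ Bq hQ (im T (MQ.mk m)) (T.pcl k) = 0

variable [MeasurableSpace V] [BorelSpace V] {μ : Measure V} [μ.IsAddHaarMeasure] {ν : ℕ}
  {b : Module.Basis (Fin (ν + ν) × Fin 2) ℝ V} {P : RPart C}

theorem rG_fix (T : Ty n C) (g : difG C ⧸ tG C) (hg : ∀ k, rG C g (T.pcl k) = T.pcl k) :
    rG C g (∑ k, T.B k) = ∑ k, T.B k := by
  rw [map_sum]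
  refine Finset.sum_congr rfl fun k _ => ?_
  have h1 := hg k
  rw [Ty.pcl, map_smul] at h1
  exact smul_right_injective _ Real.pi_ne_zero h1

/-- Hodge data of a type -/
def hd0 [PreconnectedSpace X] (T : Ty n C) (F : Frm C Q) (hQ : QS Q)
    (hj : Fj μ b P (Bq hQ)) (hok : T.Ok F hQ)
    (pos : 0 < Bq hQ (∑ k, T.B k) (∑ k, T.B k)) (per : Per T hQ) :
    HD0 T.F C (frF F hQ) (Fin T.ρ) where
  b := toPhb (qc T)
  β := T.qb
  β_s := T.cls_s
  cl0 := T.pcl
  r_q g hg x y := hj.rG_q g pos (rG_fix T g hg) x y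
  holL := hj.holL pos.ne'
  mem_M := hok.mem_M
  perp := hok.perp'
  per m hm := per m hm

end types

/-! ### the context of 902 -/

section ctx

variable {n : ℕ} {X : Type} [TopologicalSpace X] [CompactSpace X] {C : RCh (Cn (2 * n)) X}
  {Q : F2 C →ₗ[ℝ] F2 C →ₗ[ℝ] ℝ}

/-- the form of the context -/
theorem qs (hC : Ctx n C Q) : QS Q := ⟨hC.symm, hC.ex, hC.eq⟩

/-- the Fujiki relation on the classes -/
theorem fj_of_ctx (hC : Ctx n C Q) :
    ∃ P : RPart C, Fj (lc (2 * n)) (bn (two_mul n)) P (Bq (qs hC)) := by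
  obtain ⟨P, q, k, hk, hT, h⟩ := hC.top
  exact ⟨P, Fj.of_top hT hk fun x y => h x y⟩

variable [T2Space X] [ConnectedSpace X] (hC : Ctx n C Q) (F : Frm C Q) (T : Ty (2 * n) C)
  (hok : T.Ok F (qs hC)) (pos : 0 < Bq (qs hC) (∑ k, T.B k) (∑ k, T.B k))
  (per : Per T (qs hC))

/-- Hodge data of a type, in the context -/
def hdC : HD0 T.F C (frF F (qs hC)) (Fin T.ρ) :=
  hd0 T F (qs hC) (fj_of_ctx hC).choose_spec hok pos per

/-- **473's `HM`** of a type -/
def hm : HM T.L (frF F (qs hC)) (Lz C) (Fin T.ρ) := (hdC hC F T hok pos per).hm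

theorem hm_r : (hm hC F T hok pos per).r = rG C := rfl
theorem hm_cls : (hm hC F T hok pos per).cls = T.cls := rfl
theorem hm_cl : (hm hC F T hok pos per).cl = T.pcl := rfl
theorem hm_re : (hm hC F T hok pos per).re = re T := rfl
theorem hm_im : (hm hC F T hok pos per).im = im T := rfl

/-- the hypothesis `hol` of `HM.geomM` -/
theorem hm_hol (x : MQ T.F C) :
    ∃ φ₀ φ₁ : (Fin T.M.m → ℂ) → ℂ, AnalyticAt ℂ φ₀ (T.L.p x).1.1 ∧
      AnalyticAt ℂ φ₁ (T.L.p x).1.1 ∧ ∀ᶠ q in 𝓝 (T.L.p x),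
        (frF F (qs hC)).z0 ((hm hC F T hok pos per).re (T.L.s x q))
          ((hm hC F T hok pos per).im (T.L.s x q)) = φ₀ q.1.1 ∧
        (frF F (qs hC)).z1 ((hm hC F T hok pos per).re (T.L.s x q))
          ((hm hC F T hok pos per).im (T.L.s x q)) = φ₁ q.1.1 :=
  (hdC hC F T hok pos per).hol (fun _ => rfl) x

/-- **267's `GeomM`** of a type -/
def gm : GeomM T.M (frF F (qs hC)).N ((frF F (qs hC)).Λ (Lz C)) (hm hC F T hok pos per).Gp
    (hm hC F T hok pos per).Mk :=
  (hm hC F T hok pos per).geomM fun x _ => hm_hol hC F T hok pos per x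

end ctx

end

end Crest.Agent.R281.Hmi_790
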