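import Crest.Agent.R281.Al4_830
import Crest.Agent.R281.AlgDefs_998
import Crest.Agent.R281.KpU_487
import Crest.Agent.R281.Sc2_413
import Crest.Agent.R273.MassA_5

/-!
# R281 (S0424), ASM-2 (helper313): uniqueness of the hyperkaehler structure

* `heqv_of_om`  : two triples with the same forms are equal
* `uniq_atl`    : `H`, `H'` on a holomorphic atlas, `J 0 = J 0' = i`, `om 0`, `om 0'` cohomologous,
                  holomorphic 2-forms proportional ⇒ `om 0' = om 0`, `om 1' + i om 2' = c (om 1 + i om 2)`,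
                  `|c| = 1`
* `uniq_rch`    : the same on `C : RCh V X`
* `rotc`        : rotation of `(om 1, om 2)` by the unit complex number `c`
* `heqv_rotc`   : `HEqv (rotc H c) H'`
-/

set_option autoImplicit false
set_option linter.unusedSectionVars false

open Set Filter Topology Complex
open scoped ContDiff Matrix ComplexConjugate ComplexOrder

namespace Crest.Agent.R281.Hu_313

open Crest.Agent.R275.Geo Crest.Agent.R275.Core144 Crest.Agent.R275.EDR890
open Crest.Agent.R275.GC293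
open Crest.Agent.R273 Crest.Agent.R273.Hess_333 Crest.Agent.R273.HessB_333
open Crest.Agent.R273.Defs_333 Crest.Agent.R273.HM_333 Crest.Agent.R273.Kah_333
open Crest.Agent.R281.Defs_273 (H2 HSymp)
open Crest.Agent.R260.ACM_580 Crest.Agent.R260.NNB_580
open Crest.Agent.R281.HkR_835 Crest.Agent.R281.Alg_998
open Crest.Agent.R281.KpU_487 (C2f unique_kah)
open Crest.Agent.R281.Ti_846 (Ex)
open Crest.Agent.R281.HkP1_508 Crest.Agent.R281.HkP2_508

noncomputable section

section heqv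

variable {V X : Type} [NormedAddCommGroup V] [NormedSpace ℝ V] [TopologicalSpace X]
  {C : RCh V X}

theorem heqv_of_om {H H' : HkT C}
    (h : ∀ k i, ∀ z ∈ (C.e i).target, (H.om k).w i z = (H'.om k).w i z) : HEqv H H' := by
  have hJ : ∀ k i, ∀ z ∈ (C.e i).target, H.J k i z = H'.J k i z := by
    intro k i z hz
    obtain ⟨l, m, hk⟩ := HkT.exists_cyc k
    ext v
    rw [← sub_eq_zero]
    refine H.nondeg l hz _ fun u => ?_
    rw [map_sub, sub_apply, (H.om_J hk hz v u).1, h l i z hz, (H'.om_J hk hz v u).1, h m i z hz,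
      sub_self]
  refine ⟨h, hJ, fun i z hz => ?_⟩
  ext u v
  rw [H.g_eq 0 hz, H'.g_eq 0 hz, h 0 i z hz, hJ 0 i z hz]

/-- the frame of the rotation by `c` -/
def rfr (c : ℂ) : Fin 3 → Fin 3 → ℝ :=
  ![![1, 0, 0], ![0, c.re, -c.im], ![0, c.im, c.re]]

theorem fr_rfr {c : ℂ} (hc : ‖c‖ = 1) : HkT.Fr (rfr c) := by
  have h1 : c.re * c.re + c.im * c.im = 1 := by
    have := Complex.normSq_eq_norm_sq c
    rw [hc, Complex.normSq_apply] at this
    linarith
  refine ⟨fun k => ?_, ?_, ?_⟩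
  · fin_cases k
    · simp [rfr]
    · simp only [rfr, Fin.mk_one, Matrix.cons_val_one, Matrix.cons_val_zero, Matrix.cons_val]
      linarith
    · simp only [rfr, Fin.reduceFinMk, Matrix.cons_val_one, Matrix.cons_val_zero, Matrix.cons_val]
      linarith
  · simp [rfr]
  · funext k
    fin_cases k <;> simp [rfr]

/-- rotation of `(om 1, om 2)`: `om 1 + i om 2 ↦ c (om 1 + i om 2)` -/
def rotc (H : HkT C) (c : ℂ) (hc : ‖c‖ = 1) : HkT C := H.rot (rfr c) (fr_rfr hc)

theorem rotc_om0 (H : HkT C) {c : ℂ} (hc : ‖c‖ = 1) (i : C.ι) (z : V) :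
    ((rotc H c hc).om 0).w i z = (H.om 0).w i z := by
  ext u v
  rw [rotc, HkT.rot_om, F2.lin_w, Fin.sum_univ_three]
  simp [rfr]

theorem rotc_om1 (H : HkT C) {c : ℂ} (hc : ‖c‖ = 1) (i : C.ι) (z u v : V) :
    ((rotc H c hc).om 1).w i z u v = c.re * (H.om 1).w i z u v - c.im * (H.om 2).w i z u v := by
  rw [rotc, HkT.rot_om, F2.lin_w, Fin.sum_univ_three]
  simp only [rfr, Matrix.cons_val_one, Matrix.cons_val_zero, Matrix.cons_val]
  ring

theorem rotc_om2 (H : HkT C) {c : ℂ} (hc : ‖c‖ = 1) (i : C.ι) (z u v : V) :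
    ((rotc H c hc).om 2).w i z u v = c.im * (H.om 1).w i z u v + c.re * (H.om 2).w i z u v := by
  rw [rotc, HkT.rot_om, F2.lin_w, Fin.sum_univ_three]
  simp only [rfr, Matrix.cons_val_one, Matrix.cons_val_zero, Matrix.cons_val]
  ring

/-- the relation between two triples with the same `J 0` and Kaehler form -/
structure RotRel (H H' : HkT C) (c : ℂ) : Prop where
  nrm : ‖c‖ = 1
  om0 : ∀ i, ∀ z ∈ (C.e i).target, (H'.om 0).w i z = (H.om 0).w i z
  om1 : ∀ i, ∀ z ∈ (C.e i).target, ∀ u v,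
    (H'.om 1).w i z u v = c.re * (H.om 1).w i z u v - c.im * (H.om 2).w i z u v
  om2 : ∀ i, ∀ z ∈ (C.e i).target, ∀ u v,
    (H'.om 2).w i z u v = c.im * (H.om 1).w i z u v + c.re * (H.om 2).w i z u v

theorem RotRel.heqv {H H' : HkT C} {c : ℂ} (h : RotRel H H' c) : HEqv (rotc H c h.nrm) H' := by
  refine heqv_of_om fun k i z hz => ?_
  fin_cases k
  · show ((rotc H c h.nrm).om 0).w i z = (H'.om 0).w i z
    rw [rotc_om0, h.om0 i z hz]
  · show ((rotc H c h.nrm).om 1).w i z = (H'.om 1).w i z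
    ext u v
    rw [rotc_om1, h.om1 i z hz]
  · show ((rotc H c h.nrm).om 2).w i z = (H'.om 2).w i z
    ext u v
    rw [rotc_om2, h.om2 i z hz]

theorem rotc_rel (H : HkT C) {c : ℂ} (hc : ‖c‖ = 1) : RotRel H (rotc H c hc) c :=
  ⟨hc, fun i z _ => rotc_om0 H hc i z, fun i z _ u v => rotc_om1 H hc i z u v,
    fun i z _ u v => rotc_om2 H hc i z u v⟩

end heqv

section atl

variable {d : ℕ} {X : Type} [TopologicalSpace X] {A : Atl d X}

theorem GB_sub (B B' : Bil (Cn d)) : GB (B - B') = GB B - GB B' := by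
  ext a b
  simp only [GB, Matrix.of_apply, Matrix.sub_apply, hw, sub_apply, Complex.ofReal_sub]
  ring

/-- **uniqueness on a holomorphic atlas** -/
theorem uniq_atl [CompactSpace X] [T2Space X] [SimplyConnectedSpace X] [Finite A.ι]
    (hA : GoodA A) (PA : Part A) (hd : 1 ≤ d) (H H' : HkT (ofAtl A))
    (hJ : ∀ (i : A.ι), ∀ z ∈ (A.e i).target, ∀ v, H.J 0 i z v = I • v)
    (hJ' : ∀ (i : A.ι), ∀ z ∈ (A.e i).target, ∀ v, H'.J 0 i z v = I • v)
    (hex : Ex (H'.om 0 - H.om 0))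
    (hu : ∃ c : ℂ, ∀ i, ∀ x ∈ (A.e i).source, (H'.S0 hJ').s i x = c • (H.S0 hJ).s i x) :
    ∃ c : ℂ, RotRel H H' c := by
  obtain ⟨c, hc⟩ := hu
  -- the metrics
  have hinv : ∀ i, ∀ z ∈ (A.e i).target, ∀ u v,
      (H'.om 0 - H.om 0).w i z (I • u) (I • v) = (H'.om 0 - H.om 0).w i z u v := by
    intro i z hz u v
    show (H'.om 0).w i z (I • u) (I • v) - (H.om 0).w i z (I • u) (I • v) =
      (H'.om 0).w i z u v - (H.om 0).w i z u v
    rw [om0_inv H' hJ' hz, om0_inv H hJ hz]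
  have hexk : Ex ((H'.om 0 - H.om 0).k11 hinv).f2 := by
    obtain ⟨η, hη⟩ := hex
    refine ⟨η, fun i z hz u v => ?_⟩
    have h1 := F2.k11_f2 (H'.om 0 - H.om 0) hinv (i := i) (z := z) hz
    rw [h1]
    exact hη i z hz u v
  obtain ⟨u, hus, hug⟩ := Sc_413.hsf_of_ex hA PA (H.K0 hJ) _ hexk
  have hKK : ∀ i, ∀ x ∈ (A.e i).source, (H'.K0 hJ').g i x = (H.K0 hJ).g i x + hsf A u i x := by
    intro i x hx
    rw [← hug i x hx]
    have h1 : ((H'.om 0 - H.om 0).k11 hinv).g i x =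
        GB ((H'.om 0).w i (A.e i x)) - GB ((H.om 0).w i (A.e i x)) := by
      rw [← GB_sub]
      rfl
    rw [h1]
    show GB ((H'.om 0).w i (A.e i x)) = GB ((H.om 0).w i (A.e i x)) + _
    abel
  have h0 : ∀ i, ∀ x ∈ (A.e i).source, (H.K0 hJ).g i x =
      (H.K0 hJ).g i x + hsf A (fun _ => (0 : ℝ)) i x := fun i x hx => by
    rw [MassA_5.hsf_const, add_zero]
  have hcs : A.Sm (fun _ => (0 : ℝ)) := fun i => contDiffOn_const
  have hdet : ∀ i, ∀ x ∈ (A.e i).source,
      ((H'.K0 hJ').g i x).det = ((‖c‖ ^ d : ℝ) : ℂ) * ((H.K0 hJ).g i x).det := by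
    intro i x hx
    rw [det0 H' hJ' i x hx, det0 H hJ i x hx, hc i x hx, Matrix.det_smul, Fintype.card_fin,
      norm_mul, norm_pow, Complex.ofReal_mul]
  obtain ⟨-, -, hg⟩ := unique_kah (H.K0 hJ) (H'.K0 hJ') (H.K0 hJ) (C2f.of_sm hus)
    (C2f.of_sm hcs) hKK h0 hdet
  -- the constant has modulus one
  have hne : Nonempty X := inferInstance
  have hn1 : ‖c‖ = 1 := by
    obtain ⟨x⟩ := hne
    obtain ⟨i, hi⟩ := (ofAtl A).cover x
    have hx : x ∈ (A.e i).source := hi
    have r1 := hr0 H' hJ' i x hx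
    have r0 := hr0 H hJ i x hx
    rw [hg i x hx, hc i x hx, Matrix.conjTranspose_smul, Matrix.smul_mul, Matrix.smul_mul,
      Matrix.mul_smul, r0, smul_smul] at r1
    have hpos := (H.K0 hJ).pos i x hx
    have hd0 : 0 < ((H.K0 hJ).g i x) ⟨0, hd⟩ ⟨0, hd⟩ := hpos.diag_pos
    have r2 := congrFun (congrFun r1 ⟨0, hd⟩) ⟨0, hd⟩
    rw [Matrix.smul_apply, smul_eq_mul] at r2
    have r3 : c * star c = 1 := mul_right_cancel₀ hd0.ne' (by rw [r2, one_mul])
    rw [RCLike.star_def, Complex.mul_conj, Complex.normSq_eq_norm_sq] at r3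
    have r4 : ‖c‖ ^ 2 = 1 := by exact_mod_cast r3
    have r5 := norm_nonneg c
    nlinarith
  refine ⟨c, hn1, fun i z hz => ?_, fun i z hz u v => ?_, fun i z hz u v => ?_⟩
  · have hx := (A.e i).map_target hz
    have e1 := K0_om0 H hJ (i := i) hz
    have e2 := K0_om0 H' hJ' (i := i) hz
    rw [← e1, ← e2]
    ext u v
    rw [K11.f2_w _ hz, K11.f2_w _ hz]
    show (I * hb ((H'.K0 hJ').g i ((A.e i).symm z)) u v).re =
      (I * hb ((H.K0 hJ).g i ((A.e i).symm z)) u v).re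
    rw [hg i _ hx]
  all_goals
    have hx := (A.e i).map_target hz
    have e1 := S0_sb H hJ (i := i) hz u v
    have e2 := S0_sb H' hJ' (i := i) hz u v
    have e3 : sb (sl (H'.S0 hJ') i z) u v = c * sb (sl (H.S0 hJ) i z) u v := by
      have : sl (H'.S0 hJ') i z = c • sl (H.S0 hJ) i z := hc i _ hx
      rw [this, sb_smul]
    rw [e1, e2] at e3
  · have := congrArg Complex.re e3
    simpa using this
  · have := congrArg Complex.im e3
    simp at this
    linarith

end atl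

section rch

variable {V X : Type} [NormedAddCommGroup V] [NormedSpace ℝ V] [TopologicalSpace X]
  {C : RCh V X} {d : ℕ} {A : Atl d X}

/-- a linear relation between forms may be checked in the charts of `A` -/
theorem rel_back (h : Cmp C (ofAtl A)) {w w₁ w₂ : F2 C} {α β : ℝ}
    (hw : ∀ a, ∀ z ∈ (A.e a).target, ∀ u v, (h.F w).w a z u v =
      α * (h.F w₁).w a z u v + β * (h.F w₂).w a z u v) (i : C.ι) (z : V)
    (hz : z ∈ (C.e i).target) (u v : V) :
    w.w i z u v = α * w₁.w i z u v + β * w₂.w i z u v := by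
  obtain ⟨a, ha⟩ := Cmp.exists_mov (C' := C) (ofAtl A) (j := i) hz
  obtain ⟨h1, h2⟩ := Al_830.mov_swap (C := C) (C' := ofAtl A) ha
  have h3 := hw a _ (Cmp.mt_mem ha).1 (fderiv ℝ (mt (ofAtl A) C a i) z u)
    (fderiv ℝ (mt (ofAtl A) C a i) z v)
  rw [h.F_w w h1, h.F_w w₁ h1, h.F_w w₂ h1, h.symm.d_d ha, h.symm.d_d ha, h2] at h3
  exact h3

theorem RotRel.back (h : Cmp C (ofAtl A)) {H H' : HkT C} {c : ℂ}
    (hr : RotRel (h.hk H) (h.hk H') c) : RotRel H H' c := by
  refine ⟨hr.nrm, fun i z hz => ?_, fun i z hz u v => ?_, fun i z hz u v => ?_⟩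
  · ext u v
    have := rel_back h (w := H'.om 0) (w₁ := H.om 0) (w₂ := H.om 0) (α := 1) (β := 0)
      (fun a z hz u v => by
        have h1 := hr.om0 a z hz
        rw [h.hk_om, h.hk_om] at h1
        rw [h1]
        ring) i z hz u v
    rw [this]
    ring
  · have := rel_back h (w := H'.om 1) (w₁ := H.om 1) (w₂ := H.om 2) (α := c.re) (β := -c.im)
      (fun a z hz u v => by
        have h1 := hr.om1 a z hz u v
        rw [h.hk_om, h.hk_om, h.hk_om] at h1
        rw [h1]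
        ring) i z hz u v
    rw [this]
    ring
  · exact rel_back h (w := H'.om 2) (w₁ := H.om 1) (w₂ := H.om 2) (α := c.im) (β := c.re)
      (fun a z hz u v => by
        have h1 := hr.om2 a z hz u v
        rw [h.hk_om, h.hk_om, h.hk_om] at h1
        exact h1) i z hz u v

/-- **uniqueness of the hyperkaehler structure** with given complex structure `J 0` and given
Kaehler class, up to the phase of the holomorphic symplectic form -/
theorem uniq_rch [FiniteDimensional ℝ V] [CompactSpace X] [T2Space X] [SimplyConnectedSpace X]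
    (hd : Module.finrank ℝ V = 2 * d) (hd1 : 1 ≤ d) (H H' : HkT C)
    (hJ : ∀ i, ∀ z ∈ (C.e i).target, ∀ v, H'.J 0 i z v = H.J 0 i z v)
    (hex : Ex (H'.om 0 - H.om 0))
    (hu : ∀ A : Atl d X, Finite A.ι → GoodA A → Nonempty (Part A) → Cp (H.acm 0) A →
      ∀ σ : HSymp A, σ.Uniq) :
    ∃ c : ℂ, RotRel H H' c := by
  obtain ⟨A, hfin, hA, ⟨PA⟩, h, hJA, hcp⟩ := exists_rot (Crest.Agent.R260.NN6_900.nnat d V hd) H
  have hJA' : ∀ (i : A.ι), ∀ z ∈ (A.e i).target, ∀ v, (h.hk H').J 0 i z v = I • v := by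
    intro a z hz v
    obtain ⟨i, hi⟩ := Cmp.exists_mov (C' := ofAtl A) C (j := a) hz
    rw [← hJA a z hz v]
    refine Cmp.inj h hi ?_
    rw [Cmp.hk_J H' h 0 hi, Cmp.hk_J H h 0 hi, hJ i _ (Cmp.mt_mem hi).1]
  have hex' : Ex ((h.hk H').om 0 - (h.hk H).om 0) := by
    obtain ⟨η, hη⟩ := Al_830.ex_F h hex
    refine ⟨η, fun a z hz u v => ?_⟩
    have h1 := hη a z hz u v
    rw [Al_830.F_sub h _ _ a z hz] at h1
    exact h1
  let σ : HSymp A := { toH2 := (h.hk H).S0 hJA, nd := S0_nd (h.hk H) hJA }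
  obtain ⟨c, hc⟩ := hu A hfin hA ⟨PA⟩ hcp σ ((h.hk H').S0 hJA')
  obtain ⟨c', hr⟩ := uniq_atl hA PA hd1 (h.hk H) (h.hk H') hJA hJA' hex' ⟨c, hc⟩
  exact ⟨c', hr.back h⟩

end rch

end

end Crest.Agent.R281.Hu_313
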