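import Crest.Agent.R281.Hu1_313

/-!
# R281 (S0424), ASM-2 (helper313): rotations and periods, starting a path at a given structure

* `RotRel.atTau`  : `AtTau` is invariant under the rotation of `(om 1, om 2)`
* `smH_rotc`      : rotation of a smooth family by a constant
* `smH_rotct`     : rotation of a smooth family by a smooth function `c t`, `|c t| = 1`
* `exists_start`  : a smooth family with `K 0` related to `H0` can be rotated to start at `H0`
-/

set_option autoImplicit false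
set_option linter.unusedSectionVars false
set_option maxSynthPendingDepth 3

open Set Filter Topology Complex
open scoped ContDiff

namespace Crest.Agent.R281.Hu_313

open Crest.Agent.R281.HkR_835 Crest.Agent.R281.Alg_998
open Crest.Agent.R281.Ti_846 (Ex)

noncomputable section

variable {V X : Type} [NormedAddCommGroup V] [NormedSpace ℝ V] [TopologicalSpace X]
  {C : RCh V X}

theorem cl_of_eq {w w' w'' : F2 C} (h : ∀ i, ∀ z ∈ (C.e i).target, ∀ u v,
    w.w i z u v = w'.w i z u v) (h' : Cl w' w'') : Cl w w'' :=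
  (Cl.of_eq_on fun i z hz => by ext u v; exact h i z hz u v).trans h'

theorem RotRel.atTau {Q : F2 C →ₗ[ℝ] F2 C →ₗ[ℝ] ℝ} {F : Frm C Q} {A : F2 C} {H H' : HkT C}
    {c τ : ℂ} (hr : RotRel H H' c) (h : AtTau F A H τ) : AtTau F A H' τ := by
  obtain ⟨z, hz, h1, h2⟩ := h.om12
  have hc : c ≠ 0 := by
    rintro rfl
    have := hr.nrm
    rw [norm_zero] at this
    exact zero_ne_one this
  refine ⟨h.im_pos, cl_of_eq (fun i x hx u v => by rw [hr.om0 i x hx]) h.om0, c * z,
    mul_ne_zero hc hz, ?_, ?_⟩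
  · have h3 : Cl (c.re • H.om 1 + (-c.im) • H.om 2)
        (c.re • (z.re • F.sre τ - z.im • F.sim τ) + (-c.im) • (z.im • F.sre τ + z.re • F.sim τ)) :=
      (h1.smul _).add (h2.smul _)
    refine cl_of_eq (w' := c.re • H.om 1 + (-c.im) • H.om 2) (fun i x hx u v => ?_) ?_
    · rw [hr.om1 i x hx]
      show _ = c.re * (H.om 1).w i x u v + -c.im * (H.om 2).w i x u v
      ring
    · have e : (c * z).re • F.sre τ - (c * z).im • F.sim τ =
          c.re • (z.re • F.sre τ - z.im • F.sim τ) + (-c.im) • (z.im • F.sre τ + z.re • F.sim τ) := by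
        rw [Complex.mul_re, Complex.mul_im]
        module
      rw [e]
      exact h3
  · have h3 : Cl (c.im • H.om 1 + c.re • H.om 2)
        (c.im • (z.re • F.sre τ - z.im • F.sim τ) + c.re • (z.im • F.sre τ + z.re • F.sim τ)) :=
      (h1.smul _).add (h2.smul _)
    refine cl_of_eq (w' := c.im • H.om 1 + c.re • H.om 2) (fun i x hx u v => ?_) ?_
    · rw [hr.om2 i x hx]
      rfl
    · have e : (c * z).im • F.sre τ + (c * z).re • F.sim τ =
          c.im • (z.re • F.sre τ - z.im • F.sim τ) + c.re • (z.im • F.sre τ + z.re • F.sim τ) := by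
        rw [Complex.mul_re, Complex.mul_im]
        module
      rw [e]
      exact h3

theorem rotc_atTau {Q : F2 C →ₗ[ℝ] F2 C →ₗ[ℝ] ℝ} {F : Frm C Q} {A : F2 C} {H : HkT C}
    {c τ : ℂ} (hc : ‖c‖ = 1) (h : AtTau F A H τ) : AtTau F A (rotc H c hc) τ :=
  (rotc_rel H hc).atTau h

/-! ### families -/

theorem rotc_J0 (H : HkT C) {c : ℂ} (hc : ‖c‖ = 1) (i : C.ι) (z : V) :
    (rotc H c hc).J 0 i z = H.J 0 i z := by
  ext v
  rw [rotc, HkT.rot_J, HkT.Jv_apply]
  simp [rfr]

theorem rotc_J1 (H : HkT C) {c : ℂ} (hc : ‖c‖ = 1) (i : C.ι) (z : V) :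
    (rotc H c hc).J 1 i z = c.re • H.J 1 i z - c.im • H.J 2 i z := by
  ext v
  rw [rotc, HkT.rot_J, HkT.Jv_apply]
  simp only [rfr, Matrix.cons_val_one, Matrix.cons_val_zero, Matrix.cons_val, sub_apply, smul_apply]
  module

theorem rotc_J2 (H : HkT C) {c : ℂ} (hc : ‖c‖ = 1) (i : C.ι) (z : V) :
    (rotc H c hc).J 2 i z = c.im • H.J 1 i z + c.re • H.J 2 i z := by
  ext v
  rw [rotc, HkT.rot_J, HkT.Jv_apply]
  simp only [rfr, Matrix.cons_val_one, Matrix.cons_val_zero, Matrix.cons_val, add_apply, smul_apply]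
  module

theorem rotc_om1' (H : HkT C) {c : ℂ} (hc : ‖c‖ = 1) (i : C.ι) (z : V) :
    ((rotc H c hc).om 1).w i z = c.re • (H.om 1).w i z - c.im • (H.om 2).w i z := by
  ext u v
  rw [rotc_om1]
  simp

theorem rotc_om2' (H : HkT C) {c : ℂ} (hc : ‖c‖ = 1) (i : C.ι) (z : V) :
    ((rotc H c hc).om 2).w i z = c.im • (H.om 1).w i z + c.re • (H.om 2).w i z := by
  ext u v
  rw [rotc_om2]
  simp

/-- rotation of a smooth family by a smooth unit function -/
theorem smH_rotct {K : ℝ → HkT C} (hK : SmH K) {c : ℝ → ℂ} (hc : ∀ t, ‖c t‖ = 1)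
    (hcs : ContDiff ℝ ∞ c) : SmH fun t => rotc (K t) (c t) (hc t) := by
  have hre : ContDiff ℝ ∞ fun p : ℝ × V => (c p.1).re :=
    Complex.reCLM.contDiff.comp (hcs.comp contDiff_fst)
  have him : ContDiff ℝ ∞ fun p : ℝ × V => (c p.1).im :=
    Complex.imCLM.contDiff.comp (hcs.comp contDiff_fst)
  refine ⟨fun k i => ?_, fun k i => ?_, fun i => hK.g i⟩
  · fin_cases k
    · exact (hK.om 0 i).congr fun p _ => rotc_om0 (K p.1) (hc p.1) i p.2
    · refine ((hre.contDiffOn.smul (hK.om 1 i)).sub (him.contDiffOn.smul (hK.om 2 i))).congr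
        fun p _ => ?_
      exact rotc_om1' (K p.1) (hc p.1) i p.2
    · refine ((him.contDiffOn.smul (hK.om 1 i)).add (hre.contDiffOn.smul (hK.om 2 i))).congr
        fun p _ => ?_
      exact rotc_om2' (K p.1) (hc p.1) i p.2
  · fin_cases k
    · exact (hK.J 0 i).congr fun p _ => rotc_J0 (K p.1) (hc p.1) i p.2
    · refine ((hre.contDiffOn.smul (hK.J 1 i)).sub (him.contDiffOn.smul (hK.J 2 i))).congr
        fun p _ => ?_
      exact rotc_J1 (K p.1) (hc p.1) i p.2
    · refine ((him.contDiffOn.smul (hK.J 1 i)).add (hre.contDiffOn.smul (hK.J 2 i))).congr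
        fun p _ => ?_
      exact rotc_J2 (K p.1) (hc p.1) i p.2

theorem smH_rotc {K : ℝ → HkT C} (hK : SmH K) {c : ℂ} (hc : ‖c‖ = 1) :
    SmH fun t => rotc (K t) c hc := smH_rotct hK (fun _ => hc) contDiff_const

/-- **a smooth family whose value at `0` has the complex structure and the Kaehler form of `H0`
can be rotated to start at `H0`** -/
theorem exists_start {K : ℝ → HkT C} (hK : SmH K) {H0 : HkT C} {c : ℂ}
    (hr : RotRel (K 0) H0 c) : SmH (fun t => rotc (K t) c hr.nrm) ∧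
      HEqv (rotc (K 0) c hr.nrm) H0 :=
  ⟨smH_rotc hK hr.nrm, hr.heqv⟩

end

end Crest.Agent.R281.Hu_313
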