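import Mathlib
import Crest.Agent.R281.Jen5_563

/-! S6-JEN, part 6: Jensen's inequality off a set of capacity zero. -/

open MeasureTheory Set Filter Topology Metric
open scoped ENNReal Real ContDiff

noncomputable section
namespace Crest.Agent.R281.Jen_563

/-- **JENSEN off a set of capacity zero**: centre `a`, radius `R`. -/
theorem jensenP (a : ℂ) {R : ℝ} (hR : 0 < R) {F : Set ℂ} (hF : PolIn (ball a R) F) {G : ℂ → ℝ} {m₁ m₂ : ℝ}
    (hG : ContDiffOn ℝ 2 G (ball a R \ F)) (hM : ∀ y ∈ ball a R \ F, m₁ ≤ G y ∧ G y ≤ m₂)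
    (hpos : ∀ y ∈ ball a R \ F, 0 ≤ lap G y) :
    ∫⁻ y in ball a R \ F, ENNReal.ofReal (lap G y * Real.log (R / ‖y - a‖))
      ≤ ENNReal.ofReal (2 * π * (m₂ - m₁)) := by
  have hπ := Real.pi_pos
  set V : Set ℂ := ball a R \ F with hVdef
  have hV : IsOpen V := hF.op
  -- centre the values of G
  set G₀ : ℂ → ℝ := fun y => G y + -((m₁ + m₂) / 2) with hG₀
  have hG₀s : ContDiffOn ℝ 2 G₀ V := hG.add contDiffOn_const
  have hlap : ∀ y ∈ V, lap G₀ y = lap G y := by
    intro y hy
    have hc : ContDiffAt ℝ 2 G y := hG.contDiffAt (hV.mem_nhds hy)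
    have h1 : ∀ v, D v G₀ =ᶠ[𝓝 y] D v G := by
      intro v
      filter_upwards [hc.eventually (by simp)] with z hz
      have hz1 : DifferentiableAt ℝ G z := hz.differentiableAt (by norm_num)
      simp only [hG₀]
      rw [D_add hz1 (differentiableAt_const _)]
      simp [D]
    unfold lap
    rw [D_congr (h1 1), D_congr (h1 Complex.I)]
  set σ : ℝ := 2 * Real.log R with hσ
  choose g gs g0 ga gb gi gu gl using fun n : ℕ => test_fun (K := n) (δ := 1 / ((n : ℝ) + 1)) (by positivity)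
    (by positivity)
  set h : ℕ → ℝ → ℝ := fun n s => g n (s - σ) with hh
  set c : ℕ → ℝ := fun n => g n (-(n : ℝ) - 1 - 2 * (1 / ((n : ℝ) + 1))) with hcdef
  have hs : ∀ n, ContDiff ℝ 2 (h n) := fun n => (gs n).comp (by fun_prop)
  have hconst : ∀ n : ℕ, ∀ s ≤ (-(n : ℝ) - 1 - 2 * (1 / ((n : ℝ) + 1))) + σ, h n s = c n := by
    intro n s hs
    exact gb n (s - σ) (by linarith)
  set φ : ℕ → ℂ → ℝ := fun n => rad (h n) (c n) a with hφ
  have φs : ∀ n, ContDiff ℝ 2 (φ n) := fun n => rad_contDiff (hconst n) (hs n) a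
  have φ0 : ∀ n y, 0 ≤ φ n y := by
    intro n y
    simp only [hφ, rad]
    split_ifs
    · exact g0 n _
    · exact g0 n _
  have φt : ∀ n, tsupport (φ n) ⊆ closedBall a (R * Real.exp (-(1 / ((n : ℝ) + 1)) / 2)) := by
    intro n
    refine closure_minimal ?_ isClosed_closedBall
    intro y hy
    rw [mem_closedBall, dist_eq_norm]
    by_contra hlt
    push Not at hlt
    apply hy
    have hya : y ≠ a := by
      rintro rfl
      simp at hlt
      have : 0 < R * Real.exp (-((n : ℝ) + 1)⁻¹ / 2) := by positivity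
      linarith
    have h3 : 0 < ‖y - a‖ := norm_pos_iff.2 (sub_ne_zero.2 hya)
    simp only [hφ]
    rw [rad_of_ne hya]
    refine ga n _ ?_
    have h4 := Real.log_le_log (by positivity) hlt.le
    rw [Real.log_mul hR.ne' (Real.exp_pos _).ne', Real.log_exp] at h4
    rw [lg, Real.log_pow, hσ]
    push_cast
    linarith
  have hlt : ∀ n : ℕ, R * Real.exp (-(1 / ((n : ℝ) + 1)) / 2) < R := by
    intro n
    have : Real.exp (-(1 / ((n : ℝ) + 1)) / 2) < 1 := by
      rw [Real.exp_lt_one_iff]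
      have : (0 : ℝ) < 1 / ((n : ℝ) + 1) := by positivity
      linarith
    nlinarith
  have φc : ∀ n, HasCompactSupport (φ n) := fun n =>
    IsCompact.of_isClosed_subset (isCompact_closedBall a _) (isClosed_tsupport _) (φt n)
  have φU : ∀ n, tsupport (φ n) ⊆ ball a R := fun n => (φt n).trans (closedBall_subset_ball (hlt n))
  have hterm : ∀ n, ∫⁻ y in V, ENNReal.ofReal (lap G y * φ n y) ≤ ENNReal.ofReal (2 * π * (m₂ - m₁)) := by
    intro n
    have h1 := punctP hF (G := G₀) (M := (m₂ - m₁) / 2) hG₀s (by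
        intro y hy
        have := hM y hy
        simp only [hG₀]
        rw [abs_le]; constructor <;> linarith [this.1, this.2])
      (fun y hy => by rw [hlap y hy]; exact hpos y hy) (φs n) (φc n) (φU n) (φ0 n)
    have h2 : ∫⁻ y, ENNReal.ofReal |lap (φ n) y| ≤ ENNReal.ofReal (4 * π) := by
      simp only [hφ]
      rw [lint_lap_rad (hs n)]
      have h3 : ∀ s, deriv (deriv (h n)) s = deriv (deriv (g n)) (s - σ) := by
        intro s
        have e1 : deriv (h n) = fun s => deriv (g n) (s - σ) := by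
          ext s
          simp only [hh]
          exact deriv_comp_sub_const (g n) σ s
        rw [e1]
        exact deriv_comp_sub_const (deriv (g n)) σ s
      have h4 : ∫⁻ s, ENNReal.ofReal |deriv (deriv (h n)) s| ≤ 1 := by
        simp_rw [h3]
        rw [lintegral_sub_right_eq_self (fun s => ENNReal.ofReal |deriv (deriv (g n)) s|) σ]
        exact gi n
      calc _ ≤ ENNReal.ofReal (4 * π) * 1 := by gcongr
        _ = _ := mul_one _
    calc ∫⁻ y in V, ENNReal.ofReal (lap G y * φ n y)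
        = ∫⁻ y in V, ENNReal.ofReal (lap G₀ y * φ n y) :=
          setLIntegral_congr_fun hV.measurableSet (fun y hy => by rw [hlap y hy])
      _ ≤ ENNReal.ofReal ((m₂ - m₁) / 2) * ∫⁻ y, ENNReal.ofReal |lap (φ n) y| := h1
      _ ≤ ENNReal.ofReal ((m₂ - m₁) / 2) * ENNReal.ofReal (4 * π) := by gcongr
      _ = ENNReal.ofReal (2 * π * (m₂ - m₁)) := by
          rw [← ENNReal.ofReal_mul' (by positivity)]
          congr 1; ring
  -- Fatou
  have hlim : ∀ y ∈ V, y ≠ a → ENNReal.ofReal (lap G y * Real.log (R / ‖y - a‖))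
      = liminf (fun n => ENNReal.ofReal (lap G y * φ n y)) atTop := by
    intro y hy hya
    have h3 : 0 < ‖y - a‖ := norm_pos_iff.2 (sub_ne_zero.2 hya)
    have h4 : ‖y - a‖ < R := by rw [← dist_eq_norm]; exact hy.1
    have e0 : Real.log (R / ‖y - a‖) = -(lg a y - σ) / 2 := by
      rw [Real.log_div hR.ne' h3.ne', lg, Real.log_pow, hσ]; push_cast; ring
    have hneg : lg a y - σ ≤ 0 := by
      have : 0 ≤ Real.log (R / ‖y - a‖) := Real.log_nonneg (by rw [one_le_div h3]; exact h4.le)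
      linarith
    have hδ : Tendsto (fun n : ℕ => 1 / ((n : ℝ) + 1)) atTop (𝓝 0) := tendsto_one_div_add_atTop_nhds_zero_nat
    have hφt : Tendsto (fun n => φ n y) atTop (𝓝 (Real.log (R / ‖y - a‖))) := by
      rw [e0]
      have hφe : ∀ n, φ n y = g n (lg a y - σ) := by
        intro n; simp only [hφ]; rw [rad_of_ne hya]
      simp_rw [hφe]
      refine tendsto_of_tendsto_of_tendsto_of_le_of_le' (g := fun n : ℕ => -(lg a y - σ) / 2 - 1 / ((n : ℝ) + 1))
        (h := fun _ => -(lg a y - σ) / 2) ?_ tendsto_const_nhds ?_ ?_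
      · simpa using tendsto_const_nhds.sub hδ
      · have : ∀ᶠ n : ℕ in atTop, -(lg a y - σ) ≤ (n : ℝ) :=
          tendsto_natCast_atTop_atTop.eventually_ge_atTop _
        filter_upwards [this] with n hn
        exact gl n _ hneg (by linarith)
      · exact Eventually.of_forall fun n => gu n _ hneg
    exact (ENNReal.tendsto_ofReal (tendsto_const_nhds.mul hφt)).liminf_eq.symm
  calc ∫⁻ y in V, ENNReal.ofReal (lap G y * Real.log (R / ‖y - a‖))
      = ∫⁻ y in V, liminf (fun n => ENNReal.ofReal (lap G y * φ n y)) atTop := by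
        refine lintegral_congr_ae ?_
        filter_upwards [ae_restrict_mem hV.measurableSet, ae_restrict_of_ae (ae_ne a)] with y hy hya
        exact hlim y hy hya
    _ ≤ liminf (fun n => ∫⁻ y in V, ENNReal.ofReal (lap G y * φ n y)) atTop := by
        refine lintegral_liminf_le' fun n => ?_
        have : ContinuousOn (fun y => lap G y * φ n y) V :=
          (lap_continuousOn hV hG).mul (φs n).continuous.continuousOn
        exact (this.aemeasurable hV.measurableSet).ennreal_ofReal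
    _ ≤ liminf (fun _ : ℕ => ENNReal.ofReal (2 * π * (m₂ - m₁))) atTop :=
        liminf_le_liminf (Eventually.of_forall hterm)
    _ = ENNReal.ofReal (2 * π * (m₂ - m₁)) := by simp

/-- **Jensen for a measure over the punctured disc**: `b_* μ = ΔG dA` on `D(a,R) ∖ F`. -/
theorem jensen_measureP {α : Type*} [MeasurableSpace α] (μ : Measure α) {b : α → ℂ} (hb : Measurable b)
    (a : ℂ) {R : ℝ} (hR : 0 < R) {F : Set ℂ} (hF : PolIn (ball a R) F) {G : ℂ → ℝ} {m₁ m₂ : ℝ}
    (hG : ContDiffOn ℝ 2 G (ball a R \ F)) (hM : ∀ y ∈ ball a R \ F, m₁ ≤ G y ∧ G y ≤ m₂)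
    (hpos : ∀ y ∈ ball a R \ F, 0 ≤ lap G y)
    (hμ : μ.map b ≤ (volume.restrict (ball a R \ F)).withDensity fun y => ENNReal.ofReal (lap G y)) :
    ∫⁻ x, ENNReal.ofReal (Real.log (R / ‖b x - a‖)) ∂μ ≤ ENNReal.ofReal (2 * π * (m₂ - m₁)) := by
  have hV : IsOpen (ball a R \ (F : Set ℂ)) := hF.op
  have hm : Measurable fun y : ℂ => ENNReal.ofReal (Real.log (R / ‖y - a‖)) := by fun_prop
  have hl : AEMeasurable (fun y => ENNReal.ofReal (lap G y)) (volume.restrict (ball a R \ F)) :=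
    ((lap_continuousOn hV hG).aemeasurable hV.measurableSet).ennreal_ofReal
  calc ∫⁻ x, ENNReal.ofReal (Real.log (R / ‖b x - a‖)) ∂μ
      = ∫⁻ y, ENNReal.ofReal (Real.log (R / ‖y - a‖)) ∂(μ.map b) := (lintegral_map hm hb).symm
    _ ≤ ∫⁻ y, ENNReal.ofReal (Real.log (R / ‖y - a‖))
          ∂((volume.restrict (ball a R \ F)).withDensity fun y => ENNReal.ofReal (lap G y)) :=
        lintegral_mono' hμ le_rfl
    _ = ∫⁻ y in ball a R \ F, ENNReal.ofReal (lap G y * Real.log (R / ‖y - a‖)) := by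
        rw [lintegral_withDensity_eq_lintegral_mul₀ hl hm.aemeasurable]
        refine setLIntegral_congr_fun hV.measurableSet fun y hy => ?_
        simp only [Pi.mul_apply]
        rw [← ENNReal.ofReal_mul (hpos y hy)]
    _ ≤ _ := jensenP a hR hF hG hM hpos

/-- the fibre-mass form: `∫₀^R μ(|b - a| < t) dt/t ≤ 2π osc G`. -/
theorem jensen_layerP {α : Type*} [MeasurableSpace α] (μ : Measure α) {b : α → ℂ} (hb : Measurable b)
    (a : ℂ) {R : ℝ} (hR : 0 < R) {F : Set ℂ} (hF : PolIn (ball a R) F) {G : ℂ → ℝ} {m₁ m₂ : ℝ}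
    (hG : ContDiffOn ℝ 2 G (ball a R \ F)) (hM : ∀ y ∈ ball a R \ F, m₁ ≤ G y ∧ G y ≤ m₂)
    (hpos : ∀ y ∈ ball a R \ F, 0 ≤ lap G y)
    (hμ : μ.map b ≤ (volume.restrict (ball a R \ F)).withDensity fun y => ENNReal.ofReal (lap G y)) :
    ∫⁻ t in Ioo 0 R, μ {x | ‖b x - a‖ < t} * ENNReal.ofReal (1 / t) ≤ ENNReal.ofReal (2 * π * (m₂ - m₁)) := by
  have h0 : ∀ᵐ x ∂μ, 0 < ‖b x - a‖ := by
    have h1 : (μ.map b) {a} = 0 := by
      refine le_antisymm ((hμ {a}).trans ?_) zero_le
      refine le_of_eq ?_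
      have hac := withDensity_absolutelyContinuous (volume.restrict (ball a R \ (F : Set ℂ)))
        (fun y => ENNReal.ofReal (lap G y))
      apply hac
      refine le_antisymm ((Measure.restrict_apply_le _ _).trans ?_) zero_le
      simp
    rw [Measure.map_apply hb (measurableSet_singleton a)] at h1
    have h2 : ∀ᵐ x ∂μ, x ∉ b ⁻¹' {a} := measure_eq_zero_iff_ae_notMem.1 h1
    filter_upwards [h2] with x hx
    rw [norm_pos_iff, sub_ne_zero]
    exact hx
  have hm : Measurable fun x => ‖b x - a‖ := by fun_prop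
  rw [← layer μ hm.aemeasurable h0 hR]
  exact jensen_measureP μ hb a hR hF hG hM hpos hμ

/-- the clipped logarithm `w = log⁺(R/|b - a|) / log(R/r)`: `∫ w dμ ≤ 2π osc G / log(R/r)`. -/
theorem jensen_clipP {α : Type*} [MeasurableSpace α] (μ : Measure α) {b : α → ℂ} (hb : Measurable b)
    (a : ℂ) {R r : ℝ} (hr : 0 < r) (hrR : r < R) {F : Set ℂ} (hF : PolIn (ball a R) F) {G : ℂ → ℝ} {m₁ m₂ : ℝ}
    (hG : ContDiffOn ℝ 2 G (ball a R \ F)) (hM : ∀ y ∈ ball a R \ F, m₁ ≤ G y ∧ G y ≤ m₂)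
    (hpos : ∀ y ∈ ball a R \ F, 0 ≤ lap G y)
    (hμ : μ.map b ≤ (volume.restrict (ball a R \ F)).withDensity fun y => ENNReal.ofReal (lap G y)) :
    ∫⁻ x, ENNReal.ofReal (max (Real.log (R / ‖b x - a‖) / Real.log (R / r)) 0) ∂μ
      ≤ ENNReal.ofReal (2 * π * (m₂ - m₁) / Real.log (R / r)) := by
  have hR : 0 < R := hr.trans hrR
  have hl : 0 < Real.log (R / r) := Real.log_pos (by rw [one_lt_div hr]; exact hrR)
  have h1 := jensen_measureP μ hb a hR hF hG hM hpos hμ
  have hm : Measurable fun x => ENNReal.ofReal (Real.log (R / ‖b x - a‖)) := by fun_prop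
  calc ∫⁻ x, ENNReal.ofReal (max (Real.log (R / ‖b x - a‖) / Real.log (R / r)) 0) ∂μ
      = ∫⁻ x, ENNReal.ofReal (Real.log (R / r))⁻¹ * ENNReal.ofReal (Real.log (R / ‖b x - a‖)) ∂μ := by
        refine lintegral_congr fun x => ?_
        rw [← ENNReal.ofReal_mul (by positivity), mul_comm, ← div_eq_mul_inv]
        rcases le_total (Real.log (R / ‖b x - a‖) / Real.log (R / r)) 0 with h | h
        · rw [max_eq_right h, ENNReal.ofReal_of_nonpos h, ENNReal.ofReal_zero]
        · rw [max_eq_left h]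
    _ = ENNReal.ofReal (Real.log (R / r))⁻¹ * ∫⁻ x, ENNReal.ofReal (Real.log (R / ‖b x - a‖)) ∂μ :=
        lintegral_const_mul _ hm
    _ ≤ ENNReal.ofReal (Real.log (R / r))⁻¹ * ENNReal.ofReal (2 * π * (m₂ - m₁)) := by gcongr
    _ = _ := by
        rw [← ENNReal.ofReal_mul (by positivity), mul_comm, ← div_eq_mul_inv]

end Crest.Agent.R281.Jen_563
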