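import Crest.Agent.R281.Kb2_565
import Crest.Agent.R281.CB1_867
import Crest.Agent.R281.Blk6_592

/-!
# R281 (S0424), START (D14), SEG (helper565), part 3: the Segre embedding, the code and the marking

* `closed_sig`  : the holomorphic symplectic form of a triple is closed (867's `Closed`)
* `segT`        : the Segre quadrics in the coordinates of `segPs Q e`; `segT_rels`
* `ex_seg`      : the class of the Segre embedding is the sum of the classes of the blocks
* `start_seg`   : from one triple and finitely many integral Kaehler classes of `J 0` to the code,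
                  the model, the base point and the marking
-/

set_option autoImplicit false
set_option linter.unusedSectionVars false
set_option maxSynthPendingDepth 3

open Set Filter Topology Complex
open scoped ContDiff Matrix ComplexConjugate ComplexOrder

namespace Crest.Agent.R281.Kb_565

open Crest.Agent.R275.Geo Crest.Agent.R275.Core144 Crest.Agent.R275.EDR890
open Crest.Agent.R275.GC293
open Crest.Agent.R273
open Crest.Agent.R273.Kah_333 Crest.Agent.R273.Hess_333 Crest.Agent.R273.HessB_333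
open Crest.Agent.R273.Defs_333 Crest.Agent.R273.HM_333
open Crest.Agent.R273.FS_333 (lb fs sec sec_eq)
open Crest.Agent.R281.Defs_273
open Crest.Agent.R260.ACM_580 Crest.Agent.R260.NNB_580
open Crest.Agent.R281.HkR_835 Crest.Agent.R281.Ti_846 Crest.Agent.R281.HkP2_508
open Crest.Agent.R281.NefO_476 Crest.Agent.R281.Dif_268
open Crest.Agent.R281.Nef_252
open Crest.Agent.R281.Cdr_234 (Cls IntF RatF c1F c1F_w)
open Crest.Agent.R281.AF_867 (Closed Rels)
open Crest.Agent.R281.Blk_592 (seg segPs segPs_F segPs_lb segPoly segRel_seg segRel_iff segM MapD)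

noncomputable section

/-! ### closedness -/

section closed

variable {n : ℕ} {M : Type} [TopologicalSpace M] {A : Atl n M}

theorem closed_of_clH {σ : H2 A} (h : ClH σ) : Closed σ := by
  intro i x hx a b c
  have hz := (A.e i).map_source hx
  have hd : ∀ a b, DifferentiableAt ℂ (fun w => sl σ i w a b) (A.e i x) := fun a b =>
    (sl_hol σ i a b).differentiableAt ((A.e i).open_target.mem_nhds hz)
  have h1 := h i _ hz a b c
  rw [wd_hol' (hd a b), wd_hol' (hd b c), wd_hol' (hd c a)] at h1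
  show fderiv ℂ (fun w => sl σ i w b c) (A.e i x) (EuclideanSpace.single a 1) +
    fderiv ℂ (fun w => sl σ i w c a) (A.e i x) (EuclideanSpace.single b 1) +
    fderiv ℂ (fun w => sl σ i w a b) (A.e i x) (EuclideanSpace.single c 1) = 0
  linear_combination h1

variable {V : Type} [NormedAddCommGroup V] [NormedSpace ℝ V] {C : RCh V M}

theorem closed_sig (H : HkT C) (hA : Cp (H.acm 0) A) : Closed (H.sig hA).toH2 :=
  closed_of_clH (S0_cl (H.onA hA) (onA_J H hA))

end closed

/-! ### the Segre embedding -/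

section seg

variable {n : ℕ} {M : Type} [TopologicalSpace M] {A : Atl n M}
variable {ι : Type} [Fintype ι] [DecidableEq ι] [Nonempty ι] (Q : ι → ProjD A) {N : ℕ}
  (e : (∀ k, Fin ((Q k).N + 1)) ≃ Fin (N + 1))

/-- the Segre quadrics in the coordinates of `segPs Q e` -/
def segT (k₀ : Type) [CommRing k₀] : Finset (MvPolynomial (Fin (N + 1)) k₀) :=
  open Classical in
  Finset.univ.image fun q : ι × (∀ k, Fin ((Q k).N + 1)) × (∀ k, Fin ((Q k).N + 1)) =>
    MvPolynomial.rename e (segPoly k₀ q.1 q.2.1 q.2.2)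

theorem mem_segT (k₀ : Type) [CommRing k₀] {p : MvPolynomial (Fin (N + 1)) k₀} :
    p ∈ segT Q e k₀ ↔ ∃ k a a', MvPolynomial.rename e (segPoly k₀ k a a') = p := by
  classical
  unfold segT
  simp only [Finset.mem_image, Finset.mem_univ, true_and]
  constructor
  · rintro ⟨q, hq⟩
    exact ⟨q.1, q.2.1, q.2.2, hq⟩
  · rintro ⟨k, a, a', h⟩
    exact ⟨(k, a, a'), h⟩

theorem segT_map {k₀ k₁ : Type} [CommRing k₀] [CommRing k₁] (φ : k₀ →+* k₁)
    {p : MvPolynomial (Fin (N + 1)) k₀} (hp : p ∈ segT Q e k₀) :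
    MvPolynomial.map φ p ∈ segT Q e k₁ := by
  obtain ⟨k, a, a', rfl⟩ := (mem_segT Q e k₀).1 hp
  rw [mem_segT]
  refine ⟨k, a, a', ?_⟩
  rw [MvPolynomial.map_rename, Blk_592.segPoly_map]

theorem segT_rels {p : MvPolynomial (Fin (N + 1)) ℂ} (hp : p ∈ segT Q e ℂ) :
    p ∈ Rels (fun k => sec (segPs Q e) k) := by
  obtain ⟨k, a, a', rfl⟩ := (mem_segT Q e ℂ).1 hp
  refine ⟨⟨2, (Blk_592.segPoly_hom k a a').rename_isHomogeneous⟩, fun i x hx => ?_⟩
  have h1 : (fun k => sec (segPs Q e) k i x) ∘ e = seg fun k => (Q k).F i x := by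
    funext b
    show sec (segPs Q e) (e b) i x = _
    rw [sec_eq (segPs Q e) hx (e b)]
    exact segPs_F Q e i x b
  have h2 := MvPolynomial.eval_rename e (fun k => sec (segPs Q e) k i x) (segPoly ℂ k a a')
  exact h2.trans ((congrArg (fun f => MvPolynomial.eval f (segPoly ℂ k a a')) h1).trans
    (segRel_iff.1 (segRel_seg _) k a a'))

/-- the metric of the Segre product -/
theorem fs_segPs_w (i : A.ι) (x : M) :
    (fs (segPs Q e)).w i x = (segM fun k => MapD.ofProj (Q k)).fs.w i x := by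
  show (∑ j : Fin (N + 1), ‖(segPs Q e).F i x j‖ ^ 2)⁻¹ =
    (∑ a, ‖(segM fun k => MapD.ofProj (Q k)).F i x a‖ ^ 2)⁻¹
  congr 1
  rw [← Equiv.sum_comp e]
  refine Finset.sum_congr rfl fun a _ => ?_
  rw [segPs_F]
  rfl

theorem cur_segPs {i : A.ι} {x : M} (hx : x ∈ (A.e i).source) :
    cur (fs (segPs Q e)) i x = ∑ k, cur (fs (Q k)) i x := by
  have h1 : (fs (segPs Q e)).wt i = (segM fun k => MapD.ofProj (Q k)).fs.wt i := by
    funext z
    simp only [HM.wt, fs_segPs_w]
  have h2 : cur (fs (segPs Q e)) i x = cur (segM fun k => MapD.ofProj (Q k)).fs i x := by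
    unfold cur
    rw [h1]
  rw [h2, Blk_592.segM_cur _ hx]
  refine Finset.sum_congr rfl fun k _ => ?_
  unfold cur
  have h3 : (MapD.ofProj (Q k)).fs.wt i = (fs (Q k)).wt i := by
    funext z
    simp only [HM.wt, MapD.ofProj_w]
  rw [h3]

theorem sum_w {V X : Type} [NormedAddCommGroup V] [NormedSpace ℝ V] [TopologicalSpace X]
    {C : RCh V X} {κ : Type*} (s : Finset κ) (w : κ → F2 C) (i : C.ι) (z u v : V) :
    (∑ k ∈ s, w k).w i z u v = ∑ k ∈ s, (w k).w i z u v := by
  classical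
  induction s using Finset.induction_on with
  | empty => simp
  | insert k s hk ih => rw [Finset.sum_insert hk, Finset.sum_insert hk, ← ih]; rfl

theorem hb_sum {κ : Type*} (s : Finset κ) (G : κ → Matrix (Fin n) (Fin n) ℂ) (u v : Cn n) :
    hb (∑ k ∈ s, G k) u v = ∑ k ∈ s, hb (G k) u v := by
  classical
  induction s using Finset.induction_on with
  | empty => simp [hb]
  | insert k s hk ih =>
    rw [Finset.sum_insert hk, Finset.sum_insert hk, ← ih]
    simp only [hb, Matrix.add_apply, add_mul, Finset.sum_add_distrib]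

/-- the Chern form of the Segre product -/
theorem eqv_c1F_seg : Eqv (c1F (fs (segPs Q e))) (∑ k, c1F (fs (Q k))) := by
  intro i z hz u v
  have hx := (A.e i).map_target hz
  have h1 := cur_segPs Q e hx
  have h2 : ∀ (L : LB A) (h : HM L), cur h i ((A.e i).symm z) = hess (h.wt i) z := by
    intro L h
    unfold cur
    rw [(A.e i).right_inv hz]
  rw [h2] at h1
  simp only [h2] at h1
  rw [sum_w, c1F_w _ hz, h1, hb_sum, Finset.mul_sum, Complex.re_sum, Finset.mul_sum]
  exact Finset.sum_congr rfl fun k _ => (c1F_w _ hz u v).symm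

theorem ex_sum {V X : Type} [NormedAddCommGroup V] [NormedSpace ℝ V] [TopologicalSpace X]
    {C : RCh V X} {κ : Type*} (s : Finset κ) (w : κ → F2 C) (h : ∀ k ∈ s, Ex (w k)) :
    Ex (∑ k ∈ s, w k) := by
  classical
  induction s using Finset.induction_on with
  | empty => rw [Finset.sum_empty]; exact Cdr_234.Ex.zero
  | insert k s hk ih =>
    rw [Finset.sum_insert hk]
    exact ex_add (h k (Finset.mem_insert_self k s))
      (ih fun l hl => h l (Finset.mem_insert_of_mem hl))

/-- **the class of the Segre embedding** is the sum of the classes of the blocks -/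
theorem ex_seg {b : ι → F2 (ofAtl A)} (h : ∀ k, Ex (c1F (fs (Q k)) - b k)) :
    Ex (c1F (fs (segPs Q e)) - ∑ k, b k) := by
  have h1 := eqv_ex_sub (eqv_c1F_seg Q e)
  have h2 := ex_sum Finset.univ (fun k => c1F (fs (Q k)) - b k) fun k _ => h k
  rw [Finset.sum_sub_distrib] at h2
  have h3 := ex_add h1 h2
  rwa [sub_add_sub_cancel] at h3

end seg

/-! ### START from one triple -/

section start

open Crest.Agent.R281.CA_867 Crest.Agent.R281.CB_867 Crest.Agent.R281.Sl_957
open Crest.Agent.R281.Am_957 Crest.Agent.R281.QF_871 Crest.Agent.R281.Pe_313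
open Crest.Agent.R281.Ehr6_268

variable {V X : Type} [NormedAddCommGroup V] [NormedSpace ℝ V] [TopologicalSpace X]
  {d : ℕ} {C : RCh V X}

theorem F_sum {V' : Type} [NormedAddCommGroup V'] [NormedSpace ℝ V'] {C' : RCh V' X}
    (h : Cmp C C') {κ : Type*} (s : Finset κ) (w : κ → F2 C) :
    Eqv (h.F (∑ k ∈ s, w k)) (∑ k ∈ s, h.F (w k)) := by
  intro j z hz u v
  obtain ⟨i, hi⟩ := Cmp.exists_mov (C' := C') C (j := j) hz
  rw [sum_w, h.F_w _ hi]
  show (∑ k ∈ s, w k).w i _ _ _ = _
  rw [sum_w]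
  refine Finset.sum_congr rfl fun k _ => ?_
  rw [h.F_w _ hi]

/-- **START at a triple**: blocks, Segre embedding, code, model, base point -/
theorem start_seg [FiniteDimensional ℝ V] [CompactSpace X] [T2Space X] [ConnectedSpace X]
    (hNN : NNat V d) (k₀ : Type) [Field k₀] [CharZero k₀] [Algebra k₀ ℂ] (H : HkT C)
    {ι : Type} [Fintype ι] [DecidableEq ι] [Nonempty ι] {w : ι → F2 C} (hi : ∀ i, IntF (w i))
    (hw : ∀ i, KCls (ofHk H 0) (w i)) :
    ∃ (A : Atl d X) (_ : Finite A.ι) (_ : GoodA A) (_ : Nonempty (Part A))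
      (hA : Cp (H.acm 0) A) (m : ℕ) (_ : 0 < m) (Q : ι → ProjD A) (N : ℕ)
      (e : (∀ k, Fin ((Q k).N + 1)) ≃ Fin (N + 1))
      (K : Code k₀ d N) (Mo : Fmt k₀ (Fin K.k)) (h : Mo.Nice)
      (hM : ∀ (z : Fin Mo.m → ℂ) (w : ℂ), Mo.On z w → K.Good (Mo.pt z w)) (q0 : QM Mo),
      (∀ k, Ex (c1F (fs (Q k)) - (m : ℝ) • (cmp_of_cp hA).F (w k))) ∧
      Ex (c1F (fs (segPs Q e)) - (m : ℝ) • (cmp_of_cp hA).F (∑ k, w k)) ∧
      (∀ p ∈ segT Q e k₀, MvPolynomial.map (MvPolynomial.C : k₀ →+* MvPolynomial (Fin K.k) k₀) p ∈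
        range K.Y.G) ∧
      IsCert (segPs Q e) (H.sig hA) (K.mem (Mo.pt q0.1.1 q0.1.2)) ∧
      AlgebraicIndependent k₀ q0.1.1 ∧
      (∀ w, w ∈ (ofProj (segPs Q e) (bE N)).cone ↔ w ∈ (qfamC K Mo h hM).S q0) ∧
      CxOf (ofProj (segPs Q e) (bE N)) H := by
  obtain ⟨A, f1, f2, ⟨PA⟩, hA, L, hL, hpos, hc, m0, hm0⟩ := kod_many hNN H hi hw
  choose Q hQl hQ using hm0 (m0 + 1) (Nat.le_succ _)
  have hne : Nonempty (∀ k, Fin ((Q k).N + 1)) := ⟨fun _ => 0⟩
  set N := Blk_592.segN fun k => Fin ((Q k).N + 1) with hN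
  set e : (∀ k, Fin ((Q k).N + 1)) ≃ Fin (N + 1) := Blk_592.segEquiv _ with he
  have hD : Crest.Agent.R273.TD3_733.D2 A :=
    Crest.Agent.R273.D13_505.d2 PA (kah (hL (Classical.arbitrary ι)) (hpos _))
  obtain ⟨K, Mo, h, hM, q0, h1, h2, h3, h4⟩ := exists_start k₀ PA hD (segPs Q e) (H.sig hA)
    (closed_sig H hA) (segT Q e k₀) fun p hp => segT_rels Q e (segT_map Q e _ hp)
  refine ⟨A, f1, f2, ⟨PA⟩, hA, m0 + 1, Nat.succ_pos _, Q, N, e, K, Mo, h, hM, q0, hQ, ?_, h1, h2,
    h3, h4, cxOf_ofProj hA _ _⟩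
  have a1 := ex_seg Q e hQ
  rw [← Finset.smul_sum] at a1
  have a2 := Cdr_234.Ex.smul ((m0 + 1 : ℕ) : ℝ) (eqv_ex_sub (F_sum (cmp_of_cp hA) Finset.univ w).symm)
  rw [smul_sub] at a2
  have a3 := ex_add a1 a2
  rwa [sub_add_sub_cancel] at a3

end start

end

end Crest.Agent.R281.Kb_565
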