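import Crest.Agent.R281.Kb4_565
import Crest.Agent.R281.Phl6_655
import Crest.Agent.R281.Cnt2_311

/-!
# R281 (S0424), START (D14) (helper565), part 5: the starting marking and the classes of its forms

* `qbf_form'`     : the form of a marking given by a form `τ : B1 K` is the pull back by the member
* `cl_pull_start` : from the class on the atlas `A` to the class on `C`
* `StartD k₀ H w` : code, model, marking `x` with `CxOf x.P H`, classes of the blocks `π m w k`,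
                    total class, certified form `om 1 + i om 2`
* `exists_startD` : existence
* `StartD.cl_blk`, `StartD.cl_tot` : in the language of `qbf` (655)
-/

set_option autoImplicit false
set_option linter.unusedSectionVars false
set_option maxSynthPendingDepth 3

open Set Filter Topology Complex
open scoped ContDiff Matrix ComplexConjugate ComplexOrder

namespace Crest.Agent.R281.Kb_565

open Crest.Agent.R275.Geo Crest.Agent.R275.Core144 Crest.Agent.R275.EDR890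
open Crest.Agent.R275.GC293
open Crest.Agent.R273
open Crest.Agent.R273.Kah_333 Crest.Agent.R273.Hess_333 Crest.Agent.R273.HessB_333
open Crest.Agent.R273.Defs_333 Crest.Agent.R273.HM_333
open Crest.Agent.R273.FS_333 (lb fs sec sec_eq)
open Crest.Agent.R281.Defs_273
open Crest.Agent.R260.ACM_580 Crest.Agent.R260.NNB_580
open Crest.Agent.R281.HkR_835 Crest.Agent.R281.Ti_846 Crest.Agent.R281.HkP2_508
open Crest.Agent.R281.NefO_476 Crest.Agent.R281.Dif_268
open Crest.Agent.R281.Nef_252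
open Crest.Agent.R281.Cdr_234 (Cls IntF RatF c1F c1F_w)
open Crest.Agent.R281.CA_867 Crest.Agent.R281.CB_867 Crest.Agent.R281.Pe_313
open Crest.Agent.R281.Sl_957 Crest.Agent.R281.Am_957 Crest.Agent.R281.QF_871
open Crest.Agent.R281.Ehr6_268 Crest.Agent.R281.Ehr8_268 Crest.Agent.R281.Phl_655
open Crest.Agent.R281.Ehr7_268
open Crest.Agent.R281.Alg_998 (Cl)
open Crest.Agent.R281.Blk_592 (segPs segPoly fsv sgv segK)

noncomputable section

/-! ### the form of a marking -/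

section qbf

universe uq

variable {Q : Type uq} [TopologicalSpace Q] {E H : Type} [NormedAddCommGroup E]
    [NormedSpace ℂ E] [NormedAddCommGroup H] [NormedSpace ℂ H] {V X : Type}
    [NormedAddCommGroup V] [NormedSpace ℝ V] [TopologicalSpace X]
    {F : QFam Q E H} {C : RCh V X} {K : Set H}

theorem qbf_form' (τ : B1 K) (hK : Co K) (h : ∀ q0, F.R q0 ⊆ {p : E × H | p.2 ∈ K})
    (m : Mark F C) (hP : InK m.P K) : Eqv (τ.pull hK m.P hP) ((qbf τ h).form' m) :=
  pull_fib ((qbf τ h).β m.q) (F.cn m.q) (Ehr8_268.pf_in m) (F.ball_of_mem (F.U_mem m.q)) τ hK m.P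
    hP (fun i z hz => ⟨1, one_ne_zero, by rw [one_smul]; exact (pf_id m hz).symm⟩)
    fun _ _ _ _ _ _ _ _ _ => rfl

/-- the value of the form of a marking -/
theorem qbf_form'_w (τ : B1 K) (hK : Co K) (h : ∀ q0, F.R q0 ⊆ {p : E × H | p.2 ∈ K})
    (m : Mark F C) (hP : InK m.P K) {i : m.C'.ι} {z : V} (hz : z ∈ (m.C'.e i).target) (u v : V) :
    ((qbf τ h).form' m).w i z u v =
      τ.sg (m.P.u i z) (fderiv ℝ (m.P.u i) z u) (fderiv ℝ (m.P.u i) z v) := by
  rw [← B1.pull_w τ hK m.P hP hz u v]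
  exact (qbf_form' τ hK h m hP i z hz u v).symm

end qbf

/-! ### from the atlas to `C` -/

section cls

variable {X : Type} [TopologicalSpace X] {d : ℕ} {C : RCh (Cn d) X}

theorem cl_pull_start {C' : RCh (Cn d) X} (hc : Cmp C C') {W : F2 C'} {w : F2 C} {c : ℝ}
    (h : Ex (W - c • hc.F w)) : Cl ((SMap.ofCmp hc.symm).pull W) (c • w) := by
  have h1 := (SMap.ofCmp hc.symm).ex_pull h
  have h2 : Ex ((SMap.ofCmp hc.symm).pull W - (SMap.ofCmp hc.symm).pull (c • hc.F w)) :=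
    (pull_sub _ _ _).ex h1
  have h3 : Eqv ((SMap.ofCmp hc.symm).pull (c • hc.F w)) (c • w) := by
    have a1 : Eqv (hc.F (c • w)) (c • hc.F w) := F_smul hc c w
    exact (a1.symm.pull _).trans (Cnt_311.cmp_F_eqv hc (c • w))
  have h4 := ex_add h2 (eqv_ex_sub h3)
  rwa [sub_add_sub_cancel] at h4

end cls

/-! ### the output of START -/

section main

variable {X : Type} [TopologicalSpace X] {d : ℕ} {C : RCh (Cn d) X}

/-- **the output of START** at the triple `H` with the classes `w` -/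
structure StartD (k₀ : Type) [Field k₀] [Algebra k₀ ℂ] (H : HkT C) {ι : Type} [Fintype ι]
    [DecidableEq ι] (w : ι → F2 C) where
  m : ℕ
  m_pos : 0 < m
  b : ι → ℕ
  N : ℕ
  e : (∀ k, Fin (b k + 1)) ≃ Fin (N + 1)
  K : Code k₀ d N
  Mo : Fmt k₀ (Fin K.k)
  nice : Mo.Nice
  good : ∀ (z : Fin Mo.m → ℂ) (w : ℂ), Mo.On z w → K.Good (Mo.pt z w)
  seg : ∀ k a a', MvPolynomial.map (MvPolynomial.C : k₀ →+* MvPolynomial (Fin K.k) k₀)
    (MvPolynomial.rename e (segPoly k₀ k a a')) ∈ range K.Y.G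
  x : Mark (qfamC K Mo nice good) C
  alg : AlgebraicIndependent k₀ x.q.1.1
  cx : CxOf x.P H
  inS : ∀ i, ∀ z ∈ (x.C'.e i).target, sL e (x.P.u i z) ∈ segK fun k => Fin (b k + 1)
  blk : ∀ (k : ι) (W : F2 x.C'), (∀ i, ∀ z ∈ (x.C'.e i).target, ∀ u v, W.w i z u v =
    sgv k (sL e (x.P.u i z)) (sL e (fderiv ℝ (x.P.u i) z u)) (sL e (fderiv ℝ (x.P.u i) z v))) →
    Cl ((SMap.ofCmp x.cmp.symm).pull W) ((Real.pi * m) • w k)
  tot : ∀ (W : F2 x.C'), (∀ i, ∀ z ∈ (x.C'.e i).target, ∀ u v, W.w i z u v =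
    fsv (sL e (x.P.u i z)) (sL e (fderiv ℝ (x.P.u i) z u)) (sL e (fderiv ℝ (x.P.u i) z v))) →
    Cl ((SMap.ofCmp x.cmp.symm).pull W) ((Real.pi * m) • ∑ k, w k)
  frm : ∀ i, ∀ z ∈ (x.C'.e i).target, ∀ (j : Fin (N + 1)) u v,
    (K.mem (Mo.pt x.q.1.1 x.q.1.2)).D.b j (fun l => x.P.u i z l)
      (fun l => fderiv ℝ (x.P.u i) z u l) (fun l => fderiv ℝ (x.P.u i) z v l) =
      x.P.u i z j ^ (K.mem (Mo.pt x.q.1.1 x.q.1.2)).D.m *
        (((x.cmp.F (H.om 1)).w i z u v : ℂ) + ((x.cmp.F (H.om 2)).w i z u v : ℂ) * I)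

/-- **START** -/
theorem exists_startD [CompactSpace X] [T2Space X] [ConnectedSpace X] (hNN : NNat (Cn d) d)
    (k₀ : Type) [Field k₀] [CharZero k₀] [Algebra k₀ ℂ] (H : HkT C) {ι : Type} [Fintype ι]
    [DecidableEq ι] [Nonempty ι] {w : ι → F2 C} (hi : ∀ i, IntF (w i))
    (hw : ∀ i, KCls (ofHk H 0) (w i)) : Nonempty (StartD k₀ H w) := by
  obtain ⟨A, -, -, -, hA, m, hm, Q, N, e, K, Mo, h, hM, q0, hQ, hT, hseg, hcert, halg, hcone,
    hcx⟩ := start_seg hNN k₀ H hi hw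
  have hπ : ∀ {L : LB A} (hL : HM L) {b : F2 (ofAtl A)}, Ex (c1F hL - (m : ℝ) • b) →
      Ex ((Cdr_234.curK hL).f2 - (Real.pi * m) • b) := by
    intro L hL b hb
    have a1 := Cdr_234.Ex.smul Real.pi hb
    rwa [smul_sub, smul_smul, ← curK_f2] at a1
  refine ⟨⟨m, hm, fun k => (Q k).N, N, e, K, Mo, h, hM,
    fun k a a' => hseg _ ((mem_segT Q e k₀).2 ⟨k, a, a', rfl⟩),
    ⟨q0, ofAtl A, cmp_of_cp hA, P0 Q e, hcone⟩, halg, hcx,
    fun i z hz => segK_u Q e hz, fun k W hW => ?_, fun W hW => ?_,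
    fun i z hz j u v => frm_val Q e hA hcert hz j u v⟩⟩
  · refine cl_pull_start (cmp_of_cp hA) ?_
    have e1 : Eqv W (Cdr_234.curK (fs (Q k))).f2 := fun i z hz u v =>
      (hW i z hz u v).trans (blk_val Q e hz k u v)
    have a1 := ex_add (eqv_ex_sub e1) (hπ _ (hQ k))
    rwa [sub_add_sub_cancel] at a1
  · refine cl_pull_start (cmp_of_cp hA) ?_
    have e1 : Eqv W (Cdr_234.curK (fs (segPs Q e))).f2 := fun i z hz u v =>
      (hW i z hz u v).trans (fs_val Q e hz u v)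
    have a1 := ex_add (eqv_ex_sub e1) (hπ _ hT)
    rwa [sub_add_sub_cancel] at a1

namespace StartD

variable {k₀ : Type} [Field k₀] [Algebra k₀ ℂ] {H : HkT C} {ι : Type} [Fintype ι]
    [DecidableEq ι] {w : ι → F2 C} (S : StartD k₀ H w)

/-- the class of the `k`-th block form (655's `qbf`) at the starting marking -/
theorem cl_blk (k : ι) {K' : Set (EuclideanSpace ℂ (Fin (S.N + 1)))} (τ : B1 K') (hK : Co K')
    (hR : ∀ q0, (qfamC S.K S.Mo S.nice S.good).R q0 ⊆ {p | p.2 ∈ K'}) (hP : InK S.x.P K')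
    (hτ : ∀ x u v, τ.sg x u v = sgv (J := fun k => Fin (S.b k + 1)) k (sL S.e x) (sL S.e u) (sL S.e v)) :
    Cl ((qbf τ hR).form S.x) ((Real.pi * S.m) • w k) :=
  S.blk k _ fun _ _ hz u v => (qbf_form'_w τ hK hR S.x hP hz u v).trans (hτ _ _ _)

/-- the class of the Fubini-Study form at the starting marking -/
theorem cl_tot {K' : Set (EuclideanSpace ℂ (Fin (S.N + 1)))} (τ : B1 K') (hK : Co K')
    (hR : ∀ q0, (qfamC S.K S.Mo S.nice S.good).R q0 ⊆ {p | p.2 ∈ K'}) (hP : InK S.x.P K')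
    (hτ : ∀ x u v, τ.sg x u v = fsv (J := ∀ k, Fin (S.b k + 1)) (sL S.e x) (sL S.e u) (sL S.e v)) :
    Cl ((qbf τ hR).form S.x) ((Real.pi * S.m) • ∑ k, w k) :=
  S.tot _ fun _ _ hz u v => (qbf_form'_w τ hK hR S.x hP hz u v).trans (hτ _ _ _)

end StartD

end main

end

end Crest.Agent.R281.Kb_565
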