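import Crest.Agent.R281.Kb3_565
import Crest.Agent.R281.Cnt2_311
import Crest.Agent.R281.Ehr11_268
import Crest.Agent.R281.LI2_473

/-!
# R281 (S0424), START MATCHING (helper871), part 1: the period of the start marking

* `stM`     : the start marking `⟨q0, ofAtl A, hc, ofProj P (bE N), _⟩` of 867's / 565's START
* `Val b m` : value of the holomorphic form `b : QCF (qfamC ..)` on the marking `m` in a coordinate
* `cw_stM`  : on the start marking it is the form `σ` of the certificate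
* `re_stM`, `im_stM`, `cls_re`, `cls_im` : real and imaginary part are `om 1`, `om 2`
* `isPer_stM`, `frH`, `tau_of_isPer`, `tau_stM` : the period is `τ0`
-/

set_option autoImplicit false
set_option linter.unusedSectionVars false
set_option synthInstance.maxHeartbeats 200000
set_option maxSynthPendingDepth 3

open Set Filter Topology Complex
open scoped ContDiff

namespace Crest.Agent.R281.Sm_871

open Crest.Agent.R275.Geo Crest.Agent.R273.Defs_333 Crest.Agent.R281.Defs_273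
open Crest.Agent.R260.ACM_580 Crest.Agent.R260.NNB_580 Crest.Agent.R281.Dif_268
open Crest.Agent.R281.HkR_835 Crest.Agent.R281.Ehr2_268
open Crest.Agent.R281.Ehr4_268 Crest.Agent.R281.Ehr6_268 Crest.Agent.R281.Ehr7_268
open Crest.Agent.R281.Ehr8_268 (QBF pf_id)
open Crest.Agent.R281.Ehr11_268 Crest.Agent.R281.Phl_655 Crest.Agent.R281.Cdr_234
open Crest.Agent.R281.Alg_998 Crest.Agent.R281.Cnt_311
open Crest.Agent.R281.CA_867 Crest.Agent.R281.CB_867 Crest.Agent.R281.AF_867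
open Crest.Agent.R281.Sl_957 Crest.Agent.R281.Am_957 Crest.Agent.R281.QF_871
open Crest.Agent.R281.Pe_313
open Crest.Agent.R281.Ti_846 (Ex)

noncomputable section

/-! ### values of the form -/

section val

variable {V X : Type} [NormedAddCommGroup V] [NormedSpace ℝ V] [TopologicalSpace X]
  {C : RCh V X} {k₀ : Type} [Field k₀] [Algebra k₀ ℂ] {d N : ℕ} {K : Code k₀ d N}
  {Mo : Fmt k₀ (Fin K.k)} {h : Mo.Nice}
  {hM : ∀ (z : Fin Mo.m → ℂ) (w : ℂ), Mo.On z w → K.Good (Mo.pt z w)}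

/-- the value of the form on a marking, in a coordinate `j` -/
def Val (b : QCF (qfamC K Mo h hM)) (m : Mark (qfamC K Mo h hM) C) : Prop :=
  ∀ (i : m.C'.ι) (z : V), z ∈ (m.C'.e i).target → ∀ j : Fin (N + 1), m.P.u i z j ≠ 0 →
    ∀ v w, b.cw m i ((qfamC K Mo h hM).u m.q) z v w * m.P.u i z j ^ K.Y.D.m =
      (K.mem (Mo.pt m.q.1.1 m.q.1.2)).D.b j (fun k => m.P.u i z k)
        (fun k => fderiv ℝ (m.P.u i) z v k) (fun k => fderiv ℝ (m.P.u i) z w k)

end val

/-! ### the start marking -/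

section st

variable {X : Type} [TopologicalSpace X] {d : ℕ} {C : RCh (Cn d) X} {k₀ : Type} [Field k₀]
  [Algebra k₀ ℂ] {A : Atl d X} {P : ProjD A} {K : Code k₀ d P.N} {Mo : Fmt k₀ (Fin K.k)}
  {h : Mo.Nice} {hM : ∀ (z : Fin Mo.m → ℂ) (w : ℂ), Mo.On z w → K.Good (Mo.pt z w)}
  {q0 : QM Mo}

/-- **the start marking** -/
def stM (hc : Cmp C (ofAtl A))
    (hw : ∀ w, w ∈ (ofProj P (bE P.N)).cone ↔ w ∈ (qfamC K Mo h hM).S q0) :
    Mark (qfamC K Mo h hM) C := ⟨q0, ofAtl A, hc, ofProj P (bE P.N), hw⟩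

variable {hc : Cmp C (ofAtl A)}
  {hw : ∀ w, w ∈ (ofProj P (bE P.N)).cone ↔ w ∈ (qfamC K Mo h hM).S q0}

/-- **the value of the form on the start marking** -/
theorem cw_stM {b : QCF (qfamC K Mo h hM)} (hb : Val b (stM hc hw)) {σ : HSymp A}
    (hC : IsCert P σ (K.mem (Mo.pt q0.1.1 q0.1.2))) {i : A.ι} {z : Cn d}
    (hz : z ∈ (A.e i).target) (u v : Cn d) :
    b.cw (stM hc hw) i ((qfamC K Mo h hM).u q0) z u v = sb (σ.s i ((A.e i).symm z)) u v := by
  obtain ⟨j, hj⟩ : ∃ j, P.F i ((A.e i).symm z) j ≠ 0 := by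
    by_contra hcon
    push Not at hcon
    exact P.ne i _ ((A.e i).map_target hz) (funext hcon)
  have hj' : (stM hc hw).P.u i z j ≠ 0 := hj
  have h1 := hb i z hz j hj' u v
  have e1 : (fun k => (stM hc hw).P.u i z k) = P.F i ((A.e i).symm z) := rfl
  have e2 : ∀ v : Cn d, (fun k => fderiv ℝ ((stM hc hw).P.u i) z v k) =
      fderiv ℂ (fun w => P.F i ((A.e i).symm w)) z v := by
    intro v
    funext k
    have h3 := ofProj_fderiv P (bE P.N) hz v
    exact congrArg (fun y : EuclideanSpace ℂ (Fin (P.N + 1)) => y k) h3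
  have e3 : (stM hc hw).P.u i z j = P.F i ((A.e i).symm z) j := rfl
  rw [e1, e2, e2, e3] at h1
  have h2 := form_eq hC hz j u v
  have h4 : (K.mem (Mo.pt q0.1.1 q0.1.2)).D.m = K.Y.D.m := rfl
  rw [h4] at h2
  have h5 : (P.F i ((A.e i).symm z) j) ^ K.Y.D.m ≠ 0 := pow_ne_zero _ hj
  have h6 := h1.trans h2
  rw [mul_comm] at h6
  exact mul_left_cancel₀ h5 h6

variable {H : HkT C} {hA : Cp (H.acm 0) A}
  {hw : ∀ w, w ∈ (ofProj P (bE P.N)).cone ↔ w ∈ (qfamC K Mo h hM).S q0}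

theorem re_stM {b : QCF (qfamC K Mo h hM)} (hb : Val b (stM (cmp_of_cp hA) hw))
    (hC : IsCert P (H.sig hA) (K.mem (Mo.pt q0.1.1 q0.1.2))) :
    Eqv (b.re.form' (stM (cmp_of_cp hA) hw)) ((cmp_of_cp hA).F (H.om 1)) := by
  intro i z hz u v
  have h1 : (b.re.form' (stM (cmp_of_cp hA) hw)).w i z u v =
      (b.cw (stM (cmp_of_cp hA) hw) i ((qfamC K Mo h hM).u q0) z u v).re :=
    b.re_at (stM (cmp_of_cp hA) hw) _ i z u v
  have h2 := cw_stM hb hC (i := i) hz u v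
  have h3 := sig_sb H hA (j := i) hz u v
  rw [h1, h2]
  have h4 : sb ((H.sig hA).s i ((A.e i).symm z)) u v =
    sb (HkP2_508.sl (H.sig hA).toH2 i z) u v := rfl
  rw [h4, h3]
  simp

theorem im_stM {b : QCF (qfamC K Mo h hM)} (hb : Val b (stM (cmp_of_cp hA) hw))
    (hC : IsCert P (H.sig hA) (K.mem (Mo.pt q0.1.1 q0.1.2))) :
    Eqv (b.im.form' (stM (cmp_of_cp hA) hw)) ((cmp_of_cp hA).F (H.om 2)) := by
  intro i z hz u v
  have h1 : (b.im.form' (stM (cmp_of_cp hA) hw)).w i z u v =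
      (b.cw (stM (cmp_of_cp hA) hw) i ((qfamC K Mo h hM).u q0) z u v).im :=
    b.im_at (stM (cmp_of_cp hA) hw) _ i z u v
  have h2 := cw_stM hb hC (i := i) hz u v
  have h3 := sig_sb H hA (j := i) hz u v
  rw [h1, h2]
  have h4 : sb ((H.sig hA).s i ((A.e i).symm z)) u v =
    sb (HkP2_508.sl (H.sig hA).toH2 i z) u v := rfl
  rw [h4, h3]
  simp

/-- the real part on `C` -/
theorem re_form {b : QCF (qfamC K Mo h hM)} (hb : Val b (stM (cmp_of_cp hA) hw))
    (hC : IsCert P (H.sig hA) (K.mem (Mo.pt q0.1.1 q0.1.2))) :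
    Eqv (b.re.form (stM (cmp_of_cp hA) hw)) (H.om 1) :=
  ((re_stM hb hC).pull _).trans (cmp_F_eqv (cmp_of_cp hA) (H.om 1))

/-- the imaginary part on `C` -/
theorem im_form {b : QCF (qfamC K Mo h hM)} (hb : Val b (stM (cmp_of_cp hA) hw))
    (hC : IsCert P (H.sig hA) (K.mem (Mo.pt q0.1.1 q0.1.2))) :
    Eqv (b.im.form (stM (cmp_of_cp hA) hw)) (H.om 2) :=
  ((im_stM hb hC).pull _).trans (cmp_F_eqv (cmp_of_cp hA) (H.om 2))

variable [CompactSpace X] [T2Space X]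

/-- **the class of the real part** -/
theorem cls_re {b : QCF (qfamC K Mo h hM)} (hb : Val b (stM (cmp_of_cp hA) hw))
    (hC : IsCert P (H.sig hA) (K.mem (Mo.pt q0.1.1 q0.1.2))) :
    (b.re.natF C).cls (MQ.mk (stM (cmp_of_cp hA) hw)) = cl (H.om 1) :=
  cl_eq_iff.mpr (re_form hb hC).coh

/-- **the class of the imaginary part** -/
theorem cls_im {b : QCF (qfamC K Mo h hM)} (hb : Val b (stM (cmp_of_cp hA) hw))
    (hC : IsCert P (H.sig hA) (K.mem (Mo.pt q0.1.1 q0.1.2))) :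
    (b.im.natF C).cls (MQ.mk (stM (cmp_of_cp hA) hw)) = cl (H.om 2) :=
  cl_eq_iff.mpr (im_form hb hC).coh

/-- the period in 311's form -/
theorem isPer_stM {Q : F2 C →ₗ[ℝ] F2 C →ₗ[ℝ] ℝ} {F : Frm C Q} {a : F2 C} {τ : ℂ}
    (hH : AtTau F a H τ) {b : QCF (qfamC K Mo h hM)} (hb : Val b (stM (cmp_of_cp hA) hw))
    (hC : IsCert P (H.sig hA) (K.mem (Mo.pt q0.1.1 q0.1.2))) :
    Cnt_311.IsPer F (b.re.form (stM (cmp_of_cp hA) hw)) (b.im.form (stM (cmp_of_cp hA) hw)) τ :=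
  hH.isPer.congr (cl_eq_iff.mpr (re_form hb hC).coh).symm (cl_eq_iff.mpr (im_form hb hC).coh).symm

end st

/-! ### the period in the frames of 473 -/

section fr

open Crest.Agent.R281.LI_473

variable {V X : Type} [NormedAddCommGroup V] [NormedSpace ℝ V] [TopologicalSpace X]
  {C : RCh V X} {Q : F2 C →ₗ[ℝ] F2 C →ₗ[ℝ] ℝ} {QH : HdR C →ₗ[ℝ] HdR C →ₗ[ℝ] ℝ}

/-- the frame of 473 from the frame of 998 -/
def frH (F : Frm C Q) (hs : ∀ x y, QH x y = QH y x) (hQ : ∀ x y : F2 C, QH (cl x) (cl y) = Q x y) :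
    Fr QH where
  sym := hs
  N := F.N
  N_pos := F.hN
  e := cl F.e
  v := cl F.v
  f := cl F.es
  ee := by rw [hQ]; exact F.e_e
  ev := by rw [hQ]; exact F.e_v
  vv := by rw [hQ]; exact F.v_v
  ff := by rw [hQ]; exact F.es_es
  fv := by rw [hQ]; exact F.es_v
  fe := by rw [hQ]; exact F.es_e

/-- 473's period of a pair of classes -/
theorem tau_cl (F : Frm C Q)
    (hQ : ∀ x y : F2 C, QH (cl x) (cl y) = Q x y) (G : Fr QH) (hN : G.N = F.N) (he : G.e = cl F.e)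
    (hv : G.v = cl F.v) (a b : F2 C) : G.tau (cl a) (cl b) = Cnt_311.per F a b := by
  unfold Fr.tau Fr.z1 Fr.z0 Cnt_311.per
  rw [hN, he, hv, hQ, hQ, hQ, hQ]

theorem tau_of_isPer (F : Frm C Q) (hs : ∀ x y, QH x y = QH y x)
    (hQ : ∀ x y : F2 C, QH (cl x) (cl y) = Q x y) (G : Fr QH) (hN : G.N = F.N) (he : G.e = cl F.e)
    (hv : G.v = cl F.v) {a b : F2 C} {τ : ℂ} (h : Cnt_311.IsPer F a b τ) :
    G.tau (cl a) (cl b) = τ := by
  rw [tau_cl F hQ G hN he hv]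
  refine (Cnt_311.IsPer.uniq (fun x y => ?_) (fun x y hx => ?_) h).symm
  · rw [← hQ, ← hQ, hs]
  · have h1 : cl x = cl (0 : F2 C) := by
      rw [cl_eq_iff]
      have h2 : Ex (x - 0) := by rw [sub_zero]; exact hx
      exact (ex_sub_iff _ _).mp h2
    rw [← hQ, h1]
    have h3 : (cl (0 : F2 C) : HdR C) = 0 := map_zero (exS C).mkQ
    rw [h3, map_zero, LinearMap.zero_apply]

end fr

end

end Crest.Agent.R281.Sm_871
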