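import Crest.Agent.R281.Kb5_565
import Crest.Agent.R281.Sm1_871
import Crest.Agent.R281.Dv1_957

/-!
# R281 (S0424), START (D14) (helper565), part 6: the classes of the blocks at the start marking

For 871's start marking `stM` of the Segre embedding `segPs Q e`, in 957's block forms `blkB e k`.

* `cl_blk_st`, `cl_tot_st`   : the forms of the marking
* `cls_blk_st`, `cls_tot_st` : the classes at `MQ.mk`
* `cls_blk`, `cls_tot`       : the same with the factor absorbed in the class: `T.cls k x₀ = T.pcl k`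
-/

set_option autoImplicit false
set_option linter.unusedSectionVars false
set_option maxSynthPendingDepth 3

open Set Filter Topology Complex
open scoped ContDiff Matrix ComplexConjugate ComplexOrder

namespace Crest.Agent.R281.Kb_565

open Crest.Agent.R275.Geo Crest.Agent.R275.Core144 Crest.Agent.R275.EDR890
open Crest.Agent.R275.GC293
open Crest.Agent.R273
open Crest.Agent.R273.Kah_333 Crest.Agent.R273.Hess_333 Crest.Agent.R273.HessB_333
open Crest.Agent.R273.Defs_333 Crest.Agent.R273.HM_333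
open Crest.Agent.R273.FS_333 (lb fs sec sec_eq)
open Crest.Agent.R281.Defs_273
open Crest.Agent.R260.ACM_580 Crest.Agent.R260.NNB_580
open Crest.Agent.R281.HkR_835 Crest.Agent.R281.Ti_846 Crest.Agent.R281.HkP2_508
open Crest.Agent.R281.NefO_476 Crest.Agent.R281.Dif_268
open Crest.Agent.R281.Nef_252
open Crest.Agent.R281.Cdr_234 (Cls IntF RatF c1F c1F_w)
open Crest.Agent.R281.CA_867 Crest.Agent.R281.CB_867 Crest.Agent.R281.Pe_313
open Crest.Agent.R281.Sl_957 Crest.Agent.R281.Am_957 Crest.Agent.R281.QF_871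
open Crest.Agent.R281.Ehr6_268 Crest.Agent.R281.Ehr8_268 Crest.Agent.R281.Phl_655
open Crest.Agent.R281.Ehr7_268
open Crest.Agent.R281.Alg_998 (Cl)
open Crest.Agent.R281.Blk_592 (segPs segPoly fsv sgv segK)
open Crest.Agent.R281.Sm_871 (stM)
open Crest.Agent.R281.Dv_957

noncomputable section

section st

variable {X : Type} [TopologicalSpace X] {d : ℕ} {C : RCh (Cn d) X} {k₀ : Type} [Field k₀]
  [Algebra k₀ ℂ] {A : Atl d X} {ι : Type} [Fintype ι] [DecidableEq ι] [Nonempty ι]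
  {Q : ι → ProjD A} {N : ℕ} {e : (∀ k, Fin ((Q k).N + 1)) ≃ Fin (N + 1)} {K : Code k₀ d N}
  {Mo : Fmt k₀ (Fin K.k)} {h : Mo.Nice}
  {hM : ∀ (z : Fin Mo.m → ℂ) (w : ℂ), Mo.On z w → K.Good (Mo.pt z w)} {q0 : QM Mo}
  {hc : Cmp C (ofAtl A)}
  {hw : ∀ w, w ∈ (ofProj (segPs Q e) (bE N)).cone ↔ w ∈ (qfamC K Mo h hM).S q0}

theorem ex_tr {V Y : Type} [NormedAddCommGroup V] [NormedSpace ℝ V] [TopologicalSpace Y]
    {B : RCh V Y} {W W' b : F2 B} (h1 : Eqv W W') (h2 : Ex (W' - b)) : Ex (W - b) := by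
  have h3 := ex_add (eqv_ex_sub h1) h2
  rwa [sub_add_sub_cancel] at h3

/-- the start embedding lies in the Segre cone -/
theorem inK_st : InK (P0 Q e) (segS e) := fun _ z hz =>
  ⟨(P0 Q e).ne _ z hz, (segK_u Q e hz).2⟩

/-- **the form of the `k`-th block at the start marking** -/
theorem cl_blk_st (hR : ∀ q0, (qfamC K Mo h hM).R q0 ⊆ {p | p.2 ∈ segS e}) (k : ι) {w : F2 C}
    {c : ℝ} (hQ : Ex (c1F (fs (Q k)) - c • hc.F w)) :
    Cl ((qbf (blkB e k) hR).form (stM (P := segPs Q e) hc hw)) ((Real.pi * c) • w) := by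
  refine cl_pull_start hc (w := w) (c := Real.pi * c) ?_
  have a1 := Cdr_234.Ex.smul Real.pi hQ
  rw [smul_sub, smul_smul, ← curK_f2] at a1
  have e1 : Eqv ((qbf (blkB e k) hR).form' (stM (P := segPs Q e) hc hw))
      (Cdr_234.curK (fs (Q k))).f2 := fun i z hz u v =>
    (qbf_form'_w (blkB e k) (segS_co e) hR (stM (P := segPs Q e) hc hw) (inK_st (Q := Q)) hz
      u v).trans (blk_val Q e hz k u v)
  exact ex_tr e1 a1

/-- **the Fubini-Study form of the start marking** -/
theorem cl_tot_st (hR : ∀ q0, (qfamC K Mo h hM).R q0 ⊆ {p | p.2 ∈ segS e}) {w : F2 C}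
    {c : ℝ} (hQ : Ex (c1F (fs (segPs Q e)) - c • hc.F w)) :
    Cl ((qbf (totB e) hR).form (stM (P := segPs Q e) hc hw)) ((Real.pi * c) • w) := by
  refine cl_pull_start hc (w := w) (c := Real.pi * c) ?_
  have a1 := Cdr_234.Ex.smul Real.pi hQ
  rw [smul_sub, smul_smul, ← curK_f2] at a1
  have e1 : Eqv ((qbf (totB e) hR).form' (stM (P := segPs Q e) hc hw))
      (Cdr_234.curK (fs (segPs Q e))).f2 := fun i z hz u v =>
    (qbf_form'_w (totB e) (segS_co e) hR (stM (P := segPs Q e) hc hw) (inK_st (Q := Q)) hz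
      u v).trans (fs_val Q e hz u v)
  exact ex_tr e1 a1

theorem cl_of_Cl {a b : F2 C} (h : Cl a b) : cl a = cl b := cl_eq_iff.mpr ((ex_sub_iff _ _).mp h)

variable [CompactSpace X] [T2Space X]

/-- **the class of the `k`-th block at the start marking** -/
theorem cls_blk_st (hR : ∀ q0, (qfamC K Mo h hM).R q0 ⊆ {p | p.2 ∈ segS e}) (k : ι) {w : F2 C}
    {c : ℝ} (hQ : Ex (c1F (fs (Q k)) - c • hc.F w)) :
    ((qbf (blkB e k) hR).natF C).cls (MQ.mk (stM (P := segPs Q e) hc hw)) =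
      Real.pi • cl (c • w) := by
  have h1 : cl ((qbf (blkB e k) hR).form (stM (P := segPs Q e) hc hw)) =
      cl ((Real.pi * c) • w) := cl_of_Cl (cl_blk_st hR k hQ)
  have h2 : cl ((Real.pi * c) • w) = Real.pi • cl (c • w) := by
    rw [mul_smul]
    exact cl_smul Real.pi (c • w)
  exact h1.trans h2

/-- **the class of the total form at the start marking** -/
theorem cls_tot_st (hR : ∀ q0, (qfamC K Mo h hM).R q0 ⊆ {p | p.2 ∈ segS e}) {w : F2 C}
    {c : ℝ} (hQ : Ex (c1F (fs (segPs Q e)) - c • hc.F w)) :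
    ((qbf (totB e) hR).natF C).cls (MQ.mk (stM (P := segPs Q e) hc hw)) =
      Real.pi • cl (c • w) := by
  have h1 : cl ((qbf (totB e) hR).form (stM (P := segPs Q e) hc hw)) =
      cl ((Real.pi * c) • w) := cl_of_Cl (cl_tot_st hR hQ)
  have h2 : cl ((Real.pi * c) • w) = Real.pi • cl (c • w) := by
    rw [mul_smul]
    exact cl_smul Real.pi (c • w)
  exact h1.trans h2

/-- the factor absorbed in the class -/
theorem cls_blk (hR : ∀ q0, (qfamC K Mo h hM).R q0 ⊆ {p | p.2 ∈ segS e}) (k : ι) {w : F2 C}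
    (hQ : Ex (c1F (fs (Q k)) - hc.F w)) :
    ((qbf (blkB e k) hR).natF C).cls (MQ.mk (stM (P := segPs Q e) hc hw)) = Real.pi • cl w := by
  have h1 := cls_blk_st (hw := hw) hR k (w := w) (c := 1) (by rwa [one_smul])
  rwa [one_smul] at h1

theorem cls_tot (hR : ∀ q0, (qfamC K Mo h hM).R q0 ⊆ {p | p.2 ∈ segS e}) {w : F2 C}
    (hQ : Ex (c1F (fs (segPs Q e)) - hc.F w)) :
    ((qbf (totB e) hR).natF C).cls (MQ.mk (stM (P := segPs Q e) hc hw)) = Real.pi • cl w := by
  have h1 := cls_tot_st (hw := hw) hR (w := w) (c := 1) (by rwa [one_smul])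
  rwa [one_smul] at h1

end st

end

end Crest.Agent.R281.Kb_565
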