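import Crest.Agent.R281.Kc3_530
import Crest.Agent.R281.Un4_360
import Crest.Agent.R273.Reg_835

/-!
# R281 (S0424), KAP-CONJ (helper530): `ConjCh` of Un2_360

The conjugate `S = σ(T)` of a compact submanifold of a projective manifold whose equations are
fixed by `σ` is a closed submanifold of the same dimension.
-/

set_option autoImplicit false
set_option linter.unusedSectionVars false

open Set Filter Topology Complex
open scoped ContDiff Matrix ComplexConjugate

namespace Crest.Agent.R281.Kc4_530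

open Crest.Agent.R275 Crest.Agent.R275.Geo Crest.Agent.R275.Core144
open Crest.Agent.R273.SerA_945 Crest.Agent.R273.SerB_945 Crest.Agent.R273.SerC_945
open Crest.Agent.R273.SerE_945 Crest.Agent.R273.TD3_733 Crest.Agent.R273.FS_333
open Crest.Agent.R273.Defs_333 Crest.Agent.R273.SteinC_794 Crest.Agent.R273.HM_333
open Crest.Agent.R273.Map_835 Crest.Agent.R273.PB_835 Crest.Agent.R273.Chow_313
open Crest.Agent.R273.Fam_835 Crest.Agent.R273.Sub_835 Crest.Agent.R273.Reg_835
open Crest.Agent.R281.AF_867 Crest.Agent.R281.Un_360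
open Crest.Agent.R281.Kc1_530 (dd eval_smul_homog)
open Crest.Agent.R281.Kc3_530

noncomputable section

/-! ### charts from slices -/

section Slice

variable {d N : ℕ} {M : Type} [TopologicalSpace M] {A : Atl N M} {S : Set M} {y : M}

theorem chAt_of_subCh (c : SubCh (fam A) S d) (hy : y ∈ c.ψ.source) (hyS : y ∈ S) :
    Nonempty (ChAt A d S y) := by
  obtain ⟨i, hi⟩ := A.cover y
  set O : Set (Cn N) := c.ψ.target ∩ c.ψ.symm ⁻¹' (A.e i).source with hO
  have hOo : IsOpen O := c.ψ.isOpen_inter_preimage_symm (A.e i).open_source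
  set al : Cn d → Cn N := fun z => c.ψ y + c.io z with hal
  have halc : Continuous al := continuous_const.add c.io.continuous
  have hald : Differentiable ℂ al := (differentiable_const _).add c.io.differentiable
  have hal0 : al 0 = c.ψ y := by rw [hal]; simp
  have h0 : al 0 ∈ O := by
    rw [hal0]
    exact ⟨c.ψ.map_source hy, by rw [mem_preimage, c.ψ.left_inv hy]; exact hi⟩
  obtain ⟨R, hR, hball⟩ := Metric.isOpen_iff.1 (hOo.preimage halc) 0 h0
  have hio : c.io (c.pi (c.ψ y)) = c.ψ y := (c.slice y hy).1 hyS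
  have hpial : ∀ z, c.pi (al z) = c.pi (c.ψ y) + z := fun z => by
    rw [hal]
    show c.pi (c.ψ y + c.io z) = _
    rw [map_add, c.pi_io]
  have hψ : ∀ z ∈ Metric.ball (0 : Cn d) R, c.ψ (c.ψ.symm (al z)) = al z := fun z hz =>
    c.ψ.right_inv (hball hz).1
  have hhol : DifferentiableOn ℂ (fun z => A.e i (c.ψ.symm (al z))) (Metric.ball 0 R) :=
    (c.hol' i).comp hald.differentiableOn fun z hz => hball hz
  refine ⟨⟨i, R, fun z => c.ψ.symm (al z), hR, ?_, ?_, ?_, ?_, hhol, ?_, ?_⟩⟩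
  · show c.ψ.symm (al 0) = y
    rw [hal0, c.ψ.left_inv hy]
  · intro z hz
    exact (hball hz).2
  · intro z hz
    rw [c.slice _ (c.ψ.map_target (hball hz).1), hψ z hz, hpial, map_add, hio]
  · exact c.ψ.symm.continuousOn.comp halc.continuousOn fun z hz => (hball hz).1
  · -- injectivity of the derivative
    have hd1 : DifferentiableAt ℂ (fun z => A.e i (c.ψ.symm (al z))) 0 :=
      hhol.differentiableAt (Metric.isOpen_ball.mem_nhds (Metric.mem_ball_self hR))
    have hd2 : DifferentiableAt ℂ (fun w => c.pi (c.ψ ((A.e i).symm w))) (A.e i y) := by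
      have h1 : DifferentiableAt ℂ (fun w => c.ψ ((A.e i).symm w)) (A.e i y) :=
        (c.hol i).differentiableAt ((c.isOpen1 i).mem_nhds ⟨(A.e i).map_source hi, by
          show (A.e i).symm (A.e i y) ∈ c.ψ.source
          rw [(A.e i).left_inv hi]; exact hy⟩)
      exact c.pi.differentiableAt.comp _ h1
    have e1 : A.e i (c.ψ.symm (al 0)) = A.e i y := by rw [hal0, c.ψ.left_inv hy]
    have h5 := fderiv_comp (0 : Cn d) (g := fun w => c.pi (c.ψ ((A.e i).symm w)))
      (f := fun z => A.e i (c.ψ.symm (al z))) (by rw [e1]; exact hd2) hd1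
    have h6 : (fun w => c.pi (c.ψ ((A.e i).symm w))) ∘ (fun z => A.e i (c.ψ.symm (al z)))
        =ᶠ[𝓝 (0 : Cn d)] fun z => c.pi (c.ψ y) + z := by
      filter_upwards [Metric.ball_mem_nhds (0 : Cn d) hR] with z hz
      simp only [Function.comp]
      rw [(A.e i).left_inv (hball hz).2, hψ z hz, hpial]
    rw [h6.fderiv_eq, fderiv_const_add, fderiv_fun_id] at h5
    intro v w hvw
    have h7 := congrArg (fun T : Cn d →L[ℂ] Cn d => T v) h5
    have h8 := congrArg (fun T : Cn d →L[ℂ] Cn d => T w) h5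
    simp only [ContinuousLinearMap.coe_id', id_eq, ContinuousLinearMap.coe_comp,
      Function.comp_apply] at h7 h8
    rw [h7, h8, hvw]
  · intro r hr
    rw [mem_nhdsWithin_iff_eventually]
    have h1 : Tendsto (fun x => c.pi (c.ψ x) - c.pi (c.ψ y)) (𝓝 y) (𝓝 0) := by
      have h2 : ContinuousAt c.ψ y := c.ψ.continuousAt hy
      have h3 : ContinuousAt (fun x => c.pi (c.ψ x) - c.pi (c.ψ y)) y :=
        (c.pi.continuous.continuousAt.comp h2).sub continuousAt_const
      have h4 := h3.tendsto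
      simpa using h4
    filter_upwards [h1.eventually (Metric.ball_mem_nhds (0 : Cn d) hr),
      c.ψ.open_source.mem_nhds hy] with x hx hxs hxS
    refine ⟨_, hx, ?_⟩
    show c.ψ.symm (c.ψ y + c.io (c.pi (c.ψ x) - c.pi (c.ψ y))) = x
    rw [map_sub, hio, (c.slice x hxs).1 hxS, add_sub_cancel, c.ψ.left_inv hxs]

end Slice

/-! ### derivatives of the homogeneous coordinates -/

section Der

variable {N : ℕ} {M : Type} [TopologicalSpace M] {A : Atl N M}

/-- the derivative of the homogeneous coordinates -/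
def DF (P : ProjD A) (i : A.ι) (x : M) : Cn N →L[ℂ] (Fin (P.N + 1) → ℂ) :=
  fderiv ℂ (fun w => P.F i ((A.e i).symm w)) (A.e i x)

theorem diffOn_F (P : ProjD A) (i : A.ι) :
    DifferentiableOn ℂ (fun w => P.F i ((A.e i).symm w)) (A.e i).target := by
  rw [differentiableOn_pi]
  intro k
  have h := P.hol i k
  unfold HolAt at h
  rwa [preimage_univ, inter_univ] at h

theorem hasFD (P : ProjD A) {i : A.ι} {x : M} (hx : x ∈ (A.e i).source) :
    HasFDerivAt (fun w => P.F i ((A.e i).symm w)) (DF P i x) (A.e i x) :=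
  ((diffOn_F P i).differentiableAt
    ((A.e i).open_target.mem_nhds ((A.e i).map_source hx))).hasFDerivAt

theorem df_sec (P : ProjD A) {i : A.ι} {x : M} (hx : x ∈ (A.e i).source) (u : Cn N)
    (k : Fin (P.N + 1)) : df A i (sec P k i) x u = DF P i x u k := by
  have h1 := (hasFDerivAt_pi'.1 (hasFD P hx)) k
  have h2 : (fun z => sec P k i ((A.e i).symm z)) =ᶠ[𝓝 (A.e i x)]
      fun z => P.F i ((A.e i).symm z) k := by
    filter_upwards [(A.e i).open_target.mem_nhds ((A.e i).map_source hx)] with z hz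
    exact sec_eq P ((A.e i).map_target hz) k
  unfold df
  rw [h2.fderiv_eq, h1.fderiv]
  rfl

theorem eval_sec (P : ProjD A) {i : A.ι} {x : M} (hx : x ∈ (A.e i).source) :
    (fun k => sec P k i x) = P.F i x := funext fun k => sec_eq P hx k

theorem continuousAt_F (P : ProjD A) {i : A.ι} {x : M} (hx : x ∈ (A.e i).source) :
    ContinuousAt (P.F i) x := by
  have h1 : ContinuousAt (fun w => P.F i ((A.e i).symm w)) (A.e i x) :=
    (hasFD P hx).continuousAt
  have h2 : ContinuousAt (fun x' => P.F i ((A.e i).symm (A.e i x'))) x :=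
    ContinuousAt.comp (g := fun w => P.F i ((A.e i).symm w)) h1 ((A.e i).continuousAt hx)
  refine h2.congr ?_
  filter_upwards [(A.e i).open_source.mem_nhds hx] with x' hx'
  rw [(A.e i).left_inv hx']

theorem rel_van {P : ProjD A} {p : MvPolynomial (Fin (P.N + 1)) ℂ}
    (hp : p ∈ Rels (fun k => sec P k)) {i : A.ι} {x : M} (hx : x ∈ (A.e i).source) :
    MvPolynomial.eval (P.F i x) p = 0 := by
  have h := hp.2 i x hx
  rwa [eval_sec P hx] at h

theorem rel_van_nhds {P : ProjD A} {p : MvPolynomial (Fin (P.N + 1)) ℂ}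
    (hp : p ∈ Rels (fun k => sec P k)) {i : A.ι} {x : M} (hx : x ∈ (A.e i).source) :
    ∀ᶠ w in 𝓝 (A.e i x), MvPolynomial.eval (P.F i ((A.e i).symm w)) p = 0 := by
  filter_upwards [(A.e i).open_target.mem_nhds ((A.e i).map_source hx)] with w hw
  exact rel_van hp ((A.e i).map_target hw)

theorem dd_DF {P : ProjD A} {p : MvPolynomial (Fin (P.N + 1)) ℂ}
    (hp : p ∈ Rels (fun k => sec P k)) {i : A.ι} {x : M} (hx : x ∈ (A.e i).source) (u : Cn N) :
    dd p (P.F i x) (DF P i x u) = 0 := by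
  have h := dd_of_vanish (hasFD P hx) (rel_van_nhds hp hx) u
  rwa [(A.e i).left_inv hx] at h

theorem tan_DF {P : ProjD A} {E : Set (MvPolynomial (Fin (P.N + 1)) ℂ)}
    (hE : Eqs (fun k => sec P k) E) {i : A.ι} {x : M} (hx : x ∈ (A.e i).source)
    {t : Fin (P.N + 1) → ℂ} (ht : ∀ p ∈ E, dd p (P.F i x) t = 0) :
    ∃ (a : ℂ) (u : Cn N), t = a • P.F i x + DF P i x u := by
  obtain ⟨a, u, h⟩ := hE.tan i x hx t fun p hp => by
    rw [eval_sec P hx]
    exact ht p hp
  refine ⟨a, u, ?_⟩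
  rw [h]
  funext k
  rw [Pi.add_apply, Pi.smul_apply, smul_eq_mul, sec_eq P hx, df_sec P hx]

theorem DF_inj (P : ProjD A) {i : A.ι} {x : M} (hx : x ∈ (A.e i).source) {a : ℂ} {u : Cn N}
    (h : DF P i x u = a • P.F i x) : u = 0 :=
  P.imm i (A.e i x) ((A.e i).map_source hx) u ⟨a, by
    rw [(A.e i).left_inv hx]
    exact h⟩

/-! ### the cone -/

/-- the parametrisation of the cone -/
def cone (P : ProjD A) (i : A.ι) (q : ℂ × Cn N) : Fin (P.N + 1) → ℂ :=
  q.1 • P.F i ((A.e i).symm q.2)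

/-- its derivative -/
def dcone (P : ProjD A) (i : A.ι) (x : M) : ℂ × Cn N →L[ℂ] (Fin (P.N + 1) → ℂ) :=
  (ContinuousLinearMap.fst ℂ ℂ (Cn N)).smulRight (P.F i x) +
    (DF P i x).comp (ContinuousLinearMap.snd ℂ ℂ (Cn N))

theorem dcone_apply (P : ProjD A) (i : A.ι) (x : M) (q : ℂ × Cn N) :
    dcone P i x q = q.1 • P.F i x + DF P i x q.2 := rfl

theorem hasFD_cone (P : ProjD A) {i : A.ι} {x : M} (hx : x ∈ (A.e i).source) :
    HasFDerivAt (cone P i) (dcone P i x) (1, A.e i x) := by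
  have h1 : HasFDerivAt (fun q : ℂ × Cn N => q.1) (ContinuousLinearMap.fst ℂ ℂ (Cn N))
      (1, A.e i x) := hasFDerivAt_fst
  have h2 : HasFDerivAt (fun q : ℂ × Cn N => P.F i ((A.e i).symm q.2))
      ((DF P i x).comp (ContinuousLinearMap.snd ℂ ℂ (Cn N))) (1, A.e i x) :=
    HasFDerivAt.comp (1, A.e i x) (g := fun w => P.F i ((A.e i).symm w)) (hasFD P hx)
      hasFDerivAt_snd
  have h3 := h1.smul h2
  refine h3.congr_fderiv (ContinuousLinearMap.ext fun q => ?_)
  show (1 : ℂ) • DF P i x q.2 + q.1 • P.F i ((A.e i).symm (A.e i x)) = _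
  rw [one_smul, (A.e i).left_inv hx, dcone_apply]
  exact add_comm _ _

theorem cone_base (P : ProjD A) {i : A.ι} {x : M} (hx : x ∈ (A.e i).source) :
    cone P i (1, A.e i x) = P.F i x := by
  unfold cone
  rw [one_smul, (A.e i).left_inv hx]

theorem dcone_inj (P : ProjD A) {i : A.ι} {x : M} (hx : x ∈ (A.e i).source) :
    Function.Injective (dcone P i x) := by
  rw [injective_iff_map_eq_zero]
  rintro ⟨a, u⟩ h
  rw [dcone_apply] at h
  have h' : a • P.F i x + DF P i x u = 0 := h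
  have h1 : DF P i x u = (-a) • P.F i x := by
    rw [neg_smul, eq_neg_iff_add_eq_zero]
    exact (add_comm _ _).trans h'
  have h2 : u = 0 := DF_inj P hx h1
  rw [h2, map_zero, add_zero] at h'
  have h3 : a = 0 := (smul_eq_zero.1 h').resolve_right (P.ne i x hx)
  rw [h2, h3]
  rfl

theorem cone_van {P : ProjD A} {p : MvPolynomial (Fin (P.N + 1)) ℂ}
    (hp : p ∈ Rels (fun k => sec P k)) {i : A.ι} {x : M} (hx : x ∈ (A.e i).source) :
    ∀ᶠ q in 𝓝 ((1 : ℂ), A.e i x), MvPolynomial.eval (cone P i q) p = 0 := by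
  have h1 : Tendsto (fun q : ℂ × Cn N => q.2) (𝓝 ((1 : ℂ), A.e i x)) (𝓝 (A.e i x)) :=
    continuous_snd.tendsto _
  obtain ⟨e, he⟩ := hp.1
  filter_upwards [h1.eventually (rel_van_nhds hp hx)] with q hq
  unfold cone
  rw [eval_smul_homog he, hq, mul_zero]

end Der

/-! ### the conjugate submanifold -/

section Conj

variable {d N : ℕ} {T M : Type} [TopologicalSpace T] [TopologicalSpace M]
  {B : Atl d T} {A : Atl N M} {j : T → M}

theorem mem_of_eqs (I : Sbm B A j) {P : ProjD A} {σ : ℂ ≃+* ℂ}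
    {E : Set (MvPolynomial (Fin (P.N + 1)) ℂ)} (hE : Eqs (fun k => sec (I.P P) k) E) {y : M}
    {i : A.ι} (hy : y ∈ (A.e i).source)
    (h : ∀ q ∈ E, MvPolynomial.eval (P.F i y) (MvPolynomial.map (σ : ℂ →+* ℂ) q) = 0) :
    y ∈ I.Conj P σ := by
  have hw : (fun k => σ (σ.symm (P.F i y k))) = P.F i y := funext fun k => σ.apply_symm_apply _
  obtain ⟨i0, x, hx, c, hc, hcx⟩ := hE.pt (fun k => σ.symm (P.F i y k)) (by
    intro h0
    apply P.ne i y hy
    rw [← hw]
    funext k
    rw [congrFun h0 k]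
    exact map_zero σ) fun q hq => by
      have h1 := h q hq
      rw [← hw] at h1
      have h2 := Un_360.eval_conj σ (fun k => σ.symm (P.F i y k)) q
      exact (map_eq_zero_iff σ σ.injective).1 (h2.symm.trans h1)
  refine ⟨x, I.R.r i0, i, I.R.sub i0 x hx, hy, σ c, (map_ne_zero σ).2 hc, ?_⟩
  rw [← hw]
  funext k
  have h3 : σ.symm (P.F i y k) = c * sec (I.P P) k i0 x := congrFun hcx k
  show σ (σ.symm (P.F i y k)) = σ c * σ (P.F (I.R.r i0) (j x) k)
  rw [h3, map_mul]
  congr 2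
  exact sec_eq (I.P P) hx k

theorem rel_restrict (I : Sbm B A j) {P : ProjD A} {p : MvPolynomial (Fin (P.N + 1)) ℂ}
    (hp : p ∈ Rels (fun k => sec P k)) :
    (p : MvPolynomial (Fin ((I.P P).N + 1)) ℂ) ∈ Rels (fun k => sec (I.P P) k) := by
  refine ⟨hp.1, fun i x hx => ?_⟩
  rw [eval_sec (I.P P) hx]
  exact rel_van hp (I.R.sub i x hx)

variable [T2Space T] [CompactSpace T] [ConnectedSpace T] [T2Space M] [CompactSpace M]
  [ConnectedSpace M] [Finite B.ι] [Finite A.ι]

theorem exists_eqsT (I : Sbm B A j) (P : ProjD A) :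
    ∃ E0 : Finset (MvPolynomial (Fin (P.N + 1)) ℂ),
      (E0 : Set (MvPolynomial (Fin (P.N + 1)) ℂ)) ⊆ Rels (fun k => sec (I.P P) k) ∧
      ∀ E : Set (MvPolynomial (Fin (P.N + 1)) ℂ),
        (E0 : Set (MvPolynomial (Fin (P.N + 1)) ℂ)) ⊆ E →
        E ⊆ Rels (fun k => sec (I.P P) k) → Eqs (fun k => sec (I.P P) k) E :=
  exists_eqs_proj I.part (Crest.Agent.R260.Br5_592.d2_proj I.part (I.P P)) (I.P P)

theorem van_of_mem (I : Sbm B A j) {P : ProjD A} {σ : ℂ ≃+* ℂ}
    {q : MvPolynomial (Fin (P.N + 1)) ℂ} (hq : q ∈ Rels (fun k => sec (I.P P) k)) {y : M}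
    (hy : y ∈ I.Conj P σ) {i : A.ι} (hi : y ∈ (A.e i).source) :
    MvPolynomial.eval (P.F i y) (MvPolynomial.map (σ : ℂ →+* ℂ) q) = 0 := by
  obtain ⟨e, he⟩ := hq.1
  exact conj_rel I he (fun i x hx => rel_van hq hx) hy hi

theorem isClosed_conj (I : Sbm B A j) (P : ProjD A) (σ : ℂ ≃+* ℂ) : IsClosed (I.Conj P σ) := by
  obtain ⟨E0, h1, h2⟩ := exists_eqsT I P
  have hE := h2 _ subset_rfl h1
  rw [← isOpen_compl_iff, isOpen_iff_mem_nhds]
  intro y hy
  obtain ⟨i, hi⟩ := A.cover y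
  have h3 : ∃ q ∈ (E0 : Set (MvPolynomial (Fin (P.N + 1)) ℂ)),
      MvPolynomial.eval (P.F i y) (MvPolynomial.map (σ : ℂ →+* ℂ) q) ≠ 0 := by
    by_contra hcon
    push Not at hcon
    exact hy (mem_of_eqs I hE hi hcon)
  obtain ⟨q, hq, hqy⟩ := h3
  have h4 : ContinuousAt (fun x => MvPolynomial.eval (P.F i x)
      (MvPolynomial.map (σ : ℂ →+* ℂ) q)) y :=
    ContinuousAt.comp (g := fun v => MvPolynomial.eval v (MvPolynomial.map (σ : ℂ →+* ℂ) q))
      (MvPolynomial.continuous_eval _).continuousAt (continuousAt_F P hi)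
  filter_upwards [h4.eventually_ne hqy, (A.e i).open_source.mem_nhds hi] with x hx hxi hxS
  exact hx (van_of_mem I (h1 hq) hxS hxi)

/-- **the conjugate submanifold has adapted charts** -/
theorem exists_subCh (I : Sbm B A j) (P : ProjD A) {σ : ℂ ≃+* ℂ} (hσ : FixM P σ) {y : M}
    (hy : y ∈ I.Conj P σ) : ∃ c : SubCh (fam A) (I.Conj P σ) d, y ∈ c.ψ.source := by
  classical
  obtain ⟨EM, hEM, hMσ⟩ := hσ
  obtain ⟨E0, h1, h2⟩ := exists_eqsT I P
  have hE := h2 _ subset_rfl h1
  have hMr : EM ⊆ Rels (fun k => sec (I.P P) k) := fun p hp => rel_restrict I (hEM.rel hp)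
  have hEU := h2 ((E0 : Set _) ∪ EM) subset_union_left (union_subset h1 hMr)
  obtain ⟨i', hi'⟩ := A.cover y
  obtain ⟨x, hxy⟩ := hy
  obtain ⟨i0, hx⟩ := B.cover x
  obtain ⟨c, hc, hcy⟩ := hxy.all (I.R.sub i0 x hx) hi'
  have hcb : cone (I.P P) i0 (1, B.e i0 x) = P.F (I.R.r i0) (j x) := cone_base (I.P P) hx
  obtain ⟨k, p, hk, hp, hsur, hloc⟩ := sel (U := Cn N) (W := ℂ × Cn d) σ
    (E0 := (E0 : Set (MvPolynomial (Fin (P.N + 1)) ℂ))) (EM := EM) (fun p hp => (h1 hp).1)
    (fun p hp => (hEM.rel hp).1) hMσ (G := cone (I.P P) i0) (L := dcone (I.P P) i0 x)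
    (z0 := (1, B.e i0 x)) (hasFD_cone (I.P P) hx) (dcone_inj (I.P P) hx)
    (fun p hp => cone_van (h1 hp) hx) (fun p hp => cone_van (hMr hp) hx)
    (fun t ht => by
      rw [cone_base (I.P P) hx] at ht
      obtain ⟨a, u, hau⟩ := tan_DF hEU hx ht
      exact ⟨(a, u), hau.symm⟩)
    (by rw [cone_base (I.P P) hx]; exact (I.P P).ne i0 x hx)
    (v' := P.F i' y) hc (by rw [hcb]; exact hcy) (D := DF P i' y)
    (fun t ht => tan_DF hEM hi' ht) (fun p hp u => dd_DF (hEM.rel hp) hi' u)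
    (fun a u h => DF_inj P hi' h)
  have hyS : y ∈ I.Conj P σ := ⟨x, hxy⟩
  -- the map
  let f : M → Cn k := fun x' => WithLp.toLp 2 fun a =>
    MvPolynomial.eval (P.F i' x') (MvPolynomial.map (σ : ℂ →+* ℂ) (p a))
  have hfy : ∀ a, MvPolynomial.eval (P.F i' y) (MvPolynomial.map (σ : ℂ →+* ℂ) (p a)) = 0 :=
    fun a => van_of_mem I (h1 (hp a)) hyS hi'
  -- the neighbourhood
  have hloc' : ∀ᶠ w in 𝓝 (P.F i' y), ∀ q ∈ E0,
      (∀ a, MvPolynomial.eval w (MvPolynomial.map (σ : ℂ →+* ℂ) (p a)) = 0) →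
        (∀ p ∈ EM, MvPolynomial.eval w p = 0) →
          MvPolynomial.eval w (MvPolynomial.map (σ : ℂ →+* ℂ) q) = 0 :=
    (Filter.eventually_all_finset E0).2 fun q hq => hloc q hq
  have hev := ((continuousAt_F P hi').eventually hloc').and
    ((A.e i').open_source.mem_nhds hi')
  obtain ⟨U, hU1, hUo, hyU⟩ := eventually_nhds_iff.1 hev
  have hkd : k + d = N := by
    rw [Module.finrank_prod, Module.finrank_self, finrank_euclideanSpace_fin,
      finrank_euclideanSpace_fin] at hk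
    omega
  -- the derivative
  have hder : ∀ z ∈ (A.e i').target, HasFDerivAt (fun z => f ((A.e i').symm z))
      ((PiLp.continuousLinearEquiv 2 ℂ (fun _ : Fin k => ℂ)).symm.toContinuousLinearMap.comp
        (ContinuousLinearMap.pi fun a => ∑ l, MvPolynomial.eval (P.F i' ((A.e i').symm z))
          (MvPolynomial.pderiv l (MvPolynomial.map (σ : ℂ →+* ℂ) (p a))) •
            (ContinuousLinearMap.proj (R := ℂ) (φ := fun _ : Fin (P.N + 1) => ℂ) l).comp
              (DF P i' ((A.e i').symm z)))) z := by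
    intro z hz
    have hzs := (A.e i').map_target hz
    have h3 := hasFD P hzs
    rw [(A.e i').right_inv hz] at h3
    have h4 : HasFDerivAt (fun z => fun a =>
        MvPolynomial.eval (P.F i' ((A.e i').symm z)) (MvPolynomial.map (σ : ℂ →+* ℂ) (p a)))
        (ContinuousLinearMap.pi fun a => ∑ l, MvPolynomial.eval (P.F i' ((A.e i').symm z))
          (MvPolynomial.pderiv l (MvPolynomial.map (σ : ℂ →+* ℂ) (p a))) •
            (ContinuousLinearMap.proj (R := ℂ) (φ := fun _ : Fin (P.N + 1) => ℂ) l).comp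
              (DF P i' ((A.e i').symm z))) z := by
      rw [hasFDerivAt_pi]
      intro a
      exact hasFDerivAt_ev (f := fun l z => P.F i' ((A.e i').symm z) l)
        (fun l => (hasFDerivAt_pi'.1 h3) l) _
    exact (PiLp.continuousLinearEquiv 2 ℂ
      (fun _ : Fin k => ℂ)).symm.toContinuousLinearMap.hasFDerivAt.comp z h4
  refine subCh_of_submersion (C := fam A) (S := I.Conj P σ) hkd (i := i') hi' hUo hyU (f := f)
    ?_ ?_ ?_
  · intro z hz
    exact (hder z hz.1).differentiableAt.differentiableWithinAt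
  · have h5 := (hder (A.e i' y) ((A.e i').map_source hi')).fderiv
    show Function.Surjective (fderiv ℂ (fun z => f ((A.e i').symm z)) (A.e i' y))
    rw [h5]
    intro w
    obtain ⟨u, hu⟩ := hsur (fun a => w a)
    refine ⟨u, ?_⟩
    ext a
    have h6 := congrFun hu a
    rw [(A.e i').left_inv hi']
    show (∑ l, MvPolynomial.eval (P.F i' y)
          (MvPolynomial.pderiv l (MvPolynomial.map (σ : ℂ →+* ℂ) (p a))) •
            (ContinuousLinearMap.proj (R := ℂ) (φ := fun _ : Fin (P.N + 1) => ℂ) l).comp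
              (DF P i' y)) u = w a
    rw [← h6, _root_.sum_apply]
    rfl
  · intro x' hx'U
    have hx'2 := (hU1 x' hx'U).2
    have hx'1 := (hU1 x' hx'U).1
    constructor
    · intro hx'S
      ext a
      show MvPolynomial.eval (P.F i' x') _ = MvPolynomial.eval (P.F i' y) _
      rw [hfy a]
      exact van_of_mem I (h1 (hp a)) hx'S hx'2
    · intro hfx
      refine mem_of_eqs I hE hx'2 fun q hq => ?_
      refine hx'1 q hq (fun a => ?_) fun p' hp' => rel_van (hEM.rel hp') hx'2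
      have h7 := congrArg (fun w : Cn k => w a) hfx
      have h8 : MvPolynomial.eval (P.F i' x') (MvPolynomial.map (σ : ℂ →+* ℂ) (p a)) =
        MvPolynomial.eval (P.F i' y) (MvPolynomial.map (σ : ℂ →+* ℂ) (p a)) := h7
      rw [h8, hfy a]

end Conj

/-- **KAP-CONJ, charts** -/
theorem conjCh : ConjCh := by
  intro d N T M _ _ _ _ _ _ _ _ B A _ _ j I P σ hσ
  refine ⟨isClosed_conj I P σ, fun y hy => ?_⟩
  obtain ⟨c, hc⟩ := exists_subCh I P hσ hy
  exact chAt_of_subCh c hc hy

end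

end Crest.Agent.R281.Kc4_530
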