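import Crest.Agent.R281.Kc4_530
import Crest.Agent.R273.Cram_747

/-!
# R281 (S0424), KAP-CONJ (helper530): `ConjSub` of Un2_360

If a piece of the conjugate submanifold `S = σ(T)` is contained in a connected compact submanifold
`T'` of the same dimension, then `T' ⊆ S`.
-/

set_option autoImplicit false
set_option linter.unusedSectionVars false

open Set Filter Topology Complex
open scoped ContDiff Matrix ComplexConjugate

namespace Crest.Agent.R281.Kc5_530

open Crest.Agent.R275 Crest.Agent.R275.Geo Crest.Agent.R275.Core144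
open Crest.Agent.R273.SerA_945 Crest.Agent.R273.SerB_945 Crest.Agent.R273.SerC_945
open Crest.Agent.R273.SerE_945 Crest.Agent.R273.TD3_733 Crest.Agent.R273.FS_333
open Crest.Agent.R273.Defs_333 Crest.Agent.R273.SteinC_794 Crest.Agent.R273.HM_333
open Crest.Agent.R273.Map_835 Crest.Agent.R273.PB_835 Crest.Agent.R273.Chow_313
open Crest.Agent.R281.AF_867 Crest.Agent.R281.Un_360
open Crest.Agent.R281.Kc1_530 (dd eval_smul_homog)
open Crest.Agent.R281.Kc3_530 Crest.Agent.R281.Kc4_530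

noncomputable section

variable {d N : ℕ} {T M : Type} [TopologicalSpace T] [TopologicalSpace M]
  {B : Atl d T} {A : Atl N M} {j : T → M}

/-- a holomorphic piece of dimension `d` inside the range of an injective immersion of a compact
manifold of dimension `d` is a neighbourhood in the source -/
theorem nhds_of_piece [CompactSpace T] [T2Space M] (I : Sbm B A j) {S : Set M} {x0 : T}
    (c : ChAt A d S (j x0)) (hc : ∀ᶠ z in 𝓝 (0 : Cn d), c.ψ z ∈ range j) :
    ∀ᶠ x in 𝓝 x0, j x ∈ S := by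
  classical
  have hjc : Continuous j := I.hol.cont
  have hemb : IsClosedEmbedding j := hjc.isClosedEmbedding I.inj
  -- the map into `T`
  have hex : ∀ z, ∃ x : T, c.ψ z ∈ range j → j x = c.ψ z := fun z => by
    by_cases h : c.ψ z ∈ range j
    · obtain ⟨x, hx⟩ := h
      exact ⟨x, fun _ => hx⟩
    · exact ⟨x0, fun h' => absurd h' h⟩
  choose g hg using hex
  have hball := Metric.ball_mem_nhds (0 : Cn d) c.pos
  have hψc : ContinuousAt c.ψ 0 := c.cont.continuousAt hball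
  have hjg : ∀ᶠ z in 𝓝 (0 : Cn d), j (g z) = c.ψ z := by
    filter_upwards [hc] with z hz
    exact hg z hz
  have hgt : Tendsto g (𝓝 0) (𝓝 x0) := by
    have h1 : Tendsto (fun z => j (g z)) (𝓝 0) (𝓝 (j x0)) := by
      have h2 : Tendsto c.ψ (𝓝 0) (𝓝 (c.ψ 0)) := hψc.tendsto
      have h3 := h2.congr' (by filter_upwards [hjg] with z hz; exact hz.symm : c.ψ =ᶠ[𝓝 0]
        fun z => j (g z))
      exact h3.trans (le_of_eq (congrArg 𝓝 c.ψ0))
    exact (hemb.tendsto_nhds_iff).2 h1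
  obtain ⟨i0, hi0⟩ := B.cover x0
  have hyi : j x0 ∈ (A.e c.i).source := by
    have h1 := c.src 0 (Metric.mem_ball_self c.pos)
    exact Eq.subst (motive := fun t => t ∈ (A.e c.i).source) c.ψ0 h1
  -- the reading of `j`
  set Φ : Cn d → Cn N := rd B A j i0 c.i with hΦ
  have hz0 : B.e i0 x0 ∈ dm B A j i0 c.i := ⟨(B.e i0).map_source hi0, by
    rw [mem_preimage, mem_preimage, (B.e i0).left_inv hi0]; exact hyi⟩
  have hΦd : DifferentiableOn ℂ Φ (dm B A j i0 c.i) := I.hol.hol i0 c.i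
  have hdo : IsOpen (dm B A j i0 c.i) := I.hol.isOpen_dm i0 c.i
  have hinj := I.imm i0 c.i _ hz0
  set Dj : Cn d →L[ℂ] Cn N := fderiv ℂ Φ (B.e i0 x0) with hDj
  obtain ⟨ρ, hρ⟩ := (Dj : Cn d →ₗ[ℂ] Cn N).exists_leftInverse_of_injective
    (LinearMap.ker_eq_bot.2 hinj)
  set ρc : Cn N →L[ℂ] Cn d := LinearMap.toContinuousLinearMap ρ with hρc
  have hρD : ρc.comp Dj = ContinuousLinearMap.id ℂ (Cn d) := by
    refine ContinuousLinearMap.ext fun v => ?_
    exact congrFun (congrArg DFunLike.coe hρ) v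
  have hΦs : HasStrictFDerivAt Φ Dj (B.e i0 x0) := by
    have h1 : ContDiffAt ℂ 1 Φ (B.e i0 x0) :=
      (Crest.Agent.R266.SCV.analyticOnNhd_of_differentiableOn hdo hΦd _ hz0).contDiffAt
    exact h1.hasStrictFDerivAt one_ne_zero
  -- local inverse of `ρ ∘ Φ`
  have hstr : HasStrictFDerivAt (fun w => ρc (Φ w)) ((ContinuousLinearEquiv.refl ℂ (Cn d) :
      Cn d ≃L[ℂ] Cn d) : Cn d →L[ℂ] Cn d) (B.e i0 x0) := by
    have h3 := ρc.hasStrictFDerivAt.comp (B.e i0 x0) hΦs
    rw [hρD] at h3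
    exact h3
  set li := hstr.localInverse (fun w => ρc (Φ w)) (ContinuousLinearEquiv.refl ℂ (Cn d))
    (B.e i0 x0) with hli
  have hliS := hstr.to_localInverse
  have hliE := hstr.eventually_left_inverse
  -- the coordinates of `g`
  have hgB : Tendsto (fun z => B.e i0 (g z)) (𝓝 0) (𝓝 (B.e i0 x0)) :=
    ((B.e i0).continuousAt hi0).tendsto.comp hgt
  have hgs : ∀ᶠ z in 𝓝 (0 : Cn d), g z ∈ (B.e i0).source :=
    hgt.eventually ((B.e i0).open_source.mem_nhds hi0)
  have hΦg : ∀ᶠ z in 𝓝 (0 : Cn d), Φ (B.e i0 (g z)) = A.e c.i (c.ψ z) := by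
    filter_upwards [hjg, hgs] with z h1 h2
    show A.e c.i (j ((B.e i0).symm (B.e i0 (g z)))) = _
    rw [(B.e i0).left_inv h2, h1]
  have hψs : HasStrictFDerivAt (fun z => A.e c.i (c.ψ z))
      (fderiv ℂ (fun z => A.e c.i (c.ψ z)) 0) 0 := by
    have h1 : ContDiffAt ℂ 1 (fun z => A.e c.i (c.ψ z)) 0 :=
      (Crest.Agent.R266.SCV.analyticOnNhd_of_differentiableOn Metric.isOpen_ball c.hol _
        (Metric.mem_ball_self c.pos)).contDiffAt
    exact h1.hasStrictFDerivAt one_ne_zero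
  set Dψ : Cn d →L[ℂ] Cn N := fderiv ℂ (fun z => A.e c.i (c.ψ z)) 0 with hDψ
  set h : Cn d → Cn d := fun z => ρc (A.e c.i (c.ψ z)) with hh
  have hhs : HasStrictFDerivAt h (ρc.comp Dψ) 0 := ρc.hasStrictFDerivAt.comp 0 hψs
  have hlh : ∀ᶠ z in 𝓝 (0 : Cn d), li (h z) = B.e i0 (g z) := by
    filter_upwards [hgB.eventually hliE, hΦg] with z h1 h2
    rw [hh]
    show li (ρc (A.e c.i (c.ψ z))) = _
    rw [← h2]
    exact h1
  have hh0 : h 0 = ρc (Φ (B.e i0 x0)) := by
    show ρc (A.e c.i (c.ψ 0)) = ρc (A.e c.i (j ((B.e i0).symm (B.e i0 x0))))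
    rw [(B.e i0).left_inv hi0, c.ψ0]
  -- `Dψ = Dj ∘ (ρ ∘ Dψ)`
  have hDD : Dψ = Dj.comp (ρc.comp Dψ) := by
    have h1 : HasFDerivAt li (ContinuousLinearMap.id ℂ (Cn d)) (h 0) := by
      rw [hh0]
      exact hliS.hasFDerivAt
    have h2 : HasFDerivAt (fun z => li (h z)) (ρc.comp Dψ) 0 := by
      have := h1.comp (0 : Cn d) hhs.hasFDerivAt
      rwa [ContinuousLinearMap.id_comp] at this
    have h3 : li (h 0) = B.e i0 x0 := by
      rw [hh0]
      exact hliE.self_of_nhds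
    have h4 : HasFDerivAt (fun z => Φ (li (h z))) (Dj.comp (ρc.comp Dψ)) 0 :=
      HasFDerivAt.comp (0 : Cn d) (g := Φ) (by rw [h3]; exact hΦs.hasFDerivAt) h2
    have h5 : (fun z => Φ (li (h z))) =ᶠ[𝓝 0] fun z => A.e c.i (c.ψ z) := by
      filter_upwards [hlh, hΦg] with z h1 h2
      rw [h1, h2]
    exact hψs.hasFDerivAt.unique (h4.congr_of_eventuallyEq h5.symm)
  have hHi : Function.Injective (ρc.comp Dψ) := by
    intro v w hvw
    apply c.imm
    show Dψ v = Dψ w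
    rw [hDD]
    show Dj ((ρc.comp Dψ) v) = Dj ((ρc.comp Dψ) w)
    rw [hvw]
  have hHs : LinearMap.range ((ρc.comp Dψ : Cn d →L[ℂ] Cn d) : Cn d →ₗ[ℂ] Cn d) = ⊤ :=
    LinearMap.range_eq_top.2 (LinearMap.injective_iff_surjective.1 hHi)
  have hmap := hhs.map_nhds_eq_of_surj hHs
  -- conclusion
  have hQ : ∀ᶠ z in 𝓝 (0 : Cn d), j (g z) ∈ S ∧ li (h z) = B.e i0 (g z) ∧
      g z ∈ (B.e i0).source := by
    filter_upwards [hjg, hlh, hgs, hball] with z h1 h2 h3 h4
    exact ⟨by rw [h1]; exact c.mem z h4, h2, h3⟩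
  have hQ' : ∀ᶠ y in 𝓝 (h 0), ∃ z, h z = y ∧ j (g z) ∈ S ∧ li (h z) = B.e i0 (g z) ∧
      g z ∈ (B.e i0).source := by
    rw [← hmap, Filter.eventually_map]
    filter_upwards [hQ] with z hz
    exact ⟨z, rfl, hz⟩
  have ht1 : Tendsto (fun x => ρc (Φ (B.e i0 x))) (𝓝 x0) (𝓝 (h 0)) := by
    rw [hh0]
    exact (hstr.hasFDerivAt.continuousAt.tendsto).comp ((B.e i0).continuousAt hi0).tendsto
  filter_upwards [ht1.eventually hQ', ((B.e i0).continuousAt hi0).tendsto.eventually hliE,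
    (B.e i0).open_source.mem_nhds hi0] with x h1 h2 h3
  obtain ⟨z, hz1, hz2, hz3, hz4⟩ := h1
  have h5 : B.e i0 x = B.e i0 (g z) := by
    rw [← hz3, hz1]
    exact h2.symm
  have h6 : x = g z := (B.e i0).injOn h3 hz4 h5
  rw [h6]
  exact hz2

/-- **KAP-CONJ, last step** -/
theorem conjSub : ConjSub := by
  intro d N T T' M _ _ _ _ _ _ _ _ _ _ _ _ B B' A _ _ _ j j' I I' P σ hσ y c hc
  obtain ⟨E0, h1, h2⟩ := exists_eqsT I P
  have hE := h2 _ subset_rfl h1
  obtain ⟨x0, hx0⟩ : ∃ x0, j' x0 = y := by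
    have := hc.self_of_nhds
    rwa [c.ψ0] at this
  subst hx0
  have hev := nhds_of_piece I' c hc
  obtain ⟨U, hU1, hUo, hxU⟩ := eventually_nhds_iff.1 hev
  have key : ∀ q ∈ E0, ∀ i, ∀ x ∈ (B'.e i).source,
      MvPolynomial.eval (P.F (I'.R.r i) (j' x)) (MvPolynomial.map (σ : ℂ →+* ℂ) q) = 0 := by
    intro q hq
    obtain ⟨e, he⟩ := (h1 hq).1
    have h3 := Crest.Agent.R273.Cram_747.eq_zero_of_open (A := B') (κ := Unit)
      (u := fun i x _ => MvPolynomial.eval (P.F (I'.R.r i) (j' x))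
        (MvPolynomial.map (σ : ℂ →+* ℂ) q)) (fun i _ => ?_) (fun i i2 x hx h0 => ?_) hUo ⟨x0, hxU⟩
      (fun x hx i hi => ?_)
    · intro i x hx
      exact congrFun (h3 i x hx) ()
    · -- holomorphy
      unfold HolAt
      rw [preimage_univ, inter_univ]
      intro z hz
      have h4 : DifferentiableAt ℂ (fun w => (I'.P P).F i ((B'.e i).symm w)) z :=
        (diffOn_F (I'.P P) i).differentiableAt ((B'.e i).open_target.mem_nhds hz)
      have h5 := hasFDerivAt_ev (f := fun l w => (I'.P P).F i ((B'.e i).symm w) l)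
        (fun l => (hasFDerivAt_pi'.1 h4.hasFDerivAt) l) (MvPolynomial.map (σ : ℂ →+* ℂ) q)
      exact h5.differentiableAt.differentiableWithinAt
    · obtain ⟨a, ha0, ha⟩ := tr_ne P (I'.R.sub i x hx.1) (I'.R.sub i2 x hx.2)
      funext _
      have h6 := congrFun h0 ()
      show MvPolynomial.eval (P.F (I'.R.r i) (j' x)) _ = 0
      rw [ha, eval_smul_homog (he.map _)]
      have h7 : MvPolynomial.eval (P.F (I'.R.r i2) (j' x))
        (MvPolynomial.map (σ : ℂ →+* ℂ) q) = 0 := h6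
      rw [h7, mul_zero]
    · funext _
      exact van_of_mem I (h1 hq) (hU1 x hx) (I'.R.sub i x hi)
  rintro _ ⟨x, rfl⟩
  obtain ⟨i, hi⟩ := B'.cover x
  exact mem_of_eqs I hE (I'.R.sub i x hi) fun q hq => key q hq i x hi

end

end Crest.Agent.R281.Kc5_530
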