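import Crest.Agent.R281.Qp3_911
import Crest.Agent.R273.Defs_333

/-!
# R281 (S0424), DIV 6, LOGSM (helper911)

* `dec_lim` : decreasing sequences of integrable functions with integrals bounded below;
* `log_sub_mean` : `g` holomorphic near `closedBall z r`, `g z ≠ 0` ⟹ `g ≠ 0` a.e., `log ‖g‖²` integrable
  on the ball, `log ‖g z‖² ≤` its mean (any finite dimensional complex space, any Haar measure);
* `logSm` : the same on `Cn d`, literally 360's `LogSm`.
-/

set_option autoImplicit false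
set_option linter.unusedSectionVars false

open Set Filter Topology Metric Real MeasureTheory
open scoped ContDiff Pointwise

noncomputable section

namespace Crest.Agent.R281.LogSm_911

open Crest.Agent.R257.HoB_843 Crest.Agent.R257.Glue2_101 Crest.Agent.R281.Qp1_911
  Crest.Agent.R281.Qp2_911 Crest.Agent.R281.Qp3_911

/-- decreasing limits -/
theorem dec_lim {α : Type*} [MeasurableSpace α] {m : Measure α} {g : ℕ → α → ℝ}
    (hgi : ∀ k, Integrable (g k) m) (hanti : ∀ᵐ w ∂m, Antitone fun k => g k w) {B : ℝ}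
    (hB : ∀ k, B ≤ ∫ w, g k w ∂m) :
    (∀ᵐ w ∂m, BddBelow (range fun k => g k w)) ∧
      ∀ G : α → ℝ, (∀ᵐ w ∂m, Tendsto (fun k => g k w) atTop (𝓝 (G w))) →
        Integrable G m ∧ B ≤ ∫ w, G w ∂m := by
  set D : ℝ := ∫ w, g 0 w ∂m - B with hD
  set f : ℕ → α → ENNReal := fun k w => ENNReal.ofReal (g 0 w - g k w) with hf
  have hfm : ∀ k, AEMeasurable (f k) m := fun k =>
    ((hgi 0).sub (hgi k)).aestronglyMeasurable.aemeasurable.ennreal_ofReal
  have hfmono : ∀ᵐ w ∂m, Monotone fun k => f k w := by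
    filter_upwards [hanti] with w hw k l hkl
    refine ENNReal.ofReal_le_ofReal ?_
    have := hw hkl
    simp only at this
    linarith
  have hfint : ∀ k, ∫⁻ w, f k w ∂m ≤ ENNReal.ofReal D := by
    intro k
    have h0 : ∫⁻ w, f k w ∂m = ENNReal.ofReal (∫ w, (g 0 w - g k w) ∂m) := by
      refine (ofReal_integral_eq_lintegral_ofReal ((hgi 0).sub (hgi k)) ?_).symm
      filter_upwards [hanti] with w hw
      have := hw (Nat.zero_le k)
      simp only at this
      simp only [Pi.zero_apply, Pi.sub_apply]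
      linarith
    rw [h0, integral_sub (hgi 0) (hgi k)]
    refine ENNReal.ofReal_le_ofReal ?_
    have := hB k
    linarith
  have hsup : ∫⁻ w, ⨆ k, f k w ∂m ≤ ENNReal.ofReal D := by
    rw [lintegral_iSup' hfm hfmono]
    exact iSup_le hfint
  have hfin : ∀ᵐ w ∂m, ⨆ k, f k w < ⊤ :=
    ae_lt_top' (AEMeasurable.iSup hfm) (hsup.trans_lt ENNReal.ofReal_lt_top).ne
  refine ⟨?_, fun G hlim => ?_⟩
  · filter_upwards [hfin] with w hw
    refine ⟨g 0 w - (⨆ k, f k w).toReal, ?_⟩
    rintro _ ⟨k, rfl⟩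
    have h1 : f k w ≤ ⨆ k, f k w := le_iSup (fun k => f k w) k
    have h2 : g 0 w - g k w ≤ (⨆ k, f k w).toReal := by
      rw [← ENNReal.ofReal_le_iff_le_toReal hw.ne]
      exact h1
    show g 0 w - (⨆ k, f k w).toReal ≤ g k w
    linarith
  · have hmeas : AEStronglyMeasurable G m :=
      aestronglyMeasurable_of_tendsto_ae atTop (fun k => (hgi k).aestronglyMeasurable) hlim
    have hint : Integrable G m := by
      have h1 : Integrable (fun w => g 0 w - G w) m := by
        refine ⟨(hgi 0).aestronglyMeasurable.sub hmeas, ?_⟩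
        refine lt_of_le_of_lt ?_ (hsup.trans_lt ENNReal.ofReal_lt_top)
        refine lintegral_mono_ae ?_
        filter_upwards [hlim, hanti] with w hw hwb
        have h2 : ∀ k, G w ≤ g k w := fun k => hwb.le_of_tendsto hw k
        have h3 : Tendsto (fun k => f k w) atTop (𝓝 (ENNReal.ofReal (g 0 w - G w))) :=
          (ENNReal.continuous_ofReal.tendsto _).comp (hw.const_sub (g 0 w))
        have h4 : ‖g 0 w - G w‖ₑ = ENNReal.ofReal (g 0 w - G w) := by
          rw [Real.enorm_eq_ofReal]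
          have := h2 0
          linarith
        rw [h4]
        exact le_of_tendsto' h3 fun k => le_iSup (fun k => f k w) k
      have h5 := (hgi 0).sub h1
      refine h5.congr (Eventually.of_forall fun w => ?_)
      simp
    exact ⟨hint, ge_of_tendsto' (integral_tendsto_of_tendsto_of_antitone hgi hint hanti hlim) hB⟩

section gen

variable {F : Type*} [NormedAddCommGroup F] [NormedSpace ℂ F] [NormedSpace ℝ F]
  [IsScalarTower ℝ ℂ F] [FiniteDimensional ℝ F] [MeasurableSpace F] [BorelSpace F]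
  {ν : Measure F} [ν.IsAddHaarMeasure]

/-- `log (‖g‖² + ‖c‖²)` is psh for `c ≠ 0` -/
theorem sm2_log2 {K : Set F} {g : F → ℂ} (hg : ∀ w ∈ K, AnalyticAt ℂ g w) {c : ℂ} (hc : c ≠ 0) :
    Sm2 K (fun w => Real.log (‖g w‖ ^ 2 + ‖c‖ ^ 2)) := by
  intro w hw
  have h1 : ContDiffAt ℂ (⊤ : ℕ∞) g w := (hg w hw).contDiffAt
  exact ⟨(sm_log2 h1 (G := fun _ => c) contDiffAt_const (Or.inr hc)).of_le two_le_top,
    fun a => lvE_log2 h1 (G := fun _ => c) contDiffAt_const (Or.inr hc) a⟩

/-- `± log ‖g‖²` is psh where `g ≠ 0` -/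
theorem sm2_log {K : Set F} {g : F → ℂ} (hg : ∀ w ∈ K, AnalyticAt ℂ g w)
    (h0 : ∀ w ∈ K, g w ≠ 0) : Sm2 K (fun w => Real.log (‖g w‖ ^ 2)) := by
  intro w hw
  have h1 : ContDiffAt ℂ (⊤ : ℕ∞) g w := (hg w hw).contDiffAt
  exact ⟨(sm_log h1 (h0 w hw)).of_le two_le_top, fun a => (lvE_log h1 (h0 w hw) a).ge⟩

theorem log_sub_mean {g : F → ℂ} {z : F} {r : ℝ} (hr : 0 < r)
    (hg : ∀ w ∈ closedBall z r, AnalyticAt ℂ g w) (h0 : g z ≠ 0) :
    (∀ᵐ w ∂(ν.restrict (ball z r)), g w ≠ 0) ∧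
      IntegrableOn (fun w => Real.log (‖g w‖ ^ 2)) (ball z r) ν ∧
      Real.log (‖g z‖ ^ 2) ≤ Av ν (fun w => Real.log (‖g w‖ ^ 2)) r z := by
  have hprop : ProperSpace F := FiniteDimensional.proper ℝ F
  set δ : ℕ → ℝ := fun k => 1 / ((k : ℝ) + 1) with hδ
  have hδ0 : ∀ k, 0 < δ k := fun k => by simp only [hδ]; positivity
  have hδa : Antitone δ := by
    intro k l hkl
    simp only [hδ]
    have : (k : ℝ) ≤ l := by exact_mod_cast hkl
    gcongr
  have hδt : Tendsto δ atTop (𝓝 0) := tendsto_one_div_add_atTop_nhds_zero_nat (𝕜 := ℝ)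
  have hn : ∀ k, ‖((δ k : ℝ) : ℂ)‖ = δ k := fun k => by
    rw [Complex.norm_real, Real.norm_of_nonneg (hδ0 k).le]
  set u : ℕ → F → ℝ := fun k w => Real.log (‖g w‖ ^ 2 + δ k ^ 2) with hu
  have hsm : ∀ k, Sm2 (closedBall z r) (u k) := by
    intro k
    have := sm2_log2 hg (c := ((δ k : ℝ) : ℂ)) (by exact_mod_cast (hδ0 k).ne')
    simpa only [hn] using this
  have hui : ∀ k, IntegrableOn (u k) (ball z r) ν := fun k =>
    (Sm2.intOn (hsm k) (isCompact_closedBall _ _)).mono_set ball_subset_closedBall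
  have hanti : ∀ w, Antitone fun k => u k w := by
    intro w k l hkl
    simp only [hu]
    have h1 := hδ0 l
    have h2 : δ l ≤ δ k := hδa hkl
    exact Real.log_le_log (by positivity) (by gcongr)
  have hvol := vol_pos (μ := ν) hr
  have hB : ∀ k, ν.real (ball (0 : F) r) * Real.log (‖g z‖ ^ 2) ≤ ∫ w in ball z r, u k w ∂ν := by
    intro k
    have h1 := core_id (μ := ν) (hsm k)
    rw [int_trans] at h1
    refine le_trans (mul_le_mul_of_nonneg_left ?_ hvol.le) h1
    have h2 : 0 < ‖g z‖ := norm_pos_iff.2 h0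
    exact Real.log_le_log (by positivity) (by have := sq_nonneg (δ k); linarith)
  obtain ⟨h1, h2⟩ := dec_lim hui (Eventually.of_forall hanti) hB
  have hne : ∀ᵐ w ∂(ν.restrict (ball z r)), g w ≠ 0 := by
    filter_upwards [h1] with w hw h3
    obtain ⟨m, hm⟩ := hw
    have h4 : ∀ k, m ≤ u k w := fun k => hm ⟨k, rfl⟩
    have h5 : Tendsto (fun k => u k w) atTop atBot := by
      have h6 : ∀ k, u k w = 2 * Real.log (δ k) := fun k => by
        simp only [hu, h3, norm_zero]
        rw [zero_pow (two_ne_zero), zero_add, Real.log_pow]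
        norm_num
      simp only [h6]
      refine Tendsto.const_mul_atBot two_pos ?_
      exact Real.tendsto_log_nhdsGT_zero.comp
        (tendsto_nhdsWithin_iff.2 ⟨hδt, Eventually.of_forall hδ0⟩)
    obtain ⟨k, hk⟩ := (h5.eventually (eventually_lt_atBot m)).exists
    linarith [h4 k]
  have hlim : ∀ᵐ w ∂(ν.restrict (ball z r)),
      Tendsto (fun k => u k w) atTop (𝓝 (Real.log (‖g w‖ ^ 2))) := by
    filter_upwards [hne] with w hw
    have h3 : 0 < ‖g w‖ := norm_pos_iff.2 hw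
    have h4 : Tendsto (fun k => ‖g w‖ ^ 2 + δ k ^ 2) atTop (𝓝 (‖g w‖ ^ 2)) := by
      have := (hδt.pow 2).const_add (‖g w‖ ^ 2)
      simpa using this
    exact (Real.continuousAt_log (by positivity)).tendsto.comp h4
  obtain ⟨h3, h4⟩ := h2 _ hlim
  refine ⟨hne, h3, ?_⟩
  unfold Av
  calc Real.log (‖g z‖ ^ 2) = (ν.real (ball (0 : F) r))⁻¹ *
        (ν.real (ball (0 : F) r) * Real.log (‖g z‖ ^ 2)) := by field_simp
    _ ≤ _ := mul_le_mul_of_nonneg_left h4 (by positivity)

end gen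

open Crest.Agent.R275 Crest.Agent.R275.Geo

/-- holomorphic on an open set ⟹ analytic at its points -/
theorem analyticAt_of_diffOn {d : ℕ} {W : Type*} [NormedAddCommGroup W] [NormedSpace ℂ W]
    [CompleteSpace W] {g : Cn d → W} {U : Set (Cn d)} (hU : IsOpen U) (hg : DifferentiableOn ℂ g U)
    {w : Cn d} (hw : w ∈ U) : AnalyticAt ℂ g w :=
  ((Crest.Agent.R266.SCV.contDiffOn_omega_of_differentiableOn hU hg).contDiffAt
    (hU.mem_nhds hw)).analyticAt

/-- the average in Mathlib's notation -/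
theorem Av_eq_average {d : ℕ} (v : Cn d → ℝ) (r : ℝ) (z : Cn d) :
    ⨍ w in ball z r, v w = Av volume v r z := by
  rw [setAverage_eq, vol_ball z r, smul_eq_mul]
  rfl

/-- **LOGSM** -/
theorem logSm : ∀ (d : ℕ) (g : Cn d → ℂ) (U : Set (Cn d)) (z : Cn d) (r : ℝ), IsOpen U →
    closedBall z r ⊆ U → DifferentiableOn ℂ g U → 0 < r → g z ≠ 0 →
    (∀ᵐ w ∂(volume.restrict (ball z r)), g w ≠ 0) ∧
      IntegrableOn (fun w => Real.log (‖g w‖ ^ 2)) (ball z r) ∧
      Real.log (‖g z‖ ^ 2) ≤ ⨍ w in ball z r, Real.log (‖g w‖ ^ 2) := by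
  intro d g U z r hU hs hg hr h0
  obtain ⟨h1, h2, h3⟩ := log_sub_mean (ν := (volume : Measure (Cn d))) hr
    (fun w hw => analyticAt_of_diffOn hU hg (hs hw)) h0
  exact ⟨h1, h2, by rw [Av_eq_average]; exact h3⟩

end Crest.Agent.R281.LogSm_911
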