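import Crest.Agent.R281.Sbt1_222
import Crest.Agent.R281.TubT_831
import Crest.Agent.R281.PL2_713

/-!
# R281 (S0424), UNIQ / SBM-TOR (helper222), part 2: the tori of a holomorphic tube

* `HolI C J D Φ`    : `Φ : E → X` is smooth on the open set `D`, `J`-holomorphic, immersive
* `HolI.diff`, `HolI.fderiv_inj` : in the charts of a holomorphic atlas of `J`
* `sbm_of_holI`     : a holomorphic immersion with lattice fibres gives a submanifold
* `sbm_tube`        : the tori of a `HolTube`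
-/

set_option autoImplicit false
set_option linter.unusedSectionVars false
set_option maxSynthPendingDepth 3

open Set Filter Topology Complex
open scoped ContDiff ComplexConjugate

namespace Crest.Agent.R281.Sbt_222

open Crest.Agent.R275.Geo Crest.Agent.R275.Core144 Crest.Agent.R275.GC293
open Crest.Agent.R273.Defs_333 Crest.Agent.R273.Map_835 Crest.Agent.R273.PB_835
open Crest.Agent.R273.Fam_835
open Crest.Agent.R281.HkR_835 Crest.Agent.R281.Ti_846 Crest.Agent.R281.PL_713
open Crest.Agent.R281.Tub_831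
open Crest.Agent.R281.Per_368 (SmI pull per)

noncomputable section

variable {V X : Type} [NormedAddCommGroup V] [NormedSpace ℝ V] [TopologicalSpace X]

/-- a real linear map commuting with `i` is complex linear -/
def cxl {E F : Type*} [NormedAddCommGroup E] [NormedSpace ℂ E] [NormedAddCommGroup F]
    [NormedSpace ℂ F] (T : E →L[ℝ] F) (h : ∀ v, T (I • v) = I • T v) : E →L[ℂ] F where
  toFun := T
  map_add' := T.map_add
  map_smul' c v := by
    have e : ∀ (c : ℂ) {G : Type _} [NormedAddCommGroup G] [NormedSpace ℂ G] (w : G),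
        c • w = c.re • w + c.im • (I • w) := by
      intro c G _ _ w
      conv_lhs => rw [← Complex.re_add_im c]
      rw [add_smul, mul_smul]
      rfl
    rw [e c v, map_add, T.map_smul, T.map_smul, h, RingHom.id_apply]
    have e2 : c • T v = c.re • T v + c.im • (I • T v) := by
      conv_lhs => rw [← Complex.re_add_im c]
      rw [add_smul, mul_smul]
      rfl
    rw [e2]
  cont := T.cont

variable {E : Type*} [NormedAddCommGroup E] [NormedSpace ℂ E]
  {C : RCh V X} {J : C.ι → V → V →L[ℝ] V} {N : ℕ} {A : Atl N X} {D : Set E} {Φ : E → X}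

/-- `Φ` is `J`-holomorphic and immersive on the open set `D` -/
structure HolI (C : RCh V X) (J : C.ι → V → V →L[ℝ] V) (D : Set E) (Φ : E → X) : Prop where
  sm : SmI C D Φ
  hol : ∀ p ∈ D, ∀ i, Φ p ∈ (C.e i).source → ∀ u,
    fderiv ℝ (fun q => C.e i (Φ q)) p (I • u) =
      J i (C.e i (Φ p)) (fderiv ℝ (fun q => C.e i (Φ q)) p u)
  inj : ∀ p ∈ D, ∀ i, Φ p ∈ (C.e i).source →
    Function.Injective (fderiv ℝ (fun q => C.e i (Φ q)) p)

/-- in the charts of a holomorphic atlas -/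
theorem HolI.both (h : HolI C J D Φ) (hJ : JC C J A) {p : E} (hp : p ∈ D) {a : A.ι}
    (ha : Φ p ∈ (A.e a).source) :
    DifferentiableAt ℂ (fun q => A.e a (Φ q)) p ∧
      Function.Injective (fderiv ℂ (fun q => A.e a (Φ q)) p) := by
  obtain ⟨i, hi⟩ := C.cover (Φ p)
  set z := C.e i (Φ p) with hz
  have hz1 : z ∈ mov (ofAtl A) C a i := by
    refine ⟨(C.e i).map_source hi, ?_⟩
    show (C.e i).symm z ∈ (A.e a).source
    rw [hz, (C.e i).left_inv hi]
    exact ha
  have d1 : HasFDerivAt (fun q => C.e i (Φ q)) (fderiv ℝ (fun q => C.e i (Φ q)) p) p :=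
    (h.sm.diffAt hp hi).hasFDerivAt
  have d2 : HasFDerivAt (mt (ofAtl A) C a i) (fderiv ℝ (mt (ofAtl A) C a i) z)
      ((fun q => C.e i (Φ q)) p) := (hJ.cmp.symm.diff hz1).hasFDerivAt
  have e1 : (fun q => A.e a (Φ q)) =ᶠ[𝓝 p] fun q => mt (ofAtl A) C a i (C.e i (Φ q)) := by
    filter_upwards [(h.sm.isOpen_pre (C.e i).open_source).mem_nhds ⟨hp, hi⟩] with q hq
    show A.e a (Φ q) = A.e a ((C.e i).symm (C.e i (Φ q)))
    rw [(C.e i).left_inv hq.2]
  have d3 : HasFDerivAt (fun q => A.e a (Φ q)) ((fderiv ℝ (mt (ofAtl A) C a i) z).comp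
      (fderiv ℝ (fun q => C.e i (Φ q)) p)) p :=
    (HasFDerivAt.comp (g := mt (ofAtl A) C a i) p d2 d1).congr_of_eventuallyEq e1
  have h1 : ∀ v, (fderiv ℝ (mt (ofAtl A) C a i) z).comp (fderiv ℝ (fun q => C.e i (Φ q)) p)
      (I • v) = I • (fderiv ℝ (mt (ofAtl A) C a i) z).comp
        (fderiv ℝ (fun q => C.e i (Φ q)) p) v := by
    intro v
    show fderiv ℝ (mt (ofAtl A) C a i) z (fderiv ℝ (fun q => C.e i (Φ q)) p (I • v)) = _
    rw [h.hol p hp i hi v]
    exact hJ.lin' hz1 _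
  have d4 : HasFDerivAt (fun q => A.e a (Φ q)) (cxl _ h1) p :=
    hasFDerivAt_of_restrictScalars ℝ d3 rfl
  refine ⟨d4.differentiableAt, ?_⟩
  rw [d4.fderiv]
  intro u v huv
  refine h.inj p hp i hi ?_
  exact hJ.cmp.symm.inj hz1 huv

/-- **a `J`-holomorphic immersion with lattice fibres** -/
theorem sbm_of_holI [T2Space X] [CompactSpace X] [Finite A.ι] {d : ℕ} {Φ : Cn d → X}
    (h : HolI C J univ Φ) (hJ : JC C J A) {l : Fin (2 * d) → Cn d} (hl : LinearIndependent ℝ l)
    (hΦ : ∀ c c', Φ c = Φ c' ↔ ∃ m : Fin (2 * d) → ℤ, c - c' = ∑ k, (m k : ℝ) • l k) :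
    ∃ (Y : Type) (_ : TopologicalSpace Y) (_ : T2Space Y) (_ : CompactSpace Y)
      (_ : ConnectedSpace Y) (B : Atl d Y) (_ : Finite B.ι) (j : Y → X)
      (_ : Un_360.Sbm B A j), Set.range j = Set.range Φ :=
  sbm_tor (continuousOn_univ.1 h.sm.cont) (fun _ _ hc => h.both hJ (mem_univ _) hc) hl hΦ

/-- **the tori of a holomorphic tube** -/
theorem sbm_tube [T2Space X] [CompactSpace X] [Finite A.ι] {w w' : F2 C} {n : ℕ}
    {D : Set (Cn n)} {Ψ : Cn n × Cn n → X} {l : Fin (2 * n) → Cn n → Cn n}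
    {τ : Cn n → Cn n → Cn n → ℂ} (h : HolTube C J w w' n D Ψ l τ) (hJ : JC C J A) {y : Cn n}
    (hy : y ∈ D) :
    ∃ (Y : Type) (_ : TopologicalSpace Y) (_ : T2Space Y) (_ : CompactSpace Y)
      (_ : ConnectedSpace Y) (B : Atl n Y) (_ : Finite B.ι) (j : Y → X)
      (_ : Un_360.Sbm B A j), Set.range j = Set.range (fun x => Ψ (y, x)) := by
  have hm : ∀ x : Cn n, (y, x) ∈ D ×ˢ (univ : Set (Cn n)) := fun x => ⟨hy, mem_univ _⟩
  have hin : ∀ x : Cn n, HasFDerivAt (fun x : Cn n => ((y, x) : Cn n × Cn n))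
      (ContinuousLinearMap.inr ℝ (Cn n) (Cn n)) x := fun x => hasFDerivAt_prodMk_right y x
  have hsm : ContDiff ℝ ∞ (fun x : Cn n => ((y, x) : Cn n × Cn n)) := by fun_prop
  have hd : ∀ x i, Ψ (y, x) ∈ (C.e i).source →
      fderiv ℝ (fun x => C.e i (Ψ (y, x))) x =
        (fderiv ℝ (fun q => C.e i (Ψ q)) (y, x)).comp (ContinuousLinearMap.inr ℝ (Cn n) (Cn n)) :=
    fun x i hi => ((HasFDerivAt.comp (g := fun q => C.e i (Ψ q)) x
      (h.sm.diffAt (hm x) hi).hasFDerivAt (hin x))).fderiv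
  have hH : HolI C J univ (fun x => Ψ (y, x)) :=
    { sm :=
        { op := isOpen_univ
          cont := h.sm.cont.comp hsm.continuous.continuousOn fun x _ => hm x
          sm := fun i => (h.sm.sm i).comp hsm.contDiffOn fun x hx => ⟨hm x, hx.2⟩ }
      hol := fun x _ i hi u => by
        rw [hd x i hi]
        have h1 := h.hol (y, x) hy i hi (0, u)
        have h2 : (I • ((0, u) : Cn n × Cn n)) = (0, I • u) := by simp
        rw [h2] at h1
        exact h1
      inj := fun x _ i hi u v huv => by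
        rw [hd x i hi] at huv
        have h1 := h.inj (y, x) hy i hi (a₁ := (0, u)) (a₂ := (0, v)) huv
        exact (Prod.ext_iff.1 h1).2 }
  refine sbm_of_holI hH hJ (h.lli y hy) fun c c' => ?_
  rw [h.eq_iff y hy y hy]
  exact ⟨fun hh => hh.2, fun hh => ⟨rfl, hh⟩⟩

end

end Crest.Agent.R281.Sbt_222
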