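import Crest.Agent.R281.SkM5_474
import Crest.Agent.R281.Rkd4_386

/-!
# R281 (S0424), SETUP (helper474), part 6: the nodes `SetupP` and `MemHypP` of `RkD_902`
-/

set_option autoImplicit false
set_option linter.unusedSectionVars false
set_option maxSynthPendingDepth 3

open Set Filter Topology Function MeasureTheory Complex
open scoped ContDiff Matrix ComplexConjugate ComplexOrder

namespace Crest.Agent.R281.SkM_474

open Crest.Agent.R275.Geo Crest.Agent.R275.Core144 Crest.Agent.R275.EDR890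
open Crest.Agent.R275.GC293
open Crest.Agent.R273.Defs_333 Crest.Agent.R273.Kah_333
open Crest.Agent.R260.ACM_580 Crest.Agent.R260.NNB_580
open Crest.Agent.R281.Defs_273
open Crest.Agent.R281.FujSig_358
open Crest.Agent.R281.HkR_835 hiding pb pb_apply
open Crest.Agent.R281.HkR_835.Cmp
open Crest.Agent.R281.Ti_846 hiding pb pb_apply
open Crest.Agent.R281.Dif_268 Crest.Agent.R281.PL_713
open Crest.Agent.R281.NefO_476
open Crest.Agent.R281.Nef_252 (T11 T11_hk Pos_hk eqv_ex_sub jA curK NefC NefC.smul ex_cur)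
open Crest.Agent.R281.Al_830
open Crest.Agent.R281.Alg_998
open Crest.Agent.R281.Cdr_234 (RatF IntF HBas c1F intF_c1F exists_hbas)
open Crest.Agent.R281.Fuj7_207 (bn Tn Tn_symm Tn_pos fujiki_Tn)
open Crest.Agent.R281.Fuj5_207 (E11 reS imS f2_mem)
open Crest.Agent.R281.Fuj1_207 (qf Qf polar_qf qf_apply)
open Crest.Agent.R281.RkD_902

noncomputable section

/-- **the node `SetupP`** -/
theorem setupP : SetupP := by
  intro n M _ _ _ _ A _ hn _ P K σ hu L hN hF hI
  obtain ⟨h, -⟩ := hN 1 one_pos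
  obtain ⟨Q, H0, hctx, hJ, a1, a2, a3, a4, a5, a6⟩ := exists_ctx hn P K σ hu hN hF hI h
  refine ⟨Q, H0, ofHM h, c1F h, hctx, ⟨a1, a2, Rkd_386.setup_lnk h (Cl.refl _), a3, a4, a5, a6⟩,
    fun m N => Rkd_386.setup_fin (by omega) h (fun i z _ v => hJ i z v) m N⟩

section mem

variable {n : ℕ} {X : Type} [TopologicalSpace X] [T2Space X] [CompactSpace X]
  [SimplyConnectedSpace X] {C : RCh (Cn (2 * n)) X} {Q : F2 C →ₗ[ℝ] F2 C →ₗ[ℝ] ℝ}
  {H : HkT C} {L0 : PL C} {e : F2 C}

/-- the class of the curvature of the presentation -/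
theorem pres_cls (hg : Given Q H L0 e) (p : Pres n H L0) :
    Ex ((curK p.h).f2 - FL (cmp_of_cp p.cp) (Real.pi • e)) := by
  set F := FL (cmp_of_cp p.cp) with hF
  -- the curvature of the connection
  have h1 : Ex ((L0.add p.a).F - L0.F) := by
    refine ⟨p.a, fun i z hz u v => ?_⟩
    show (L0.add p.a).F.w i z u v - L0.F.w i z u v = _
    rw [PL.add_F _ _ hz, F1.d_w]
    ring
  have h2 : Ex (F ((L0.add p.a).F) - F L0.F) := by
    rw [← map_sub]
    exact (F_mem_exS (cmp_of_cp p.cp) _).2 h1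
  have h3 : Ex (F L0.F - F ((-(2 * Real.pi)) • e)) := by
    rw [← map_sub]
    exact (F_mem_exS (cmp_of_cp p.cp) _).2 hg.lnk
  have h4 : Ex (F ((L0.add p.a).F) - (-2 : ℝ) • (curK p.h).f2) := mem_exS_of_eqv p.cur
  have e1 : (curK p.h).f2 - F (Real.pi • e) = (1 / 2 : ℝ) • ((F ((L0.add p.a).F) -
      (-2 : ℝ) • (curK p.h).f2) - (F ((L0.add p.a).F) - F L0.F) -
      (F L0.F - F ((-(2 * Real.pi)) • e))) := by
    rw [map_smul, map_smul]
    module
  rw [e1]
  exact (exS _).smul_mem _ ((exS _).sub_mem ((exS _).sub_mem h4 h2) h3)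

theorem not_ex_e (hQ : Ctx n C Q) (hg : Given Q H L0 e) : ¬ Ex e := by
  intro h
  have := hg.e0
  rw [hQ.ex _ _ h] at this
  exact lt_irrefl _ this

/-- **the hypotheses of `END6` at a member** -/
theorem mem_hyp (hQ : Ctx n C Q) (hg : Given Q H L0 e) (hnef : NefC (ofHk H 0) (H.om 0) e)
    (p : Pres n H L0) : (H.sig p.cp).Uniq ∧ NefW (H.kah p.cp) p.L ∧ NonFlat p.L ∧
      Isotropic p.P (H.sig p.cp) p.L := by
  have _ : Finite p.A.ι := p.fin
  have hn := hQ.n1
  have hn2 : 2 ≤ n + n := by omega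
  have hd2 : 2 ≤ 2 * n := by omega
  have hU : (H.sig p.cp).Uniq := uniq_of_T p.P p.cp (hQ.uniq H hg.pos)
  have hcls := pres_cls hg p
  have hπ := Real.pi_pos
  refine ⟨hU, ?_, ?_, ?_⟩
  · exact (Nef_252.nefC_hk_iffU hd2 p.cp p.P (H.kah p.cp) p.h (T11_hk H 0) (Pos_hk H 0)
      hcls).2 (hnef.smul hπ.le)
  · intro h'
    by_contra hc
    push Not at hc
    have h1 : (curK h').f2 ∈ exS (ofAtl p.A) := by
      rw [← sub_zero (curK h').f2]
      refine Fuj5_207.mem_exS_of_eq (w' := 0) fun i z hz u v => ?_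
      have h2 : (curK h').f2.w i z u v = (I * hb (cur h' i ((p.A.e i).symm z)) u v).re :=
        K11.f2_w (curK h') hz u v
      have h0 : (0 : F2 (ofAtl p.A)).w i z u v = 0 := rfl
      rw [h2, hc i _ ((p.A.e i).map_target hz), h0]
      simp [hb]
    have h2 : (curK p.h).f2 ∈ exS (ofAtl p.A) := by
      have h3 := (exS (ofAtl p.A)).add_mem (show _ ∈ exS (ofAtl p.A) from ex_cur h' p.h) h1
      rwa [sub_add_cancel] at h3
    have h3 : FL (cmp_of_cp p.cp) (Real.pi • e) ∈ exS (ofAtl p.A) := by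
      have h4 := (exS (ofAtl p.A)).sub_mem h2 (show _ ∈ exS (ofAtl p.A) from hcls)
      rwa [sub_sub_cancel] at h4
    have h4 : Real.pi • e ∈ exS C := (F_mem_exS (cmp_of_cp p.cp) _).1 h3
    have h5 : e ∈ exS C := by
      have := (exS C).smul_mem Real.pi⁻¹ h4
      rwa [smul_smul, inv_mul_cancel₀ hπ.ne', one_smul] at this
    exact not_ex_e hQ hg h5
  · obtain ⟨P, q, κ, hκ, T, hq⟩ := hQ.top
    have hself := Q_self hq
    have hq0 : 0 < q (H.om 0) := by
      have := hg.pos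
      rw [hself] at this
      exact (mul_pos_iff_of_pos_left (by positivity)).1 this
    obtain ⟨hcl, S', -, h2, -, -, -⟩ := sig_atl T hq0 p.P p.cp hn2
    have hS : 0 < IM (lc (2 * n)) (bn (two_mul n)) (RPart.ofPart p.P)
        (fun _ => reS (H.sig p.cp).toH2 hcl) :=
      Isq3_358.S_pos' (H.sig p.cp) hcl hn (by omega) p.P hU (H.kah p.cp) (lc (2 * n))
        (bn (two_mul n)) (RPart.ofPart p.P) (fun K => Tn_pos (two_mul n) p.P K)
    refine (Isq3_358.iso_iff p.P (H.sig p.cp) hU hcl hn (by omega) hn2 (H.kah p.cp) (lc (2 * n))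
      (bn (two_mul n)) (RPart.ofPart p.P) hS p.h).2 ?_
    have h3 : qf (Tn (two_mul n) p.P) hn2 n (reS (H.sig p.cp).toH2 hcl) (curK p.h).f2 = 0 := by
      rw [sq_congr S' hcls, h2, QuadraticMap.map_smul]
      have h4 := hg.ee
      rw [hself] at h4
      rw [(mul_eq_zero.1 h4).resolve_left (by positivity), smul_zero]
    exact h3

end mem

/-- **the node `MemHypP`** -/
theorem memHypP : MemHypP := by
  intro n X _ _ _ _ C Q hQ H L0 e hg hnef p
  exact ⟨H.kah p.cp, H.sig p.cp, mem_hyp hQ hg hnef p⟩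

end

end Crest.Agent.R281.SkM_474
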