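import Crest.Agent.R281.KpU1_360
import Crest.Agent.R281.Sbt2_222
import Crest.Agent.R281.Kd12_22
import Crest.Agent.R281.Pjx7_648
import Crest.Agent.R281.SkM6_474
import Crest.Agent.R281.RkE_902
import Crest.Agent.R281.Rkd4_386
import Crest.Agent.R281.Mem1_69
import Crest.Agent.R281.LogSm_911

/-!
# R281 (S0424), KAPPA-1 road UNIQ (helper360), glue 2

* `tubOf`       : 22's `HTube` from 831's `HolTube` on a holomorphic atlas;
* `exists_proj` : a projective refinement of a given atlas of the rational chart member.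
-/

set_option autoImplicit false
set_option linter.unusedSectionVars false
set_option maxSynthPendingDepth 3

open Set Filter Topology Complex Module
open scoped ContDiff

namespace Crest.Agent.R281.KpU_360

open Crest.Agent.R275.Geo Crest.Agent.R275.Core144 Crest.Agent.R275.EDR890
open Crest.Agent.R275.GC293
open Crest.Agent.R273.Defs_333 Crest.Agent.R273.Kah_333
open Crest.Agent.R273.Map_835 (HolMap)
open Crest.Agent.R273.PB_835 (LBih Ref pullLB)
open Crest.Agent.R260.ACM_580 Crest.Agent.R260.NNB_580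
open Crest.Agent.R281.HkR_835 Crest.Agent.R281.Ti_846 Crest.Agent.R281.Dif_268
open Crest.Agent.R281.Rk_599
open Crest.Agent.R281.NefO_476
open Crest.Agent.R281.Nef_252
open Crest.Agent.R281.RkD_902
open Crest.Agent.R281.PL_713
open Crest.Agent.R281.Cdr_234 Crest.Agent.R281.Alg_998
open Crest.Agent.R281.Kd_22 (HTube)
open Crest.Agent.R281.Tub_831
open Crest.Agent.R281.Per_368 (SmI pull per)
open Crest.Agent.R281.Mem_69
open Crest.Agent.R281.Sk_474 (Rich)

noncomputable section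

section tube

variable {V X : Type} [NormedAddCommGroup V] [NormedSpace ℝ V] [TopologicalSpace X]
  {C : RCh V X} {J : C.ι → V → V →L[ℝ] V} {w w' : F2 C} {n : ℕ} {D : Set (Cn n)}
  {Ψ : Cn n × Cn n → X} {l : Fin (2 * n) → Cn n → Cn n} {τ : Cn n → Cn n → Cn n → ℂ}
  {A : Atl (2 * n) X}

theorem holI_of (h : HolTube C J w w' n D Ψ l τ) :
    Crest.Agent.R281.Sbt_222.HolI C J (D ×ˢ (univ : Set (Cn n))) Ψ where
  sm := h.sm
  hol p hp i hi u := h.hol p hp.1 i hi u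
  inj p hp i hi := h.inj p hp.1 i hi

theorem an_tub (h : HolTube C J w w' n D Ψ l τ) (hJ : JC C J A) {q : Cn n × Cn n}
    (hq : q.1 ∈ D) {i : A.ι} (hi : Ψ q ∈ (A.e i).source) :
    AnalyticAt ℂ (fun p => A.e i (Ψ p)) q := by
  have hH := holI_of h
  have hO : IsOpen ((D ×ˢ (univ : Set (Cn n))) ∩ Ψ ⁻¹' (A.e i).source) :=
    h.sm.cont.isOpen_inter_preimage h.sm.op (A.e i).open_source
  have hd : DifferentiableOn ℂ (fun p => A.e i (Ψ p))
      ((D ×ˢ (univ : Set (Cn n))) ∩ Ψ ⁻¹' (A.e i).source) := fun p hp =>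
    (hH.both hJ hp.1 hp.2).1.differentiableWithinAt
  exact Crest.Agent.R266.SCV.analyticOnNhd_of_differentiableOn hO hd q
    ⟨⟨hq, mem_univ _⟩, hi⟩

/-- the swap -/
def swp (n : ℕ) : (Cn n × Cn n) ≃L[ℂ] (Cn n × Cn n) := ContinuousLinearEquiv.prodComm ℂ _ _

/-- **831's tube as 22's tube** -/
def tubOf (h : HolTube C J w w' n D Ψ l τ) (hJ : JC C J A) : HTube A (Cn n) (Cn n) :=
  HTube.ofChart (fun q => Ψ (q.2, q.1)) D h.op
    (fun p hp => by
      have h1 : ContinuousAt Ψ (p.2, p.1) :=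
        h.sm.cont.continuousAt (h.sm.op.mem_nhds ⟨hp, mem_univ _⟩)
      exact ContinuousAt.comp (g := Ψ) (f := fun q : Cn n × Cn n => (q.2, q.1)) h1
        (continuousAt_snd.prodMk continuousAt_fst))
    (fun p hp i hi => by
      have h1 := an_tub h hJ (q := (p.2, p.1)) hp hi
      exact AnalyticAt.comp (g := fun q => A.e i (Ψ q)) (f := fun q : Cn n × Cn n => (q.2, q.1))
        h1 (analyticAt_snd.prod analyticAt_fst))
    (fun p hp i hi => by
      have h1 := ((holI_of h).both hJ (p := (p.2, p.1)) ⟨hp, mem_univ _⟩ hi)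
      have h2 : HasFDerivAt (fun q : Cn n × Cn n => A.e i (Ψ (q.2, q.1)))
          ((fderiv ℂ (fun q => A.e i (Ψ q)) (p.2, p.1)).comp
            ((swp n : (Cn n × Cn n) ≃L[ℂ] (Cn n × Cn n)) : (Cn n × Cn n) →L[ℂ] (Cn n × Cn n))) p :=
        HasFDerivAt.comp (g := fun q => A.e i (Ψ q)) (f := swp n) p h1.1.hasFDerivAt
          (swp n).hasFDerivAt
      rw [h2.fderiv]
      have h3 : Function.Injective ((fderiv ℂ (fun q => A.e i (Ψ q)) (p.2, p.1)).comp
          ((swp n : (Cn n × Cn n) ≃L[ℂ] (Cn n × Cn n)) : (Cn n × Cn n) →L[ℂ] (Cn n × Cn n))) :=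
        h1.2.comp (swp n).injective
      refine ⟨h3, ?_⟩
      have h4 : finrank ℂ (Cn n × Cn n) = finrank ℂ (Cn (2 * n)) := by
        rw [finrank_prod]
        simp
        omega
      exact (LinearMap.injective_iff_surjective_of_finrank_eq_finrank h4
        (f := ((fderiv ℂ (fun q => A.e i (Ψ q)) (p.2, p.1)).comp
          ((swp n : (Cn n × Cn n) ≃L[ℂ] (Cn n × Cn n)) :
            (Cn n × Cn n) →L[ℂ] (Cn n × Cn n))).toLinearMap)).1 h3)

@[simp] theorem tubOf_P (h : HolTube C J w w' n D Ψ l τ) (hJ : JC C J A) (q : Cn n × Cn n) :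
    (tubOf h hJ).P q = Ψ (q.2, q.1) := rfl

@[simp] theorem tubOf_Om (h : HolTube C J w w' n D Ψ l τ) (hJ : JC C J A) :
    (tubOf h hJ).Om = D := rfl

end tube

section proj

variable {n : ℕ} {X : Type} [TopologicalSpace X] [CompactSpace X] [T2Space X]
  [SimplyConnectedSpace X] {C : RCh (Cn (2 * n)) X} {Q : F2 C →ₗ[ℝ] F2 C →ₗ[ℝ] ℝ}

theorem cp_cyc {H : HkT C} {A : Atl (2 * n) X} (h : Cp ((H.cyc 1).acm 0) A) :
    Cp (H.acm 1) A := by
  have h1 : JC C ((H.cyc 1).J 0) A := JC.of_cp h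
  have h2 : (H.cyc 1).J 0 = H.J 1 := by
    funext i z
    ext1 v
    exact cyc_J H 1 0 i z v
  rw [h2] at h1
  exact Crest.Agent.R281.Rkd_386.cp_of_jc h1

variable {H0 : HkT C} {e : F2 C} {Alg : AlgT Q}

theorem exists_proj (hX : Ctx n C Q) {B : Box Q H0 e} {R : Road Alg B} {x : ℚ}
    (hE : EndIso R (x : ℝ)) {A₀ : Atl (2 * n) X} (hA₀ : Cp ((B.H R.a (R.c x)).acm 0) A₀) :
    ∃ (A' : Atl (2 * n) X) (_ : Cp ((B.H R.a (R.c x)).acm 0) A'), Finite A'.ι ∧
      Nonempty (Part A') ∧ Nonempty (Ref A' A₀ id) ∧ LBih A' A₀ id ∧ LBih A₀ A' id ∧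
      Nonempty (ProjD A') := by
  obtain ⟨y, hy⟩ := exists_nat_gt (max R.K.Y 0)
  have hy1 : R.K.Y < (y : ℝ) := (le_max_left _ _).trans_lt hy
  have hy0 : (0 : ℝ) < y := (le_max_right _ _).trans_lt hy
  obtain ⟨H', ⟨-, z, hz, hc1, hc2⟩, g, k, hb, hg, hcl⟩ := hE.height hy1
  have hV : finrank ℝ (Cn (2 * n)) = 2 * (2 * n) := by
    rw [finrank_real_of_complex]; simp
  obtain ⟨A, hfin, hgood, ⟨PA⟩, hc, K, σ, hK⟩ := exists_memK (C := C) hV (H'.cyc 1)
  have hA : Cp (H'.acm 1) A := cp_cyc hK.cp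
  have hK1 : Eqv (ofKah K).f2 ((1 : ℝ) • (cmp_of_cp hA).F (H'.om 1)) := by
    intro i w hw u v
    have h1 := hK.om0 i w hw u v
    have h2 : (hc.F ((H'.cyc 1).om 0)).w i w u v = (hc.F (H'.om 1)).w i w u v :=
      F_eqv (cyc_om H' 1 0) i w hw u v
    show _ = 1 * ((cmp_of_cp hA).F (H'.om 1)).w i w u v
    rw [one_mul, ← h1, h2]
  have hN : ∃ q : ℚ, (q : ℝ) = R.F.N := by
    obtain ⟨q, hq⟩ := hX.rat R.F.v R.F.v R.F.rat_v R.F.rat_v
    exact ⟨q, by rw [← hq, R.F.v_v]⟩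
  obtain ⟨c, A', hA', K', Lb, hb', h1, h2, h3, h4, h5, h6, h7, h8, h9, h10, h11, h12, h13,
    m, hm, P, hP⟩ :=
    Crest.Agent.R281.Pjx_648.lb_iso (F := R.F) (τ := ⟨x, y⟩) hA₀ hA hb hg hcl one_pos hz hK1 hc1
      hN ⟨x, rfl⟩ ⟨(y : ℚ) ^ 2, by push_cast; rfl⟩ (O := fun _ : Unit => univ)
      (fun _ => isOpen_univ) (fun _ => ⟨(), mem_univ _⟩)
  exact ⟨A', hA', h2, h4, h6, h7, h8, ⟨P⟩⟩

end proj

end

end Crest.Agent.R281.KpU_360
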