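import Crest.Agent.R281.Un7_360
import Crest.Agent.R281.Ja3_257

/-!
# R281 (S0424), UNIQ (helper360), part 8: the fibres of a tube are given by rational functions

* `both_conj`     : both inclusions `T' = σ (T)`;
* `Aff P T`       : the affine part of `T`; `trS_aff`, `zer_aff`, `mem_of_aff` = (h2), (h3), (h4) of
  257's `Gal4_257.exists_rational`;
* `uniq_rational` : KAPPA-1 for the tube of `TubU`, modulo `ConjCh`, `ConjSub`, `LogSm`.
-/

set_option autoImplicit false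
set_option linter.unusedSectionVars false

open Set Filter Topology Complex MeasureTheory
open scoped ContDiff Matrix ComplexConjugate

namespace Crest.Agent.R281.Un_360

open Crest.Agent.R275 Crest.Agent.R275.Geo Crest.Agent.R275.Core144
open Crest.Agent.R273.SerA_945 Crest.Agent.R273.SerB_945 Crest.Agent.R273.SerC_945
open Crest.Agent.R273.SerE_945 Crest.Agent.R273.TD3_733 Crest.Agent.R273.FS_333
open Crest.Agent.R273.Defs_333 Crest.Agent.R273.SteinC_794 Crest.Agent.R273.HM_333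
open Crest.Agent.R273.Kah_333
open Crest.Agent.R273.Map_835 Crest.Agent.R273.PB_835 Crest.Agent.R273.Chow_313
open Crest.Agent.R281.AF_867
open Crest.Agent.R281.Gal2_257 Crest.Agent.R281.Gal4_257

noncomputable section

section Aff

variable {N : ℕ} {M : Type} [TopologicalSpace M] {A : Atl N M}

/-- the affine part of a subset -/
def Aff (P : ProjD A) (T : Set M) : Set (Fin (P.N + 1) → ℂ) :=
  {v | ∃ y ∈ T, ∃ i, y ∈ (A.e i).source ∧ P.F i y 0 ≠ 0 ∧ ∀ l, v l = P.F i y l / P.F i y 0}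

theorem trS_aff {P : ProjD A} {σ : ℂ ≃+* ℂ} {T T' : Set M}
    (h1 : ∀ y ∈ T, ∃ y' ∈ T', Cj P σ y y') (h2 : ∀ y' ∈ T', ∃ y ∈ T, Cj P σ y y') :
    TrS σ (Aff P T) (Aff P T') := by
  intro v
  constructor
  · rintro ⟨y, hy, i, hi, h0, hv⟩
    obtain ⟨y', hy', hc⟩ := h1 y hy
    obtain ⟨c, hc0, hc⟩ := hc.all hi (chx_mem A y')
    have h3 : ∀ l, P.F (chx A y') y' l = c * σ (P.F i y l) := fun l => by
      rw [hc]; rfl
    refine ⟨y', hy', chx A y', chx_mem A y', ?_, fun l => ?_⟩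
    · rw [h3]
      exact mul_ne_zero hc0 ((map_ne_zero σ).2 h0)
    · show σ (v l) = _
      rw [h3, h3, hv, map_div₀, mul_div_mul_left _ _ hc0]
  · rintro ⟨y', hy', i', hi', h0, hv⟩
    obtain ⟨y, hy, hc⟩ := h2 y' hy'
    obtain ⟨c, hc0, hc⟩ := hc.all (chx_mem A y) hi'
    have h3 : ∀ l, P.F i' y' l = c * σ (P.F (chx A y) y l) := fun l => by
      rw [hc]; rfl
    have h4 : P.F (chx A y) y 0 ≠ 0 := by
      intro h
      apply h0
      rw [h3, h, map_zero, mul_zero]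
    refine ⟨y, hy, chx A y, chx_mem A y, h4, fun l => ?_⟩
    apply σ.injective
    have := hv l
    rw [h3, h3, mul_div_mul_left _ _ hc0] at this
    rw [map_div₀]
    exact this

theorem mem_of_aff {P : ProjD A} {T T' : Set M} {y : M} (hy : y ∈ T) {i : A.ι}
    (hi : y ∈ (A.e i).source) (h0 : P.F i y 0 ≠ 0) (h : Aff P T = Aff P T') : y ∈ T' := by
  have h1 : (fun l => P.F i y l / P.F i y 0) ∈ Aff P T' := by
    rw [← h]
    exact ⟨y, hy, i, hi, h0, fun _ => rfl⟩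
  obtain ⟨y', hy', i', hi', h0', hv⟩ := h1
  have h2 : y = y' := by
    refine P.inj i i' y hi y' hi' ⟨P.F i y 0 / P.F i' y' 0, ?_⟩
    funext l
    have h3 : P.F i y l / P.F i y 0 = P.F i' y' l / P.F i' y' 0 := hv l
    rw [Pi.smul_apply, smul_eq_mul]
    field_simp at h3 ⊢
    rw [h3]
  rw [h2]
  exact hy'

end Aff

section Zer

variable {κ : Type} [Fintype κ]

theorem eval_sum {S : Finset (κ →₀ ℕ)} {p : MvPolynomial κ ℂ} (hp : p.support ⊆ S) (v : κ → ℂ) :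
    ∑ m : S, p.coeff m * ∏ i, v i ^ (m : κ →₀ ℕ) i = MvPolynomial.eval v p := by
  classical
  rw [MvPolynomial.eval_eq']
  rw [Finset.sum_coe_sort S (fun m => p.coeff m * ∏ i, v i ^ m i)]
  symm
  refine Finset.sum_subset hp fun m _ hm => ?_
  rw [MvPolynomial.notMem_support_iff.1 hm, zero_mul]

theorem mem_idl {S : Finset (κ →₀ ℕ)} {p : MvPolynomial κ ℂ} (hp : p.support ⊆ S)
    {T : Set (κ → ℂ)} (h : ∀ v ∈ T, MvPolynomial.eval v p = 0) :
    (fun m : S => p.coeff m) ∈ Idl S T := by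
  intro v hv
  rw [eval_sum hp]
  exact h v hv

theorem zer_eval {S : Finset (κ →₀ ℕ)} {p : MvPolynomial κ ℂ} (hp : p.support ⊆ S)
    {T : Set (κ → ℂ)} (h : ∀ v ∈ T, MvPolynomial.eval v p = 0) {v : κ → ℂ}
    (hv : v ∈ Zer S (Idl S T)) : MvPolynomial.eval v p = 0 := by
  have := hv _ (mem_idl hp h)
  rwa [eval_sum hp] at this

end Zer

section Sub

variable {d N : ℕ} {T M : Type} [TopologicalSpace T] [TopologicalSpace M]
  [T2Space T] [CompactSpace T] [ConnectedSpace T] {B : Atl d T} {A : Atl N M} [Finite B.ι]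
  {j : T → M}

theorem zer_aff (I : Sbm B A j) (P : ProjD A) :
    ∃ S : Finset (Fin (P.N + 1) →₀ ℕ), Zer S (Idl S (Aff P (range j))) ⊆ Aff P (range j) := by
  classical
  obtain ⟨E0, hE0, hE⟩ := exists_eqs_proj I.part (Crest.Agent.R260.Br5_592.d2_proj I.part (I.P P))
    (I.P P)
  have hEq := hE E0 Subset.rfl hE0
  let E : Finset (MvPolynomial (Fin (P.N + 1)) ℂ) := E0
  let p1 : MvPolynomial (Fin (P.N + 1)) ℂ := MvPolynomial.X 0 - 1
  let S : Finset (Fin (P.N + 1) →₀ ℕ) := (E.biUnion fun p => p.support) ∪ p1.support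
  refine ⟨S, fun v hv => ?_⟩
  have h1 : MvPolynomial.eval v p1 = 0 := by
    refine zer_eval (p := p1) Finset.subset_union_right ?_ hv
    rintro w ⟨y, hy, i, hi, h0, hw⟩
    simp only [p1, map_sub, MvPolynomial.eval_X, map_one, hw 0, div_self h0, sub_self]
  have hv0 : v 0 = 1 := by
    have h2 : v 0 - 1 = 0 := by simpa [p1] using h1
    exact sub_eq_zero.1 h2
  have hE' : ∀ p ∈ E, MvPolynomial.eval v p = 0 := by
    intro p hp
    refine zer_eval (p := p) ?_ ?_ hv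
    · exact (Finset.subset_biUnion_of_mem (fun p => p.support) hp).trans
        Finset.subset_union_left
    · rintro w ⟨_, ⟨x, rfl⟩, i, hi, h0, hw⟩
      obtain ⟨⟨e, he⟩, hpe⟩ := hE0 hp
      obtain ⟨i0, hi0⟩ := B.cover x
      have h3 := hpe i0 x hi0
      have h4 : (fun k => sec (I.P P) k i0 x) = P.F (I.R.r i0) (j x) :=
        funext fun k => sec_eq (I.P P) hi0 k
      rw [h4] at h3
      obtain ⟨c, hc⟩ := P.tr i (I.R.r i0) (j x) ⟨hi, I.R.sub i0 x hi0⟩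
      have h5 : w = ((P.F i (j x) 0)⁻¹ * c) • P.F (I.R.r i0) (j x) := by
        funext l
        rw [hw l, hc, Pi.smul_apply, Pi.smul_apply, Pi.smul_apply, smul_eq_mul, smul_eq_mul,
          smul_eq_mul]
        ring
      have he' : MvPolynomial.IsHomogeneous (σ := Fin (P.N + 1)) (R := ℂ) p e := he
      have h6 : MvPolynomial.eval (((P.F i (j x) 0)⁻¹ * c) • P.F (I.R.r i0) (j x)) p =
          ((P.F i (j x) 0)⁻¹ * c) ^ e * MvPolynomial.eval (P.F (I.R.r i0) (j x)) p :=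
        eval_smul he' _ _
      have h7 : MvPolynomial.eval (P.F (I.R.r i0) (j x)) p = 0 := h3
      rw [h5, h6, h7, mul_zero]
  obtain ⟨i, x, hx, c, hc, hvc⟩ := hEq.pt v (fun h => by
    rw [h] at hv0
    exact zero_ne_one hv0) hE'
  have h4 : (fun k => sec (I.P P) k i x) = P.F (I.R.r i) (j x) :=
    funext fun k => sec_eq (I.P P) hx k
  rw [h4] at hvc
  have h5 : ∀ l, v l = c * P.F (I.R.r i) (j x) l := fun l => by rw [hvc]; rfl
  have h6 : c * P.F (I.R.r i) (j x) 0 = 1 := by rw [← h5, hv0]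
  have h7 : P.F (I.R.r i) (j x) 0 ≠ 0 := fun h => by
    rw [h, mul_zero] at h6
    exact zero_ne_one h6
  refine ⟨j x, mem_range_self x, I.R.r i, I.R.sub i x hx, h7, fun l => ?_⟩
  rw [h5, eq_div_iff h7, mul_right_comm, h6, one_mul]

end Sub

section Both

variable {d N : ℕ} {T T' M : Type} [TopologicalSpace T] [TopologicalSpace T']
  [TopologicalSpace M] [T2Space T] [CompactSpace T] [ConnectedSpace T] [T2Space T']
  [CompactSpace T'] [ConnectedSpace T'] [T2Space M] [CompactSpace M] [ConnectedSpace M]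
  {B : Atl d T} {B' : Atl d T'} {A : Atl N M} [Finite B.ι] [Finite B'.ι] [Finite A.ι]
  {j : T → M} {j' : T' → M}

theorem Cj.symm' {P : ProjD A} {σ : ℂ ≃+* ℂ} {x y : M} (h : Cj P σ x y) :
    Cj P σ.symm y x := by
  obtain ⟨c, hc, h1⟩ := h.all (chx_mem A x) (chx_mem A y)
  refine ⟨_, _, chx_mem A y, chx_mem A x, σ.symm c⁻¹, (map_ne_zero σ.symm).2 (inv_ne_zero hc), ?_⟩
  funext l
  have h2 : P.F (chx A y) y l = c * σ (P.F (chx A x) x l) := by rw [h1]; rfl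
  rw [Pi.smul_apply, smul_eq_mul, h2, ← map_mul, ← mul_assoc, inv_mul_cancel₀ hc, one_mul,
    RingEquiv.symm_apply_apply]

theorem map_symm_fix {κ : Type} {σ : ℂ ≃+* ℂ} {p : MvPolynomial κ ℂ}
    (h : MvPolynomial.map (σ : ℂ →+* ℂ) p = p) :
    MvPolynomial.map (σ.symm : ℂ →+* ℂ) p = p := by
  conv_lhs => rw [← h]
  rw [MvPolynomial.map_map]
  have : (σ.symm : ℂ →+* ℂ).comp (σ : ℂ →+* ℂ) = RingHom.id ℂ := by ext x; simp
  rw [this, MvPolynomial.map_id]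

theorem FixM.symm {P : ProjD A} {σ : ℂ ≃+* ℂ} (h : FixM P σ) : FixM P σ.symm := by
  obtain ⟨E, h1, h2⟩ := h
  exact ⟨E, h1, fun p hp => map_symm_fix (h2 p hp)⟩

theorem LDat.Fix.symm {P : ProjD A} {L : LB A} {D : LDat P L} {σ : ℂ ≃+* ℂ} (h : D.Fix σ) :
    D.Fix σ.symm := fun a b => map_symm_fix (h a b)

/-- **both inclusions** -/
theorem both_conj (hCh : ConjCh) (hSub : ConjSub) (hLog : LogSm) (I : Sbm B A j)
    (I' : Sbm B' A j') {P : ProjD A} {L : LB A} (D : LDat P L) (hf : I.Flat L) (hf' : I'.Flat L)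
    {σ : ℂ ≃+* ℂ} (hσ : D.Fix σ) (hM : FixM P σ) {h : HM L} (Q : QPsh h) {x x' : M}
    (hxT : x ∈ range j) (hxT' : x' ∈ range j') (hx : Cj P σ x x') (g : Good Q (range j) x)
    (g' : Good Q (range j') x') :
    (∀ y ∈ range j, ∃ y' ∈ range j', Cj P σ y y') ∧
      ∀ y' ∈ range j', ∃ y ∈ range j, Cj P σ y y' := by
  obtain ⟨x0, rfl⟩ := hxT
  obtain ⟨x0', rfl⟩ := hxT'
  have h1 := sub_conj hCh hSub hLog I I' D hf hσ hM Q hx g'
  have h2 := sub_conj hCh hSub hLog I' I D hf' hσ.symm hM.symm Q hx.symm' g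
  refine ⟨fun y hy => ?_, fun y' hy' => ?_⟩
  · obtain ⟨t, ht⟩ := h2 hy
    exact ⟨j' t, mem_range_self t, by simpa using ht.symm'⟩
  · obtain ⟨t, ht⟩ := h1 hy'
    exact ⟨j t, mem_range_self t, ht⟩

end Both

section Main

variable {d N : ℕ} {M : Type} [TopologicalSpace M] [T2Space M] [CompactSpace M] [ConnectedSpace M]
  {A : Atl N M} [Finite A.ι]

/-- `T` is a compact connected submanifold of dimension `d`, `L` flat on it -/
def IsSb (A : Atl N M) (d : ℕ) (L : LB A) (T : Set M) : Prop :=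
  ∃ (Y : Type) (_ : TopologicalSpace Y) (_ : T2Space Y) (_ : CompactSpace Y)
    (_ : ConnectedSpace Y) (B : Atl d Y) (_ : Finite B.ι) (j : Y → M) (I : Sbm B A j),
    range j = T ∧ I.Flat L

variable {E₁ E₂ : Type*} [NormedAddCommGroup E₁] [NormedSpace ℂ E₁] [FiniteDimensional ℂ E₁]
  [NormedAddCommGroup E₂] [NormedSpace ℂ E₂] [FiniteDimensional ℂ E₂]
  [MeasurableSpace (E₁ × E₂)] [BorelSpace (E₁ × E₂)]

/-- the tube, for UNIQ -/
structure TubU (A : Atl N M) (d : ℕ) {L : LB A} {h : HM L} (Q : QPsh h) (U : Set (E₁ × E₂))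
    (Ψ : E₁ × E₂ → M) (T : E₁ → Set M) (Z : Set (E₁ × E₂)) : Prop where
  sb : ∀ z ∈ U, IsSb A d L (T z.1)
  mem : ∀ z ∈ U, Ψ z ∈ T z.1
  dis : ∀ z ∈ U, ∀ z' ∈ U, (T z.1 ∩ T z'.1).Nonempty → z.1 = z'.1
  good : ∀ z ∈ U, z ∉ Z → Nonempty (Good Q (T z.1) (Ψ z))

open MvPolynomial in
/-- **KAPPA-1, road UNIQ** -/
theorem uniq_rational (hCh : ConjCh) (hSub : ConjSub) (hLog : LogSm) (PA : Part A) (P : ProjD A)
    {L : LB A} {h : HM L} (Q : QPsh h) (μ : Measure (E₁ × E₂)) [μ.IsAddHaarMeasure]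
    {z₁ : E₁ × E₂} {r : ℝ} (hr : 0 < r) {Ψ : E₁ × E₂ → M} {T : E₁ → Set M} {Z : Set (E₁ × E₂)}
    (hZ : μ Z = 0) (t : TubU A d Q (Metric.ball z₁ r) Ψ T Z) {i : A.ι}
    (hi : ∀ z ∈ Metric.ball z₁ r, Ψ z ∈ (A.e i).source)
    (h0 : ∀ z ∈ Metric.ball z₁ r, P.F i (Ψ z) 0 ≠ 0)
    (han : AnalyticOnNhd ℂ (fun z => A.e i (Ψ z)) (Metric.ball z₁ r)) :
    ∃ p q : Fin (Module.finrank ℂ E₁) → MvPolynomial (Fin (P.N + 1)) ℂ,
      ∃ z₀ ∈ Metric.ball z₁ r,
      (∀ l, eval (fun k => P.F i (Ψ z₀) k / P.F i (Ψ z₀) 0) (q l) ≠ 0) ∧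
      (∀ l, ∀ z ∈ Metric.ball z₁ r, ∀ z' ∈ Metric.ball z₁ r, z.1 = z'.1 →
        eval (fun k => P.F i (Ψ z) k / P.F i (Ψ z) 0) (p l) *
          eval (fun k => P.F i (Ψ z') k / P.F i (Ψ z') 0) (q l) =
        eval (fun k => P.F i (Ψ z') k / P.F i (Ψ z') 0) (p l) *
          eval (fun k => P.F i (Ψ z) k / P.F i (Ψ z) 0) (q l)) ∧
      LinearIndependent ℂ (fun l => fderiv ℂ (fun z =>
        eval (fun k => P.F i (Ψ z) k / P.F i (Ψ z) 0) (p l) /
        eval (fun k => P.F i (Ψ z) k / P.F i (Ψ z) 0) (q l)) z₀) := by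
  classical
  obtain ⟨D⟩ := exists_ldat PA P L
  obtain ⟨E0, hE0, hE⟩ := exists_eqs_proj PA (Crest.Agent.R260.Br5_592.d2_proj PA P) P
  have hEq := hE E0 Subset.rfl hE0
  -- the field
  let EE : (Fin D.r × Fin D.s) ⊕ E0 → MvPolynomial (Fin (P.N + 1)) ℂ :=
    Sum.elim (fun a => D.W a.1 a.2) fun e => e.1
  obtain ⟨k, hk, hkE⟩ := Crest.Agent.R281.Ja3_257.exists_field EE
  have hfix : ∀ σ : ℂ ≃ₐ[k] ℂ, ∀ e, MvPolynomial.map ((σ : ℂ ≃+* ℂ) : ℂ →+* ℂ) (EE e) = EE e := by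
    intro σ e
    obtain ⟨E', hE'⟩ := hkE e
    rw [← hE', MvPolynomial.map_map]
    have h1 : ((σ : ℂ ≃+* ℂ) : ℂ →+* ℂ).comp (algebraMap k ℂ) = algebraMap k ℂ := by
      ext x
      simp
    rw [h1]
  have hM : ∀ σ : ℂ ≃ₐ[k] ℂ, FixM P (σ : ℂ ≃+* ℂ) := fun σ =>
    ⟨E0, hEq, fun p hp => hfix σ (Sum.inr ⟨p, hp⟩)⟩
  have hD : ∀ σ : ℂ ≃ₐ[k] ℂ, D.Fix (σ : ℂ ≃+* ℂ) := fun σ a b => hfix σ (Sum.inl (a, b))
  -- the coordinates
  let φ : E₁ × E₂ → Fin (P.N + 1) → ℂ := fun z l => P.F i (Ψ z) l / P.F i (Ψ z) 0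
  have hFan : ∀ l, AnalyticOnNhd ℂ (fun z => P.F i (Ψ z) l) (Metric.ball z₁ r) := by
    intro l z hz
    have h1 : DifferentiableOn ℂ (fun z => P.F i ((A.e i).symm z) l)
        ((A.e i).target ∩ (A.e i).symm ⁻¹' univ) := P.hol i l
    rw [preimage_univ, inter_univ] at h1
    have h2 : AnalyticAt ℂ (fun z => P.F i ((A.e i).symm z) l) (A.e i (Ψ z)) :=
      Crest.Agent.R266.SCV.analyticOnNhd_of_differentiableOn (A.e i).open_target h1 _
        ((A.e i).map_source (hi z hz))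
    have h3 : AnalyticAt ℂ (fun z => P.F i ((A.e i).symm (A.e i (Ψ z))) l) z :=
      AnalyticAt.comp (g := fun z => P.F i ((A.e i).symm z) l) (f := fun z => A.e i (Ψ z)) h2
        (han z hz)
    refine h3.congr ?_
    filter_upwards [Metric.isOpen_ball.mem_nhds hz] with w hw
    rw [(A.e i).left_inv (hi w hw)]
  have hφ : AnalyticOnNhd ℂ φ (Metric.ball z₁ r) := by
    intro z hz
    rw [analyticAt_pi_iff]
    exact fun l => (hFan l z hz).div (hFan 0 z hz) (h0 z hz)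
  have H2 : ∀ z ∈ Metric.ball z₁ r, z ∉ Z → ∀ z' ∈ Metric.ball z₁ r, z' ∉ Z → ∀ σ : ℂ ≃ₐ[k] ℂ,
      (∀ l, σ (φ z l) = φ z' l) → TrS (σ : ℂ ≃+* ℂ) (Aff P (T z.1)) (Aff P (T z'.1)) := by
    intro z hz hzN z' hz' hzN' σ hσ
    obtain ⟨Y, _, _, _, _, B, _, j, I, hj, hf⟩ := t.sb z hz
    obtain ⟨Y', _, _, _, _, B', _, j', I', hj', hf'⟩ := t.sb z' hz'
    obtain ⟨g⟩ := t.good z hz hzN
    obtain ⟨g'⟩ := t.good z' hz' hzN'
    have hc : Cj P (σ : ℂ ≃+* ℂ) (Ψ z) (Ψ z') := by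
      refine ⟨i, i, hi z hz, hi z' hz', P.F i (Ψ z') 0 / σ (P.F i (Ψ z) 0),
        div_ne_zero (h0 z' hz') ((map_ne_zero σ).2 (h0 z hz)), ?_⟩
      funext l
      have h5 : σ (P.F i (Ψ z) l / P.F i (Ψ z) 0) = P.F i (Ψ z') l / P.F i (Ψ z') 0 := hσ l
      have h6 : σ (P.F i (Ψ z) 0) ≠ 0 := (map_ne_zero σ).2 (h0 z hz)
      have h7 := h0 z' hz'
      rw [map_div₀] at h5
      show P.F i (Ψ z') l = P.F i (Ψ z') 0 / σ (P.F i (Ψ z) 0) * σ (P.F i (Ψ z) l)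
      rw [div_mul_eq_mul_div, mul_div_assoc, h5]
      field_simp
    rw [← hj] at g
    rw [← hj'] at g'
    have h8 := both_conj hCh hSub hLog I I' D hf hf' (hD σ) (hM σ) Q
      (by rw [hj]; exact t.mem z hz) (by rw [hj']; exact t.mem z' hz') hc g g'
    rw [hj, hj'] at h8
    exact trS_aff h8.1 h8.2
  have H3 : ∀ z ∈ Metric.ball z₁ r, z ∉ Z → ∃ S : Finset (Fin (P.N + 1) →₀ ℕ),
      Zer S (Idl S (Aff P (T z.1))) ⊆ Aff P (T z.1) := by
    intro z hz hzN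
    obtain ⟨Y, _, _, _, _, B, _, j, I, hj, hf⟩ := t.sb z hz
    have := zer_aff I P
    rw [hj] at this
    exact this
  have H4 : ∀ z ∈ Metric.ball z₁ r, z ∉ Z → ∀ z' ∈ Metric.ball z₁ r, z' ∉ Z →
      Aff P (T z.1) = Aff P (T z'.1) → z.1 = z'.1 := by
    intro z hz hzN z' hz' hzN' he
    refine t.dis z hz z' hz' ⟨Ψ z, t.mem z hz, ?_⟩
    exact mem_of_aff (t.mem z hz) (hi z hz) (h0 z hz) he
  obtain ⟨p, q, z₀, hz₀, h1, h2, h3⟩ := exists_rational (k := k) μ hr hφ (fun b => Aff P (T b))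
    hZ H2 H3 H4
  have hae : ∀ (R : MvPolynomial (Fin (P.N + 1)) k) (y : Fin (P.N + 1) → ℂ),
      eval y (MvPolynomial.map (algebraMap k ℂ) R) = aeval y R := by
    intro R y
    rw [eval_map, aeval_def]
  refine ⟨fun l => MvPolynomial.map (algebraMap k ℂ) (p l),
    fun l => MvPolynomial.map (algebraMap k ℂ) (q l), z₀, hz₀, ?_, ?_, ?_⟩
  · intro l
    rw [hae]
    exact h1 l
  · intro l z hz z' hz' hzz
    simp only [hae]
    exact h2 l z hz z' hz' hzz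
  · simp only [hae]
    exact h3

end Main

end

end Crest.Agent.R281.Un_360
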