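import Crest.Agent.R281.Sbt2_530
import Crest.Agent.R281.Flt3_877
import Crest.Agent.R281.Kas2_975
import Crest.Agent.R281.Per5_368
import Crest.Agent.R281.Un8_360

/-!
# R281 (S0424), UNIQ, GU1 (helper530): the fibres of a holomorphic tube are flat submanifolds

* `an`, `fderiv_inj`, `smI` : a `HTube` is analytic in the charts, immersive (equal dimensions),
  smooth in the sense of helper368;
* `fib_hol`   : the restriction to a fibre;
* `isSb_fib`  : GU1 of helper360 (#8979).
-/

set_option autoImplicit false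
set_option linter.unusedSectionVars false
set_option maxSynthPendingDepth 3

open Set Filter Topology Complex
open scoped ContDiff

namespace Crest.Agent.R281.Sbt_530

open Crest.Agent.R275.Geo Crest.Agent.R275.Core144 Crest.Agent.R275.EDR890
open Crest.Agent.R273.Defs_333 Crest.Agent.R273.HM_333 Crest.Agent.R273.Kah_333
open Crest.Agent.R281.Kd_22 Crest.Agent.R281.HkR_835
open Crest.Agent.R281.Per_368 (SmI pull per pt)
open Crest.Agent.R281.Nef_252 (curK)

noncomputable section

variable {m N : ℕ} {M : Type} [TopologicalSpace M] {A : Atl N M}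
  {F B : Type} [NormedAddCommGroup F] [NormedSpace ℂ F] [NormedAddCommGroup B] [NormedSpace ℂ B]

/-! ### analytic vector valued functions -/

theorem analyticAt_cn {E : Type*} [NormedAddCommGroup E] [NormedSpace ℂ E] {f : E → Cn N} {x : E}
    (h : ∀ k, AnalyticAt ℂ (fun y => f y k) x) : AnalyticAt ℂ f x := by
  have h1 : AnalyticAt ℂ (fun y => fun k => f y k) x := AnalyticAt.pi h
  have h2 : f = fun y => (EuclideanSpace.equiv (Fin N) ℂ).symm (fun k => f y k) := by
    funext y
    ext k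
    rfl
  rw [h2]
  exact ((EuclideanSpace.equiv (Fin N) ℂ).symm : (Fin N → ℂ) →L[ℂ] Cn N).analyticAt _ |>.comp h1

/-- a map to a finite dimensional space is analytic if all its functionals are -/
theorem analyticAt_of_dual {E G : Type*} [NormedAddCommGroup E] [NormedSpace ℂ E]
    [NormedAddCommGroup G] [NormedSpace ℂ G] [FiniteDimensional ℂ G] {f : E → G} {x : E}
    (h : ∀ φ : G →L[ℂ] ℂ, AnalyticAt ℂ (fun y => φ (f y)) x) : AnalyticAt ℂ f x := by
  let b := Module.finBasis ℂ G
  let e : G ≃L[ℂ] (Fin (Module.finrank ℂ G) → ℂ) := b.equivFun.toContinuousLinearEquiv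
  have h1 : AnalyticAt ℂ (fun y => fun k => e (f y) k) x := by
    refine AnalyticAt.pi fun k => ?_
    exact h ((ContinuousLinearMap.proj k).comp (e : G →L[ℂ] (Fin (Module.finrank ℂ G) → ℂ)))
  have h2 : f = fun y => e.symm (fun k => e (f y) k) := by
    funext y
    exact (e.symm_apply_apply (f y)).symm
  rw [h2]
  exact (e.symm : (Fin (Module.finrank ℂ G) → ℂ) →L[ℂ] G).analyticAt _ |>.comp h1

/-! ### a tube in the charts -/

theorem an (T : HTube A F B) {p : F × B} (hp : p.2 ∈ T.Om) {i : A.ι}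
    (hi : T.P p ∈ (A.e i).source) : AnalyticAt ℂ (fun q => A.e i (T.P q)) p := by
  refine analyticAt_cn fun k => ?_
  refine T.pull p hp (fun w => A.e i w k) (hm_chart (φ := fun z => z k) hi ?_)
  exact (EuclideanSpace.proj (𝕜 := ℂ) k).analyticAt _

theorem fderiv_inj [FiniteDimensional ℂ F] [FiniteDimensional ℂ B] (T : HTube A F B)
    (hd : Module.finrank ℂ F + Module.finrank ℂ B = N) {p : F × B} (hp : p.2 ∈ T.Om) {i : A.ι}
    (hi : T.P p ∈ (A.e i).source) :
    Function.Injective (fderiv ℂ (fun q => A.e i (T.P q)) p) := by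
  obtain ⟨χ, h1, h2, h3, h4⟩ := T.inv p hp
  set z0 := A.e i (T.P p) with hz0
  set G : Cn N → F × B := fun z => χ ((A.e i).symm z) with hG
  have hGan : AnalyticAt ℂ G z0 := by
    refine analyticAt_of_dual fun φ => ?_
    exact h3 (fun q => φ q) (φ.analyticAt _) i hi
  have hG0 : G z0 = p := by
    show χ ((A.e i).symm (A.e i (T.P p))) = p
    rw [(A.e i).left_inv hi, h1]
  have hE := an T hp hi
  have hcomp : (fun q => A.e i (T.P q)) ∘ G =ᶠ[𝓝 z0] id := by
    have h5 : Tendsto (A.e i).symm (𝓝 z0) (𝓝 (T.P p)) := by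
      have h6 := (A.e i).continuousAt_symm ((A.e i).map_source hi)
      have h7 := h6.tendsto
      rwa [(A.e i).left_inv hi] at h7
    filter_upwards [h5.eventually h4, (A.e i).open_target.mem_nhds ((A.e i).map_source hi)]
      with z a b
    show A.e i (T.P (χ ((A.e i).symm z))) = z
    rw [a, (A.e i).right_inv b]
  have hE' : HasFDerivAt (fun q => A.e i (T.P q)) (fderiv ℂ (fun q => A.e i (T.P q)) p) (G z0) := by
    rw [hG0]
    exact hE.differentiableAt.hasFDerivAt
  have h5 := hE'.comp z0 hGan.differentiableAt.hasFDerivAt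
  have h6 := h5.fderiv
  rw [hcomp.fderiv_eq, fderiv_id] at h6
  have hsurj : Function.Surjective (fderiv ℂ (fun q => A.e i (T.P q)) p) := by
    intro v
    refine ⟨fderiv ℂ G z0 v, ?_⟩
    have h7 := congrArg (fun L : Cn N →L[ℂ] Cn N => L v) h6
    exact h7.symm
  have hfr : Module.finrank ℂ (F × B) = Module.finrank ℂ (Cn N) := by
    rw [Module.finrank_prod, hd, finrank_euclideanSpace_fin]
  exact (LinearMap.injective_iff_surjective_of_finrank_eq_finrank hfr
    (f := (fderiv ℂ (fun q => A.e i (T.P q)) p : F × B →ₗ[ℂ] Cn N))).2 hsurj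

theorem smI (T : HTube A F B) : SmI (ofAtl A) (univ ×ˢ T.Om) T.P where
  op := isOpen_univ.prod T.isOpen
  cont := fun p hp => (T.cont p hp.2).continuousWithinAt
  sm i := by
    intro p hp
    have h1 : AnalyticAt ℂ (fun q => A.e i (T.P q)) p := an T hp.1.2 hp.2
    have h2 : ContDiffAt ℂ ∞ (fun q => A.e i (T.P q)) p := h1.contDiffAt
    exact (h2.restrict_scalars ℝ).contDiffWithinAt

/-- the restriction to a fibre -/
theorem fib_hol [FiniteDimensional ℂ F] [FiniteDimensional ℂ B] (T : HTube A F B)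
    (hd : Module.finrank ℂ F + Module.finrank ℂ B = N) {b : B} (hb : b ∈ T.Om) (c : F) (i : A.ι)
    (hi : T.P (c, b) ∈ (A.e i).source) :
    DifferentiableAt ℂ (fun z => A.e i (T.P (z, b))) c ∧
      Function.Injective (fderiv ℂ (fun z => A.e i (T.P (z, b))) c) := by
  have h1 : HasFDerivAt (fun z : F => (z, b)) (ContinuousLinearMap.inl ℂ F B) c :=
    hasFDerivAt_prodMk_left c b
  have h2 : HasFDerivAt (fun q => A.e i (T.P q)) (fderiv ℂ (fun q => A.e i (T.P q)) (c, b))
      (c, b) := (an T (p := (c, b)) hb hi).differentiableAt.hasFDerivAt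
  have h3 := HasFDerivAt.comp (g := fun q => A.e i (T.P q)) (f := fun z : F => (z, b)) c h2 h1
  refine ⟨h3.differentiableAt, ?_⟩
  have h4 : fderiv ℂ (fun z => A.e i (T.P (z, b))) c = _ := h3.fderiv
  rw [h4]
  intro u v huv
  have h5 := fderiv_inj T hd (p := (c, b)) hb hi (a₁ := (u, 0)) (a₂ := (v, 0)) huv
  exact (Prod.ext_iff.1 h5).1

theorem fib_cont (T : HTube A F B) {b : B} (hb : b ∈ T.Om) :
    Continuous fun c => T.P (c, b) := by
  rw [continuous_iff_continuousAt]
  intro c
  exact ContinuousAt.comp (g := T.P) (f := fun c : F => (c, b)) (T.cont (c, b) hb) (by fun_prop)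

/-- periods on a fibre -/
theorem fib_per (T : HTube A F B) {b : B} (hb : b ∈ T.Om) (w : F2 (ofAtl A)) (c u v : F) :
    per (pull w fun z => T.P (z, b)) c u v = per (pull w T.P) (c, b) (u, 0) (v, 0) := by
  have e : (fun z => T.P (z, b)) =
      fun z => T.P (((0 : F), b) + (ContinuousLinearMap.inl ℝ F B) z) := by
    funext z
    congr 1
    simp
  have h := (smI T).per_pull_affine (ContinuousLinearMap.inl ℝ F B) ((0 : F), b) w
    (z := c) (v := u) (v' := v) (fun s _ t _ => ⟨mem_univ _, by simpa using hb⟩)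
  rw [e, h]
  congr 1
  · simp

/-- **GU1**: the fibres of a tube with zero periods are flat submanifolds -/
theorem isSb_fib {n : ℕ} [T2Space M] [CompactSpace M] [ConnectedSpace M] {A : Atl (2 * n) M}
    [Finite A.ι] {L : LB A} (h : HM L) (T : HTube A (Cn n) (Cn n))
    (l : Fin (2 * n) → Cn n → Cn n) (lli : ∀ b ∈ T.Om, LinearIndependent ℝ fun k => l k b)
    (eqv : ∀ b ∈ T.Om, ∀ b' ∈ T.Om, ∀ c c', T.P (c, b) = T.P (c', b') ↔
      b = b' ∧ ∃ m : Fin (2 * n) → ℤ, c - c' = ∑ k, (m k : ℝ) • l k b)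
    (per0 : ∀ b ∈ T.Om, ∀ c j k, per (pull (curK h).f2 T.P) (c, b) (l j b, 0) (l k b, 0) = 0) :
    ∀ b ∈ T.Om, Un_360.IsSb A n L (Kas_975.fib T b) := by
  intro b hb
  have hd : Module.finrank ℂ (Cn n) + Module.finrank ℂ (Cn n) = 2 * n := by
    rw [finrank_euclideanSpace_fin]
    ring
  have hc := fib_cont T hb
  have hol := fun c i hi => fib_hol T hd hb c i hi
  have hΦ : ∀ c c', T.P (c, b) = T.P (c', b) ↔
      ∃ m : Fin (2 * n) → ℤ, c - c' = ∑ k, (m k : ℝ) • l k b := by
    intro c c'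
    rw [eqv b hb b hb]
    exact ⟨fun h => h.2, fun h => ⟨rfl, h⟩⟩
  obtain ⟨Y, h1, h2, h3, h4, B, h5, j, I, h6⟩ := sbm_tor (A := A) hc hol (lli b hb) hΦ
  refine ⟨Y, h1, h2, h3, h4, B, h5, j, I, h6, ?_⟩
  refine Flt_877.flat_of_tor I hc hol (lli b hb) hΦ h6 h fun j k x => ?_
  rw [fib_per T hb]
  exact per0 b hb x j k

end

end Crest.Agent.R281.Sbt_530
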