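import Crest.Agent.R281.KpU2_360
import Crest.Agent.R281.Gu1_877
import Crest.Agent.R281.Sbt3_530

/-!
# R281 (S0424), KAPPA-1 road UNIQ (helper360), glue 3: the composition

* `ThetaP`  : THETA (799, 911, 196, 137): a potential of `h` on the tube of tori
* `kappaU`  : `ThetaP → KappaP Alg Tub_831.Tub`
-/

set_option autoImplicit false
set_option linter.unusedSectionVars false
set_option maxSynthPendingDepth 3

open Set Filter Topology Complex Module MeasureTheory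
open scoped ContDiff

namespace Crest.Agent.R281.KpU_360

open Crest.Agent.R275.Geo Crest.Agent.R275.Core144 Crest.Agent.R275.EDR890
open Crest.Agent.R275.GC293
open Crest.Agent.R273.Defs_333 Crest.Agent.R273.Kah_333
open Crest.Agent.R273.Map_835 (HolMap)
open Crest.Agent.R273.PB_835 (LBih Ref pullLB)
open Crest.Agent.R260.ACM_580 Crest.Agent.R260.NNB_580
open Crest.Agent.R281.Defs_273
open Crest.Agent.R281.HkR_835 Crest.Agent.R281.Ti_846 Crest.Agent.R281.Dif_268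
open Crest.Agent.R281.Rk_599
open Crest.Agent.R281.NefO_476
open Crest.Agent.R281.Nef_252
open Crest.Agent.R281.RkD_902
open Crest.Agent.R281.PL_713
open Crest.Agent.R281.Cdr_234 Crest.Agent.R281.Alg_998
open Crest.Agent.R281.Kd_22 (HTube PVan pvan_of_pvt kappa_main cls_pull)
open Crest.Agent.R281.Tub_831
open Crest.Agent.R281.Per_368 (SmI pull per)
open Crest.Agent.R281.Sk_474 (Rich)
open Crest.Agent.R281.Un_360 (QPsh Good IsSb refHM uniq_sections)
open Crest.Agent.R281.Kas_975 (fib restr)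

noncomputable section

/-- **THETA** -/
def ThetaP : Prop :=
  ∀ (n : ℕ) (M : Type) [TopologicalSpace M] [T2Space M] [CompactSpace M] [SimplyConnectedSpace M]
    (A : Atl (2 * n) M) [Finite A.ι], 1 ≤ n → GoodA A → ∀ (P : Part A) (K : Kah A) (σ : HSymp A),
    σ.Uniq → ∀ (L : LB A) (h : HM L), NefW K L → NonFlat L → Isotropic P σ L →
    ∀ (T : HTube A (Cn n) (Cn n)) (l : Fin (2 * n) → Cn n → Cn n),
    (∀ k, ContinuousOn (l k) T.Om) → (∀ b ∈ T.Om, LinearIndependent ℝ fun k => l k b) →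
    (∀ b ∈ T.Om, ∀ b' ∈ T.Om, ∀ c c', T.P (c, b) = T.P (c', b') ↔
      b = b' ∧ ∃ m : Fin (2 * n) → ℤ, c - c' = ∑ k, (m k : ℝ) • l k b) →
    (∀ b ∈ T.Om, ∀ c i, T.P (c, b) ∈ (A.e i).source → ∀ u v : Cn n,
      sb (σ.s i (T.P (c, b))) (fderiv ℂ (fun q => A.e i (T.P q)) (c, b) (u, 0))
        (fderiv ℂ (fun q => A.e i (T.P q)) (c, b) (v, 0)) = 0) →
    (∀ b ∈ T.Om, ∀ c j k, per (pull (Crest.Agent.R281.Nef_252.curK h).f2 T.P) (c, b) (l j b, 0) (l k b, 0) = 0) →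
    ∃ (Q : QPsh h) (Z : Set (Cn n × Cn n)), volume Z = 0 ∧
      ∀ z : Cn n × Cn n, z.1 ∈ T.Om → z ∉ Z → Nonempty (Good Q (fib T z.1) (T.P (z.2, z.1)))

/-- `Tub` of 831 in the form of the parameter of `RkD_902` -/
def TubU : TubTT := fun n _ _ _ _ _ C Q e H => Tub_831.Tub n C Q e H

section main

variable {n : ℕ} {X : Type} [TopologicalSpace X] [CompactSpace X] [T2Space X]
  [SimplyConnectedSpace X] {C : RCh (Cn (2 * n)) X} {Q : F2 C →ₗ[ℝ] F2 C →ₗ[ℝ] ℝ}
  {H : HkT C} {L0 : PL C} {e : F2 C}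

/-- **KAPPA-1 at a projective member, by the road UNIQ** -/
theorem rich_of_proj (hTh : ThetaP) (hX : Ctx n C Q) (hG : Given Q H L0 e)
    (hnef : NefC (ofHk H 0) (H.om 0) e) (hTub : Tub_831.Tub n C Q e H) (p : Pres n H L0)
    {A' : Atl (2 * n) X} (hA' : Cp (H.acm 0) A') (hfin : Finite A'.ι) (PA' : Part A')
    (R' : Ref A' p.A id) (hl : LBih A' p.A id) (hl' : LBih p.A A' id) (P : ProjD A') :
    Rich p.A p.L := by
  have _ : Finite p.A.ι := p.fin
  obtain ⟨hU, hN, hNF, hI⟩ := Crest.Agent.R281.SkM_474.mem_hyp hX hG hnef p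
  obtain ⟨D, Ψ, l, τ, hΨ, hPV⟩ := hTub
  have hn := hX.n1
  have hF : Nontrivial (Cn n) := by
    have : Nonempty (Fin n) := ⟨⟨0, hn⟩⟩
    infer_instance
  have hJ : JC C (H.J 0) p.A := JC.of_cp p.cp
  let T := tubOf hΨ hJ
  have hcl := Crest.Agent.R281.Kd_22.pres_cls hG.lnk p
  have hper := Crest.Agent.R281.Gu_877.per_zero p.cp p.h hcl hG.ee hΨ hPV T Subset.rfl
    fun _ _ _ => rfl
  have heq : ∀ b ∈ T.Om, ∀ b' ∈ T.Om, ∀ c c', T.P (c, b) = T.P (c', b') ↔
      b = b' ∧ ∃ m : Fin (2 * n) → ℤ, c - c' = ∑ k, (m k : ℝ) • l k b :=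
    fun b hb b' hb' c c' => hΨ.eq_iff b hb b' hb' c c'
  obtain ⟨Qp, Z, hZ, hgood⟩ := hTh n X p.A hn p.good p.P (H.kah p.cp) (H.sig p.cp) hU p.L p.h hN
    hNF hI T l (fun k => (hΨ.lhol k).continuousOn) hΨ.lli heq (Crest.Agent.R281.Gu_877.lag p.cp hΨ T Subset.rfl fun _ _ _ => rfl) hper
  -- the projective refinement
  have hid := hl.toHolMap
  have hid' := hl'.toHolMap
  let T' : HTube A' (Cn n) (Cn n) := T.change hid hid'
  let h' := refHM hid R' p.h
  have hcl' : Ex ((Crest.Agent.R281.Nef_252.curK h').f2 - (cmp_of_cp hA').F (Real.pi • e)) :=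
    cls_pull p.cp hA' hid hid' R' p.h (w := Real.pi • e) hcl
  have hper' := Crest.Agent.R281.Gu_877.per_zero hA' h' (c₀ := Real.pi) hcl' hG.ee hΨ hPV T'
    Subset.rfl fun _ _ _ => rfl
  have hsb : ∀ b ∈ T'.Om, IsSb A' n (pullLB hid R' p.L) (fib T' b) :=
    Crest.Agent.R281.Sbt_530.isSb_fib h' T' l hΨ.lli heq hper'
  obtain ⟨b₁, hb₁⟩ := hΨ.ne
  have hfr : finrank ℂ (Cn n) = n := by simp
  have _ : (volume : Measure (Cn n × Cn n)).IsAddHaarMeasure := by
    rw [Measure.volume_eq_prod]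
    exact Measure.prod.instIsAddHaarMeasure _ _
  have hmain := uniq_sections Crest.Agent.R281.LogSm_911.logSm PA' P (Qp.ref hid R')
      (volume : Measure (Cn n × Cn n)) T'
      (fun b hb b' hb' c c' hcc => ((heq b hb b' hb' c c').1 hcc).1) hsb hZ
      (fun z hz hzZ => ⟨(hgood z hz hzZ).some.ref hid R'⟩) (b₁ := b₁) hb₁
  rw [hfr] at hmain
  obtain ⟨r, hr, hball, d, hd, s, hs, hcross, c₀, b₀, hb₀, hrk⟩ := hmain
  -- the end
  obtain ⟨i₀, hi₀⟩ := A'.cover (T'.P (c₀, b₀))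
  have hPV' : PVan Q e (restr T' Metric.isOpen_ball hball) :=
    pvan_of_pvt hΨ.sm (fun y hy k x => by
      refine (hΨ.eq_iff y hy y hy _ _).2 ⟨rfl, Pi.single k 1, ?_⟩
      rw [add_sub_cancel_left, Finset.sum_eq_single k]
      · simp
      · intro m _ hm
        simp [Pi.single_eq_of_ne hm]
      · intro h0
        exact absurd (Finset.mem_univ _) h0) hΨ.lli hPV _ hball fun p hp => rfl
  obtain ⟨a, ha, u, hu, -, hru⟩ := kappa_main hX hG hnef hA' h' Real.pi_pos hcl'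
    (restr T' Metric.isOpen_ball hball) ⟨b₁, Metric.mem_ball_self hr⟩ (by simp; omega) hPV' hn hs
    (hrk i₀ hi₀) (fun j c c' b hb i i' hi hi' => hcross j c c' b hb i i' hi hi')
  exact Crest.Agent.R281.Pjx_648.rich_ref hid hid' R' ⟨a, ha, u, hu, i₀, _, hru⟩

end main

/-- **KAPPA-1 by the road UNIQ** -/
theorem kappaU (Alg : AlgTT) (hTh : ThetaP) : KappaP Alg TubU := by
  intro n X _ _ _ _ C Q hX H0 L0 e hG0 B R x hD hE hnef hTub p
  obtain ⟨A', hA', hfin, ⟨PA'⟩, ⟨R'⟩, hl, hl', ⟨P⟩⟩ := exists_proj hX hE p.cp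
  exact rich_of_proj hTh hX (given_box' hX hG0 B R.aB hD) hnef hTub p hA' hfin PA' R' hl hl' P

end

end Crest.Agent.R281.KpU_360
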