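import Crest.Agent.R281.LEnd2_10

/-!
# R281 (S0424), S6-L2END (helper10), part 3: local lower bound of the `L²` norm

`lowerB` : `∫_{B(p,s)} |y|² ≤ D⁻¹ ‖y‖²` if the metric is `≥ D` on the ball (410's argument, any
metric).
-/

set_option autoImplicit false
set_option linter.unusedSectionVars false

open Set Filter Topology Complex MeasureTheory Metric
open scoped ContDiff Matrix ComplexConjugate Kronecker ComplexOrder ENNReal

namespace Crest.Agent.R281.LEnd_10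

open Crest.Agent.R275 Crest.Agent.R275.Geo Crest.Agent.R275.Core144 Crest.Agent.R275.Dg199
open Crest.Agent.R275.C1d194 Crest.Agent.R275.Pai323
open Crest.Agent.R275.SerG398 (lint dens)
open Crest.Agent.R273.Defs_333 Crest.Agent.R273.HM_333 Crest.Agent.R273.Kah_333
open Crest.Agent.R273.Fock_243 Crest.Agent.R273.Pos_243
open Crest.Agent.R273.LamN127 Crest.Agent.R273.NormC_505 Crest.Agent.R273.DnInt_505
open Crest.Agent.R273.DVec_733 Crest.Agent.R273.DMet_733 Crest.Agent.R273.Mol_106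
open Crest.Agent.R273.HDN_505 (HB HB_pos)
open Crest.Agent.R273.Lim_505
open Crest.Agent.R273.SteinM_794 (kap kap_eq mp_kap me_kap)
open Crest.Agent.R272.Kod2_410 Crest.Agent.R272.Kod3_410
open Crest.Agent.R272.Kod5_410 (Yf hd_zero_le)

noncomputable section

variable {n : ℕ} {M : Type} [TopologicalSpace M] {A : Atl n M} {N : LB A}

variable [T2Space M] [CompactSpace M] [Finite A.ι] (P : Part A) (K : Kah A)
  {p : M} {i0 : A.ι}

theorem lowerB (N : LB A) (hp : p ∈ (A.e i0).source) {W' : Set M} (hW' : IsOpen W')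
    (hpW' : p ∈ W') :
    ∃ r : ℝ, 0 < r ∧
      (∀ ζ ∈ closedBall (WithLp.ofLp (A.e i0 p)) r, WithLp.toLp 2 ζ ∈ (A.e i0).target ∧
        (A.e i0).symm (WithLp.toLp 2 ζ) ∈ W') ∧
      ∀ (h : HM ((KB A)⁻¹ * N)) (D s : ℝ), 0 < s → s ≤ r → 0 < D →
        (∀ ζ ∈ closedBall (WithLp.ofLp (A.e i0 p)) s,
          D ≤ h.w i0 ((A.e i0).symm (WithLp.toLp 2 ζ))) →
        ∀ y : Sec (BN N), ∫⁻ ζ in closedBall (WithLp.ofLp (A.e i0 p)) s, ‖Yf i0 y.1 ζ‖ₑ ^ 2 ≤
          ENNReal.ofReal (D⁻¹ * (HB K h).sn P y ^ 2) := by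
  obtain ⟨χ, hχ, hχ1, hχs, hχc, hχ0, hχ2⟩ := exists_bump A ((A.e i0).open_source.mem_nhds hp)
  have ev : ∀ᶠ q in 𝓝 p, χ q = 1 ∧ q ∈ W' := hχ1.and (hW'.eventually_mem hpW')
  have ev2 : ∀ᶠ ζ in 𝓝 (WithLp.ofLp (A.e i0 p)), WithLp.toLp 2 ζ ∈ (A.e i0).target ∧
      (χ ((A.e i0).symm (WithLp.toLp 2 ζ)) = 1 ∧ (A.e i0).symm (WithLp.toLp 2 ζ) ∈ W') := by
    have h1 : Tendsto (fun ζ : Fin n → ℂ => (WithLp.toLp 2 ζ : Cn n))
        (𝓝 (WithLp.ofLp (A.e i0 p))) (𝓝 (A.e i0 p)) := by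
      have := (PiLp.continuous_toLp 2 (fun _ : Fin n => ℂ)).continuousAt
        (x := WithLp.ofLp (A.e i0 p))
      exact this
    exact h1.eventually (((A.e i0).open_target.eventually_mem ((A.e i0).map_source hp)).and
      (ev_symm hp ev))
  obtain ⟨r, hr, hrb⟩ := Metric.eventually_nhds_iff_ball.1 ev2
  have hcb : closedBall (WithLp.ofLp (A.e i0 p)) (r / 2) ⊆ ball (WithLp.ofLp (A.e i0 p)) r :=
    closedBall_subset_ball (by linarith)
  refine ⟨r / 2, by positivity, fun ζ hζ => ⟨(hrb ζ (hcb hζ)).1, (hrb ζ (hcb hζ)).2.2⟩, ?_⟩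
  intro h D s hs hsr hD0 hDw y
  have hsub : closedBall (WithLp.ofLp (A.e i0 p)) s ⊆ ball (WithLp.ofLp (A.e i0 p)) r :=
    (closedBall_subset_closedBall hsr).trans hcb
  -- the localised density
  have hdn : IsDn A ((HB K h).hd y.1 y.1) := (HB K h).isDn y.2 y.2
  have hχC : A.Sm (fun x => (χ x : ℂ)) := sm_iff.2 fun q => (hχ q).ofReal
  have hf : IsDn A (fun i x => (χ x : ℂ) * (HB K h).hd y.1 y.1 i x) := hdn.fmul hχC
  have hnn : ∀ i, ∀ x ∈ (A.e i).source, 0 ≤ ((HB K h).hd y.1 y.1 i x).re := fun i x hx =>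
    (Complex.le_def.1 ((HB K h).hd_self_nonneg y.1 hx)).1
  have hmono : (IntP P (fun i x => (χ x : ℂ) * (HB K h).hd y.1 y.1 i x)).re ≤
      (HB K h).sn P y ^ 2 := by
    rw [HDen.sn_sq]
    refine IntP_re_mono P hf hdn fun i x hx => ?_
    rw [Complex.re_ofReal_mul]
    have := mul_le_mul_of_nonneg_right (hχ2 x) (hnn i x hx)
    linarith
  have hz0 : ∀ i, ∀ x ∈ (A.e i).source, x ∉ tsupport χ →
      (χ x : ℂ) * (HB K h).hd y.1 y.1 i x = 0 := fun i x _ hx => by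
    rw [image_eq_zero_of_notMem_tsupport hx, Complex.ofReal_zero, zero_mul]
  rw [IntP_loc P hf hχc hχs hz0] at hmono
  have hcc : CC A i0 (fun x => (χ x : ℂ) * (HB K h).hd y.1 y.1 i0 x) :=
    CC.of_zero_off (hf.sm i0) hχc hχs fun x hx => by
      rw [image_eq_zero_of_notMem_tsupport hx, Complex.ofReal_zero, zero_mul]
  rw [lint_re i0 hcc.integrable] at hmono
  set G : (RI n → ℝ) → ℂ := rd A i0 (fun x => (χ x : ℂ) * (HB K h).hd y.1 y.1 i0 x) with hG
  have hGnn : ∀ x, 0 ≤ (G x).re := by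
    intro x
    by_cases hx : x ∈ Ui A i0
    · rw [hG, C1d194.rd_of_mem hx, Complex.re_ofReal_mul]
      exact mul_nonneg (hχ0 _) (hnn i0 _ ((A.e i0).map_target hx))
    · rw [hG, C1d194.rd_off hx]
      simp
  have hGint : Integrable (fun x => (G x).re) := hcc.integrable.re
  have h1 : ENNReal.ofReal (∫ x, (G x).re) = ∫⁻ x, ENNReal.ofReal (G x).re :=
    ofReal_integral_eq_lintegral_ofReal hGint (Eventually.of_forall hGnn)
  have h2 : ENNReal.ofReal D * ∫⁻ ζ in closedBall (WithLp.ofLp (A.e i0 p)) s,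
      ‖Yf i0 y.1 ζ‖ₑ ^ 2 ≤ ENNReal.ofReal (∫ x, (G x).re) := by
    rw [h1, ← lintegral_const_mul' _ _ ENNReal.ofReal_ne_top,
      ← (mp_kap n).setLIntegral_comp_preimage_emb (me_kap n)]
    refine (setLIntegral_mono' ?_ fun x hx => ?_).trans (setLIntegral_le_lintegral _ _)
    · exact (mp_kap n).measurable measurableSet_closedBall
    · have hx' : kap x ∈ closedBall (WithLp.ofLp (A.e i0 p)) s := hx
      obtain ⟨hxt, hx1, hx2⟩ := hrb (kap x) (hsub hx')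
      have hx4 := hDw (kap x) hx'
      have hcx : (WithLp.toLp 2 (kap x) : Cn n) = cc x := by
        rw [kap_eq]
      rw [hcx] at hxt hx1 hx2 hx4
      have hxU : x ∈ Ui A i0 := hxt
      rw [hG, C1d194.rd_of_mem hxU, Complex.re_ofReal_mul, hx1, one_mul]
      have hsrc := (A.e i0).map_target hxt
      have h3 := hd_zero_le K h y.1 hsrc
      have h8 : ‖Yf i0 y.1 (kap x)‖ₑ ^ 2 =
          ENNReal.ofReal (‖oB (y.1 i0 ((A.e i0).symm (cc x))) ∅‖ ^ 2) := by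
        rw [← hcx, ENNReal.ofReal_pow (norm_nonneg _), ofReal_norm]
        rfl
      rw [h8, ← ENNReal.ofReal_mul hD0.le]
      refine ENNReal.ofReal_le_ofReal (le_trans ?_ h3)
      exact mul_le_mul_of_nonneg_right hx4 (sq_nonneg _)
  have h3 : ENNReal.ofReal D * ∫⁻ ζ in closedBall (WithLp.ofLp (A.e i0 p)) s,
      ‖Yf i0 y.1 ζ‖ₑ ^ 2 ≤ ENNReal.ofReal ((HB K h).sn P y ^ 2) :=
    h2.trans (ENNReal.ofReal_le_ofReal hmono)
  have h4 : ∫⁻ ζ in closedBall (WithLp.ofLp (A.e i0 p)) s, ‖Yf i0 y.1 ζ‖ₑ ^ 2 =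
      ENNReal.ofReal D⁻¹ * (ENNReal.ofReal D *
        ∫⁻ ζ in closedBall (WithLp.ofLp (A.e i0 p)) s, ‖Yf i0 y.1 ζ‖ₑ ^ 2) := by
    rw [← mul_assoc, ← ENNReal.ofReal_mul (by positivity), inv_mul_cancel₀ hD0.ne',
      ENNReal.ofReal_one, one_mul]
  rw [h4]
  refine (mul_le_mul_right h3 _).trans ?_
  rw [← ENNReal.ofReal_mul (by positivity)]

end

end Crest.Agent.R281.LEnd_10
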