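import Crest.Agent.R281.Qp1_911

/-!
# R281 (S0424), KAPPA-1 / UNIQ, QPSH-L1 (helper196), file 1: `L¹` compactness, local form

* `ker δ`        : radial Lipschitz kernel `max 0 (1 - ‖y‖/δ)`; `cst μ δ` its integral;
* `sm μ δ U`     : the mollification `cst⁻¹ ∫ ker δ (x - z) U x`; `sm_lip`, `sm_bdd`;
* `sm_err`       : `|∫ ζ (sm U - U)| ≤ L δ ∫ |U|` for `L`-Lipschitz `ζ`;
* `Sm2.l1_err`   : `u` smooth psh near `closedBall z0 (3R)`: `∫_{B(z0,R)} |sm u - u| ≤ (δ/R) ∫_{B(z0,3R)} |u|`;
* `exists_sub`   : equi-Lipschitz, bounded families: a subsequence converging everywhere (all scales);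
* `l1_sub`       : `u k` smooth psh near `closedBall z0 (3R)`, `∫_{B(z0,3R)} |u k| ≤ C`: a subsequence
                   is Cauchy in `L¹ (B(z0,R))`.
-/

set_option autoImplicit false
set_option linter.unusedSectionVars false

open Set Filter Topology Metric MeasureTheory
open scoped ContDiff

noncomputable section

namespace Crest.Agent.R281.Lc_196

open Crest.Agent.R281.Qp1_911

section ker

variable {E : Type*} [NormedAddCommGroup E]

/-- radial Lipschitz kernel -/
def ker (δ : ℝ) (y : E) : ℝ := max 0 (1 - ‖y‖ / δ)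

theorem ker_nonneg (δ : ℝ) (y : E) : 0 ≤ ker δ y := le_max_left _ _

theorem ker_le_one {δ : ℝ} (hδ : 0 < δ) (y : E) : ker δ y ≤ 1 :=
  max_le zero_le_one (by have := div_nonneg (norm_nonneg y) hδ.le; linarith)

theorem ker_eq_zero {δ : ℝ} (hδ : 0 < δ) {y : E} (hy : δ ≤ ‖y‖) : ker δ y = 0 := by
  apply max_eq_left
  have : 1 ≤ ‖y‖ / δ := (one_le_div hδ).2 hy
  linarith

theorem ker_zero (δ : ℝ) : ker δ (0 : E) = 1 := by simp [ker]

theorem ker_lip {δ : ℝ} (hδ : 0 < δ) (y y' : E) : |ker δ y - ker δ y'| ≤ ‖y - y'‖ / δ := by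
  unfold ker
  rw [max_comm (0 : ℝ), max_comm (0 : ℝ)]
  refine (abs_max_sub_max_le_abs (1 - ‖y‖ / δ) (1 - ‖y'‖ / δ) 0).trans ?_
  have h1 : 1 - ‖y‖ / δ - (1 - ‖y'‖ / δ) = (‖y'‖ - ‖y‖) / δ := by ring
  rw [h1, abs_div, abs_of_pos hδ]
  gcongr
  rw [abs_sub_comm]
  exact abs_norm_sub_norm_le y y'

theorem ker_neg (δ : ℝ) (y : E) : ker δ (-y) = ker δ y := by simp [ker]

theorem continuous_ker (δ : ℝ) : Continuous (ker δ : E → ℝ) := by
  unfold ker; fun_prop

theorem hasCompactSupport_ker [ProperSpace E] {δ : ℝ} (hδ : 0 < δ) :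
    HasCompactSupport (ker δ : E → ℝ) := by
  refine HasCompactSupport.intro (isCompact_closedBall (0 : E) δ) fun y hy => ?_
  apply ker_eq_zero hδ
  simp only [mem_closedBall, dist_zero_right, not_le] at hy
  exact hy.le

end ker

section sm

variable {E : Type*} [NormedAddCommGroup E] [NormedSpace ℝ E] [FiniteDimensional ℝ E]
  [MeasurableSpace E] [BorelSpace E] (μ : Measure E) [μ.IsAddHaarMeasure]

theorem integrable_ker {δ : ℝ} (hδ : 0 < δ) : Integrable (ker δ : E → ℝ) μ := by
  have : ProperSpace E := FiniteDimensional.proper ℝ E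
  exact (continuous_ker δ).integrable_of_hasCompactSupport (hasCompactSupport_ker hδ)

/-- the integral of the kernel -/
def cst (δ : ℝ) : ℝ := ∫ y, (ker δ y : ℝ) ∂μ

theorem cst_pos {δ : ℝ} (hδ : 0 < δ) : 0 < cst μ δ := by
  unfold cst
  exact (continuous_ker δ).integral_pos_of_hasCompactSupport_nonneg_nonzero
    (by
      have : ProperSpace E := FiniteDimensional.proper ℝ E
      exact hasCompactSupport_ker hδ) (ker_nonneg δ) (x := 0) (by rw [ker_zero]; exact one_ne_zero)

theorem cst_eq {δ : ℝ} (x : E) : ∫ z, (ker δ (x - z) : ℝ) ∂μ = cst μ δ :=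
  integral_sub_left_eq_self (fun y => (ker δ y : ℝ)) μ x

/-- mollification -/
def sm (δ : ℝ) (U : E → ℝ) (z : E) : ℝ := (cst μ δ)⁻¹ * ∫ x, ker δ (x - z) * U x ∂μ

variable {μ}

theorem integrable_ker_mul {δ : ℝ} (hδ : 0 < δ) {U : E → ℝ} (hU : Integrable U μ) (z : E) :
    Integrable (fun x => ker δ (x - z) * U x) μ := by
  refine hU.bdd_mul (c := 1) ((continuous_ker δ).comp (by fun_prop)).aestronglyMeasurable ?_
  refine Eventually.of_forall fun x => ?_
  rw [Real.norm_eq_abs, abs_of_nonneg (ker_nonneg _ _)]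
  exact ker_le_one hδ _

theorem sm_lip {δ : ℝ} (hδ : 0 < δ) {U : E → ℝ} (hU : Integrable U μ) (z z' : E) :
    |sm μ δ U z - sm μ δ U z'| ≤ (cst μ δ)⁻¹ * (‖z - z'‖ / δ * ∫ x, |U x| ∂μ) := by
  unfold sm
  rw [← mul_sub, ← integral_sub (integrable_ker_mul hδ hU z) (integrable_ker_mul hδ hU z'), abs_mul,
    abs_of_pos (inv_pos.2 (cst_pos μ hδ))]
  gcongr
  · exact (inv_pos.2 (cst_pos μ hδ)).le
  rw [← integral_const_mul]
  refine (abs_integral_le_integral_abs).trans ?_
  refine integral_mono_of_nonneg (Eventually.of_forall fun x => abs_nonneg _)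
    (hU.abs.const_mul _) (Eventually.of_forall fun x => ?_)
  simp only
  rw [← sub_mul, abs_mul]
  gcongr
  refine (ker_lip hδ _ _).trans_eq ?_
  congr 1
  rw [← norm_neg]
  congr 1
  abel

theorem sm_bdd {δ : ℝ} (hδ : 0 < δ) {U : E → ℝ} (hU : Integrable U μ) (z : E) :
    |sm μ δ U z| ≤ (cst μ δ)⁻¹ * ∫ x, |U x| ∂μ := by
  unfold sm
  rw [abs_mul, abs_of_pos (inv_pos.2 (cst_pos μ hδ))]
  gcongr
  · exact (inv_pos.2 (cst_pos μ hδ)).le
  refine (abs_integral_le_integral_abs).trans ?_
  refine integral_mono_of_nonneg (Eventually.of_forall fun x => abs_nonneg _)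
    hU.abs (Eventually.of_forall fun x => ?_)
  simp only
  rw [abs_mul, abs_of_nonneg (ker_nonneg _ _)]
  exact mul_le_of_le_one_left (abs_nonneg _) (ker_le_one hδ _)

theorem sm_continuous {δ : ℝ} (hδ : 0 < δ) {U : E → ℝ} (hU : Integrable U μ) :
    Continuous (sm μ δ U) := by
  have hL : LipschitzWith (Real.toNNReal ((cst μ δ)⁻¹ * (1 / δ * ∫ x, |U x| ∂μ))) (sm μ δ U) := by
    refine LipschitzWith.of_dist_le_mul fun z z' => ?_
    rw [Real.coe_toNNReal _ (by
      have := (inv_pos.2 (cst_pos μ hδ)).le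
      have h2 : 0 ≤ ∫ x, |U x| ∂μ := integral_nonneg fun x => abs_nonneg _
      positivity), Real.dist_eq, dist_eq_norm]
    refine (sm_lip hδ hU z z').trans_eq ?_
    ring
  exact hL.continuous

/-- the error of the mollification against Lipschitz test functions -/
theorem sm_err {δ L : ℝ} (hδ : 0 < δ) {U ζ : E → ℝ} (hU : Integrable U μ) (hζ : Continuous ζ)
    (hζc : HasCompactSupport ζ) (hL : ∀ x y, |ζ x - ζ y| ≤ L * ‖x - y‖) (hL0 : 0 ≤ L) :
    |(∫ z, ζ z * sm μ δ U z ∂μ) - ∫ z, ζ z * U z ∂μ| ≤ L * δ * ∫ x, |U x| ∂μ := by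
  have hc := cst_pos μ hδ
  have hζi : Integrable ζ μ := hζ.integrable_of_hasCompactSupport hζc
  -- Fubini
  have hF : Integrable (fun p : E × E => ζ p.1 * (ker δ (p.2 - p.1) * U p.2)) (μ.prod μ) := by
    have h1 : Integrable (fun p : E × E => ζ p.1 * U p.2) (μ.prod μ) := hζi.mul_prod hU
    have h2 := h1.bdd_mul (c := 1) (f := fun p : E × E => ker δ (p.2 - p.1))
      ((continuous_ker δ).comp (by fun_prop)).aestronglyMeasurable
      (Eventually.of_forall fun p => by
        rw [Real.norm_eq_abs, abs_of_nonneg (ker_nonneg _ _)]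
        exact ker_le_one hδ _)
    refine h2.congr (Eventually.of_forall fun p => ?_)
    simp only
    ring
  have h1 : ∫ z, ζ z * sm μ δ U z ∂μ =
      (cst μ δ)⁻¹ * ∫ x, (∫ z, ζ z * ker δ (x - z) ∂μ) * U x ∂μ := by
    have e1 : ∀ z, ζ z * sm μ δ U z = (cst μ δ)⁻¹ * ∫ x, ζ z * (ker δ (x - z) * U x) ∂μ := by
      intro z
      rw [integral_const_mul]
      unfold sm
      ring
    simp_rw [e1]
    rw [integral_const_mul, integral_integral_swap hF]
    congr 1
    refine integral_congr_ae (Eventually.of_forall fun x => ?_)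
    simp only
    rw [← integral_mul_const]
    refine integral_congr_ae (Eventually.of_forall fun z => ?_)
    simp only
    ring
  have hkz : ∀ x, Integrable (fun z => ker δ (x - z)) μ := fun x =>
    (integrable_ker μ hδ).comp_sub_left x
  have hζk : ∀ x, Integrable (fun z => ζ z * ker δ (x - z)) μ := by
    intro x
    have := hζi.bdd_mul (c := 1) (f := fun z => ker δ (x - z))
      ((continuous_ker δ).comp (by fun_prop)).aestronglyMeasurable
      (Eventually.of_forall fun z => by
        rw [Real.norm_eq_abs, abs_of_nonneg (ker_nonneg _ _)]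
        exact ker_le_one hδ _)
    refine this.congr (Eventually.of_forall fun z => ?_)
    simp only
    ring
  have h2 : ∀ x, |(cst μ δ)⁻¹ * (∫ z, ζ z * ker δ (x - z) ∂μ) - ζ x| ≤ L * δ := by
    intro x
    have e1 : ζ x = (cst μ δ)⁻¹ * ∫ z, ζ x * ker δ (x - z) ∂μ := by
      rw [integral_const_mul, cst_eq]
      field_simp
    have e3 : (cst μ δ)⁻¹ * (∫ z, ζ z * ker δ (x - z) ∂μ) - ζ x =
        (cst μ δ)⁻¹ * ∫ z, ζ z * ker δ (x - z) - ζ x * ker δ (x - z) ∂μ := by
      rw [integral_sub (hζk x) ((hkz x).const_mul _), mul_sub, ← e1]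
    rw [e3, abs_mul, abs_of_pos (inv_pos.2 hc)]
    have e2 : |∫ z, ζ z * ker δ (x - z) - ζ x * ker δ (x - z) ∂μ| ≤ L * δ * cst μ δ := by
      refine (abs_integral_le_integral_abs).trans ?_
      rw [← cst_eq μ x, ← integral_const_mul]
      refine integral_mono_of_nonneg (Eventually.of_forall fun z => abs_nonneg _)
        ((hkz x).const_mul _) (Eventually.of_forall fun z => ?_)
      simp only
      rw [← sub_mul, abs_mul, abs_of_nonneg (ker_nonneg _ _)]
      by_cases hz : δ ≤ ‖x - z‖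
      · rw [ker_eq_zero hδ hz]; simp
      · push Not at hz
        gcongr
        · exact ker_nonneg _ _
        · refine (hL z x).trans ?_
          gcongr
          rw [norm_sub_rev]
          exact hz.le
    calc (cst μ δ)⁻¹ * |∫ z, ζ z * ker δ (x - z) - ζ x * ker δ (x - z) ∂μ|
        ≤ (cst μ δ)⁻¹ * (L * δ * cst μ δ) := by gcongr
      _ = L * δ := by field_simp
  -- the map x ↦ ∫ ζ z ker (x - z) is bounded and measurable
  have hIx : Integrable (fun x => (∫ z, ζ z * ker δ (x - z) ∂μ) * U x) μ := by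
    have := hF.integral_prod_right
    refine this.congr (Eventually.of_forall fun x => ?_)
    simp only
    rw [← integral_mul_const]
    refine integral_congr_ae (Eventually.of_forall fun z => ?_)
    simp only
    ring
  have hζU : Integrable (fun x => ζ x * U x) μ := by
    obtain ⟨Cζ, hCζ⟩ := hζc.exists_bound_of_continuous hζ
    exact hU.bdd_mul (c := Cζ) hζ.aestronglyMeasurable (Eventually.of_forall hCζ)
  rw [h1, ← integral_const_mul, ← integral_sub (hIx.const_mul _) hζU]
  refine (abs_integral_le_integral_abs).trans ?_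
  rw [← integral_const_mul]
  refine integral_mono_of_nonneg (Eventually.of_forall fun z => abs_nonneg _)
    (hU.abs.const_mul _) (Eventually.of_forall fun x => ?_)
  simp only
  rw [← mul_assoc, ← sub_mul, abs_mul]
  gcongr
  exact h2 x

end sm

end Crest.Agent.R281.Lc_196
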