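import Crest.Agent.R281.Lc1_196

/-!
# R281 (S0424), KAPPA-1 / UNIQ, QPSH-L1 (helper196), file 2: `L¹` compactness, local form

* `Sm2.le_sm`    : `u ≤ sm u`;
* `Sm2.l1_err`   : `u` smooth psh near `closedBall z0 (3R)`: `∫_{B(z0,R)} |sm u - u| ≤ (δ/R) ∫_{B(z0,3R)} |u|`;
* `exists_sub`   : equi-Lipschitz, bounded families: a subsequence converging everywhere (all scales);
* `l1_sub`       : `u k` smooth psh near `closedBall z0 (3R)`, `∫_{B(z0,3R)} |u k| ≤ C`: a subsequence
                   is Cauchy in `L¹ (B(z0,R))`.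
-/

set_option autoImplicit false
set_option linter.unusedSectionVars false

open Set Filter Topology Metric MeasureTheory
open scoped ContDiff

noncomputable section

namespace Crest.Agent.R281.Lc_196

open Crest.Agent.R281.Qp1_911

section err

variable {E : Type*} [NormedAddCommGroup E] [NormedSpace ℂ E] [NormedSpace ℝ E]
  [IsScalarTower ℝ ℂ E] [FiniteDimensional ℝ E] [MeasurableSpace E] [BorelSpace E]
  {μ : Measure E} [μ.IsAddHaarMeasure]

theorem le_sm {u : E → ℝ} {z : E} {δ : ℝ} (hδ : 0 < δ) (hu : Sm2 (closedBall z δ) u) {U : E → ℝ}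
    (hU : ∀ x ∈ ball z δ, U x = u x) : u z ≤ sm μ δ U z := by
  have h1 := core_id_w (μ := μ) hu (continuous_ker δ) (ker_nonneg δ)
    (fun c y hc => by simp [ker, norm_smul, hc])
  have h2 : ∫ y in ball (0 : E) δ, (ker δ y : ℝ) ∂μ = cst μ δ :=
    setIntegral_eq_integral_of_forall_compl_eq_zero fun y hy => by
      apply ker_eq_zero hδ
      simpa using hy
  have h3 : ∫ x, ker δ (x - z) * U x ∂μ = ∫ y in ball (0 : E) δ, ker δ y * u (z + y) ∂μ := by
    rw [← integral_add_left_eq_self (fun x => ker δ (x - z) * U x) z]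
    rw [← setIntegral_eq_integral_of_forall_compl_eq_zero (s := ball (0 : E) δ)]
    · refine setIntegral_congr_fun measurableSet_ball fun y hy => ?_
      simp only [add_sub_cancel_left]
      rw [hU]
      simpa using hy
    · intro y hy
      simp only [add_sub_cancel_left]
      rw [ker_eq_zero hδ (by simpa using hy), zero_mul]
  unfold sm
  rw [h3]
  rw [h2] at h1
  have hc := cst_pos μ hδ
  rw [← div_eq_inv_mul, le_div_iff₀ hc, mul_comm]
  exact h1

/-- the cut-off -/
def zt (z0 : E) (R : ℝ) (z : E) : ℝ := max 0 (min 1 (2 - ‖z - z0‖ / R))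

theorem zt_nonneg (z0 : E) (R : ℝ) (z : E) : 0 ≤ zt z0 R z := le_max_left _ _

theorem zt_one {z0 : E} {R : ℝ} (hR : 0 < R) {z : E} (hz : ‖z - z0‖ ≤ R) : zt z0 R z = 1 := by
  unfold zt
  have h1 : ‖z - z0‖ / R ≤ 1 := (div_le_one hR).2 hz
  rw [min_eq_left (by linarith), max_eq_right zero_le_one]

theorem zt_zero {z0 : E} {R : ℝ} (hR : 0 < R) {z : E} (hz : 2 * R ≤ ‖z - z0‖) : zt z0 R z = 0 := by
  unfold zt
  have h1 : 2 ≤ ‖z - z0‖ / R := (le_div_iff₀ hR).2 hz
  exact max_eq_left ((min_le_right _ _).trans (by linarith))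

theorem zt_lip {z0 : E} {R : ℝ} (hR : 0 < R) (x y : E) :
    |zt z0 R x - zt z0 R y| ≤ 1 / R * ‖x - y‖ := by
  unfold zt
  rw [max_comm (0 : ℝ), max_comm (0 : ℝ)]
  refine (abs_max_sub_max_le_abs _ _ 0).trans ?_
  rw [min_comm (1 : ℝ), min_comm (1 : ℝ)]
  refine (abs_inf_sub_inf_le_abs _ _ 1).trans ?_
  have h1 : 2 - ‖x - z0‖ / R - (2 - ‖y - z0‖ / R) = (‖y - z0‖ - ‖x - z0‖) / R := by ring
  rw [h1, abs_div, abs_of_pos hR, one_div, ← div_eq_inv_mul]
  gcongr
  refine (abs_norm_sub_norm_le _ _).trans_eq ?_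
  rw [← norm_neg]
  congr 1
  abel

theorem continuous_zt (z0 : E) (R : ℝ) : Continuous (zt z0 R) := by
  unfold zt; fun_prop

theorem hasCompactSupport_zt {z0 : E} {R : ℝ} (hR : 0 < R) : HasCompactSupport (zt z0 R) := by
  have : ProperSpace E := FiniteDimensional.proper ℝ E
  refine HasCompactSupport.intro (isCompact_closedBall z0 (2 * R)) fun y hy => ?_
  apply zt_zero hR
  simp only [mem_closedBall, not_le, dist_eq_norm] at hy
  exact hy.le

theorem integrable_ind {u : E → ℝ} {z0 : E} {r : ℝ} (hu : ContinuousOn u (closedBall z0 r)) :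
    Integrable (indicator (ball z0 r) u) μ := by
  have : ProperSpace E := FiniteDimensional.proper ℝ E
  rw [integrable_indicator_iff measurableSet_ball]
  exact (hu.integrableOn_compact (isCompact_closedBall z0 r)).mono_set ball_subset_closedBall

theorem l1_err {u : E → ℝ} {z0 : E} {R δ : ℝ} (hR : 0 < R) (hδ : 0 < δ) (hδR : δ ≤ R)
    (hu : Sm2 (closedBall z0 (3 * R)) u) :
    ∫ x in ball z0 R, |sm μ δ (indicator (ball z0 (3 * R)) u) x - u x| ∂μ ≤
      δ / R * ∫ x in ball z0 (3 * R), |u x| ∂μ := by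
  set U := indicator (ball z0 (3 * R)) u with hUd
  have hUi : Integrable U μ := integrable_ind hu.continuousOn
  have hUe : ∀ z ∈ ball z0 (3 * R), U z = u z := fun z hz => indicator_of_mem hz _
  have hsub : ∀ z ∈ ball z0 (2 * R), u z ≤ sm μ δ U z := by
    intro z hz
    rw [mem_ball] at hz
    refine le_sm hδ (hu.mono (closedBall_subset_closedBall' (by linarith))) fun x hx => hUe x ?_
    rw [mem_ball] at hx ⊢
    linarith [dist_triangle x z z0]
  have hs : Continuous (sm μ δ U) := sm_continuous hδ hUi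
  have hi1 : Integrable (fun z => zt z0 R z * sm μ δ U z) μ :=
    ((continuous_zt z0 R).mul hs).integrable_of_hasCompactSupport
      ((hasCompactSupport_zt hR).mul_right)
  have hi2 : Integrable (fun z => zt z0 R z * U z) μ :=
    hUi.bdd_mul (c := 1) (continuous_zt z0 R).aestronglyMeasurable (Eventually.of_forall fun z => by
      rw [Real.norm_eq_abs, abs_of_nonneg (zt_nonneg _ _ _)]
      exact max_le zero_le_one (min_le_left _ _))
  have hnn : ∀ z, 0 ≤ zt z0 R z * sm μ δ U z - zt z0 R z * U z := by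
    intro z
    rw [← mul_sub]
    by_cases hz : z ∈ ball z0 (2 * R)
    · refine mul_nonneg (zt_nonneg _ _ _) ?_
      rw [hUe z (ball_subset_ball (by linarith) hz)]
      linarith [hsub z hz]
    · rw [zt_zero hR (by simpa [dist_eq_norm] using hz), zero_mul]
  calc ∫ x in ball z0 R, |sm μ δ U x - u x| ∂μ
      = ∫ x in ball z0 R, (zt z0 R x * sm μ δ U x - zt z0 R x * U x) ∂μ := by
        refine setIntegral_congr_fun measurableSet_ball fun x hx => ?_
        have hx' : ‖x - z0‖ ≤ R := by
          rw [mem_ball, dist_eq_norm] at hx; exact hx.le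
        rw [zt_one hR hx', one_mul, one_mul, hUe x (ball_subset_ball (by linarith) hx),
          abs_of_nonneg]
        linarith [hsub x (ball_subset_ball (by linarith) hx)]
    _ ≤ ∫ x, (zt z0 R x * sm μ δ U x - zt z0 R x * U x) ∂μ :=
        setIntegral_le_integral (hi1.sub hi2) (Eventually.of_forall hnn)
    _ = (∫ z, zt z0 R z * sm μ δ U z ∂μ) - ∫ z, zt z0 R z * U z ∂μ := integral_sub hi1 hi2
    _ ≤ 1 / R * δ * ∫ x, |U x| ∂μ :=
        (le_abs_self _).trans (sm_err hδ hUi (continuous_zt z0 R) (hasCompactSupport_zt hR)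
          (zt_lip hR) (by positivity))
    _ = δ / R * ∫ x in ball z0 (3 * R), |u x| ∂μ := by
        have e1 : (fun x => |U x|) = indicator (ball z0 (3 * R)) fun x => |u x| := by
          funext x
          by_cases hx : x ∈ ball z0 (3 * R)
          · rw [indicator_of_mem hx, hUe x hx]
          · rw [indicator_of_notMem hx, hUd, indicator_of_notMem hx, abs_zero]
        rw [e1, integral_indicator measurableSet_ball]
        ring

/-- equi-Lipschitz and bounded families: a subsequence which converges everywhere, for all scales -/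
theorem exists_sub {w : ℕ → ℕ → E → ℝ} {C : ℕ → ℝ} (hb : ∀ j k z, |w j k z| ≤ C j)
    (hL : ∀ j k z z', |w j k z - w j k z'| ≤ C j * ‖z - z'‖) :
    ∃ s : ℕ → ℕ, StrictMono s ∧ ∃ W : ℕ → E → ℝ, ∀ j z,
      Tendsto (fun k => w j (s k) z) atTop (𝓝 (W j z)) := by
  have hC : ∀ j, 0 ≤ C j := fun j => (abs_nonneg _).trans (hb j 0 0)
  have hSc : IsCompact (Set.pi univ fun p : ℕ × ℕ => Icc (-C p.1) (C p.1)) :=
    isCompact_univ_pi fun p => isCompact_Icc
  obtain ⟨a, -, s, hs, hlim⟩ := hSc.tendsto_subseq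
    (x := fun (k : ℕ) (p : ℕ × ℕ) => w p.1 k (TopologicalSpace.denseSeq E p.2))
    (fun k p _ => abs_le.1 (hb _ _ _))
  have hlim' : ∀ j i, Tendsto (fun k => w j (s k) (TopologicalSpace.denseSeq E i)) atTop (𝓝 (a (j, i))) :=
    fun j i => (tendsto_pi_nhds.1 hlim) (j, i)
  refine ⟨s, hs, ?_⟩
  have hex : ∀ j z, ∃ y, Tendsto (fun k => w j (s k) z) atTop (𝓝 y) := by
    intro j z
    apply cauchySeq_tendsto_of_complete
    rw [Metric.cauchySeq_iff]
    intro ε hε
    obtain ⟨i, hi⟩ := (TopologicalSpace.denseRange_denseSeq E).exists_dist_lt z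
      (show 0 < ε / (4 * (C j + 1)) by have := hC j; positivity)
    have h1 : ∀ k, |w j (s k) z - w j (s k) (TopologicalSpace.denseSeq E i)| ≤ ε / 4 := by
      intro k
      refine (hL j (s k) z _).trans ?_
      rw [← dist_eq_norm]
      have h2 := hC j
      calc C j * dist z (TopologicalSpace.denseSeq E i) ≤ (C j + 1) * (ε / (4 * (C j + 1))) := by
            gcongr
            linarith
        _ = ε / 4 := by field_simp
    obtain ⟨N, hN⟩ := (Metric.cauchySeq_iff.1 (hlim' j i).cauchySeq) (ε / 4) (by positivity)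
    refine ⟨N, fun k hk l hl => ?_⟩
    have h3 := hN k hk l hl
    rw [Real.dist_eq] at h3 ⊢
    have h4 := h1 k
    have h5 := h1 l
    rw [abs_le] at h4 h5
    rw [abs_lt] at h3 ⊢
    constructor <;> linarith [h3.1, h3.2, h4.1, h4.2, h5.1, h5.2]
  choose W hW using hex
  exact ⟨W, hW⟩

/-- `L¹` compactness of smooth psh functions, local form -/
theorem l1_sub {u : ℕ → E → ℝ} {z0 : E} {R C : ℝ} (hR : 0 < R)
    (hu : ∀ k, Sm2 (closedBall z0 (3 * R)) (u k))
    (hC : ∀ k, ∫ x in ball z0 (3 * R), |u k x| ∂μ ≤ C) :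
    ∃ s : ℕ → ℕ, StrictMono s ∧ ∀ ε > 0, ∃ N, ∀ k ≥ N, ∀ l ≥ N,
      ∫ x in ball z0 R, |u (s k) x - u (s l) x| ∂μ ≤ ε := by
  have hprop : ProperSpace E := FiniteDimensional.proper ℝ E
  have hC0 : 0 ≤ C := (integral_nonneg fun x => abs_nonneg _).trans (hC 0)
  set U : ℕ → E → ℝ := fun k => indicator (ball z0 (3 * R)) (u k) with hUd
  have hUi : ∀ k, Integrable (U k) μ := fun k => integrable_ind (hu k).continuousOn
  have hUC : ∀ k, ∫ x, |U k x| ∂μ ≤ C := by
    intro k
    have e1 : (fun x => |U k x|) = indicator (ball z0 (3 * R)) fun x => |u k x| := by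
      funext x
      by_cases hx : x ∈ ball z0 (3 * R)
      · rw [indicator_of_mem hx, hUd]; simp only; rw [indicator_of_mem hx]
      · rw [indicator_of_notMem hx, hUd]; simp only; rw [indicator_of_notMem hx, abs_zero]
    rw [e1, integral_indicator measurableSet_ball]
    exact hC k
  set δ : ℕ → ℝ := fun j => R / (j + 1) with hδd
  have hδ : ∀ j, 0 < δ j := fun j => by positivity
  have hδR : ∀ j, δ j ≤ R := fun j => div_le_self hR.le (by linarith [(Nat.cast_nonneg j : (0:ℝ) ≤ j)])
  set B : ℕ → ℝ := fun j => (cst μ (δ j))⁻¹ * C + (cst μ (δ j))⁻¹ * (1 / δ j * C) with hBd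
  have hci : ∀ j, 0 < (cst μ (δ j))⁻¹ := fun j => inv_pos.2 (cst_pos μ (hδ j))
  have hb : ∀ j k z, |sm μ (δ j) (U k) z| ≤ B j := by
    intro j k z
    refine (sm_bdd (hδ j) (hUi k) z).trans ?_
    have h1 : (cst μ (δ j))⁻¹ * ∫ x, |U k x| ∂μ ≤ (cst μ (δ j))⁻¹ * C := by
      have := (hci j).le
      gcongr
      exact hUC k
    have h2 : 0 ≤ (cst μ (δ j))⁻¹ * (1 / δ j * C) := by
      have := (hci j).le
      have := (hδ j).le
      positivity
    simp only [hBd]
    linarith
  have hL : ∀ j k z z', |sm μ (δ j) (U k) z - sm μ (δ j) (U k) z'| ≤ B j * ‖z - z'‖ := by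
    intro j k z z'
    refine (sm_lip (hδ j) (hUi k) z z').trans ?_
    have h0 := (hci j).le
    have h1 : (cst μ (δ j))⁻¹ * (‖z - z'‖ / δ j * ∫ x, |U k x| ∂μ) ≤
        (cst μ (δ j))⁻¹ * (1 / δ j * C) * ‖z - z'‖ := by
      have h3 : ‖z - z'‖ / δ j * ∫ x, |U k x| ∂μ ≤ ‖z - z'‖ / δ j * C := by
        have := (hδ j).le
        gcongr
        exact hUC k
      calc (cst μ (δ j))⁻¹ * (‖z - z'‖ / δ j * ∫ x, |U k x| ∂μ)
          ≤ (cst μ (δ j))⁻¹ * (‖z - z'‖ / δ j * C) := by gcongr
        _ = (cst μ (δ j))⁻¹ * (1 / δ j * C) * ‖z - z'‖ := by ring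
    have h2 : 0 ≤ (cst μ (δ j))⁻¹ * C * ‖z - z'‖ := by positivity
    simp only [hBd]
    rw [add_mul]
    linarith
  obtain ⟨s, hs, W, hW⟩ := exists_sub (w := fun j k => sm μ (δ j) (U k)) hb hL
  refine ⟨s, hs, fun ε hε => ?_⟩
  obtain ⟨j, hj⟩ : ∃ j : ℕ, δ j / R * C ≤ ε / 4 := by
    obtain ⟨j, hj⟩ := exists_nat_gt (4 * C / ε)
    refine ⟨j, ?_⟩
    have h1 : δ j / R * C = C / (j + 1) := by
      simp only [hδd]
      field_simp
    rw [h1, div_le_iff₀ (by positivity)]
    rw [div_lt_iff₀ hε] at hj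
    nlinarith
  have hWm : ∀ k, Continuous (sm μ (δ j) (U k)) := fun k => sm_continuous (hδ j) (hUi k)
  have hfin : μ (ball z0 R) < ⊤ := measure_ball_lt_top
  have hWb : ∀ z, |W j z| ≤ B j := fun z =>
    le_of_tendsto ((hW j z).abs) (Eventually.of_forall fun k => hb j (s k) z)
  have hWmeas : AEStronglyMeasurable (W j) (μ.restrict (ball z0 R)) :=
    (aestronglyMeasurable_of_tendsto_ae atTop (fun k => (hWm (s k)).aestronglyMeasurable)
      (Eventually.of_forall fun z => hW j z))
  have hlim : Tendsto (fun k => ∫ x in ball z0 R, |sm μ (δ j) (U (s k)) x - W j x| ∂μ) atTop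
      (𝓝 0) := by
    have h1 := tendsto_integral_of_dominated_convergence (μ := μ.restrict (ball z0 R))
      (F := fun k x => |sm μ (δ j) (U (s k)) x - W j x|) (f := fun _ => (0 : ℝ))
      (fun _ => 2 * B j)
      (fun k => (((hWm (s k)).aestronglyMeasurable.sub hWmeas).norm))
      (by
        have : IsFiniteMeasure (μ.restrict (ball z0 R)) := ⟨by simpa using hfin⟩
        exact integrable_const _)
      (fun k => Eventually.of_forall fun x => by
        rw [Real.norm_eq_abs, abs_abs]
        have h1 := hb j (s k) x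
        have h2 := hWb x
        rw [abs_le] at h1 h2 ⊢
        constructor <;> linarith [h1.1, h1.2, h2.1, h2.2])
      (Eventually.of_forall fun x => by
        have := ((hW j x).sub_const (W j x)).abs
        simpa using this)
    simpa using h1
  have hlim2 : ∀ᶠ k in atTop, ∫ x in ball z0 R, |sm μ (δ j) (U (s k)) x - W j x| ∂μ < ε / 4 :=
    hlim.eventually (gt_mem_nhds (by positivity))
  obtain ⟨N, hN⟩ := eventually_atTop.1 hlim2
  refine ⟨N, fun k hk l hl => ?_⟩
  have hi : ∀ k, IntegrableOn (u k) (ball z0 R) μ := fun k =>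
    (((hu k).continuousOn.mono (closedBall_subset_closedBall (by linarith))).integrableOn_compact
      (isCompact_closedBall z0 R)).mono_set ball_subset_closedBall
  have hism : ∀ k, IntegrableOn (sm μ (δ j) (U k)) (ball z0 R) μ := fun k =>
    ((hWm k).continuousOn.integrableOn_compact (isCompact_closedBall z0 R)).mono_set
      ball_subset_closedBall
  have hiW : IntegrableOn (W j) (ball z0 R) μ := by
    have : IsFiniteMeasure (μ.restrict (ball z0 R)) := ⟨by simpa using hfin⟩
    exact (integrable_const (B j)).mono' hWmeas (Eventually.of_forall fun x => hWb x)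
  have he : ∀ k, ∫ x in ball z0 R, |sm μ (δ j) (U k) x - u k x| ∂μ ≤ ε / 4 := by
    intro k
    refine (l1_err hR (hδ j) (hδR j) (hu k)).trans (le_trans ?_ hj)
    have : 0 ≤ δ j / R := by have := (hδ j).le; positivity
    gcongr
    exact hC k
  calc ∫ x in ball z0 R, |u (s k) x - u (s l) x| ∂μ
      ≤ ∫ x in ball z0 R, (|sm μ (δ j) (U (s k)) x - u (s k) x| +
          |sm μ (δ j) (U (s l)) x - u (s l) x| +
          |sm μ (δ j) (U (s k)) x - W j x| + |sm μ (δ j) (U (s l)) x - W j x|) ∂μ := by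
        refine integral_mono_of_nonneg (Eventually.of_forall fun x => abs_nonneg _) ?_
          (Eventually.of_forall fun x => ?_)
        · exact ((((hism (s k)).sub (hi (s k))).abs.add ((hism (s l)).sub (hi (s l))).abs).add
            ((hism (s k)).sub hiW).abs).add ((hism (s l)).sub hiW).abs
        · simp only
          rw [abs_le]
          have h1 := abs_le.1 (le_refl |sm μ (δ j) (U (s k)) x - u (s k) x|)
          have h2 := abs_le.1 (le_refl |sm μ (δ j) (U (s l)) x - u (s l) x|)
          have h3 := abs_le.1 (le_refl |sm μ (δ j) (U (s k)) x - W j x|)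
          have h4 := abs_le.1 (le_refl |sm μ (δ j) (U (s l)) x - W j x|)
          constructor <;> linarith [h1.1, h1.2, h2.1, h2.2, h3.1, h3.2, h4.1, h4.2]
    _ = (∫ x in ball z0 R, |sm μ (δ j) (U (s k)) x - u (s k) x| ∂μ) +
          (∫ x in ball z0 R, |sm μ (δ j) (U (s l)) x - u (s l) x| ∂μ) +
          (∫ x in ball z0 R, |sm μ (δ j) (U (s k)) x - W j x| ∂μ) +
          ∫ x in ball z0 R, |sm μ (δ j) (U (s l)) x - W j x| ∂μ := by
        have a1 : Integrable (fun x => |sm μ (δ j) (U (s k)) x - u (s k) x|)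
          (μ.restrict (ball z0 R)) := ((hism (s k)).sub (hi (s k))).abs
        have a2 : Integrable (fun x => |sm μ (δ j) (U (s l)) x - u (s l) x|)
          (μ.restrict (ball z0 R)) := ((hism (s l)).sub (hi (s l))).abs
        have a3 : Integrable (fun x => |sm μ (δ j) (U (s k)) x - W j x|)
          (μ.restrict (ball z0 R)) := ((hism (s k)).sub hiW).abs
        have a4 : Integrable (fun x => |sm μ (δ j) (U (s l)) x - W j x|)
          (μ.restrict (ball z0 R)) := ((hism (s l)).sub hiW).abs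
        have a12 : Integrable (fun x => |sm μ (δ j) (U (s k)) x - u (s k) x| +
          |sm μ (δ j) (U (s l)) x - u (s l) x|) (μ.restrict (ball z0 R)) := a1.add a2
        have a123 : Integrable (fun x => |sm μ (δ j) (U (s k)) x - u (s k) x| +
          |sm μ (δ j) (U (s l)) x - u (s l) x| + |sm μ (δ j) (U (s k)) x - W j x|)
          (μ.restrict (ball z0 R)) := a12.add a3
        rw [integral_add a123 a4, integral_add a12 a3, integral_add a1 a2]
    _ ≤ ε / 4 + ε / 4 + ε / 4 + ε / 4 := by
        have h1 := he (s k)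
        have h2 := he (s l)
        have h3 := (hN k hk).le
        have h4 := (hN l hl).le
        linarith
    _ = ε := by ring

end err

end Crest.Agent.R281.Lc_196
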