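import Crest.Agent.R281.Qp2_911

/-!
# R281 (S0424), DIV 6, QPSH-LIM (helper911), file 3: `L¹` limits of plurisubharmonic functions

* `LimPsh μ Ω v` : `v` is locally integrable on the open set `Ω` and, on every compact subset of `Ω`, an
  `L¹` limit of `C²` functions with Levi form `≥ 0`;
* `LimPsh.av_mono` : the averages are monotone in the radius; `LimPsh.val_le_av`, `LimPsh.good_of_bdd`;
* `LimPsh.av_holo` : sub-mean value property of the averages along holomorphic maps of balls;
* **`LimPsh.holo`** : if `ψ z` is good then a.e. `ψ w` is good, `val ∘ ψ` is integrable on the ball and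
  `val (ψ z) ≤` its mean.
-/

set_option autoImplicit false
set_option linter.unusedSectionVars false

open Set Filter Topology Metric Real MeasureTheory
open scoped ContDiff Pointwise

noncomputable section

namespace Crest.Agent.R281.Qp3_911

open Crest.Agent.R257.HoB_843 Crest.Agent.R281.Qp1_911 Crest.Agent.R281.Qp2_911

variable {E : Type*} [NormedAddCommGroup E] [NormedSpace ℂ E] [NormedSpace ℝ E]
  [IsScalarTower ℝ ℂ E] [FiniteDimensional ℝ E] [MeasurableSpace E] [BorelSpace E]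
  {μ : Measure E} [μ.IsAddHaarMeasure]
  {F : Type*} [NormedAddCommGroup F] [NormedSpace ℂ F] [NormedSpace ℝ F]
  [IsScalarTower ℝ ℂ F] [FiniteDimensional ℝ F] [MeasurableSpace F] [BorelSpace F]
  {ν : Measure F} [ν.IsAddHaarMeasure]

/-- local `L¹` limits of `C²` plurisubharmonic functions -/
structure LimPsh (μ : Measure E) (Ω : Set E) (v : E → ℝ) : Prop where
  op : IsOpen Ω
  int : ∀ K ⊆ Ω, IsCompact K → IntegrableOn v K μ
  app : ∀ K ⊆ Ω, IsCompact K → ∀ ε > 0, ∃ u, Sm2 K u ∧ ∫ x in K, |u x - v x| ∂μ ≤ ε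

theorem Sm2.intOn {K : Set E} {u : E → ℝ} (hu : Sm2 K u) (hK : IsCompact K) :
    IntegrableOn u K μ := hu.continuousOn.integrableOn_compact hK

theorem Sm2.av_mono {u : E → ℝ} {z : E} {s r : ℝ} (hs : 0 < s) (hsr : s ≤ r)
    (hu : Sm2 (closedBall z r) u) : Av μ u s z ≤ Av μ u r z := by
  have hr : 0 < r := hs.trans_le hsr
  have h1 := core_mono (μ := μ) hu (t := s / r) (by positivity) ((div_le_one hr).2 hsr)
  have e : s = s / r * r := by field_simp
  rw [Av_eq u r z]
  conv_lhs => rw [e]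
  rw [Av_smul u (by positivity : 0 < s / r) z]
  exact mul_le_mul_of_nonneg_left h1 (by positivity)

namespace LimPsh

variable {Ω : Set E} {v : E → ℝ}

theorem intBall (h : LimPsh μ Ω v) {z : E} {r : ℝ} (hz : closedBall z r ⊆ Ω) :
    IntegrableOn v (ball z r) μ := by
  have hprop : ProperSpace E := FiniteDimensional.proper ℝ E
  exact (h.int _ hz (isCompact_closedBall _ _)).mono_set ball_subset_closedBall

theorem mono (h : LimPsh μ Ω v) {Ω' : Set E} (ho : IsOpen Ω') (hs : Ω' ⊆ Ω) : LimPsh μ Ω' v :=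
  ⟨ho, fun K hK => h.int K (hK.trans hs), fun K hK => h.app K (hK.trans hs)⟩

theorem congr (h : LimPsh μ Ω v) {v' : E → ℝ} (he : ∀ᵐ x ∂μ, x ∈ Ω → v x = v' x) :
    LimPsh μ Ω v' := by
  have h1 : ∀ K ⊆ Ω, IsCompact K → v =ᵐ[μ.restrict K] v' := by
    intro K hK hc
    rw [EventuallyEq, ae_restrict_iff' hc.measurableSet]
    filter_upwards [he] with x hx hxK
    exact hx (hK hxK)
  refine ⟨h.op, fun K hK hc => (h.int K hK hc).congr (h1 K hK hc), fun K hK hc ε hε => ?_⟩
  obtain ⟨u, hu, hd⟩ := h.app K hK hc ε hε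
  refine ⟨u, hu, ?_⟩
  have h2 : ∫ x in K, |u x - v' x| ∂μ = ∫ x in K, |u x - v x| ∂μ := by
    refine integral_congr_ae ?_
    filter_upwards [h1 K hK hc] with x hx
    rw [hx]
  rwa [h2]

theorem av_mono (h : LimPsh μ Ω v) {z : E} {s r : ℝ} (hs : 0 < s) (hsr : s ≤ r)
    (hz : closedBall z r ⊆ Ω) : Av μ v s z ≤ Av μ v r z := by
  have hprop : ProperSpace E := FiniteDimensional.proper ℝ E
  have hr : 0 < r := hs.trans_le hsr
  have hK := isCompact_closedBall z r
  set c : ℝ := (μ.real (ball (0 : E) s))⁻¹ + (μ.real (ball (0 : E) r))⁻¹ with hc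
  have hc0 : 0 < c := by
    have h1 := vol_pos (μ := μ) hs
    have h2 := vol_pos (μ := μ) hr
    positivity
  refine le_of_forall_pos_le_add fun ε hε => ?_
  obtain ⟨u, hu, hd⟩ := h.app _ hz hK (ε / c) (by positivity)
  have a1 := abs_le.1 (abs_Av_sub_le (μ := μ) (u := u) (v := v) (r := s) (z := z)
    (ball_subset_closedBall.trans (closedBall_subset_closedBall hsr)) (Sm2.intOn hu hK)
    (h.int _ hz hK))
  have a2 := abs_le.1 (abs_Av_sub_le (μ := μ) (u := u) (v := v) (r := r) (z := z)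
    ball_subset_closedBall (Sm2.intOn hu hK) (h.int _ hz hK))
  have a3 := Sm2.av_mono (μ := μ) hs hsr hu
  have a4 : (μ.real (ball (0 : E) s))⁻¹ * ∫ x in closedBall z r, |u x - v x| ∂μ +
      (μ.real (ball (0 : E) r))⁻¹ * ∫ x in closedBall z r, |u x - v x| ∂μ ≤ ε := by
    rw [← add_mul, ← hc]
    calc c * ∫ x in closedBall z r, |u x - v x| ∂μ ≤ c * (ε / c) := by gcongr
      _ = ε := by field_simp
  linarith [a1.1, a2.2]

theorem tendsto_of_lb (h : LimPsh μ Ω v) {z : E} {R m : ℝ} (hR : 0 < R)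
    (hz : closedBall z R ⊆ Ω) (hm : ∀ r, 0 < r → r ≤ R → m ≤ Av μ v r z) : Good μ v z := by
  set S : Set ℝ := (fun r => Av μ v r z) '' Ioc 0 R with hS
  have hne : S.Nonempty := ⟨_, mem_image_of_mem _ (show R ∈ Ioc 0 R from ⟨hR, le_rfl⟩)⟩
  have hbd : BddBelow S := ⟨m, by rintro _ ⟨r, hr, rfl⟩; exact hm r hr.1 hr.2⟩
  refine ⟨sInf S, ?_⟩
  rw [tendsto_order]
  refine ⟨fun a ha => ?_, fun a ha => ?_⟩
  · filter_upwards [nhdsWithin_le_nhds (gt_mem_nhds hR), self_mem_nhdsWithin] with r hr hr0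
    exact ha.trans_le (csInf_le hbd ⟨r, ⟨hr0, le_of_lt hr⟩, rfl⟩)
  · obtain ⟨_, ⟨r₁, hr₁, rfl⟩, hlt⟩ := exists_lt_of_csInf_lt hne ha
    filter_upwards [nhdsWithin_le_nhds (gt_mem_nhds hr₁.1), self_mem_nhdsWithin] with r hr hr0
    exact (h.av_mono hr0 (le_of_lt hr) ((closedBall_subset_closedBall hr₁.2).trans hz)).trans_lt hlt

/-- boundedness along a sequence of radii is enough -/
theorem good_of_bdd (h : LimPsh μ Ω v) {z : E} {R m : ℝ} (hR : 0 < R) (hz : closedBall z R ⊆ Ω)
    {ρ : ℕ → ℝ} (h0 : ∀ k, 0 < ρ k) (hρ : Tendsto ρ atTop (𝓝 0))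
    (hm : ∀ k, m ≤ Av μ v (ρ k) z) : Good μ v z := by
  refine h.tendsto_of_lb hR hz (m := m) fun r hr hrR => ?_
  obtain ⟨k, hk⟩ := (hρ.eventually (gt_mem_nhds hr)).exists
  exact (hm k).trans (h.av_mono (h0 k) hk.le ((closedBall_subset_closedBall hrR).trans hz))

theorem val_le_av (h : LimPsh μ Ω v) {z : E} {r : ℝ} (hr : 0 < r) (hz : closedBall z r ⊆ Ω)
    (hg : Good μ v z) : val μ v z ≤ Av μ v r z := by
  refine le_of_tendsto hg.tendsto ?_
  filter_upwards [nhdsWithin_le_nhds (gt_mem_nhds hr), self_mem_nhdsWithin] with s hs hs0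
  exact h.av_mono hs0 (le_of_lt hs) hz

theorem av_cont (h : LimPsh μ Ω v) {z : E} {r : ℝ} (hr : 0 < r) (hz : closedBall z r ⊆ Ω) :
    ContinuousAt (Av μ v r) z := by
  have hprop : ProperSpace E := FiniteDimensional.proper ℝ E
  obtain ⟨δ, hδ, hs⟩ := (isCompact_closedBall z r).exists_cthickening_subset_open h.op hz
  rw [cthickening_closedBall hδ.le hr.le] at hs
  exact continuousAt_Av hr (by linarith : r < δ + r) (h.int _ hs (isCompact_closedBall _ _))

theorem ae_good (h : LimPsh μ Ω v) : ∀ᵐ z ∂μ, z ∈ Ω → Good μ v z ∧ val μ v z = v z :=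
  Qp2_911.ae_good h.op h.int

end LimPsh

/-! ### averages along holomorphic maps of balls -/

theorem Sm2.av_holo {K : Set E} {u : E → ℝ} (hu : Sm2 K u) {ψ : F → E} {z : F} {ρ r : ℝ}
    (hr : 0 < r) (hρ : 0 < ρ) (hψ : ∀ w ∈ closedBall z ρ, AnalyticAt ℂ ψ w)
    (hm : ∀ w ∈ closedBall z ρ, closedBall (ψ w) r ⊆ K) :
    IntegrableOn (fun w => Av μ u r (ψ w)) (ball z ρ) ν ∧
      Av μ u r (ψ z) ≤ Av ν (fun w => Av μ u r (ψ w)) ρ z := by
  have hprop : ProperSpace E := FiniteDimensional.proper ℝ E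
  have hprop' : ProperSpace F := FiniteDimensional.proper ℝ F
  set G : F → E → ℝ := fun w y => u (ψ w + y) with hG
  have hmem : ∀ w ∈ closedBall z ρ, ∀ y ∈ closedBall (0 : E) r, ψ w + y ∈ K := by
    intro w hw y hy
    refine hm w hw ?_
    rw [mem_closedBall, dist_eq_norm, add_sub_cancel_left]
    simpa using hy
  have hψc : ContinuousOn ψ (closedBall z ρ) := fun w hw =>
    (hψ w hw).continuousAt.continuousWithinAt
  have hGc : ContinuousOn (Function.uncurry G) (closedBall z ρ ×ˢ closedBall (0 : E) r) := by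
    refine hu.continuousOn.comp ?_ ?_
    · exact (hψc.comp continuousOn_fst fun p hp => hp.1).add continuousOn_snd
    · rintro ⟨w, y⟩ ⟨hw, hy⟩
      exact hmem w hw y hy
  have hI : Integrable (Function.uncurry G)
      ((ν.restrict (ball z ρ)).prod (μ.restrict (ball (0 : E) r))) := by
    rw [Measure.prod_restrict]
    have h3 : IntegrableOn (Function.uncurry G) (closedBall z ρ ×ˢ closedBall (0 : E) r)
        (ν.prod μ) :=
      hGc.integrableOn_compact ((isCompact_closedBall _ _).prod (isCompact_closedBall _ _))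
    exact h3.mono_set (prod_mono ball_subset_closedBall ball_subset_closedBall)
  have hAv : ∀ w, Av μ u r (ψ w) = (μ.real (ball (0 : E) r))⁻¹ *
      ∫ y in ball (0 : E) r, G w y ∂μ := fun w => Av_eq u r (ψ w)
  refine ⟨?_, ?_⟩
  · have h4 := hI.integral_prod_left.const_mul (μ.real (ball (0 : E) r))⁻¹
    refine h4.congr (Eventually.of_forall fun w => ?_)
    exact (hAv w).symm
  · -- sub-mean in `w` for every `y`
    have h5 : ∀ y ∈ ball (0 : E) r, ν.real (ball (0 : F) ρ) * G z y ≤ ∫ w in ball z ρ, G w y ∂ν := by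
      intro y hy
      have hy' := ball_subset_closedBall hy
      have h6 : Sm2 (closedBall z ρ) (fun w => u (ψ w + y)) :=
        Sm2.comp hu (ψ := fun w => ψ w + y) (fun w hw => (hψ w hw).add analyticAt_const)
          (fun w hw => hmem w hw y hy')
      have h7 := core_id (E := F) (μ := ν) (R := ρ) (z := z) h6
      rw [int_trans (μ := ν) (fun w => u (ψ w + y)) ρ z] at h7
      exact h7
    have h8 : ν.real (ball (0 : F) ρ) * ∫ y in ball (0 : E) r, G z y ∂μ ≤
        ∫ w in ball z ρ, ∫ y in ball (0 : E) r, G w y ∂μ ∂ν := by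
      rw [integral_integral_swap hI, ← integral_const_mul]
      refine setIntegral_mono_on ?_ hI.integral_prod_right measurableSet_ball h5
      have h9 : ContinuousOn (fun y => ν.real (ball (0 : F) ρ) * G z y) (closedBall (0 : E) r) := by
        refine continuousOn_const.mul (hu.continuousOn.comp
          (continuous_const.add continuous_id).continuousOn ?_)
        intro y hy
        exact hmem z (mem_closedBall_self hρ.le) y hy
      exact (h9.integrableOn_compact (isCompact_closedBall _ _)).mono_set ball_subset_closedBall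
    have h10 := vol_pos (μ := ν) hρ
    have h11 := vol_pos (μ := μ) hr
    have h12 : Av ν (fun w => Av μ u r (ψ w)) ρ z = (ν.real (ball (0 : F) ρ))⁻¹ *
        ((μ.real (ball (0 : E) r))⁻¹ * ∫ w in ball z ρ, ∫ y in ball (0 : E) r, G w y ∂μ ∂ν) := by
      show (ν.real (ball (0 : F) ρ))⁻¹ * ∫ w in ball z ρ, Av μ u r (ψ w) ∂ν = _
      simp only [hAv, integral_const_mul]
    rw [h12, hAv z]
    calc (μ.real (ball (0 : E) r))⁻¹ * ∫ y in ball (0 : E) r, G z y ∂μ
        = (ν.real (ball (0 : F) ρ))⁻¹ * ((μ.real (ball (0 : E) r))⁻¹ *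
          (ν.real (ball (0 : F) ρ) * ∫ y in ball (0 : E) r, G z y ∂μ)) := by
          field_simp
      _ ≤ _ := by gcongr

namespace LimPsh

variable {Ω : Set E} {v : E → ℝ}

theorem av_holo (h : LimPsh μ Ω v) {ψ : F → E} {z : F} {ρ r : ℝ}
    (hr : 0 < r) (hρ : 0 < ρ) (hψ : ∀ w ∈ closedBall z ρ, AnalyticAt ℂ ψ w) {K : Set E}
    (hK : IsCompact K) (hKΩ : K ⊆ Ω) (hm : ∀ w ∈ closedBall z ρ, closedBall (ψ w) r ⊆ K) :
    ContinuousOn (fun w => Av μ v r (ψ w)) (closedBall z ρ) ∧
      Av μ v r (ψ z) ≤ Av ν (fun w => Av μ v r (ψ w)) ρ z := by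
  have hprop : ProperSpace E := FiniteDimensional.proper ℝ E
  have hprop' : ProperSpace F := FiniteDimensional.proper ℝ F
  have hc : ContinuousOn (fun w => Av μ v r (ψ w)) (closedBall z ρ) := by
    intro w hw
    refine ContinuousAt.continuousWithinAt ?_
    exact ContinuousAt.comp (f := ψ) (g := Av μ v r) (h.av_cont hr ((hm w hw).trans hKΩ))
      (hψ w hw).continuousAt
  refine ⟨hc, ?_⟩
  have hci : IntegrableOn (fun w => Av μ v r (ψ w)) (ball z ρ) ν :=
    (hc.integrableOn_compact (isCompact_closedBall _ _)).mono_set ball_subset_closedBall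
  have h11 := vol_pos (μ := μ) hr
  refine le_of_forall_pos_le_add fun ε hε => ?_
  obtain ⟨u, hu, hd⟩ := h.app K hKΩ hK (μ.real (ball (0 : E) r) * (ε / 2)) (by positivity)
  have a0 : ∀ w ∈ closedBall z ρ, |Av μ u r (ψ w) - Av μ v r (ψ w)| ≤ ε / 2 := by
    intro w hw
    refine (abs_Av_sub_le (μ := μ) (ball_subset_closedBall.trans (hm w hw)) (Sm2.intOn hu hK)
      (h.int _ hKΩ hK)).trans ?_
    calc (μ.real (ball (0 : E) r))⁻¹ * ∫ x in K, |u x - v x| ∂μ
        ≤ (μ.real (ball (0 : E) r))⁻¹ * (μ.real (ball (0 : E) r) * (ε / 2)) := by gcongr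
      _ = ε / 2 := by field_simp
  obtain ⟨a1, a2⟩ := Sm2.av_holo (μ := μ) (ν := ν) hu hr hρ hψ hm
  have a3 := (abs_le.1 (a0 z (mem_closedBall_self hρ.le))).1
  have a4 : Av ν (fun w => Av μ u r (ψ w)) ρ z ≤
      Av ν (fun w => Av μ v r (ψ w) + ε / 2) ρ z := by
    refine Av_le a1 (hci.add (integrableOn_const (ball_ne_top z ρ))) ?_
    filter_upwards [ae_restrict_mem measurableSet_ball] with w hw
    have := (abs_le.1 (a0 w (ball_subset_closedBall hw))).2
    linarith
  rw [Av_add hci (integrableOn_const (ball_ne_top z ρ)), Av_const _ hρ] at a4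
  linarith

/-- **sub-mean value property of the pointwise limit along holomorphic maps of balls** -/
theorem holo (h : LimPsh μ Ω v) {ψ : F → E} {z : F} {ρ : ℝ} (hρ : 0 < ρ)
    (hψ : ∀ w ∈ closedBall z ρ, AnalyticAt ℂ ψ w) (hm : ∀ w ∈ closedBall z ρ, ψ w ∈ Ω)
    (hg : Good μ v (ψ z)) :
    (∀ᵐ w ∂ν.restrict (ball z ρ), Good μ v (ψ w)) ∧
      IntegrableOn (fun w => val μ v (ψ w)) (ball z ρ) ν ∧
      val μ v (ψ z) ≤ Av ν (fun w => val μ v (ψ w)) ρ z := by
  have hprop : ProperSpace E := FiniteDimensional.proper ℝ E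
  have hprop' : ProperSpace F := FiniteDimensional.proper ℝ F
  have hψc : ContinuousOn ψ (closedBall z ρ) := fun w hw =>
    (hψ w hw).continuousAt.continuousWithinAt
  have hK0 : IsCompact (ψ '' closedBall z ρ) := (isCompact_closedBall z ρ).image_of_continuousOn hψc
  obtain ⟨δ, hδ, hKΩ⟩ := hK0.exists_cthickening_subset_open h.op (by
    rintro _ ⟨w, hw, rfl⟩
    exact hm w hw)
  set K := cthickening δ (ψ '' closedBall z ρ) with hKd
  have hK : IsCompact K := hK0.cthickening
  have hball : ∀ w ∈ closedBall z ρ, closedBall (ψ w) δ ⊆ K := fun w hw =>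
    closedBall_subset_cthickening (mem_image_of_mem _ hw) δ
  set rr : ℕ → ℝ := fun k => δ / (k + 1) with hrr
  have hrr0 : ∀ k, 0 < rr k := fun k => by simp only [hrr]; positivity
  have hrrδ : ∀ k, rr k ≤ δ := fun k => by
    simp only [hrr]
    rw [div_le_iff₀ (by positivity)]
    nlinarith [(Nat.cast_nonneg k : (0 : ℝ) ≤ k)]
  have hrra : Antitone rr := by
    intro k l hkl
    simp only [hrr]
    have : (k : ℝ) ≤ l := by exact_mod_cast hkl
    gcongr
  have hrrt : Tendsto rr atTop (𝓝 0) := by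
    have := tendsto_one_div_add_atTop_nhds_zero_nat (𝕜 := ℝ)
    have h2 := this.const_mul δ
    simp only [mul_zero, mul_one_div] at h2
    exact h2
  set g : ℕ → F → ℝ := fun k w => Av μ v (rr k) (ψ w) with hgd
  have hmk : ∀ k, ∀ w ∈ closedBall z ρ, closedBall (ψ w) (rr k) ⊆ K := fun k w hw =>
    (closedBall_subset_closedBall (hrrδ k)).trans (hball w hw)
  have hav := fun k => h.av_holo (ν := ν) (hrr0 k) hρ hψ hK hKΩ (hmk k)
  have hgc : ∀ k, ContinuousOn (g k) (closedBall z ρ) := fun k => (hav k).1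
  have hgi : ∀ k, IntegrableOn (g k) (ball z ρ) ν := fun k =>
    ((hgc k).integrableOn_compact (isCompact_closedBall _ _)).mono_set ball_subset_closedBall
  have hanti : ∀ w ∈ closedBall z ρ, Antitone fun k => g k w := fun w hw k l hkl =>
    h.av_mono (hrr0 l) (hrra hkl) ((hmk k w hw).trans hKΩ)
  have hvol := vol_pos (μ := ν) hρ
  -- lower bound of the integrals
  have hlow : ∀ k, ν.real (ball (0 : F) ρ) * val μ v (ψ z) ≤ ∫ w in ball z ρ, g k w ∂ν := by
    intro k
    have h1 := h.val_le_av (hrr0 k) ((hmk k z (mem_closedBall_self hρ.le)).trans hKΩ) hg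
    have h2 := h1.trans (hav k).2
    unfold Av at h2
    calc ν.real (ball (0 : F) ρ) * val μ v (ψ z) ≤ ν.real (ball (0 : F) ρ) *
          ((ν.real (ball (0 : F) ρ))⁻¹ * ∫ w in ball z ρ, g k w ∂ν) := by
          refine mul_le_mul_of_nonneg_left ?_ hvol.le
          exact h2
      _ = _ := by field_simp
  set D : ℝ := ∫ w in ball z ρ, g 0 w ∂ν - ν.real (ball (0 : F) ρ) * val μ v (ψ z) with hD
  have hD0 : 0 ≤ D := by have := hlow 0; linarith
  set f : ℕ → F → ENNReal := fun k w => ENNReal.ofReal (g 0 w - g k w) with hf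
  have hfm : ∀ k, AEMeasurable (f k) (ν.restrict (ball z ρ)) := fun k =>
    ((hgi 0).sub (hgi k)).aestronglyMeasurable.aemeasurable.ennreal_ofReal
  have hfmono : ∀ᵐ w ∂ν.restrict (ball z ρ), Monotone fun k => f k w := by
    filter_upwards [ae_restrict_mem measurableSet_ball] with w hw k l hkl
    refine ENNReal.ofReal_le_ofReal ?_
    have := hanti w (ball_subset_closedBall hw) hkl
    simp only at this
    linarith
  have hfint : ∀ k, ∫⁻ w in ball z ρ, f k w ∂ν ≤ ENNReal.ofReal D := by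
    intro k
    have h0 : ∫⁻ w in ball z ρ, f k w ∂ν = ENNReal.ofReal (∫ w in ball z ρ, (g 0 w - g k w) ∂ν) := by
      refine (ofReal_integral_eq_lintegral_ofReal ((hgi 0).sub (hgi k)) ?_).symm
      filter_upwards [ae_restrict_mem measurableSet_ball] with w hw
      have := hanti w (ball_subset_closedBall hw) (Nat.zero_le k)
      simp only at this
      simp only [Pi.zero_apply, Pi.sub_apply]
      linarith
    rw [h0, integral_sub (hgi 0) (hgi k)]
    refine ENNReal.ofReal_le_ofReal ?_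
    have := hlow k
    linarith
  have hsup : ∫⁻ w in ball z ρ, ⨆ k, f k w ∂ν ≤ ENNReal.ofReal D := by
    rw [lintegral_iSup' hfm hfmono]
    exact iSup_le hfint
  have hfin : ∀ᵐ w ∂ν.restrict (ball z ρ), ⨆ k, f k w < ⊤ :=
    ae_lt_top' (AEMeasurable.iSup hfm) (hsup.trans_lt ENNReal.ofReal_lt_top).ne
  have hgood : ∀ᵐ w ∂ν.restrict (ball z ρ), Good μ v (ψ w) := by
    filter_upwards [hfin, ae_restrict_mem measurableSet_ball] with w hw hwb
    have hwc := ball_subset_closedBall hwb
    refine h.good_of_bdd hδ ((hball w hwc).trans hKΩ) hrr0 hrrt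
      (m := g 0 w - (⨆ k, f k w).toReal) fun k => ?_
    have h1 : f k w ≤ ⨆ k, f k w := le_iSup (fun k => f k w) k
    have h2 : g 0 w - g k w ≤ (⨆ k, f k w).toReal := by
      rw [← ENNReal.ofReal_le_iff_le_toReal hw.ne]
      exact h1
    have h3 : g k w = Av μ v (rr k) (ψ w) := rfl
    linarith
  have hlim : ∀ᵐ w ∂ν.restrict (ball z ρ),
      Tendsto (fun k => g k w) atTop (𝓝 (val μ v (ψ w))) := by
    filter_upwards [hgood] with w hw
    exact hw.seq hrr0 hrrt
  have hmeas : AEStronglyMeasurable (fun w => val μ v (ψ w)) (ν.restrict (ball z ρ)) :=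
    aestronglyMeasurable_of_tendsto_ae atTop (fun k => (hgi k).aestronglyMeasurable) hlim
  have hint : IntegrableOn (fun w => val μ v (ψ w)) (ball z ρ) ν := by
    have h1 : IntegrableOn (fun w => g 0 w - val μ v (ψ w)) (ball z ρ) ν := by
      refine ⟨(hgi 0).aestronglyMeasurable.sub hmeas, ?_⟩
      refine lt_of_le_of_lt ?_ (hsup.trans_lt ENNReal.ofReal_lt_top)
      refine lintegral_mono_ae ?_
      filter_upwards [hlim, ae_restrict_mem measurableSet_ball] with w hw hwb
      have h2 : ∀ k, val μ v (ψ w) ≤ g k w := fun k =>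
        (hanti w (ball_subset_closedBall hwb)).le_of_tendsto hw k
      have h3 : Tendsto (fun k => f k w) atTop (𝓝 (ENNReal.ofReal (g 0 w - val μ v (ψ w)))) :=
        (ENNReal.continuous_ofReal.tendsto _).comp (hw.const_sub (g 0 w))
      have h4 : ‖g 0 w - val μ v (ψ w)‖ₑ = ENNReal.ofReal (g 0 w - val μ v (ψ w)) := by
        rw [Real.enorm_eq_ofReal]
        have := h2 0
        linarith
      rw [h4]
      exact le_of_tendsto' h3 fun k => le_iSup (fun k => f k w) k
    have h5 := (hgi 0).sub h1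
    refine h5.congr (Eventually.of_forall fun w => ?_)
    simp
  refine ⟨hgood, hint, ?_⟩
  have hanti' : ∀ᵐ w ∂ν.restrict (ball z ρ), Antitone fun k => g k w := by
    filter_upwards [ae_restrict_mem measurableSet_ball] with w hw
    exact hanti w (ball_subset_closedBall hw)
  have hconv := integral_tendsto_of_tendsto_of_antitone hgi hint hanti' hlim
  have hfinal := ge_of_tendsto' hconv hlow
  unfold Av
  calc val μ v (ψ z) = (ν.real (ball (0 : F) ρ))⁻¹ *
        (ν.real (ball (0 : F) ρ) * val μ v (ψ z)) := by field_simp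
    _ ≤ _ := mul_le_mul_of_nonneg_left hfinal (by positivity)

end LimPsh

end Crest.Agent.R281.Qp3_911
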