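import Crest.Agent.R281.Lc2_196
import Crest.Agent.R281.ThC2_137
import Crest.Agent.R281.Qp3_911
import Mathlib.MeasureTheory.Function.Jacobian

/-!
# R281 (S0424), KAPPA-1 / UNIQ, QPSH-L1 (helper196), file 3: charts of an atlas

* `sm2_of_lb`   : `u + Λ ∑ |z_k|²` is psh when the Levi form of `u` is `≥ -Λ ‖v‖²`;
* `Cov A`       : a finite cover of `M` by chart balls; `exists_cov`;
* `nu μ c`      : the sum of the images of the Haar measures of the chart balls;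
* **`nu_dom`**  : `map (A.e j).symm (μ.restrict Q) ≤ C • nu μ c` for compact `Q ⊆ (A.e j).target`.
-/

set_option autoImplicit false
set_option linter.unusedSectionVars false

open Set Filter Topology Metric MeasureTheory
open scoped ContDiff NNReal ENNReal

noncomputable section

namespace Crest.Agent.R281.Lc_196

open Crest.Agent.R281.Qp1_911 Crest.Agent.R257.HoB_843 Crest.Agent.R257.Glue2_101
open Crest.Agent.R275.Geo Crest.Agent.R275.Core144 Crest.Agent.R275.GC293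
open Crest.Agent.R273.YauDefs_635 (inC)
open Crest.Agent.R273.C0e_390 (cb isOpen_cb exists_cb contDiffAt_inC)

section lev

variable {n : ℕ}

/-- `∑ |z_k|²` -/
def qn (z : Cn n) : ℝ := ∑ k, ‖z k‖ ^ 2

theorem qn_eq (z : Cn n) : qn z = ‖z‖ ^ 2 := (EuclideanSpace.norm_sq_eq z).symm

theorem lvE_sum (s : Finset (Fin n)) (z v : Cn n) :
    ContDiffAt ℝ (⊤ : ℕ∞) (fun z : Cn n => ∑ k ∈ s, ‖z k‖ ^ 2) z ∧
      lvE (fun z : Cn n => ∑ k ∈ s, ‖z k‖ ^ 2) z v = ∑ k ∈ s, ‖v k‖ ^ 2 := by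
  classical
  induction s using Finset.induction_on with
  | empty =>
    simp only [Finset.sum_empty]
    exact ⟨contDiffAt_const, lvE_const 0 z v⟩
  | insert k s hk ih =>
    have h1 : ContDiffAt ℂ (⊤ : ℕ∞) (fun z : Cn n => z k) z :=
      (EuclideanSpace.proj k : Cn n →L[ℂ] ℂ).contDiff.contDiffAt
    have h2 := lvE_sq h1 v
    have h3 : fderiv ℂ (fun z : Cn n => z k) z v = v k := by
      have : (fun z : Cn n => z k) = (EuclideanSpace.proj k : Cn n →L[ℂ] ℂ) := rfl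
      rw [this, ContinuousLinearMap.fderiv]
      rfl
    rw [h3] at h2
    have h4 : ContDiffAt ℝ (⊤ : ℕ∞) (fun z : Cn n => ‖z k‖ ^ 2) z :=
      (h1.restrict_scalars ℝ).norm_sq ℝ
    simp only [Finset.sum_insert hk]
    exact ⟨h4.add ih.1, by rw [lvE_add h4 ih.1, h2, ih.2]⟩

theorem contDiff_qn (z : Cn n) : ContDiffAt ℝ (⊤ : ℕ∞) (qn : Cn n → ℝ) z :=
  (lvE_sum Finset.univ z 0).1

theorem lvE_qn (z v : Cn n) : lvE qn z v = ‖v‖ ^ 2 := by
  rw [← qn_eq]
  exact (lvE_sum Finset.univ z v).2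

theorem continuous_qn : Continuous (qn : Cn n → ℝ) := by
  unfold qn; fun_prop

theorem sm2_of_lb {u : Cn n → ℝ} {K : Set (Cn n)} {Λ : ℝ}
    (hu : ∀ z ∈ K, ContDiffAt ℝ (⊤ : ℕ∞) u z) (hl : ∀ z ∈ K, ∀ v, -(Λ * ‖v‖ ^ 2) ≤ lvE u z v) :
    Sm2 K (fun z => u z + Λ * qn z) := by
  intro z hz
  have h1 : ContDiffAt ℝ (⊤ : ℕ∞) (fun z : Cn n => Λ * qn z) z := contDiffAt_const.mul (contDiff_qn z)
  refine ⟨((hu z hz).add h1).of_le (WithTop.coe_le_coe.2 (le_top : (2 : ℕ∞) ≤ ⊤)), fun v => ?_⟩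
  have h2 : lvE (fun z => u z + Λ * qn z) z v = lvE u z v + Λ * ‖v‖ ^ 2 := by
    rw [lvE_add (hu z hz) h1, lvE_const_mul (contDiff_qn z), lvE_qn]
  rw [h2]
  linarith [hl z hz v]

end lev

section cov

variable {n : ℕ} {M : Type} [TopologicalSpace M]

/-- a finite cover by chart balls -/
structure Cov (A : Atl n M) where
  T : Finset M
  i : M → A.ι
  z : M → Cn n
  r : M → ℝ
  hr : ∀ t, 0 < r t
  hz : ∀ t, closedBall (z t) (3 * r t) ⊆ (A.e (i t)).target
  cov : ∀ x, ∃ t ∈ T, x ∈ cb A (i t) (z t) (r t)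

theorem exists_cov [CompactSpace M] (A : Atl n M) : Nonempty (Cov A) := by
  classical
  choose i z r hr hz hx using exists_cb (A := A)
  obtain ⟨T, hT⟩ := isCompact_univ.elim_finite_subcover (fun t : M => cb A (i t) (z t) (r t))
    (fun t => isOpen_cb _ _ _) (fun t _ => mem_iUnion.2 ⟨t, hx t⟩)
  refine ⟨⟨T, i, z, r, hr, hz, fun x => ?_⟩⟩
  obtain ⟨t, ht⟩ := mem_iUnion.1 (hT (mem_univ x))
  obtain ⟨htT, hxt⟩ := mem_iUnion.1 ht
  exact ⟨t, htT, hxt⟩

variable {A : Atl n M} [MeasurableSpace M] [BorelSpace M]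

theorem Cov.hz1 (c : Cov A) (t : M) : closedBall (c.z t) (c.r t) ⊆ (A.e (c.i t)).target :=
  (closedBall_subset_closedBall (by linarith [c.hr t])).trans (c.hz t)

theorem aem {i : A.ι} {K : Set (Cn n)} (hK : K ⊆ (A.e i).target) (hKm : MeasurableSet K)
    (μ : Measure (Cn n)) : AEMeasurable (A.e i).symm (μ.restrict K) :=
  ((A.e i).continuousOn_symm.mono hK).aemeasurable hKm

theorem meas_pre (i : A.ι) {B : Set M} (hB : MeasurableSet B) :
    MeasurableSet ((A.e i).target ∩ (A.e i).symm ⁻¹' B) := by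
  have h1 : Measurable ((A.e i).target.domRestrict (A.e i).symm) :=
    (continuousOn_iff_continuous_domRestrict.1 (A.e i).continuousOn_symm).measurable
  have h2 := (A.e i).open_target.measurableSet.subtype_image (h1 hB)
  convert h2 using 1
  ext y
  constructor
  · rintro ⟨hy, hyE⟩
    exact ⟨⟨y, hy⟩, hyE, rfl⟩
  · rintro ⟨⟨a, ha⟩, haE, rfl⟩
    exact ⟨ha, haE⟩

/-- the reference measure on `M` -/
def nu (μ : Measure (Cn n)) (c : Cov A) : Measure M :=
  ∑ t ∈ c.T, (μ.restrict (ball (c.z t) (c.r t))).map (A.e (c.i t)).symm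

theorem ball_sub (c : Cov A) (t : M) : ball (c.z t) (c.r t) ⊆ (A.e (c.i t)).target :=
  ball_subset_closedBall.trans (c.hz1 t)

theorem nu_apply (μ : Measure (Cn n)) (c : Cov A) {B : Set M} (hB : MeasurableSet B) :
    nu μ c B = ∑ t ∈ c.T, μ (ball (c.z t) (c.r t) ∩ (A.e (c.i t)).symm ⁻¹' B) := by
  unfold nu
  rw [Measure.finsetSum_apply]
  refine Finset.sum_congr rfl fun t _ => ?_
  have h0 := aem (ball_sub c t) measurableSet_ball μ
  rw [Measure.map_apply_of_aemeasurable h0 hB, Measure.restrict_apply₀ (h0.nullMeasurable hB),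
    inter_comm]

theorem lintegral_nu (μ : Measure (Cn n)) (c : Cov A) {f : M → ℝ≥0∞} (hf : Measurable f) :
    ∫⁻ x, f x ∂(nu μ c) =
      ∑ t ∈ c.T, ∫⁻ w in ball (c.z t) (c.r t), f ((A.e (c.i t)).symm w) ∂μ := by
  unfold nu
  rw [lintegral_finsetSum_measure]
  refine Finset.sum_congr rfl fun t _ => ?_
  exact lintegral_map' hf.aemeasurable (aem (ball_sub c t) measurableSet_ball μ)

variable (μ : Measure (Cn n)) [μ.IsAddHaarMeasure]

instance finite_nu (c : Cov A) : IsFiniteMeasure (nu μ c) := by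
  refine ⟨?_⟩
  rw [nu_apply μ c MeasurableSet.univ]
  simp only [preimage_univ, inter_univ]
  exact ENNReal.sum_lt_top.2 fun t _ => measure_ball_lt_top

theorem cont_fderiv {f : Cn n → Cn n} {U : Set (Cn n)} (hU : IsOpen U) (hf : DifferentiableOn ℂ f U) :
    ContinuousOn (fderiv ℝ f) U := by
  have h1 := (Crest.Agent.R266.SCV.contDiffOn_omega_of_differentiableOn hU hf).restrict_scalars ℝ
  exact h1.continuousOn_fderiv_of_isOpen hU (by simp)

/-- change of variables, one chart ball -/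
theorem map_le [T2Space M] {i j : A.ι} {z : Cn n} {r : ℝ} (hz : closedBall z r ⊆ (A.e i).target)
    {Q : Set (Cn n)} (hQ : IsCompact Q) (hQt : Q ⊆ (A.e j).target) :
    ∃ C : ℝ≥0, ∀ B : Set M, MeasurableSet B →
      μ (Q ∩ (A.e j).symm ⁻¹' (B ∩ cb A i z r)) ≤ C * μ (ball z r ∩ (A.e i).symm ⁻¹' B) := by
  have hprop : ProperSpace (Cn n) := FiniteDimensional.proper ℝ (Cn n)
  set τ : Cn n → Cn n := fun w => A.e j ((A.e i).symm w) with hτ
  have ho : IsOpen (A.ov i j) := isOpen_ov i j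
  have hQM : IsCompact ((A.e j).symm '' Q) := hQ.image_of_continuousOn
    ((A.e j).continuousOn_symm.mono hQt)
  set S0 : Set (Cn n) := closedBall z r ∩ (A.e i).symm ⁻¹' ((A.e j).symm '' Q) with hS0
  have hS0c : IsCompact S0 := by
    have h1 : IsClosed S0 := ((A.e i).continuousOn_symm.mono hz).preimage_isClosed_of_isClosed
      isClosed_closedBall hQM.isClosed
    exact (isCompact_closedBall z r).of_isClosed_subset h1 inter_subset_left
  have hS0o : S0 ⊆ A.ov i j := by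
    rintro w ⟨hw, y, hy, hyw⟩
    refine ⟨hz hw, ?_⟩
    rw [← hyw]
    exact (A.e j).map_target (hQt hy)
  have hd : DifferentiableOn ℂ τ (A.ov i j) := A.holo i j
  have hc : ContinuousOn (fun w => (fderiv ℝ τ w).det) S0 :=
    ContinuousLinearMap.continuous_det.comp_continuousOn ((cont_fderiv ho hd).mono hS0o)
  obtain ⟨C, hC⟩ := hS0c.exists_bound_of_continuousOn hc
  refine ⟨Real.toNNReal |C|, fun B hB => ?_⟩
  set S : Set (Cn n) := (ball z r ∩ ((A.e i).target ∩ (A.e i).symm ⁻¹' B)) ∩ S0 with hS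
  have hSm : MeasurableSet S :=
    (measurableSet_ball.inter (meas_pre i hB)).inter hS0c.measurableSet
  have h1 : Q ∩ (A.e j).symm ⁻¹' (B ∩ cb A i z r) ⊆ τ '' S := by
    rintro y ⟨hy, hyB, hys, hyb⟩
    have hyb' : A.e i ((A.e j).symm y) ∈ ball z r := hyb
    have e1 : (A.e i).symm (A.e i ((A.e j).symm y)) = (A.e j).symm y := (A.e i).left_inv hys
    refine ⟨A.e i ((A.e j).symm y), ⟨⟨hyb', (A.e i).map_source hys, ?_⟩,
      ball_subset_closedBall hyb', ?_⟩, ?_⟩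
    · rw [mem_preimage, e1]; exact hyB
    · rw [mem_preimage, e1]; exact ⟨y, hy, rfl⟩
    · simp only [hτ]
      rw [e1, (A.e j).right_inv (hQt hy)]
  have h2 : ∀ w ∈ S, HasFDerivWithinAt τ (fderiv ℝ τ w) S w := fun w hw =>
    (((hd.differentiableAt (ho.mem_nhds (hS0o hw.2))).restrictScalars ℝ).hasFDerivAt).hasFDerivWithinAt
  calc μ (Q ∩ (A.e j).symm ⁻¹' (B ∩ cb A i z r)) ≤ μ (τ '' S) := measure_mono h1
    _ ≤ ∫⁻ w in S, ENNReal.ofReal |(fderiv ℝ τ w).det| ∂μ :=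
        addHaar_image_le_lintegral_abs_det_fderiv μ hSm h2
    _ ≤ ∫⁻ _w in S, ENNReal.ofReal |C| ∂μ := by
        refine setLIntegral_mono' hSm fun w hw => ?_
        have h3 := (hC w hw.2).trans (le_abs_self C)
        rw [Real.norm_eq_abs] at h3
        exact ENNReal.ofReal_le_ofReal h3
    _ = (Real.toNNReal |C| : ℝ≥0∞) * μ S := setLIntegral_const _ _
    _ ≤ _ := by
        gcongr
        rintro w ⟨⟨hw1, hw2⟩, -⟩
        exact ⟨hw1, hw2.2⟩

/-- **domination** of the chart measures by `nu` -/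
theorem nu_dom [T2Space M] (c : Cov A) (j : A.ι) {Q : Set (Cn n)} (hQ : IsCompact Q)
    (hQt : Q ⊆ (A.e j).target) :
    ∃ C : ℝ≥0, (μ.restrict Q).map (A.e j).symm ≤ C • nu μ c := by
  have h1 := fun t : M => map_le (A := A) μ (c.hz1 t) hQ hQt
  choose C hC using h1
  refine ⟨∑ t ∈ c.T, C t, Measure.le_iff.2 fun B hB => ?_⟩
  have h0 := aem hQt hQ.measurableSet μ
  rw [Measure.map_apply_of_aemeasurable h0 hB, Measure.restrict_apply₀ (h0.nullMeasurable hB),
    Measure.smul_apply, nu_apply μ c hB]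
  have h2 : (A.e j).symm ⁻¹' B ∩ Q ⊆
      ⋃ t ∈ c.T, Q ∩ (A.e j).symm ⁻¹' (B ∩ cb A (c.i t) (c.z t) (c.r t)) := by
    rintro y ⟨hyB, hy⟩
    obtain ⟨t, ht, hxt⟩ := c.cov ((A.e j).symm y)
    exact mem_iUnion₂.2 ⟨t, ht, hy, hyB, hxt⟩
  calc μ ((A.e j).symm ⁻¹' B ∩ Q)
      ≤ ∑ t ∈ c.T, μ (Q ∩ (A.e j).symm ⁻¹' (B ∩ cb A (c.i t) (c.z t) (c.r t))) :=
        (measure_mono h2).trans (measure_biUnion_finset_le _ _)
    _ ≤ ∑ t ∈ c.T, (C t : ℝ≥0∞) * μ (ball (c.z t) (c.r t) ∩ (A.e (c.i t)).symm ⁻¹' B) :=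
        Finset.sum_le_sum fun t _ => hC t B hB
    _ ≤ ∑ t ∈ c.T, ((∑ t ∈ c.T, C t : ℝ≥0) : ℝ≥0∞) *
          μ (ball (c.z t) (c.r t) ∩ (A.e (c.i t)).symm ⁻¹' B) := by
        refine Finset.sum_le_sum fun t ht => ?_
        gcongr
        exact Finset.single_le_sum (f := C) (fun _ _ => zero_le) ht
    _ = _ := by
        rw [← Finset.mul_sum]
        rfl

theorem lintegral_dom [T2Space M] (c : Cov A) (j : A.ι) {Q : Set (Cn n)} (hQ : IsCompact Q)
    (hQt : Q ⊆ (A.e j).target) :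
    ∃ C : ℝ≥0, ∀ f : M → ℝ≥0∞, Measurable f →
      ∫⁻ w in Q, f ((A.e j).symm w) ∂μ ≤ C * ∫⁻ x, f x ∂(nu μ c) := by
  obtain ⟨C, hC⟩ := nu_dom μ c j hQ hQt
  refine ⟨C, fun f hf => ?_⟩
  rw [← lintegral_map' hf.aemeasurable (aem hQt hQ.measurableSet μ)]
  refine (lintegral_mono' hC le_rfl).trans (le_of_eq ?_)
  rw [lintegral_smul_measure]
  rfl

end cov

end Crest.Agent.R281.Lc_196
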