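import Crest.Agent.R281.Lc3_196

/-!
# R281 (S0424), KAPPA-1 / UNIQ, QPSH-L1 (helper196), file 4: `L¹` compactness on a compact manifold

* `atlas_sub`  : smooth functions on `M` with uniform lower bounds of the Levi forms and uniform `L¹`
  bounds in the charts: a subsequence converges in `L¹` on the compact subsets of all charts to a Borel
  function `φ0 : M → ℝ`;
* **`atlas_limPsh`** : `cur h + ∂∂̄ φ_k + ε_k K ≥ 0`, `ε_k → 0`: moreover `φ0 + wt_i` is `LimPsh` in every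
  chart.
-/

set_option autoImplicit false
set_option linter.unusedSectionVars false

open Set Filter Topology Metric MeasureTheory
open scoped ContDiff NNReal ENNReal

noncomputable section

namespace Crest.Agent.R281.Lc_196

open Crest.Agent.R281.Qp1_911 Crest.Agent.R281.Qp3_911 Crest.Agent.R257.HoB_843
  Crest.Agent.R257.Glue2_101
open Crest.Agent.R275.Geo Crest.Agent.R275.Core144 Crest.Agent.R275.GC293
open Crest.Agent.R273.Defs_333 Crest.Agent.R273.Kah_333 Crest.Agent.R273.Hess_333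
open Crest.Agent.R273.YauDefs_635 (inC)
open Crest.Agent.R273.C0e_390 (cb isOpen_cb exists_cb contDiffAt_inC lv_eq_lev)
open Crest.Agent.R281.ThC_137

variable {n : ℕ} {M : Type} [TopologicalSpace M] {A : Atl n M}

theorem cont_of_sm {f : M → ℝ} (hf : A.Sm f) : Continuous f := by
  rw [continuous_iff_continuousAt]
  intro x
  obtain ⟨i, hi⟩ := A.cover x
  have h1 : ContinuousAt (fun z => f ((A.e i).symm z)) (A.e i x) :=
    (hf i).continuousOn.continuousAt ((A.e i).open_target.mem_nhds ((A.e i).map_source hi))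
  have h2 : ContinuousAt (fun y => f ((A.e i).symm (A.e i y))) x :=
    ContinuousAt.comp (f := A.e i) (g := fun z => f ((A.e i).symm z)) h1 ((A.e i).continuousAt hi)
  refine h2.congr ?_
  filter_upwards [(A.e i).open_source.mem_nhds hi] with y hy
  rw [(A.e i).left_inv hy]

/-- uniform lower bounds of the Levi forms -/
def Lb (A : Atl n M) (φ : ℕ → M → ℝ) : Prop :=
  ∀ i, ∀ K ⊆ (A.e i).target, IsCompact K → ∃ Λ : ℝ,
    ∀ k, ∀ z ∈ K, ∀ v, -(Λ * ‖v‖ ^ 2) ≤ lvE (inC A i (φ k)) z v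

/-- uniform `L¹` bounds -/
def L1b (μ : Measure (Cn n)) (A : Atl n M) (φ : ℕ → M → ℝ) : Prop :=
  ∀ i, ∀ K ⊆ (A.e i).target, IsCompact K → ∃ C : ℝ,
    ∀ k, ∫ w in K, |φ k ((A.e i).symm w)| ∂μ ≤ C

variable (μ : Measure (Cn n)) [μ.IsAddHaarMeasure]

/-- one chart ball -/
theorem ball_sub_l1 {φ : ℕ → M → ℝ} (hφ : ∀ k, A.Sm (φ k)) (hl : Lb A φ) (h1 : L1b μ A φ)
    {i : A.ι} {z : Cn n} {r : ℝ} (hr : 0 < r) (hz : closedBall z (3 * r) ⊆ (A.e i).target)
    (s : ℕ → ℕ) :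
    ∃ s' : ℕ → ℕ, StrictMono s' ∧ ∀ ε > 0, ∃ N, ∀ k ≥ N, ∀ l ≥ N,
      ∫ w in ball z r, |φ (s (s' k)) ((A.e i).symm w) - φ (s (s' l)) ((A.e i).symm w)| ∂μ ≤ ε := by
  have hprop : ProperSpace (Cn n) := FiniteDimensional.proper ℝ (Cn n)
  obtain ⟨Λ, hΛ⟩ := hl i _ hz (isCompact_closedBall _ _)
  obtain ⟨C, hC⟩ := h1 i _ hz (isCompact_closedBall _ _)
  set u : ℕ → Cn n → ℝ := fun k w => inC A i (φ (s k)) w + Λ * qn w with hu
  have hs : ∀ k, Sm2 (closedBall z (3 * r)) (u k) := fun k =>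
    sm2_of_lb (fun w hw => contDiffAt_inC (hφ _) (hz hw) le_rfl) (fun w hw v => hΛ _ w hw v)
  have hci : ∀ k, IntegrableOn (fun w => φ k ((A.e i).symm w)) (closedBall z (3 * r)) μ := fun k =>
    (((hφ k) i).continuousOn.mono hz).integrableOn_compact (isCompact_closedBall _ _)
  have hcq : IntegrableOn (fun w : Cn n => Λ * qn w) (closedBall z (3 * r)) μ :=
    (continuous_const.mul continuous_qn).continuousOn.integrableOn_compact
      (isCompact_closedBall _ _)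
  have hb : ∀ k, ∫ w in ball z (3 * r), |u k w| ∂μ ≤
      C + ∫ w in closedBall z (3 * r), |Λ * qn w| ∂μ := by
    intro k
    calc ∫ w in ball z (3 * r), |u k w| ∂μ
        ≤ ∫ w in closedBall z (3 * r), |u k w| ∂μ :=
          setIntegral_mono_set (((hci (s k)).add hcq).abs)
            (Eventually.of_forall fun w => abs_nonneg _) (ball_subset_closedBall.eventuallyLE)
      _ ≤ ∫ w in closedBall z (3 * r), (|φ (s k) ((A.e i).symm w)| + |Λ * qn w|) ∂μ :=
          setIntegral_mono_on ((hci (s k)).add hcq).abs ((hci (s k)).abs.add hcq.abs)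
            measurableSet_closedBall fun w _ => abs_add_le _ _
      _ = (∫ w in closedBall z (3 * r), |φ (s k) ((A.e i).symm w)| ∂μ) +
            ∫ w in closedBall z (3 * r), |Λ * qn w| ∂μ :=
          integral_add (hci (s k)).abs hcq.abs
      _ ≤ _ := by gcongr; exact hC _
  obtain ⟨s', hs', hcau⟩ := l1_sub (μ := μ) hr hs hb
  refine ⟨s', hs', fun ε hε => ?_⟩
  obtain ⟨N, hN⟩ := hcau ε hε
  refine ⟨N, fun k hk l hl => le_trans (le_of_eq ?_) (hN k hk l hl)⟩
  refine integral_congr_ae (Eventually.of_forall fun w => ?_)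
  simp only [hu, inC]
  congr 1
  ring

/-- finitely many chart balls -/
theorem cov_sub_l1 {φ : ℕ → M → ℝ} (hφ : ∀ k, A.Sm (φ k)) (hl : Lb A φ) (h1 : L1b μ A φ)
    (c : Cov A) (T : Finset M) :
    ∃ s : ℕ → ℕ, StrictMono s ∧ ∀ t ∈ T, ∀ ε > 0, ∃ N, ∀ k ≥ N, ∀ l ≥ N,
      ∫ w in ball (c.z t) (c.r t), |φ (s k) ((A.e (c.i t)).symm w) -
        φ (s l) ((A.e (c.i t)).symm w)| ∂μ ≤ ε := by
  classical
  induction T using Finset.induction_on with
  | empty => exact ⟨id, strictMono_id, fun t ht => absurd ht (Finset.notMem_empty t)⟩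
  | insert t T ht ih =>
    obtain ⟨s, hs, h⟩ := ih
    obtain ⟨s', hs', h'⟩ := ball_sub_l1 μ hφ hl h1 (c.hr t) (c.hz t) s
    refine ⟨s ∘ s', hs.comp hs', fun t' ht' ε hε => ?_⟩
    rcases Finset.mem_insert.1 ht' with rfl | ht'
    · exact h' ε hε
    · obtain ⟨N, hN⟩ := h t' ht' ε hε
      exact ⟨N, fun k hk l hl => hN _ (hk.le.trans (hs'.id_le k)) _ (hl.le.trans (hs'.id_le l))⟩

variable [MeasurableSpace M] [BorelSpace M]

theorem int_nu [CompactSpace M] (c : Cov A) {f : M → ℝ} (hf : A.Sm f) :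
    Integrable f (nu μ c) := by
  have hc := cont_of_sm hf
  obtain ⟨C, hC⟩ := isCompact_univ.exists_bound_of_continuousOn hc.continuousOn
  exact Integrable.of_bound hc.measurable.aestronglyMeasurable C
    (Eventually.of_forall fun x => hC x (mem_univ x))

/-- Cauchy in `L¹ (nu)` -/
theorem cauchy_nu [CompactSpace M] {φ : ℕ → M → ℝ} (hφ : ∀ k, A.Sm (φ k)) (c : Cov A) {s : ℕ → ℕ}
    (h : ∀ t ∈ c.T, ∀ ε > 0, ∃ N, ∀ k ≥ N, ∀ l ≥ N,
      ∫ w in ball (c.z t) (c.r t), |φ (s k) ((A.e (c.i t)).symm w) -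
        φ (s l) ((A.e (c.i t)).symm w)| ∂μ ≤ ε) {ε : ℝ} (hε : 0 < ε) :
    ∃ N, ∀ k ≥ N, ∀ l ≥ N, ∫⁻ x, edist (φ (s k) x) (φ (s l) x) ∂(nu μ c) ≤ ENNReal.ofReal ε := by
  classical
  have h2 : ∀ t, ∃ N, t ∈ c.T → ∀ k ≥ N, ∀ l ≥ N,
      ∫ w in ball (c.z t) (c.r t), |φ (s k) ((A.e (c.i t)).symm w) -
        φ (s l) ((A.e (c.i t)).symm w)| ∂μ ≤ ε / (c.T.card + 1) := by
    intro t
    by_cases ht : t ∈ c.T
    · obtain ⟨N, hN⟩ := h t ht _ (show 0 < ε / (c.T.card + 1) by positivity)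
      exact ⟨N, fun _ => hN⟩
    · exact ⟨0, fun h => absurd h ht⟩
  choose N hN using h2
  refine ⟨c.T.sup N, fun k hk l hl => ?_⟩
  have hm : Measurable fun x => edist (φ (s k) x) (φ (s l) x) :=
    (cont_of_sm (hφ _)).measurable.edist (cont_of_sm (hφ _)).measurable
  rw [lintegral_nu μ c hm]
  have h3 : ∀ t ∈ c.T, ∫⁻ w in ball (c.z t) (c.r t),
      edist (φ (s k) ((A.e (c.i t)).symm w)) (φ (s l) ((A.e (c.i t)).symm w)) ∂μ ≤
        ENNReal.ofReal (ε / (c.T.card + 1)) := by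
    intro t ht
    have h4 := hN t ht k ((Finset.le_sup ht).trans hk) l ((Finset.le_sup ht).trans hl)
    have hi : IntegrableOn (fun w => φ (s k) ((A.e (c.i t)).symm w) -
        φ (s l) ((A.e (c.i t)).symm w)) (ball (c.z t) (c.r t)) μ := by
      refine IntegrableOn.mono_set ?_ ball_subset_closedBall
      exact ((((hφ (s k)) (c.i t)).continuousOn.mono (c.hz1 t)).sub
        (((hφ (s l)) (c.i t)).continuousOn.mono (c.hz1 t))).integrableOn_compact
          (isCompact_closedBall _ _)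
    refine le_trans (le_of_eq ?_) (ENNReal.ofReal_le_ofReal h4)
    rw [ofReal_integral_eq_lintegral_ofReal hi.abs (Eventually.of_forall fun w => abs_nonneg _)]
    refine lintegral_congr fun w => ?_
    rw [edist_dist, Real.dist_eq]
  refine (Finset.sum_le_sum h3).trans ?_
  rw [Finset.sum_const, nsmul_eq_mul, ← ENNReal.ofReal_natCast, ← ENNReal.ofReal_mul (by positivity)]
  refine ENNReal.ofReal_le_ofReal ?_
  have h5 : (0 : ℝ) < c.T.card + 1 := by positivity
  rw [← mul_div_assoc, div_le_iff₀ h5]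
  nlinarith

/-- completeness of `L¹ (nu)` -/
theorem limit_nu [CompactSpace M] {φ : ℕ → M → ℝ} (hφ : ∀ k, A.Sm (φ k)) (c : Cov A) {s : ℕ → ℕ}
    (h : ∀ ε > 0, ∃ N, ∀ k ≥ N, ∀ l ≥ N,
      ∫⁻ x, edist (φ (s k) x) (φ (s l) x) ∂(nu μ c) ≤ ENNReal.ofReal ε) :
    ∃ g : M → ℝ, Measurable g ∧ Integrable g (nu μ c) ∧
      Tendsto (fun k => ∫⁻ x, edist (φ (s k) x) (g x) ∂(nu μ c)) atTop (𝓝 0) := by
  set F : ℕ → M →₁[nu μ c] ℝ := fun k => (int_nu μ c (hφ (s k))).toL1 (φ (s k)) with hF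
  have hcau : CauchySeq F := by
    rw [EMetric.cauchySeq_iff]
    intro ε hε
    by_cases htop : ε = ⊤
    · refine ⟨0, fun k _ l _ => ?_⟩
      rw [htop]
      exact edist_lt_top _ _
    · have h0 : 0 < ε.toReal := ENNReal.toReal_pos hε.ne' htop
      obtain ⟨N, hN⟩ := h (ε.toReal / 2) (by positivity)
      refine ⟨N, fun k hk l hl => ?_⟩
      rw [hF, Integrable.edist_toL1_toL1]
      refine (hN k hk l hl).trans_lt ?_
      rw [← ENNReal.ofReal_toReal htop]
      simp only [ENNReal.toReal_ofReal h0.le]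
      exact (ENNReal.ofReal_lt_ofReal_iff h0).2 (by linarith)
  obtain ⟨G, hG⟩ := cauchySeq_tendsto_of_complete hcau
  have hGi : Integrable G (nu μ c) := L1.integrable_coeFn G
  refine ⟨G, (Lp.stronglyMeasurable G).measurable, hGi, ?_⟩
  rw [tendsto_iff_edist_tendsto_0] at hG
  refine hG.congr fun k => ?_
  conv_lhs => rw [← Integrable.toL1_coeFn G hGi]
  rw [hF, Integrable.edist_toL1_toL1]

/-- convergence in `L¹` on the compact subsets of the charts -/
def ChL1 (μ : Measure (Cn n)) (A : Atl n M) (φ : ℕ → M → ℝ) (φ0 : M → ℝ) : Prop :=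
  ∀ i, ∀ Q ⊆ (A.e i).target, IsCompact Q →
    IntegrableOn (fun w => φ0 ((A.e i).symm w)) Q μ ∧
      Tendsto (fun k => ∫ w in Q, |φ k ((A.e i).symm w) - φ0 ((A.e i).symm w)| ∂μ) atTop (𝓝 0)

theorem chL1_of_nu [T2Space M] [CompactSpace M] {φ : ℕ → M → ℝ} (hφ : ∀ k, A.Sm (φ k)) (c : Cov A)
    {g : M → ℝ} (hg : Measurable g)
    (h : Tendsto (fun k => ∫⁻ x, edist (φ k x) (g x) ∂(nu μ c)) atTop (𝓝 0)) :
    ChL1 μ A φ g := by
  intro i Q hQt hQ
  obtain ⟨C, hC⟩ := lintegral_dom μ c i hQ hQt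
  have hm : ∀ k, Measurable fun x => edist (φ k x) (g x) := fun k =>
    (cont_of_sm (hφ k)).measurable.edist hg
  have h1 : Tendsto (fun k => ∫⁻ w in Q, edist (φ k ((A.e i).symm w)) (g ((A.e i).symm w)) ∂μ)
      atTop (𝓝 0) := by
    have h2 : Tendsto (fun k => (C : ℝ≥0∞) * ∫⁻ x, edist (φ k x) (g x) ∂(nu μ c)) atTop (𝓝 0) := by
      have := ENNReal.Tendsto.const_mul (a := (C : ℝ≥0∞)) h (Or.inr ENNReal.coe_ne_top)
      rwa [mul_zero] at this
    exact tendsto_of_tendsto_of_tendsto_of_le_of_le tendsto_const_nhds h2 (fun k => zero_le)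
      fun k => hC _ (hm k)
  have hgm : AEStronglyMeasurable (fun w => g ((A.e i).symm w)) (μ.restrict Q) :=
    (hg.comp_aemeasurable (aem hQt hQ.measurableSet μ)).aestronglyMeasurable
  have hφi : ∀ k, IntegrableOn (fun w => φ k ((A.e i).symm w)) Q μ := fun k =>
    (((hφ k) i).continuousOn.mono hQt).integrableOn_compact hQ
  have hgi : IntegrableOn (fun w => g ((A.e i).symm w)) Q μ := by
    obtain ⟨k, hk⟩ := (h1.eventually (gt_mem_nhds ENNReal.zero_lt_top)).exists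
    have h3 : IntegrableOn (fun w => φ k ((A.e i).symm w) - g ((A.e i).symm w)) Q μ := by
      refine ⟨(hφi k).1.sub hgm, ?_⟩
      rw [hasFiniteIntegral_iff_enorm]
      simpa only [edist_eq_enorm_sub] using hk
    have h4 := (hφi k).sub h3
    refine h4.congr (Eventually.of_forall fun w => ?_)
    simp
  refine ⟨hgi, ?_⟩
  have h5 := (ENNReal.tendsto_toReal ENNReal.zero_ne_top).comp h1
  simp only [ENNReal.toReal_zero] at h5
  refine h5.congr fun k => ?_
  have h6 : IntegrableOn (fun w => φ k ((A.e i).symm w) - g ((A.e i).symm w)) Q μ :=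
    (hφi k).sub hgi
  rw [Function.comp_apply, integral_eq_lintegral_of_nonneg_ae
    (Eventually.of_forall fun w => abs_nonneg _) h6.abs.1]
  congr 1
  refine lintegral_congr fun w => ?_
  rw [edist_dist, Real.dist_eq]

/-- **`L¹` compactness** -/
theorem atlas_sub [T2Space M] [CompactSpace M] {φ : ℕ → M → ℝ} (hφ : ∀ k, A.Sm (φ k))
    (hl : Lb A φ) (h1 : L1b μ A φ) :
    ∃ s : ℕ → ℕ, StrictMono s ∧ ∃ φ0 : M → ℝ, Measurable φ0 ∧
      (∀ C : ℝ, (∀ k x, φ k x ≤ C) → ∀ x, φ0 x ≤ C) ∧ ChL1 μ A (fun k => φ (s k)) φ0 := by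
  obtain ⟨c⟩ := exists_cov A
  obtain ⟨s, hs, h2⟩ := cov_sub_l1 μ hφ hl h1 c c.T
  obtain ⟨g, hgm, -, hg⟩ := limit_nu μ hφ c fun ε hε => cauchy_nu μ hφ c h2 hε
  refine ⟨s, hs, ?_⟩
  by_cases hb : ∃ C : ℝ, ∀ k x, φ k x ≤ C
  · obtain ⟨C1, hC1⟩ := hb
    set S : Set ℝ := range fun p : ℕ × M => φ p.1 p.2 with hS
    have hSb : BddAbove S := ⟨C1, by rintro _ ⟨p, rfl⟩; exact hC1 _ _⟩
    refine ⟨fun x => min (g x) (sSup S), hgm.min measurable_const, fun C hC x => ?_, ?_⟩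
    · refine (min_le_right _ _).trans (csSup_le ⟨_, ⟨(0, x), rfl⟩⟩ ?_)
      rintro _ ⟨p, rfl⟩
      exact hC _ _
    · refine chL1_of_nu μ (fun k => hφ (s k)) c (hgm.min measurable_const) ?_
      refine tendsto_of_tendsto_of_tendsto_of_le_of_le tendsto_const_nhds hg (fun k => zero_le)
        fun k => lintegral_mono fun x => ?_
      have h3 : φ (s k) x = min (φ (s k) x) (sSup S) :=
        (min_eq_left (le_csSup hSb ⟨(s k, x), rfl⟩)).symm
      show edist (φ (s k) x) (min (g x) (sSup S)) ≤ edist (φ (s k) x) (g x)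
      rw [edist_dist, edist_dist, Real.dist_eq, Real.dist_eq]
      refine ENNReal.ofReal_le_ofReal ?_
      conv_lhs => rw [h3]
      refine (abs_min_sub_min_le_max _ _ _ _).trans (le_of_eq ?_)
      rw [sub_self, abs_zero, max_eq_left (abs_nonneg _)]
  · exact ⟨g, hgm, fun C hC => absurd ⟨C, hC⟩ hb, chL1_of_nu μ (fun k => hφ (s k)) c hgm hg⟩

end Crest.Agent.R281.Lc_196
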