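import Crest.Agent.R281.Lc4_196

/-!
# R281 (S0424), KAPPA-1 / UNIQ, QPSH-L1 (helper196), file 5: `L¹` limits of the potentials

`h : HM L`, `K : Kah A`, `cur h + ∂∂̄ φ_k + ε_k K ≥ 0`, `ε_k → 0`, uniform `L¹` bounds in the charts:
* `atlas_lb`, **`atlas_limPsh`** : a subsequence converges in `L¹` on the compact subsets of all charts to a
  Borel function `φ0` and `φ0 + wt_i` is `LimPsh` in every chart;
* **`pshC_limPsh`** : the class `PshC` of helper137, `M` connected (the `L¹` bound is automatic).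
-/

set_option autoImplicit false
set_option linter.unusedSectionVars false

open Set Filter Topology Metric MeasureTheory
open scoped ContDiff NNReal ENNReal ComplexOrder

noncomputable section

namespace Crest.Agent.R281.Lc_196

open Crest.Agent.R281.Qp1_911 Crest.Agent.R281.Qp3_911 Crest.Agent.R257.HoB_843
  Crest.Agent.R257.Glue2_101
open Crest.Agent.R275.Geo Crest.Agent.R275.Core144 Crest.Agent.R275.GC293
open Crest.Agent.R273.Defs_333 Crest.Agent.R273.Kah_333 Crest.Agent.R273.Hess_333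
open Crest.Agent.R273.YauDefs_635 (inC)
open Crest.Agent.R273.C0e_390 (cb isOpen_cb exists_cb contDiffAt_inC lv_eq_lev)
open Crest.Agent.R281.ThC_137

variable {n : ℕ} {M : Type} [TopologicalSpace M] {A : Atl n M}

theorem lvE_eq_lev (u : Cn n → ℝ) (z v : Cn n) : lvE u z v = (1 / 4) * lev u z v := by
  rw [← lv_eq_lev]
  rfl

theorem lvE_inC {φ : M → ℝ} (hφ : A.Sm φ) {i : A.ι} {z : Cn n} (hz : z ∈ (A.e i).target)
    (v : Cn n) : lvE (inC A i φ) z v = (qG (hsf A φ i ((A.e i).symm z)) v).re := by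
  rw [lvE_eq_lev, lev_hsf hφ hz v]
  ring

theorem lvE_wt {L : LB A} (h : HM L) {i : A.ι} {z : Cn n} (hz : z ∈ (A.e i).target)
    (v : Cn n) : lvE (h.wt i) z v = (qG (cur h i ((A.e i).symm z)) v).re := by
  have h1 := lev_eq (wt_contDiffAt h i hz) v
  have h2 : hq (h.wt i) z v = qG (cur h i ((A.e i).symm z)) v := by
    rw [cur_read h i hz]
    rfl
  rw [h2] at h1
  have h3 := congrArg Complex.re h1
  rw [Complex.ofReal_re] at h3
  rw [lvE_eq_lev, h3]
  simp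

theorem qG_smul (c : ℂ) (G : Matrix (Fin n) (Fin n) ℂ) (v : Cn n) : qG (c • G) v = c * qG G v := by
  unfold qG
  simp only [Matrix.smul_apply, smul_eq_mul, Finset.mul_sum, mul_assoc]

theorem qG_bound {G : A.ι → M → Matrix (Fin n) (Fin n) ℂ}
    (hG : ∀ i a b, A.SmAt i (fun x => G i x a b)) (i : A.ι) {Q : Set (Cn n)}
    (hQ : Q ⊆ (A.e i).target) (hc : IsCompact Q) :
    ∃ D : ℝ, 0 ≤ D ∧ ∀ z ∈ Q, ∀ v : Cn n, ‖qG (G i ((A.e i).symm z)) v‖ ≤ D * ‖v‖ ^ 2 := by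
  have hb : ∀ a b, ∃ C : ℝ, ∀ z ∈ Q, ‖G i ((A.e i).symm z) a b‖ ≤ C := fun a b =>
    hc.exists_bound_of_continuousOn ((hG i a b).continuousOn.mono hQ)
  choose C hC using hb
  set D : ℝ := ∑ a, ∑ b, |C a b| with hD
  have hD0 : 0 ≤ D := Finset.sum_nonneg fun a _ => Finset.sum_nonneg fun b _ => abs_nonneg _
  have hCD : ∀ z ∈ Q, ∀ a b, ‖G i ((A.e i).symm z) a b‖ ≤ D := fun z hz a b =>
    (hC a b z hz).trans ((le_abs_self _).trans
      ((Finset.single_le_sum (f := fun b => |C a b|) (fun b _ => abs_nonneg _)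
        (Finset.mem_univ b)).trans
      (Finset.single_le_sum (f := fun a => ∑ b, |C a b|)
        (fun a _ => Finset.sum_nonneg fun b _ => abs_nonneg _) (Finset.mem_univ a))))
  exact ⟨(n : ℝ) * n * D, by positivity, fun z hz v => qG_le (hCD z hz) v⟩

/-- the curvature inequality with a small error -/
def Psd {L : LB A} (h : HM L) (K : Kah A) (ε : ℝ) (φ : M → ℝ) : Prop :=
  ∀ i, ∀ x ∈ (A.e i).source, (cur h i x + hsf A φ i x + (ε : ℂ) • K.g i x).PosSemidef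

variable {L : LB A} {h : HM L} {K : Kah A}

theorem Psd.re {ε : ℝ} {φ : M → ℝ} (H : Psd h K ε φ) {i : A.ι} {z : Cn n}
    (hz : z ∈ (A.e i).target) (v : Cn n) :
    0 ≤ (qG (cur h i ((A.e i).symm z)) v).re + (qG (hsf A φ i ((A.e i).symm z)) v).re +
      ε * (qG (K.g i ((A.e i).symm z)) v).re := by
  have h1 := qG_re_nonneg (H i _ ((A.e i).map_target hz)) v
  rw [qG_add, qG_add, qG_smul, Complex.add_re, Complex.add_re, Complex.re_ofReal_mul] at h1
  exact h1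

theorem atlas_lb {φ : ℕ → M → ℝ} (hφ : ∀ k, A.Sm (φ k)) {ε : ℕ → ℝ} (hε0 : ∀ k, 0 ≤ ε k) {E : ℝ}
    (hE : ∀ k, ε k ≤ E) (H : ∀ k, Psd h K (ε k) (φ k)) : Lb A φ := by
  intro i Q hQt hQ
  obtain ⟨D1, hD1, h1⟩ := qG_bound (fun i a b => cur_smooth h i a b) i hQt hQ
  obtain ⟨D2, hD2, h2⟩ := qG_bound (fun i a b => K.sm i a b) i hQt hQ
  refine ⟨D1 + E * D2, fun k z hz v => ?_⟩
  rw [lvE_inC (hφ k) (hQt hz)]
  have h3 := (H k).re (hQt hz) v
  have h4 := (Complex.re_le_norm _).trans (h1 z hz v)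
  have h5 := (Complex.re_le_norm _).trans (h2 z hz v)
  have h6 : ε k * (qG (K.g i ((A.e i).symm z)) v).re ≤ E * (D2 * ‖v‖ ^ 2) := by
    calc ε k * (qG (K.g i ((A.e i).symm z)) v).re ≤ ε k * (D2 * ‖v‖ ^ 2) :=
          mul_le_mul_of_nonneg_left h5 (hε0 k)
      _ ≤ _ := mul_le_mul_of_nonneg_right (hE k) (by positivity)
  linarith

variable (μ : Measure (Cn n)) [μ.IsAddHaarMeasure]

/-- the limit of a convergent sequence -/
theorem limPsh_of_chL1 {φ : ℕ → M → ℝ} (hφ : ∀ k, A.Sm (φ k)) {ε : ℕ → ℝ} (hε0 : ∀ k, 0 ≤ ε k)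
    (hε : Tendsto ε atTop (𝓝 0)) (H : ∀ k, Psd h K (ε k) (φ k)) {φ0 : M → ℝ}
    (hc : ChL1 μ A φ φ0) (i : A.ι) :
    LimPsh μ (A.e i).target (fun z => φ0 ((A.e i).symm z) + h.wt i z) := by
  have hwc : ContinuousOn (h.wt i) (A.e i).target := fun z hz =>
    (wt_contDiffAt h i hz).continuousAt.continuousWithinAt
  refine ⟨(A.e i).open_target, fun Q hQt hQ => ?_, fun Q hQt hQ δ hδ => ?_⟩
  · exact (hc i Q hQt hQ).1.add ((hwc.mono hQt).integrableOn_compact hQ)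
  · obtain ⟨D, hD, h2⟩ := qG_bound (fun i a b => K.sm i a b) i hQt hQ
    obtain ⟨hi, ht⟩ := hc i Q hQt hQ
    have hqi : IntegrableOn (qn : Cn n → ℝ) Q μ := continuous_qn.continuousOn.integrableOn_compact hQ
    have ht2 : Tendsto (fun k => (∫ w in Q, |φ k ((A.e i).symm w) - φ0 ((A.e i).symm w)| ∂μ) +
        ε k * D * ∫ w in Q, |qn w| ∂μ) atTop (𝓝 0) := by
      have := ht.add ((hε.mul_const D).mul_const (∫ w in Q, |qn w| ∂μ))
      simpa using this
    obtain ⟨k, hk⟩ := (ht2.eventually (gt_mem_nhds hδ)).exists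
    refine ⟨fun z => (inC A i (φ k) z + h.wt i z) + ε k * D * qn z, ?_, ?_⟩
    · refine sm2_of_lb (fun z hz => (contDiffAt_inC (hφ k) (hQt hz) le_rfl).add
        (wt_contDiffAt h i (hQt hz))) fun z hz v => ?_
      rw [lvE_add (contDiffAt_inC (hφ k) (hQt hz) le_rfl) (wt_contDiffAt h i (hQt hz)),
        lvE_inC (hφ k) (hQt hz), lvE_wt h (hQt hz)]
      have h3 := (H k).re (hQt hz) v
      have h5 := mul_le_mul_of_nonneg_left ((Complex.re_le_norm _).trans (h2 z hz v)) (hε0 k)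
      linarith
    · refine le_trans ?_ hk.le
      have hφi : IntegrableOn (fun w => φ k ((A.e i).symm w)) Q μ :=
        (((hφ k) i).continuousOn.mono hQt).integrableOn_compact hQ
      have hqa : IntegrableOn (fun w : Cn n => ε k * D * |qn w|) Q μ := hqi.abs.const_mul _
      have hsub : IntegrableOn (fun w => |φ k ((A.e i).symm w) - φ0 ((A.e i).symm w)|) Q μ :=
        (hφi.sub hi).abs
      have e1 : (∫ w in Q, |φ k ((A.e i).symm w) - φ0 ((A.e i).symm w)| ∂μ) +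
          ε k * D * ∫ w in Q, |qn w| ∂μ =
          ∫ w in Q, (|φ k ((A.e i).symm w) - φ0 ((A.e i).symm w)| + ε k * D * |qn w|) ∂μ := by
        rw [integral_add hsub hqa, integral_const_mul]
      rw [e1]
      have hwi : IntegrableOn (h.wt i) Q μ := (hwc.mono hQt).integrableOn_compact hQ
      have hbig : IntegrableOn (fun z => (inC A i (φ k) z + h.wt i z) + ε k * D * qn z) Q μ :=
        (hφi.add hwi).add (hqi.const_mul _)
      refine setIntegral_mono_on (hbig.sub (hi.add hwi)).abs (hsub.add hqa) hQ.measurableSet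
        fun w _ => ?_
      have e2 : (inC A i (φ k) w + h.wt i w) + ε k * D * qn w -
          (φ0 ((A.e i).symm w) + h.wt i w) =
          (φ k ((A.e i).symm w) - φ0 ((A.e i).symm w)) + ε k * D * qn w := by
        unfold inC; ring
      have e3 : |ε k * D * qn w| = ε k * D * |qn w| := by
        rw [abs_mul, abs_of_nonneg (mul_nonneg (hε0 k) hD)]
      show |(inC A i (φ k) w + h.wt i w) + ε k * D * qn w -
          (φ0 ((A.e i).symm w) + h.wt i w)| ≤ _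
      rw [e2, ← e3]
      exact abs_add_le _ _

variable [T2Space M] [CompactSpace M] [MeasurableSpace M] [BorelSpace M]

/-- **`L¹` compactness of the potentials** -/
theorem atlas_limPsh {φ : ℕ → M → ℝ} (hφ : ∀ k, A.Sm (φ k)) {ε : ℕ → ℝ} (hε0 : ∀ k, 0 ≤ ε k)
    (hε : Tendsto ε atTop (𝓝 0)) (H : ∀ k, Psd h K (ε k) (φ k)) (h1 : L1b μ A φ) :
    ∃ s : ℕ → ℕ, StrictMono s ∧ ∃ φ0 : M → ℝ, Measurable φ0 ∧
      (∀ C : ℝ, (∀ k x, φ k x ≤ C) → ∀ x, φ0 x ≤ C) ∧ ChL1 μ A (fun k => φ (s k)) φ0 ∧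
      ∀ i, LimPsh μ (A.e i).target (fun z => φ0 ((A.e i).symm z) + h.wt i z) := by
  obtain ⟨E, hE⟩ := hε.bddAbove_range
  have hE' : ∀ k, ε k ≤ E := fun k => hE ⟨k, rfl⟩
  obtain ⟨s, hs, φ0, hm, hC, hc⟩ := atlas_sub μ hφ (atlas_lb hφ hε0 hE' H) h1
  exact ⟨s, hs, φ0, hm, hC, hc, limPsh_of_chL1 μ (fun k => hφ (s k)) (fun k => hε0 (s k))
    (hε.comp hs.tendsto_atTop) (fun k => H (s k)) hc⟩

/-- the class of helper137: `cur h + ∂∂̄ φ_k + K ≥ 0`, `max φ_k = 0`, `M` connected; the `L¹` bound is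
automatic -/
theorem l1b_of_pshC [ConnectedSpace M] {φ : ℕ → M → ℝ} (hφ : ∀ k, PshC h K (φ k)) : L1b μ A φ := by
  intro i Q hQt hQ
  obtain ⟨C, -, hC⟩ := int_psh μ h K i hQ hQt
  exact ⟨C, fun k => (hC _ (hφ k)).2⟩

/-- **the potentials of the Ricci-flat metrics** -/
theorem pshC_limPsh [ConnectedSpace M] {φ : ℕ → M → ℝ} (hφ : ∀ k, PshC h K (φ k)) {ε : ℕ → ℝ}
    (hε0 : ∀ k, 0 ≤ ε k) (hε : Tendsto ε atTop (𝓝 0)) (H : ∀ k, Psd h K (ε k) (φ k)) :
    ∃ s : ℕ → ℕ, StrictMono s ∧ ∃ φ0 : M → ℝ, Measurable φ0 ∧ (∀ x, φ0 x ≤ 0) ∧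
      ChL1 μ A (fun k => φ (s k)) φ0 ∧
      ∀ i, LimPsh μ (A.e i).target (fun z => φ0 ((A.e i).symm z) + h.wt i z) := by
  obtain ⟨s, hs, φ0, hm, hC, hc, hl⟩ := atlas_limPsh μ (fun k => (hφ k).1) hε0 hε H
    (l1b_of_pshC μ hφ)
  exact ⟨s, hs, φ0, hm, hC 0 fun k x => (hφ k).2.2.1 x, hc, hl⟩

end Crest.Agent.R281.Lc_196
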