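import Crest.Agent.R281.Al8_830
import Crest.Agent.R281.Ehj3_461
import Crest.Agent.R281.Pe6_313
import Crest.Agent.R281.Exs2_581

/-!
# Row 281, DIV 2, LIFT (helper830), part 1

`F : QFam Q E H` an algebraic family, `omF reF imF : QBF F` its forms, `C : RCh V X`.

* `ajm cmp P hcx` : the complex structure of a member as a field `AJ C`
* `lift_marks`    : smooth path in the marked cover ==> jointly smooth family of hyperkaehler
                    triples on the members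
-/

set_option autoImplicit false
set_option maxSynthPendingDepth 3
set_option linter.unusedSectionVars false

open Filter Topology Complex Set
open scoped ContDiff

namespace Crest.Agent.R281.Lf_830

open Crest.Agent.R281.HkR_835 Crest.Agent.R281.Ehr2_268 Crest.Agent.R281.Dif_268
open Crest.Agent.R281.Ehr4_268 Crest.Agent.R281.CL_473 Crest.Agent.R281.Ehr6_268
open Crest.Agent.R281.Cdr_234 Crest.Agent.R281.Ehr7_268 Crest.Agent.R281.Phl_655
open Crest.Agent.R281.Ehr8_268 Crest.Agent.R281.Ehp_461 Crest.Agent.R281.Ehj_461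
open Crest.Agent.R281.Pe_313 (CxOf IRel)
open Crest.Agent.R281.Al_830 Crest.Agent.R281.NefO_476 Crest.Agent.R281.Nef_252
open Crest.Agent.R281.Tt_476 Crest.Agent.R281.Alg_998

noncomputable section

variable {V X : Type} [NormedAddCommGroup V] [NormedSpace ℝ V] [TopologicalSpace X]
  [FiniteDimensional ℝ V] {H : Type} [NormedAddCommGroup H] [NormedSpace ℂ H]
  [FiniteDimensional ℂ H] {C C' : RCh V X}

/-- the relation determines the vector -/
theorem Jm_of_iRel (h : Cmp C C') {P : HEmb C' H} (hcx : P.Cx) {j : C'.ι} {i : C.ι} {z : V}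
    (hz : z ∈ mov C' C j i) {v v' : V} (hr : IRel P j (mt C' C j i z)
      (fderiv ℝ (mt C' C j i) z v) (fderiv ℝ (mt C' C j i) z v')) : v' = Jm P C i z v := by
  refine Jm_uniq h hcx hz ?_
  obtain ⟨c, hc⟩ := hr
  refine ⟨c, ?_⟩
  rw [fderiv_rd h P hz, fderiv_rd h P hz]
  exact hc

/-- the complex structure of a member -/
def ajm (h : Cmp C C') (P : HEmb C' H) (hcx : P.Cx) : AJ C where
  J := Jm P C
  sm i := by
    have h1 := Jm_smooth (E' := ℝ) h (A := fun _ => P) (T := univ) isOpen_univ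
      (fun j => (P.sm j).comp contDiffOn_snd fun _ hp => hp.2) (fun _ _ => hcx) i
    have h2 : ContDiffOn ℝ ∞ (fun z : V => ((0 : ℝ), z)) (C.e i).target :=
      contDiffOn_const.prodMk contDiffOn_id
    exact h1.comp h2 fun z hz => ⟨mem_univ _, hz⟩
  tr i i' z hz v := by
    obtain ⟨j, hj⟩ : ∃ j : C'.ι, z ∈ mov C' C j i := Cmp.exists_mov C' hz.1
    have hj' : C.t i i' z ∈ mov C' C j i' := Cmp.t_mov hz hj
    refine Jm_of_iRel h hcx hj' ?_
    have e1 := h.symm.dt_mt hz hj v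
    have e2 := h.symm.dt_mt hz hj (Jm P C i z v)
    have e3 : mt C' C j i' (C.t i i' z) = mt C' C j i z := Cmp.t_mt hz
    rw [e1, e2, e3]
    exact Jm_iRel h hcx hj v

theorem ajm_cxOf (h : Cmp C C') {P : HEmb C' H} (hcx : P.Cx) {T : HkT C}
    (hT : ofHk T 0 = ajm h P hcx) : CxOf P T := by
  intro i j z hz v
  have h1 : T.J 0 i z = Jm P C i z := congrArg (fun J : AJ C => J.J i z) hT
  rw [h1]
  exact Jm_iRel h hcx hz v

theorem cxOf_eq (h : Cmp C C') {P : HEmb C' H} (hcx : P.Cx) {T : HkT C} (hT : CxOf P T) :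
    ∀ i, ∀ z ∈ (C.e i).target, ∀ v, T.J 0 i z v = (ajm h P hcx).J i z v := by
  intro i z hz v
  obtain ⟨j, hj⟩ : ∃ j : C'.ι, z ∈ mov C' C j i := Cmp.exists_mov C' hz
  exact Jm_of_iRel h hcx hj (hT i j z hj v)

section fam

universe uq

variable [CompactSpace X] [T2Space X] {Q : Type uq} [TopologicalSpace Q] {E : Type}
  [NormedAddCommGroup E] [NormedSpace ℂ E] {F : QFam Q E H}

/-- the family of complex structures and forms along a jointly smooth family of members -/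
def cfam (omF reF imF : QBF F) (cmp : Cmp C C') {A : ℝ → HEmb C' H} (hA : SmP A) {q : ℝ → Q}
    (hq : Continuous q) (hu : ContDiff ℝ ∞ fun t => F.u (q t))
    (hc : ∀ t w, w ∈ (A t).cone ↔ w ∈ F.S (q t)) (hcx : ∀ t, (A t).Cx)
    (hD : ∀ t, HD (ajm cmp (A t) (hcx t)) (omF.form (mk' cmp (q t) (A t) (hc t)))
      (reF.form (mk' cmp (q t) (A t) (hc t))) (imF.form (mk' cmp (q t) (A t) (hc t)))) :
    CFam C (univ : Set ℝ) where
  J t := ajm cmp (A t) (hcx t)
  om t := omF.form (mk' cmp (q t) (A t) (hc t))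
  s1 t := reF.form (mk' cmp (q t) (A t) (hc t))
  s2 t := imF.form (mk' cmp (q t) (A t) (hc t))
  jsJ i := Jm_smooth cmp isOpen_univ hA (fun t _ => hcx t) i
  jsom := form_joint omF cmp isOpen_univ hA hq.continuousOn hu.contDiffOn hc
  js1 := form_joint reF cmp isOpen_univ hA hq.continuousOn hu.contDiffOn hc
  js2 := form_joint imF cmp isOpen_univ hA hq.continuousOn hu.contDiffOn hc
  hd t _ := hD t

/-- the marking over `x` given by a representative -/
def repM {cmp : Cmp C C'} {x : (ls F C).Tot} {P : HEmb C' H} (h : Rep cmp x P) : Mark F C :=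
  mk' cmp ((ls F C).pr x) P h.choose

theorem repM_mk {cmp : Cmp C C'} {x : (ls F C).Tot} {P : HEmb C' H} (h : Rep cmp x P) :
    (MQ.mk (repM h) : MQ F C) = x := h.choose_spec

theorem rep_mark (m : Mark F C) {x : (ls F C).Tot} (h : (MQ.mk m : MQ F C) = x) :
    Rep m.cmp x m.P := by
  have h1 : m.q = (ls F C).pr x := by
    rw [← h]
    rfl
  obtain ⟨q, C₁, cmp, P, cone⟩ := m
  subst h1
  exact ⟨cone, h⟩

variable [MeasurableSpace V] [BorelSpace V] {μ : MeasureTheory.Measure V}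
  [μ.IsAddHaarMeasure] [ConnectedSpace X] {n : ℕ}
  {b : Module.Basis (Fin (n + n) × Fin 2) ℝ V} {P : Ti_846.RPart C} {q : QuadraticForm ℝ (F2 C)}
  {κ : Type} [Fintype κ] [DecidableEq κ] {b' : Module.Basis κ ℝ V}
  {Qf : F2 C →ₗ[ℝ] F2 C →ₗ[ℝ] ℝ}

/-- **LIFT**: a smooth path in the marked cover carries a jointly smooth family of hyperkaehler
triples, starting at a given one -/
theorem lift_marks (TI : TopI μ b P q) (hY : YauVar C b') {Fr : Frm C Qf} {A : F2 C}
    (hA : 0 < q A) (omF reF imF : QBF F) {c : ℝ → (ls F C).Tot} (hc : Continuous c)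
    (hs : ContDiff ℝ ∞ fun t => F.u ((ls F C).pr (c t))) {τ : ℝ → ℂ} (him : ∀ t, 0 < (τ t).im)
    (hHD : ∀ t, ∀ m : Mark F C, (MQ.mk m : MQ F C) = c t → ∃ hcx : m.P.Cx,
      HD (ajm m.cmp m.P hcx) (omF.form m) (reF.form m) (imF.form m))
    (hcl : ∀ t, ∀ m : Mark F C, (MQ.mk m : MQ F C) = c t →
      Cl (omF.form m) A ∧ PerAt Fr (reF.form m) (imF.form m) (τ t))
    (m0 : Mark F C) (hm0 : (MQ.mk m0 : MQ F C) = c 0) (H0 : HkT C) (hJ0 : CxOf m0.P H0)
    (hA0 : Cl (H0.om 0) A) :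
    ∃ K : ℝ → HkT C, SmH K ∧ HEqv (K 0) H0 ∧ ∀ t, ∃ m : Mark F C, (MQ.mk m : MQ F C) = c t ∧
      m.C' = m0.C' ∧ CxOf m.P (K t) ∧ AtTau Fr A (K t) (τ t) := by
  obtain ⟨A', hA', hA0', hrep⟩ := Exs_581.exists_exact hc hs (rep_mark m0 hm0)
  let M : ℝ → Mark F C := fun t => repM (hrep t)
  have hM : ∀ t, (MQ.mk (M t) : MQ F C) = c t := fun t => repM_mk (hrep t)
  have hcx : ∀ t, (A' t).Cx := fun t => (hHD t (M t) (hM t)).choose
  have hD : ∀ t, HD (ajm m0.cmp (A' t) (hcx t)) (omF.form (M t)) (reF.form (M t))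
      (imF.form (M t)) := fun t => (hHD t (M t) (hM t)).choose_spec
  have hq : Continuous fun t => (ls F C).pr (c t) := (ls F C).continuous_pr.comp hc
  let D : CFam C (univ : Set ℝ) := cfam omF reF imF m0.cmp hA' hq hs
    (fun t => (hrep t).choose) hcx hD
  have hJ : ∀ i, ∀ z ∈ (C.e i).target, ∀ v, H0.J 0 i z v = (D.J 0).J i z v := by
    intro i z hz v
    obtain ⟨j, hj⟩ : ∃ j : m0.C'.ι, z ∈ mov m0.C' C j i := Cmp.exists_mov m0.C' hz
    refine Jm_of_iRel m0.cmp (hcx 0) hj ?_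
    obtain ⟨a, ha⟩ := hJ0 i j z hj v
    have hev : (A' 0).u j =ᶠ[𝓝 (mt m0.C' C j i z)] m0.P.u j := by
      filter_upwards [(m0.C'.e j).open_target.mem_nhds (Cmp.mt_mem hj).1] with y hy
      exact hA0' j y hy
    refine ⟨a, ?_⟩
    rw [hev.fderiv_eq, hA0' j _ (Cmp.mt_mem hj).1]
    exact ha
  obtain ⟨K, h1, h2, h3⟩ := TI.exists_lift hY hA D (fun t => (hcl t (M t) (hM t)).1) him
    (fun t => (hcl t (M t) (hM t)).2) 0 H0 hJ hA0
  refine ⟨K, h1, h2, fun t => ⟨M t, hM t, rfl, ?_, (h3 t).2⟩⟩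
  exact ajm_cxOf m0.cmp (hcx t) (h3 t).1

end fam

end

end Crest.Agent.R281.Lf_830
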