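import Crest.Agent.R281.Lf1_830
import Crest.Agent.R281.Cus1_581

/-!
# Row 281, DIV 2, LIFT (helper830), part 2: helper581's `LiftS`
-/

set_option autoImplicit false
set_option maxSynthPendingDepth 3
set_option linter.unusedSectionVars false

open Filter Topology Complex Set
open scoped ContDiff

namespace Crest.Agent.R281.Lf_830

open Crest.Agent.R281.HkR_835 Crest.Agent.R281.Ehr2_268 Crest.Agent.R281.Dif_268
open Crest.Agent.R281.Ehr4_268 Crest.Agent.R281.CL_473 Crest.Agent.R281.Ehr6_268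
open Crest.Agent.R281.Cdr_234 Crest.Agent.R281.Ehr7_268 Crest.Agent.R281.Phl_655
open Crest.Agent.R281.Ehr8_268 Crest.Agent.R281.Ehp_461 Crest.Agent.R281.Ehj_461
open Crest.Agent.R281.Pe_313 (CxOf IRel)
open Crest.Agent.R281.Al_830 Crest.Agent.R281.NefO_476 Crest.Agent.R281.Nef_252
open Crest.Agent.R281.Tt_476 Crest.Agent.R281.Alg_998 Crest.Agent.R281.Cus_581

noncomputable section

universe uq

variable {V X : Type} [NormedAddCommGroup V] [NormedSpace ℝ V] [TopologicalSpace X]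
  [FiniteDimensional ℝ V] {H : Type} [NormedAddCommGroup H] [NormedSpace ℂ H]
  [FiniteDimensional ℂ H] {C : RCh V X}
variable [CompactSpace X] [T2Space X] {Q : Type uq} [TopologicalSpace Q] {E : Type}
  [NormedAddCommGroup E] [NormedSpace ℂ E] {F : QFam Q E H}
variable [MeasurableSpace V] [BorelSpace V] {μ : MeasureTheory.Measure V}
  [μ.IsAddHaarMeasure] [ConnectedSpace X] {n : ℕ}
  {b : Module.Basis (Fin (n + n) × Fin 2) ℝ V} {P : Ti_846.RPart C} {q : QuadraticForm ℝ (F2 C)}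
  {κ : Type} [Fintype κ] [DecidableEq κ] {b' : Module.Basis κ ℝ V}
  {Qf : F2 C →ₗ[ℝ] F2 C →ₗ[ℝ] ℝ}

/-- the pointwise input of LIFT: at every marking of a class with period `τ` the forms of the
family are hyperkaehler data (`HD`), with the classes `A` and `z σ_τ` -/
def PointAt (omF reF imF : QBF F) (Fr : Frm C Qf) (A : F2 C)
    (Pp : (ls F C).Tot → ℂ → Prop) : Prop :=
  ∀ (x : (ls F C).Tot) (τ : ℂ), Pp x τ → 0 < τ.im ∧ ∀ m : Mark F C, (MQ.mk m : MQ F C) = x →
    (∃ hcx : m.P.Cx, HD (ajm m.cmp m.P hcx) (omF.form m) (reF.form m) (imF.form m)) ∧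
    Cl (omF.form m) A ∧ PerAt Fr (reF.form m) (imF.form m) τ

/-- **LIFT** in the form of helper581 -/
theorem liftS_of (TI : TopI μ b P q) (hY : YauVar C b') {Fr : Frm C Qf} {A : F2 C}
    (hA : 0 < q A) {omF reF imF : QBF F} {Pp : (ls F C).Tot → ℂ → Prop}
    (hp : PointAt omF reF imF Fr A Pp) : LiftS F Fr A Pp := by
  intro c τ T0 hc hs _ hpp h0
  obtain ⟨h1, m0, h2, h3⟩ := h0
  obtain ⟨K, k1, k2, k3⟩ := lift_marks TI hY hA omF reF imF hc hs
    (fun t => (hp _ _ (hpp t)).1) (fun t m hm => ((hp _ _ (hpp t)).2 m hm).1)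
    (fun t m hm => ((hp _ _ (hpp t)).2 m hm).2) m0 h2 T0 h3 h1.om0
  refine ⟨K, k1, k2, fun t => ?_⟩
  obtain ⟨m, e1, -, e3, e4⟩ := k3 t
  exact ⟨e4, m, e1, e3⟩

end

end Crest.Agent.R281.Lf_830
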