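import Crest.Agent.R281.Lift1_461
import Crest.Agent.R281.Dif2_268

/-!
# R281 (S0424), EHR3 (helper461), part 2: transition diffeomorphisms of two families of members

`F`, `F'` two families with the same cones over the open set `O`.
`tm F F' c : X → X` sends the point of `X` which lies below `w` for `F` to the one which lies below
`w` for `F'`.  Jointly smooth, inverse `tm F' F c`, composition, identity for equal members;
homotopy: trivial action on closed 2-forms modulo exact forms.
-/

set_option autoImplicit false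
set_option linter.unusedSectionVars false

open Set Filter Topology
open scoped ContDiff

namespace Crest.Agent.R281.Lift_461

open Crest.Agent.R281.HkR_835 Crest.Agent.R281.Dif_268

noncomputable section

variable {V X H E Q : Type} [NormedAddCommGroup V] [NormedSpace ℝ V] [TopologicalSpace X]
  [NormedAddCommGroup H] [NormedSpace ℂ H]
  [NormedAddCommGroup E] [NormedSpace ℝ E]
  [NormedAddCommGroup Q] [NormedSpace ℝ Q]

variable {C : RCh V X} {O : Set E}

/-- the members at the parameter `c` have the same image -/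
def SameAt (F F' : EFam C H O) (c : E) : Prop :=
  ∀ w, (∃ x, F.Below c w x) ↔ ∃ x, F'.Below c w x

theorem SameAt.symm {F F' : EFam C H O} {c : E} (h : SameAt F F' c) : SameAt F' F c :=
  fun w => (h w).symm

theorem SameAt.trans {F F' F'' : EFam C H O} {c : E} (h : SameAt F F' c)
    (h' : SameAt F' F'' c) : SameAt F F'' c := fun w => (h w).trans (h' w)

theorem exists_below (F : EFam C H O) (c : E) (x : X) : ∃ w, F.Below c w x := by
  obtain ⟨i, hi⟩ := C.cover x
  exact ⟨_, i, hi, 1, one_ne_zero, rfl⟩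

/-- two vectors above the same point are proportional -/
theorem below_prop (F : EFam C H O) {c : E} (hc : c ∈ O) {w w' : H} {x : X}
    (h : F.Below c w x) (h' : F.Below c w' x) : ∃ b : ℂ, b ≠ 0 ∧ w' = b • w := by
  obtain ⟨i, hi, a, ha, rfl⟩ := h
  obtain ⟨a', ha', rfl⟩ := F.below_chart hc h' hi
  exact ⟨a' * a⁻¹, mul_ne_zero ha' (inv_ne_zero ha), by
    rw [smul_smul, mul_assoc, inv_mul_cancel₀ ha, mul_one]⟩

open Classical in
/-- the transition map -/
def tm (F F' : EFam C H O) (c : E) (x : X) : X :=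
  if h : ∃ x', ∃ w, F.Below c w x ∧ F'.Below c w x' then h.choose else x

variable (F F' F'' : EFam C H O)

theorem tm_spec {c : E} (h : SameAt F F' c) (x : X) :
    ∃ w, F.Below c w x ∧ F'.Below c w (tm F F' c x) := by
  have h1 : ∃ x', ∃ w, F.Below c w x ∧ F'.Below c w x' := by
    obtain ⟨w, hw⟩ := exists_below F c x
    obtain ⟨x', hx'⟩ := (h w).1 ⟨x, hw⟩
    exact ⟨x', w, hw, hx'⟩
  rw [tm, dif_pos h1]
  exact h1.choose_spec

variable {F F' F''}

/-- the defining property -/
theorem tm_below {c : E} (hc : c ∈ O) (h : SameAt F F' c) {w : H} {x : X}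
    (hw : F.Below c w x) : F'.Below c w (tm F F' c x) := by
  obtain ⟨w', h1, h2⟩ := tm_spec F F' h x
  obtain ⟨b, hb, rfl⟩ := below_prop F hc h1 hw
  exact h2.smul hb

theorem tm_eq {c : E} (hc : c ∈ O) (h : SameAt F F' c) {w : H} {x x' : X}
    (hw : F.Below c w x) (hw' : F'.Below c w x') : tm F F' c x = x' :=
  F'.below_unique hc (tm_below hc h hw) hw'

theorem tm_tm {c : E} (hc : c ∈ O) (h : SameAt F F' c) (h' : SameAt F' F'' c) (x : X) :
    tm F' F'' c (tm F F' c x) = tm F F'' c x := by
  obtain ⟨w, hw⟩ := exists_below F c x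
  have h1 := tm_below hc h hw
  have h2 := tm_below hc h' h1
  exact (tm_eq hc (h.trans h') hw h2).symm

/-- equal members (up to factors) -/
theorem tm_eq_self {c : E} (hc : c ∈ O) (h : ∀ w x, F.Below c w x → F'.Below c w x) (x : X) :
    tm F F' c x = x := by
  obtain ⟨w, hw⟩ := exists_below F c x
  have h1 : ∃ x', ∃ w, F.Below c w x ∧ F'.Below c w x' := ⟨x, w, hw, h _ _ hw⟩
  rw [tm, dif_pos h1]
  obtain ⟨w', h2, h3⟩ := h1.choose_spec
  exact F'.below_unique hc h3 (h _ _ h2)

theorem tm_inv {c : E} (hc : c ∈ O) (h : SameAt F F' c) (x : X) :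
    tm F' F c (tm F F' c x) = x := by
  rw [tm_tm hc h h.symm]
  exact tm_eq_self hc (fun _ _ h => h) x

section Smooth

variable [CompactSpace X] [T2Space X] [FiniteDimensional ℝ V] [FiniteDimensional ℂ H]
  [CompleteSpace E]

/-- the transition map read in the charts is smooth, jointly with the parameter; here along a
smooth map `κ` of parameters -/
theorem tm_smooth (hO : IsOpen O) (hs : ∀ c ∈ O, SameAt F F' c) {κ : Q → E} {ζ : Q → V}
    {n : WithTop ℕ∞} (hn : n ≠ 0) (hn' : n ≤ ∞) {q1 : Q} (hκ : ContDiffAt ℝ n κ q1)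
    (hζ : ContDiffAt ℝ n ζ q1) (hq1 : κ q1 ∈ O) {i : C.ι} (hi : ζ q1 ∈ (C.e i).target)
    {j : C.ι} (hj : tm F F' (κ q1) ((C.e i).symm (ζ q1)) ∈ (C.e j).source) :
    Tendsto (fun q => tm F F' (κ q) ((C.e i).symm (ζ q))) (𝓝 q1)
      (𝓝 (tm F F' (κ q1) ((C.e i).symm (ζ q1)))) ∧
    ContDiffAt ℝ n (fun q => C.e j (tm F F' (κ q) ((C.e i).symm (ζ q)))) q1 := by
  set θ : Q → H := fun q => F.U i (κ q) (ζ q) with hθ
  have hθc : ContDiffAt ℝ n θ q1 := by
    have h1 : ContDiffAt ℝ n (fun q => (κ q, ζ q)) q1 := hκ.prodMk hζ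
    exact ContDiffAt.comp (g := fun p : E × V => F.U i p.1 p.2) (f := fun q => (κ q, ζ q)) q1
      ((F.continuousAt_U hO hq1 hi).of_le hn') h1
  have hb : ∀ᶠ q in 𝓝 q1, F'.Below (κ q) (θ q) (tm F F' (κ q) ((C.e i).symm (ζ q))) := by
    filter_upwards [hκ.continuousAt.eventually (hO.mem_nhds hq1),
      hζ.continuousAt.eventually ((C.e i).open_target.mem_nhds hi)] with q h1 h2
    exact tm_below h1 (hs _ h1) (F.below_self h2)
  exact ⟨F'.tendsto_pt hO hκ.continuousAt hθc.continuousAt hq1 hb,
    (F'.lift hO hn hn' hκ hθc hq1 hb hj).1⟩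

/-- joint continuity -/
theorem tm_continuousAt (hO : IsOpen O) (hs : ∀ c ∈ O, SameAt F F' c) {c : E} (hc : c ∈ O)
    (x : X) : ContinuousAt (fun p : E × X => tm F F' p.1 p.2) (c, x) := by
  obtain ⟨i, hi⟩ := C.cover x
  obtain ⟨j, hj⟩ := C.cover (tm F F' c x)
  have h1 := (tm_smooth (F := F) (F' := F') hO hs (κ := fun q : E × V => q.1)
    (ζ := fun q : E × V => q.2) (n := 1) one_ne_zero (by exact_mod_cast le_top)
    (q1 := (c, C.e i x)) contDiffAt_fst contDiffAt_snd hc ((C.e i).map_source hi) (j := j)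
    (by simpa only [(C.e i).left_inv hi] using hj)).1
  simp only [(C.e i).left_inv hi] at h1
  have h2 : Tendsto (fun p : E × X => (p.1, C.e i p.2)) (𝓝 (c, x)) (𝓝 (c, C.e i x)) := by
    have h3 : ContinuousAt (fun p : E × X => C.e i p.2) (c, x) :=
      ContinuousAt.comp (g := C.e i) (f := fun p : E × X => p.2) ((C.e i).continuousAt hi)
        continuousAt_snd
    exact (continuousAt_fst.prodMk h3).tendsto
  have h4 := h1.comp h2
  have h5 : ∀ᶠ p : E × X in 𝓝 (c, x), p.2 ∈ (C.e i).source :=
    continuousAt_snd.eventually ((C.e i).open_source.mem_nhds hi)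
  refine h4.congr' ?_
  filter_upwards [h5] with p hp
  simp only [Function.comp, (C.e i).left_inv hp]

/-- **the transition map at one parameter as a smooth map** -/
def tmS (hO : IsOpen O) (hs : ∀ c ∈ O, SameAt F F' c) {c : E} (hc : c ∈ O) : SMap C C where
  f := tm F F' c
  cont := by
    rw [continuous_iff_continuousAt]
    intro x
    have h1 := tm_continuousAt hO hs hc x
    have h2 : ContinuousAt (fun x : X => (c, x)) x := by fun_prop
    exact ContinuousAt.comp (g := fun p : E × X => tm F F' p.1 p.2) (f := fun x : X => (c, x)) h1 h2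
  sm i j := fun z hz =>
    ((tm_smooth (F := F) (F' := F') hO hs (κ := fun _ : V => c) (ζ := fun z : V => z)
      (n := ∞) (by simp) le_rfl (q1 := z) contDiffAt_const contDiffAt_id hc hz.1 hz.2).2
        ).contDiffWithinAt

/-- **a smooth path of parameters gives a smooth map `ℝ × X → X`** -/
def tmP (hO : IsOpen O) (hs : ∀ c ∈ O, SameAt F F' c) {γ : ℝ → E} (hγ : ContDiff ℝ ∞ γ)
    (hγO : ∀ s, γ s ∈ O) : SMap (prodR C) C where
  f p := tm F F' (γ p.1) p.2
  cont := by
    rw [continuous_iff_continuousAt]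
    rintro ⟨s, x⟩
    have h1 := tm_continuousAt hO hs (hγO s) x
    have h2 : ContinuousAt (fun p : ℝ × X => (γ p.1, p.2)) (s, x) := by
      have := hγ.continuous
      fun_prop
    exact ContinuousAt.comp (g := fun p : E × X => tm F F' p.1 p.2)
      (f := fun p : ℝ × X => (γ p.1, p.2)) h1 h2
  sm i j := fun z hz => by
    have hz1 : z.2 ∈ (C.e j).target := (prodR_target (C := C) j z).1 hz.1
    have hz2 : tm F F' (γ z.1) ((C.e j).symm z.2) ∈ (C.e i).source := hz.2
    exact ((tm_smooth (F := F) (F' := F') hO hs (κ := fun q : ℝ × V => γ q.1)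
      (ζ := fun q : ℝ × V => q.2) (n := ∞) (by simp) le_rfl (q1 := z)
      (hγ.contDiffAt.comp z contDiffAt_fst) contDiffAt_snd (hγO z.1) hz1 hz2).2).contDiffWithinAt

theorem smap_ext {V' X' : Type} [NormedAddCommGroup V'] [NormedSpace ℝ V'] [TopologicalSpace X']
    {C' : RCh V' X'} {g g' : SMap C' C} (h : g.f = g'.f) : g = g' := by
  cases g
  cases g'
  cases h
  rfl

/-- **two families through the same member act equally on closed 2-forms modulo exact forms** -/
theorem coh_tm (hO : IsOpen O) (hs : ∀ c ∈ O, SameAt F F' c) {c1 c : E}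
    (hseg : segment ℝ c1 c ⊆ O) (h1 : ∀ w x, F.Below c1 w x → F'.Below c1 w x) (w : F2 C) :
    Coh ((tmS hO hs (hseg (right_mem_segment ℝ c1 c))).pull w) w := by
  set γ : ℝ → E := fun s => c1 + (Real.smoothTransition s) • (c - c1) with hγ
  have hγc : ContDiff ℝ ∞ γ :=
    contDiff_const.add ((Real.smoothTransition.contDiff (n := ⊤)).smul contDiff_const)
  have hγO : ∀ s, γ s ∈ O := by
    intro s
    refine hseg ?_
    rw [segment_eq_image']
    exact ⟨_, ⟨Real.smoothTransition.nonneg s, Real.smoothTransition.le_one s⟩, rfl⟩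
  have hγ0 : γ 0 = c1 := by simp [hγ, Real.smoothTransition.zero]
  have hγ1 : γ 1 = c := by simp [hγ, Real.smoothTransition.one]
  set Ψ := tmP (F := F) (F' := F') hO hs hγc hγO with hΨ
  have key := coh_homotopy Ψ w
  have e1 : Eqv ((tmS hO hs (hseg (right_mem_segment ℝ c1 c))).pull w)
      ((Ψ.comp (slice C 1)).pull w) := by
    have hf : (tmS hO hs (hseg (right_mem_segment ℝ c1 c))).f = (Ψ.comp (slice C 1)).f := by
      funext x
      show tm F F' c x = tm F F' (γ 1) x
      rw [hγ1]
    rw [smap_ext hf]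
    exact Eqv.refl _
  have e0 : Eqv ((Ψ.comp (slice C 0)).pull w) w := by
    have hf : (Ψ.comp (slice C 0)).f = (SMap.id C).f := by
      funext x
      show tm F F' (γ 0) x = x
      rw [hγ0]
      exact tm_eq_self (hγ0 ▸ hγO 0) h1 x
    rw [smap_ext hf]
    exact pull_id w
  exact (e1.coh.trans key).trans e0.coh

end Smooth

end

end Crest.Agent.R281.Lift_461
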