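import Crest.Agent.R281.Lv7_626
import Crest.Agent.R281.Iso4_139

/-!
# Row 281, LAP-VAR, part 8 (helper626): trace functions, `lap_var`, `ddc_var`, `DDCV C`

* `trX b J om w`  : `tr_om w` as a function on `X`;  `trX_eq`, `trX_js`
* `lap_var`       : **LAP-VAR** for families `J, om, w, u`
* `lap_var_f`     : the same for a jointly smooth family of functions; the constant is smooth
* `ddc_var`       : **DDC-VAR**: `w_p = dd^c u_p` jointly smooth, `u_p x1 = 0` => `u` jointly smooth
* `ddb_var`       : the `dd^c`-lemma with parameters in an open set of a f.d. space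
* `ddcv`          : 139's `DDCV C`
-/

set_option autoImplicit false
set_option linter.unusedSectionVars false
set_option maxSynthPendingDepth 3
set_option synthInstance.maxHeartbeats 200000

open Set Filter Topology Complex Metric
open scoped ContDiff Matrix ComplexConjugate ComplexOrder InnerProductSpace

namespace Crest.Agent.R281.Lv8_626

open Crest.Agent.R260.ACM_580
open Crest.Agent.R281.HkR_835 Crest.Agent.R281.NefO_476
open Crest.Agent.R281.Ti_846 hiding pb pb_apply symm2
open Crest.Agent.R281.Nef_252 Crest.Agent.R281.Tt_476 Crest.Agent.R281.Dif_268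
open Crest.Agent.R281.Lv4_626 Crest.Agent.R281.Lv5_626 Crest.Agent.R281.Lv6_626
open Crest.Agent.R281.Lv7_626

noncomputable section

variable {V X : Type} [NormedAddCommGroup V] [NormedSpace ℝ V] [TopologicalSpace X]
  {C : RCh V X} {κ : Type} [Fintype κ] [DecidableEq κ]

theorem inv_t {i j : C.ι} {z : V} (hz : z ∈ C.ov i j) : (fderiv ℝ (C.t i j) z).IsInvertible :=
  ⟨ContinuousLinearEquiv.equivOfInverse (fderiv ℝ (C.t i j) z)
    (fderiv ℝ (C.t j i) (C.t i j z)) (fun v => RCh.dt_dt hz v) (fun v => RCh.dt_dt' hz v), rfl⟩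

/-- the trace is independent of the chart -/
theorem trW_tr (b : Module.Basis κ ℝ V) (J : AJ C) (om w : F2 C) {i j : C.ι} {z : V}
    (hz : z ∈ C.ov i j) : trW b J om w i z = trW b J om w j (C.t i j z) :=
  trace_pull b b (L := fderiv ℝ (C.t i j) z) (fun x y => om.tr i j z hz x y)
    (fun x y => w.tr i j z hz x y) (fun x => (J.tr i j z hz x)) (inv_t hz)

/-- the trace as a function on `X` -/
def trX (b : Module.Basis κ ℝ V) (J : AJ C) (om w : F2 C) (x : X) : ℝ :=
  trW b J om w (C.cover x).choose (C.e (C.cover x).choose x)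

theorem trX_eq (b : Module.Basis κ ℝ V) (J : AJ C) (om w : F2 C) {i : C.ι} {z : V}
    (hz : z ∈ (C.e i).target) : trX b J om w ((C.e i).symm z) = trW b J om w i z := by
  set x := (C.e i).symm z with hx
  have h1 := (C.cover x).choose_spec
  set j := (C.cover x).choose with hj
  have h2 : z ∈ C.ov i j := ⟨hz, h1⟩
  rw [trW_tr b J om w h2]
  rfl

theorem trX_eq' (b : Module.Basis κ ℝ V) (J : AJ C) (om w : F2 C) {i : C.ι} {x : X}
    (hx : x ∈ (C.e i).source) : trX b J om w x = trW b J om w i (C.e i x) := by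
  rw [← trX_eq b J om w ((C.e i).map_source hx), (C.e i).left_inv hx]

section families

variable [FiniteDimensional ℝ V] {E : Type} [NormedAddCommGroup E] [NormedSpace ℝ E]
  {T : Set E}

/-- joint smoothness of the trace -/
theorem trW_js (b : Module.Basis κ ℝ V) {J : E → AJ C} {om w : E → F2 C} (hJ : JSJ T J)
    (hom : JS2 T om) (hw : JS2 T w) (hpos : ∀ p ∈ T, Pos (J p) (om p)) (i : C.ι) :
    ContDiffOn ℝ ∞ (fun q : E × V => trW b (J q.1) (om q.1) (w q.1) i q.2)
      (T ×ˢ (C.e i).target) :=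
  sm_trace b (hom i) (hw i) (hJ i) fun q hq => det_Mt_ne b fun v hv =>
    hpos q.1 hq.1 i q.2 hq.2 v hv

theorem trX_js (b : Module.Basis κ ℝ V) {J : E → AJ C} {om w : E → F2 C} (hJ : JSJ T J)
    (hom : JS2 T om) (hw : JS2 T w) (hpos : ∀ p ∈ T, Pos (J p) (om p)) :
    JS0 C T fun p => trX b (J p) (om p) (w p) := fun i =>
  (trW_js b hJ hom hw hpos i).congr fun _ hq => trX_eq b _ _ _ hq.2

theorem trX_sm (b : Module.Basis κ ℝ V) {J : AJ C} {om w : F2 C} (hpos : Pos J om) :
    Sm C (trX b J om w) := fun i =>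
  (sm_trace b (om.sm i) (w.sm i) (J.sm i) fun z hz => det_Mt_ne b fun v hv =>
    hpos i z hz v hv).congr fun _ hz => trX_eq b _ _ _ hz

/-- zero density -/
def dens0 (C : RCh V X) : Dens C where
  r _ _ := 0
  sm _ := contDiffOn_const
  tr _ _ _ _ := by simp

open scoped Classical in
/-- the data of the Laplace equation -/
def datL (J : AJ C) (om : F2 C) (f : X → ℝ) : Dat C where
  J := J
  om := om
  r := dens0 C
  f := if Sm C f then f else fun _ => 0
  fs := by
    split_ifs with h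
    · exact h
    · exact fun i => contDiffOn_const

theorem datL_f (J : AJ C) (om : F2 C) {f : X → ℝ} (h : Sm C f) :
    (datL J om f).f = f := by
  classical
  simp [datL, h]

theorem js0_sm {f : E → X → ℝ} (h : JS0 C T f) {p : E} (hp : p ∈ T) : Sm C (f p) := fun i =>
  (h i).comp (f := fun z : V => (p, z)) (contDiffOn_const.prodMk contDiffOn_id)
    fun _ hz => ⟨hp, hz⟩

theorem datL_js {J : E → AJ C} {om : E → F2 C} {f : E → X → ℝ}
    (hJ : JSJ T J) (hom : JS2 T om) (hf : JS0 C T f) : JSDat T fun p => datL (J p) (om p) (f p) :=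
  ⟨hJ, hom, fun i => contDiffOn_const, fun i => (hf i).congr fun q hq => by
    simp only [datL_f _ _ (js0_sm hf hq.1)]⟩

/-- derivatives in the second variable of jointly smooth families -/
theorem cd_fd {G : Type*} [NormedAddCommGroup G] [NormedSpace ℝ G] {U : Set V} (hT : IsOpen T)
    (hU : IsOpen U) {F : E → V → G}
    (hF : ContDiffOn ℝ ∞ (fun q : E × V => F q.1 q.2) (T ×ˢ U)) :
    ContDiffOn ℝ ∞ (fun q : E × V => fderiv ℝ (F q.1) q.2) (T ×ˢ U) := by
  have ho : IsOpen (T ×ˢ U) := hT.prod hU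
  have h1 : ContDiffOn ℝ ∞ (fun q : E × V =>
      (fderiv ℝ (fun q : E × V => F q.1 q.2) q).comp
        (ContinuousLinearMap.inr ℝ E V)) (T ×ˢ U) :=
    (hF.fderiv_of_isOpen ho (by simp)).clm_comp contDiffOn_const
  refine h1.congr fun q hq => ?_
  have h2 : HasFDerivAt (fun q : E × V => F q.1 q.2)
      (fderiv ℝ (fun q : E × V => F q.1 q.2) q) (q.1, q.2) :=
    ((hF.contDiffAt (ho.mem_nhds hq)).differentiableAt (by simp)).hasFDerivAt
  have h3 : HasFDerivAt (fun z : V => (q.1, z)) (ContinuousLinearMap.inr ℝ E V) q.2 :=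
    hasFDerivAt_prodMk_right q.1 q.2
  exact (h2.comp q.2 h3).fderiv

variable [MeasurableSpace V] [BorelSpace V]

/-- `dd^c u_p` is jointly smooth -/
theorem ddcF_js (hT : IsOpen T) {J : E → AJ C} (hJ : JSJ T J) {u : E → X → ℝ} (hu : JS0 C T u)
    (i : C.ι) (a b : V) :
    ContDiffOn ℝ ∞ (fun q : E × V => ddcF (uc C (u q.1) i) ((J q.1).J i) q.2 a b)
      (T ×ˢ (C.e i).target) := by
  have h1 := cd_fd hT (C.e i).open_target (F := fun p z => u p ((C.e i).symm z)) (hu i)
  have h2 := cd_fd hT (C.e i).open_target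
    (F := fun p => fderiv ℝ (fun z => u p ((C.e i).symm z))) h1
  have h3 := cd_fd hT (C.e i).open_target (F := fun p => (J p).J i) (hJ i)
  have h4 := hJ i
  unfold ddcF
  refine ((((h2.clm_apply contDiffOn_const).clm_apply (h4.clm_apply contDiffOn_const)).add
    (h1.clm_apply ((h3.clm_apply contDiffOn_const).clm_apply contDiffOn_const))).neg).add
    (((h2.clm_apply contDiffOn_const).clm_apply (h4.clm_apply contDiffOn_const)).add
    (h1.clm_apply ((h3.clm_apply contDiffOn_const).clm_apply contDiffOn_const)))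

theorem ddc_js (hT : IsOpen T) {J : E → AJ C} (hJ : JSJ T J) {u : E → X → ℝ} (hu : JS0 C T u)
    (hs : ∀ p, Sm C (u p)) : JS2 T fun p => ddc (J p) (u p) (hs p) := by
  intro i
  refine contDiffOn_clm_apply.2 fun a => contDiffOn_clm_apply.2 fun b => ?_
  exact (ddcF_js hT hJ hu i a b).congr fun q hq => ddc_w _ _ _ hq.2 _ _

end families

/-! ### the main theorems -/

section main

variable [FiniteDimensional ℝ V] [MeasurableSpace V] [BorelSpace V] [CompactSpace X] [T2Space X]
  [ConnectedSpace X] {E : Type} [NormedAddCommGroup E] [NormedSpace ℝ E] [FiniteDimensional ℝ E]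
  {T : Set E}

/-- **LAP-VAR**: solutions of the Laplace equations of a jointly smooth family of Kaehler
structures, normalised at a point, are jointly smooth; the constants are smooth -/
theorem lap_var_f (b : Module.Basis κ ℝ V) (hT : IsOpen T) {J : E → AJ C} {om : E → F2 C}
    (hJ : JSJ T J) (hom : JS2 T om) (hcx : ∀ p ∈ T, Cx (J p)) (h11 : ∀ p ∈ T, T11 (J p) (om p))
    (hpos : ∀ p ∈ T, Pos (J p) (om p)) {f : E → X → ℝ} (hf : JS0 C T f) {x1 : X}
    {u : E → X → ℝ} (hu : ∀ p ∈ T, Sm C (u p)) (h1 : ∀ p ∈ T, u p x1 = 0) {c : E → ℝ}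
    (heq : ∀ p, ∀ hp : p ∈ T, ∀ i, ∀ z ∈ (C.e i).target,
      trW b (J p) (om p) (ddc (J p) (u p) (hu p hp)) i z = f p ((C.e i).symm z) + c p) :
    JS0 C T u ∧ ContDiffOn ℝ ∞ c T := by
  have hJS : JS0 C T u := by
    refine joint_lap b hT (x1 := x1) (datL_js hJ hom hf) (fun p hp => ?_) h1
    refine ⟨hcx p hp, h11 p hp, hpos p hp, hu p hp, c p, fun i z hz => ?_⟩
    rw [datL_f _ _ (js0_sm hf hp)]
    exact heq p hp i z hz
  refine ⟨hJS, ?_⟩
  obtain ⟨i, hi⟩ := C.cover x1
  set z := C.e i x1 with hz0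
  have hz : z ∈ (C.e i).target := (C.e i).map_source hi
  have hsl : ContDiffOn ℝ ∞ (fun p : E => (p, z)) T := contDiffOn_id.prodMk contDiffOn_const
  have hm : MapsTo (fun p : E => (p, z)) T (T ×ˢ (C.e i).target) := fun p hp => ⟨hp, hz⟩
  have e1 : ContDiffOn ℝ ∞ (fun p => ((Mt b ((om p).w i z) ((J p).J i z))⁻¹ *
      Matrix.of fun a c => ddcF (uc C (u p) i) ((J p).J i) z (b a) ((J p).J i z (b c))).trace)
      T := by
    simp only [Matrix.trace, Matrix.diag, Matrix.mul_apply, Matrix.of_apply]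
    refine ContDiffOn.sum fun a _ => ContDiffOn.sum fun c _ => ContDiffOn.mul ?_ ?_
    · refine sm_inv (fun a c => ?_) (fun p hp => det_Mt_ne b fun v hv =>
        hpos p hp i z hz v hv) a c
      exact (sm_Mt b (hom i) (hJ i) a c).comp hsl hm
    · have h2 : ∀ p ∈ T, ddcF (uc C (u p) i) ((J p).J i) z (b c) ((J p).J i z (b a)) =
          ∑ e, b.repr ((J p).J i z (b a)) e * ddcF (uc C (u p) i) ((J p).J i) z (b c) (b e) := by
        intro p hp
        simp only [← ddc_w (J p) (u p) (hu p hp) hz]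
        conv_lhs => rw [← b.sum_repr ((J p).J i z (b a))]
        simp only [map_sum, map_smul, smul_eq_mul]
      refine ContDiffOn.congr ?_ h2
      refine ContDiffOn.sum fun e _ => ContDiffOn.mul ?_ ?_
      · have h3 : ContDiff ℝ ∞ fun v : V => b.repr v e := by
          have : (fun v : V => b.repr v e) = fun v => LinearMap.toContinuousLinearMap
            (b.coord e) v := rfl
          rw [this]
          exact ContinuousLinearMap.contDiff _
        refine h3.comp_contDiffOn ?_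
        exact (((hJ i).comp hsl hm).clm_apply contDiffOn_const)
      · exact (ddcF_js hT hJ hJS i (b c) (b e)).comp hsl hm
  have e2 : ContDiffOn ℝ ∞ (fun p => f p ((C.e i).symm z)) T := (hf i).comp hsl hm
  refine (e1.sub e2).congr fun p hp => ?_
  have h4 := heq p hp i z hz
  have h5 : trW b (J p) (om p) (ddc (J p) (u p) (hu p hp)) i z =
      ((Mt b ((om p).w i z) ((J p).J i z))⁻¹ * Matrix.of fun a c =>
        ddcF (uc C (u p) i) ((J p).J i) z (b a) ((J p).J i z (b c))).trace := by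
    refine congrArg (fun M : Matrix κ κ ℝ => ((Mt b ((om p).w i z)
      ((J p).J i z))⁻¹ * M).trace) ?_
    ext a c
    exact ddc_w _ _ _ hz _ _
  rw [← h5, h4]
  ring

/-- **LAP-VAR** for the trace of a family of forms -/
theorem lap_var (b : Module.Basis κ ℝ V) (hT : IsOpen T) {J : E → AJ C} {om w : E → F2 C}
    (hJ : JSJ T J) (hom : JS2 T om) (hw : JS2 T w) (hcx : ∀ p ∈ T, Cx (J p))
    (h11 : ∀ p ∈ T, T11 (J p) (om p)) (hpos : ∀ p ∈ T, Pos (J p) (om p)) {x1 : X}
    {u : E → X → ℝ} (hu : ∀ p ∈ T, Sm C (u p)) (h1 : ∀ p ∈ T, u p x1 = 0) {c : E → ℝ}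
    (heq : ∀ p, ∀ hp : p ∈ T, ∀ i, ∀ z ∈ (C.e i).target,
      trW b (J p) (om p) (ddc (J p) (u p) (hu p hp)) i z =
        trW b (J p) (om p) (w p) i z + c p) :
    JS0 C T u ∧ ContDiffOn ℝ ∞ c T :=
  lap_var_f b hT hJ hom hcx h11 hpos (trX_js b hJ hom hw hpos) hu h1 fun p hp i z hz => by
    rw [trX_eq b _ _ _ hz]
    exact heq p hp i z hz

/-- **DDC-VAR**: potentials of a jointly smooth family of `dd^c`-exact forms, normalised at a
point, are jointly smooth -/
theorem ddc_var (hT : IsOpen T) {J : E → AJ C} {om w : E → F2 C}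
    (hJ : JSJ T J) (hom : JS2 T om) (hw : JS2 T w) (hcx : ∀ p ∈ T, Cx (J p))
    (h11 : ∀ p ∈ T, T11 (J p) (om p)) (hpos : ∀ p ∈ T, Pos (J p) (om p)) {x1 : X}
    {u : E → X → ℝ} (hu : ∀ p ∈ T, Sm C (u p)) (h1 : ∀ p ∈ T, u p x1 = 0)
    (heq : ∀ p, ∀ hp : p ∈ T, ∀ i, ∀ z ∈ (C.e i).target, ∀ a b,
      (w p).w i z a b = (ddc (J p) (u p) (hu p hp)).w i z a b) : JS0 C T u := by
  refine (lap_var (Module.finBasis ℝ V) hT hJ hom hw hcx h11 hpos hu h1 (c := fun _ => 0)
    fun p hp i z hz => ?_).1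
  have h2 : (w p).w i z = (ddc (J p) (u p) (hu p hp)).w i z := by
    ext a b
    exact heq p hp i z hz a b
  rw [trW, trW, h2, add_zero]

/-- **the `dd^c`-lemma with parameters** -/
theorem ddb_var (hT : IsOpen T) {J : E → AJ C} {om w : E → F2 C}
    (hJ : JSJ T J) (hom : JS2 T om) (hw : JS2 T w) (hcx : ∀ p ∈ T, Cx (J p))
    (h11 : ∀ p ∈ T, T11 (J p) (om p)) (hpos : ∀ p ∈ T, Pos (J p) (om p))
    (hdd : ∀ p ∈ T, DDb (J p)) (hex : ∀ p ∈ T, Ex (w p)) (hw11 : ∀ p ∈ T, T11 (J p) (w p))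
    (x1 : X) :
    ∃ (u : E → X → ℝ) (hu : ∀ p, Sm C (u p)), JS0 C T u ∧ (∀ p, u p x1 = 0) ∧
      ∀ p ∈ T, ∀ i, ∀ z ∈ (C.e i).target, ∀ a b,
        (w p).w i z a b = (ddc (J p) (u p) (hu p)).w i z a b := by
  have key : ∀ p, ∃ (u : X → ℝ) (hu : Sm C u), u x1 = 0 ∧ (p ∈ T → ∀ i, ∀ z ∈ (C.e i).target,
      ∀ a b, (w p).w i z a b = (ddc (J p) u hu).w i z a b) := by
    intro p
    by_cases hp : p ∈ T
    · obtain ⟨v, hv, he⟩ := hdd p hp (w p) (hex p hp) (hw11 p hp)
      refine ⟨fun x => v x - v x1, fun i => (hv i).sub contDiffOn_const, sub_self _,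
        fun _ i z hz a b => ?_⟩
      rw [he i z hz a b]
      exact ddc_congr (J p) hv _ (c := v x1) (fun x => by ring) hz a b
    · exact ⟨fun _ => 0, fun i => contDiffOn_const, rfl, fun h => absurd h hp⟩
  choose u hu hu1 hue using key
  exact ⟨u, hu, ddc_var hT hJ hom hw hcx h11 hpos (fun p _ => hu p) (fun p _ => hu1 p)
    (fun p hp => hue p hp), hu1, fun p hp => hue p hp⟩

/-- **DDC-VAR in the form of HK-ISO** -/
theorem ddcv : Iso_139.DDCV C := by
  intro H om hom h11 hpos hdd γ hγ hinv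
  obtain ⟨x1⟩ : Nonempty X := inferInstance
  have hw : JS2 univ fun t => (γ t).d := by
    intro i
    have h1 : ContDiffOn ℝ ∞ (fun p : ℝ × V => fderiv ℝ ((γ p.1).η i) p.2)
        (univ ×ˢ (C.e i).target) :=
      cd_fd isOpen_univ (C.e i).open_target (F := fun p => (γ p).η i) (hγ i)
    have h2 : ContDiff ℝ ∞ (fun T : V →L[ℝ] V →L[ℝ] ℝ => T - T.flip) := by
      have : (fun T : V →L[ℝ] V →L[ℝ] ℝ => T - T.flip) =
        fun T => T - ContinuousLinearMap.flipₗᵢ ℝ V V ℝ T := rfl
      rw [this]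
      fun_prop
    exact h2.comp_contDiffOn h1
  obtain ⟨u, hu, hjs, -, he⟩ := ddb_var (T := (univ : Set ℝ)) isOpen_univ (J := fun t => H.aj t)
    (om := om) (w := fun t => (γ t).d) H.jsJ hom hw (fun t _ => H.cx t) (fun t _ => h11 t)
    (fun t _ => hpos t) (fun t _ => hdd t) (fun t _ => ⟨γ t, fun _ _ _ _ _ => rfl⟩)
    (fun t _ i z hz a b => hinv t i z hz a b) x1
  refine ⟨fun t x => -u t x, fun i => (hjs i).neg, fun t i z hz a b => ?_⟩
  have h1 := he t (mem_univ _) i z hz a b
  have h2 : Iso_139.cJ (Iso_139.dX C (fun x => -u t x) i) (H.J t i) =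
      (dc (H.aj t) (u t) (hu t)).η i := by
    funext y
    have h3 : Iso_139.dX C (fun x => -u t x) i y = -fderiv ℝ (uc C (u t) i) y := by
      show fderiv ℝ (fun y => -(u t ((C.e i).symm y))) y = _
      rw [fderiv_fun_neg]
      rfl
    show (Iso_139.dX C (fun x => -u t x) i y).comp (H.J t i y) =
      -(fderiv ℝ (uc C (u t) i) y).comp ((H.aj t).J i y)
    rw [h3]
    rfl
  rw [h2]
  exact h1

end main

end

end Crest.Agent.R281.Lv8_626
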