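import Crest.Agent.R281.Lv8_626
import Crest.Agent.R273.CLinE_933

/-!
# Row 281, LAP-VAR, part 9 (helper626): existence, trace free representatives

* `exists_adapted` : the holomorphic atlas and the Kaehler metric of `(J, om)`
* `exists_lap`     : existence of solutions of the Laplace equation
* `exists_lap_var` : jointly smooth solutions of jointly smooth families
* `tf_var`         : jointly smooth `u`, smooth `c` with `tr_(om p) (w p + dd^c u_p) = c p`
-/

set_option autoImplicit false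
set_option linter.unusedSectionVars false
set_option maxSynthPendingDepth 3
set_option synthInstance.maxHeartbeats 200000

open Set Filter Topology Complex Metric
open scoped ContDiff Matrix ComplexConjugate ComplexOrder InnerProductSpace

namespace Crest.Agent.R281.Lv9_626

open Crest.Agent.R275.Geo Crest.Agent.R275.Core144 Crest.Agent.R275.EDR890
open Crest.Agent.R275.GC293
open Crest.Agent.R273.Kah_333 Crest.Agent.R273.Vol_333 Crest.Agent.R273.YauDefs_635
open Crest.Agent.R260.ACM_580 Crest.Agent.R260.NNB_580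
open Crest.Agent.R281.HkR_835 Crest.Agent.R281.NefO_476
open Crest.Agent.R281.Ti_846 hiding pb pb_apply symm2
open Crest.Agent.R281.Nef_252 Crest.Agent.R281.Tt_476 Crest.Agent.R281.Dif_268
open Crest.Agent.R281.Lv4_626 Crest.Agent.R281.Lv5_626 Crest.Agent.R281.Lv6_626
open Crest.Agent.R281.Lv7_626 Crest.Agent.R281.Lv8_626

noncomputable section

variable {V X : Type} [NormedAddCommGroup V] [NormedSpace ℝ V] [FiniteDimensional ℝ V]
  [MeasurableSpace V] [BorelSpace V] [TopologicalSpace X]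
  {C : RCh V X} {κ : Type} [Fintype κ] [DecidableEq κ]

/-- the holomorphic atlas and the Kaehler metric of `(J, om)` -/
theorem exists_adapted [CompactSpace X] [T2Space X] [Nonempty X] {J : AJ C} {om : F2 C}
    (hcx : Cx J) (h11 : T11 J om) (hpos : Pos J om) :
    ∃ (d : ℕ) (_ : Module.finrank ℝ V = 2 * d) (A : Atl d X) (_ : Finite A.ι)
      (_ : Nonempty (Part A)) (h : Cmp C (ofAtl A)) (K : Kah A),
      (∀ (i : A.ι), ∀ z ∈ (A.e i).target, ∀ v, ((LD.ofCmp h).pJ J).J i z v = I • v) ∧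
      ∀ (i : A.ι), ∀ z ∈ (A.e i).target, ∀ x y,
        ((LD.ofCmp h).pull om).w i z x y = (I * hb (K.g i ((A.e i).symm z)) x y).re := by
  have : CompleteSpace V := FiniteDimensional.complete ℝ V
  obtain ⟨x₁⟩ : Nonempty X := inferInstance
  obtain ⟨i₁, hi₁⟩ := C.cover x₁
  obtain ⟨d, hd⟩ := even_finrank (J.J i₁ (C.e i₁ x₁)) (hcx.sq i₁ _ ((C.e i₁).map_source hi₁))
  obtain ⟨A, hfin, hgood, hP, hc, hJI⟩ := exists_hol hd hcx
  set g : LD (ofAtl A) C := LD.ofCmp hc with hg
  have hJi : ∀ (i : A.ι), ∀ z ∈ (A.e i).target, (g.pJ J).J i z = iL := by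
    intro i z hz
    ext1 v
    exact hJI i z hz v
  have h11' : ∀ i, ∀ z ∈ (A.e i).target, ∀ v w,
      (g.pull om).w i z (I • v) (I • w) = (g.pull om).w i z v w := by
    intro i z hz v w
    have h1 := (g.pJ_t11 h11) i z hz v w
    rw [hJi i z hz] at h1
    exact h1
  set K₁ : K11 A := (g.pull om).k11 h11' with hK₁
  have hval : ∀ i, ∀ z ∈ (A.e i).target, K₁.f2.w i z = (g.pull om).w i z :=
    fun i z hz => F2.k11_f2 _ h11' hz
  have hpos' : Pos (jA A) K₁.f2 := fun i z hz v hv => by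
    rw [hval i z hz]
    have h1 := (g.pJ_pos hpos) i z hz v hv
    rw [hJi i z hz] at h1
    exact h1
  exact ⟨d, hd, A, hfin, hP, hc, K₁.kah ((pos_f2 K₁).1 hpos'), hJI, fun i z hz x y => by
    rw [← hval i z hz]
    exact K₁.f2_w hz x y⟩

/-- **existence** for the Laplace equation -/
theorem exists_solLap [CompactSpace X] [T2Space X] [ConnectedSpace X] (b : Module.Basis κ ℝ V)
    (D : Dat C) (hcx : Cx D.J) (h11 : T11 D.J D.om) (hpos : Pos D.J D.om) (x₁ : X) :
    ∃ u : X → ℝ, u x₁ = 0 ∧ SolLap b D u := by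
  have : CompleteSpace V := FiniteDimensional.complete ℝ V
  obtain ⟨d, hd, A, _, ⟨P₀⟩, hc, K, hJI, hK⟩ := exists_adapted hcx h11 hpos
  set g : LD (ofAtl A) C := LD.ofCmp hc with hg
  have hd' : Module.finrank ℝ V = Module.finrank ℝ (Cn d) := by
    rw [hd, finrank_real_of_complex, finrank_euclideanSpace, Fintype.card_fin]
  let b' : Module.Basis κ ℝ (Cn d) := b.map (LinearEquiv.ofFinrankEq _ _ hd')
  have hf : A.Sm (fun x => D.f x / 8) := fun i =>
    ((Sm.comp D.fs g.toSMap) i).div_const 8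
  obtain ⟨v, m, hv, hlap⟩ := Crest.Agent.R273.CLin_933.lin_kah K P₀ hf
  have hvA : A.Sm fun x => v x - v x₁ := fun i => (hv i).sub contDiffOn_const
  have hvC : Sm C fun x => v x - v x₁ :=
    Sm.comp (C := ofAtl A) (show Sm (ofAtl A) fun x => v x - v x₁ from hvA)
      (LD.ofCmp hc.symm).toSMap
  refine ⟨fun x => v x - v x₁, sub_self _, hcx, h11, hpos, hvC, -(8 * m), fun i y hy => ?_⟩
  obtain ⟨j, z, hz, rfl⟩ := LD.exists_pt g (fun x => ⟨x, rfl⟩) hy
  have h1 : trW b D.J D.om (ddc D.J (fun x => v x - v x₁) hvC) i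
      (Dif_268.loc C (ofAtl A) g.f i j z) =
      trW b' (g.pJ D.J) (g.pull D.om) (ddc (g.pJ D.J) (fun x => v x - v x₁) hvA) j z := by
    refine (trace_pull b' b (L := fderiv ℝ (Dif_268.loc C (ofAtl A) g.f i j) z) (fun x y => ?_)
      (fun x y => ?_) (fun x => ?_) (g.inv i j z hz)).symm
    · exact g.pull_w D.om hz x y
    · have h2 := ddc_pull g D.J hvC hz.1 x y
      rw [g.pull_w _ hz] at h2
      exact h2
    · exact g.pJ_spec D.J hz x
  rw [h1]
  have hdT : fderiv ℝ ((g.pJ D.J).J j) z = 0 := by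
    have h1 : (g.pJ D.J).J j =ᶠ[𝓝 z] fun _ => iL := by
      filter_upwards [(A.e j).open_target.mem_nhds hz.1] with y hy
      ext1 v
      rw [hJI j y hy]
      rfl
    rw [h1.fderiv_eq]
    simp
  have h2 := aL_base b' K hvA hz.1 (hK j z hz.1) (hJI j z hz.1) hdT
  have h3 : trW b' (g.pJ D.J) (g.pull D.om) (ddc (g.pJ D.J) (fun x => v x - v x₁) hvA) j z =
      aL b' ((g.pull D.om).w j z) ((g.pJ D.J).J j z) (fderiv ℝ ((g.pJ D.J).J j) z)
        (inC A j (fun x => v x - v x₁) z, fderiv ℝ (inC A j (fun x => v x - v x₁)) z,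
          fderiv ℝ (fderiv ℝ (inC A j (fun x => v x - v x₁))) z) := by
    rw [aL_apply]
    refine congrArg (fun M : Matrix κ κ ℝ => ((Mt b' ((g.pull D.om).w j z)
      ((g.pJ D.J).J j z))⁻¹ * M).trace) ?_
    ext a c
    have h4 := ddc_w (g.pJ D.J) (fun x => v x - v x₁) hvA hz.1 (b' a) ((g.pJ D.J).J j z (b' c))
    rw [ddcF_eq] at h4
    exact h4
  rw [h3, h2]
  have h5 : Crest.Agent.R273.SchH_152.Lap K (fun x => v x - v x₁) ((A.e j).symm z) =
      D.f ((A.e j).symm z) / 8 - m := by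
    rw [Crest.Agent.R273.SchH_152.lap_of_isLap K hvA
      (Crest.Agent.R273.SchJ_152.isLap_sub_const (Crest.Agent.R273.SchH_152.isLap K hv) (v x₁))]
    exact hlap _
  rw [h5, g.symm_loc hz]
  show _ = D.f (g.f ((A.e j).symm z)) + _
  have h6 : g.f ((A.e j).symm z) = (A.e j).symm z := rfl
  rw [h6]
  ring

/-! ### families -/

section fam

variable [CompactSpace X] [T2Space X] [ConnectedSpace X] {E : Type} [NormedAddCommGroup E]
  [NormedSpace ℝ E] [FiniteDimensional ℝ E] {T : Set E}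

/-- **jointly smooth solutions of the Laplace equations of jointly smooth families** -/
theorem exists_lap_var (b : Module.Basis κ ℝ V) (hT : IsOpen T) {J : E → AJ C} {om : E → F2 C}
    (hJ : JSJ T J) (hom : JS2 T om) (hcx : ∀ p ∈ T, Cx (J p)) (h11 : ∀ p ∈ T, T11 (J p) (om p))
    (hpos : ∀ p ∈ T, Pos (J p) (om p)) {f : E → X → ℝ} (hf : JS0 C T f) (x1 : X) :
    ∃ (u : E → X → ℝ) (hu : ∀ p, Sm C (u p)) (c : E → ℝ), JS0 C T u ∧ ContDiffOn ℝ ∞ c T ∧
      (∀ p, u p x1 = 0) ∧ ∀ p ∈ T, ∀ i, ∀ z ∈ (C.e i).target,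
        trW b (J p) (om p) (ddc (J p) (u p) (hu p)) i z = f p ((C.e i).symm z) + c p := by
  have key : ∀ p, ∃ (u : X → ℝ) (hu : Sm C u) (c : ℝ), u x1 = 0 ∧ (p ∈ T → ∀ i,
      ∀ z ∈ (C.e i).target,
        trW b (J p) (om p) (ddc (J p) u hu) i z = f p ((C.e i).symm z) + c) := by
    intro p
    by_cases hp : p ∈ T
    · obtain ⟨u, hu1, h⟩ := exists_solLap b (datL (J p) (om p) (f p)) (hcx p hp) (h11 p hp)
        (hpos p hp) x1
      obtain ⟨k, hk⟩ := h.eq
      refine ⟨u, h.sm, k, hu1, fun _ i z hz => ?_⟩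
      have h2 := hk i z hz
      rw [datL_f _ _ (js0_sm hf hp)] at h2
      exact h2
    · exact ⟨fun _ => 0, fun i => contDiffOn_const, 0, rfl, fun h => absurd h hp⟩
  choose u hu c hu1 hue using key
  obtain ⟨h1, h2⟩ := lap_var_f b hT hJ hom hcx h11 hpos hf (fun p _ => hu p)
    (fun p _ => hu1 p) (c := c) (fun p hp => hue p hp)
  exact ⟨u, hu, c, h1, h2, hu1, fun p hp => hue p hp⟩

theorem trW_add (b : Module.Basis κ ℝ V) (J : AJ C) (om w w' : F2 C) (i : C.ι) (z : V) :
    trW b J om (w + w') i z = trW b J om w i z + trW b J om w' i z := by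
  have h1 : Mt b ((w + w').w i z) (J.J i z) = Mt b (w.w i z) (J.J i z) +
      Mt b (w'.w i z) (J.J i z) := by
    ext a c
    simp only [Mt, Matrix.of_apply, Matrix.add_apply, F2.add_w, add_apply]
  rw [trW, h1, Matrix.mul_add, Matrix.trace_add]
  rfl

theorem trW_smul (b : Module.Basis κ ℝ V) (J : AJ C) (om w : F2 C) (r : ℝ) (i : C.ι) (z : V) :
    trW b J om (r • w) i z = r * trW b J om w i z := by
  have h1 : Mt b ((r • w).w i z) (J.J i z) = r • Mt b (w.w i z) (J.J i z) := by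
    ext a c
    simp only [Mt, Matrix.of_apply, Matrix.smul_apply, F2.smul_w, smul_apply]
  rw [trW, h1, Matrix.mul_smul, Matrix.trace_smul]
  rfl

/-- the trace of the Kaehler form is the dimension -/
theorem trW_self (b : Module.Basis κ ℝ V) {J : AJ C} {om : F2 C} (hpos : Pos J om) {i : C.ι}
    {z : V} (hz : z ∈ (C.e i).target) : trW b J om om i z = Fintype.card κ := by
  have h1 : IsUnit (Mt b (om.w i z) (J.J i z)).det :=
    (det_Mt_ne b fun v hv => hpos i z hz v hv).isUnit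
  rw [trW, Matrix.nonsing_inv_mul _ h1, Matrix.trace_one]

/-- **trace-constant representatives** of a jointly smooth family of forms -/
theorem tf_var (b : Module.Basis κ ℝ V) (hT : IsOpen T) {J : E → AJ C} {om w : E → F2 C}
    (hJ : JSJ T J) (hom : JS2 T om) (hw : JS2 T w) (hcx : ∀ p ∈ T, Cx (J p))
    (h11 : ∀ p ∈ T, T11 (J p) (om p)) (hpos : ∀ p ∈ T, Pos (J p) (om p)) (x1 : X) :
    ∃ (u : E → X → ℝ) (hu : ∀ p, Sm C (u p)) (c : E → ℝ), JS0 C T u ∧ ContDiffOn ℝ ∞ c T ∧
      (∀ p, u p x1 = 0) ∧ (JS2 T fun p => w p + ddc (J p) (u p) (hu p)) ∧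
      ∀ p ∈ T, ∀ i, ∀ z ∈ (C.e i).target,
        trW b (J p) (om p) (w p + ddc (J p) (u p) (hu p)) i z = c p := by
  have hf : JS0 C T fun p x => -trX b (J p) (om p) (w p) x := fun i =>
    ((trX_js b hJ hom hw hpos) i).neg
  obtain ⟨u, hu, c, h1, h2, h3, h4⟩ := exists_lap_var b hT hJ hom hcx h11 hpos hf x1
  refine ⟨u, hu, c, h1, h2, h3, fun i => ?_, fun p hp i z hz => ?_⟩
  · exact (hw i).add (ddc_js hT hJ h1 hu i)
  · rw [trW_add, h4 p hp i z hz, trX_eq b _ _ _ hz]
    ring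

end fam

end

end Crest.Agent.R281.Lv9_626
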