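import Crest.Agent.R281.Al6_830

/-!
# Row 281 (helper457): positive forms of type (1,1) have `q > 0`

* `intT_pos`     : the integral of a positive top form is positive
* `TopI.q_pos`   : `H` a hyperkaehler triple with `0 < q (om 0)`, `w` positive of type (1,1) for
                   `J k` of `H` ==> `0 < q w`
-/

set_option autoImplicit false
set_option maxSynthPendingDepth 3
set_option linter.unusedSectionVars false

open Set Filter Topology Function MeasureTheory
open scoped ContDiff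

namespace Crest.Agent.R281.Ly6_457

open Crest.Agent.R275.Geo Crest.Agent.R275.Core144 Crest.Agent.R275.EDR890
open Crest.Agent.R281.HkR_835 hiding pb pb_apply
open Crest.Agent.R281.HkR_835.Cmp
open Crest.Agent.R281.Ti_846 hiding pb pb_apply
open Crest.Agent.R281.NefO_476
open Crest.Agent.R281.Nef_252
open Crest.Agent.R281.Al_830

noncomputable section

variable {V X : Type} [NormedAddCommGroup V] [NormedSpace ℝ V] [TopologicalSpace X]
  {C : RCh V X} [FiniteDimensional ℝ V] [MeasurableSpace V] [BorelSpace V] {μ : Measure V}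
  [μ.IsAddHaarMeasure] [CompactSpace X]

/-- the integral of a positive top form is positive -/
theorem intT_pos [Nonempty X] (P : RPart C) (hP : ∀ k x, 0 ≤ P.ψ k x) {D : TopF C}
    (h : ∀ i, ∀ z ∈ (C.e i).target, 0 < D.D i z) : 0 < intT μ P D := by
  obtain ⟨x⟩ := (inferInstance : Nonempty X)
  have h1 : ∃ k, 0 < P.ψ k x := by
    by_contra hne
    push Not at hne
    have h2 : ∑ k, P.ψ k x = 0 := Finset.sum_eq_zero fun k _ => le_antisymm (hne k) (hP k x)
    rw [P.sum_one x] at h2
    exact one_ne_zero h2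
  obtain ⟨k, hk⟩ := h1
  have hx : x ∈ (C.e (P.c k)).source := by
    by_contra hne
    have := psi_zero P k fun h1 => hne (P.sub k h1)
    rw [this] at hk
    exact lt_irrefl _ hk
  unfold intT
  refine Finset.sum_pos' (fun l _ => setIntegral_nonneg (C.e _).open_target.measurableSet
    fun z hz => mul_nonneg (hP _ _) (h _ z hz).le) ⟨k, Finset.mem_univ k, ?_⟩
  set f : V → ℝ := fun z => P.ψ k ((C.e (P.c k)).symm z) * D.D (P.c k) z with hf
  have hc : ContinuousOn f (C.e (P.c k)).target := (cont_psi_symm P k _).mul (D.cont _)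
  have hU : IsOpen ((C.e (P.c k)).target ∩ f ⁻¹' (Ioi 0)) :=
    hc.isOpen_inter_preimage (C.e (P.c k)).open_target isOpen_Ioi
  rw [setIntegral_pos_iff_support_of_nonneg_ae]
  · refine lt_of_lt_of_le (hU.measure_pos μ ⟨C.e (P.c k) x, (C.e (P.c k)).map_source hx, ?_⟩)
      (measure_mono fun z hz => ⟨?_, hz.1⟩)
    · show 0 < P.ψ k ((C.e (P.c k)).symm (C.e (P.c k) x)) * D.D (P.c k) (C.e (P.c k) x)
      rw [(C.e (P.c k)).left_inv hx]
      exact mul_pos hk (h _ _ ((C.e (P.c k)).map_source hx))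
    · exact (show (0 : ℝ) < f z from hz.2).ne'
  · exact (ae_restrict_iff' (C.e _).open_target.measurableSet).2 (Eventually.of_forall
      fun z hz => mul_nonneg (hP _ _) (h _ z hz).le)
  · exact integrableOn_psi μ P D k

variable {n : ℕ} {b : Module.Basis (Fin (n + n) × Fin 2) ℝ V} {P : RPart C}
  {q : QuadraticForm ℝ (F2 C)}

/-- **positive forms of type (1,1)** -/
theorem q_pos [T2Space X] [ConnectedSpace X] (T : TopI μ b P q) (H : HkT C)
    (h0 : 0 < q (H.om 0)) (k : Fin 3) {w : F2 C} (ht : T11 (ofHk H k) w)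
    (hp : Pos (ofHk H k) w) : 0 < q w := by
  obtain ⟨A, hfin, -, ⟨PA⟩, h, hI⟩ := exists_atlas (fin_V b) (cx_ofHk H k)
  -- the segment
  let wt : ℝ → F2 C := fun t => (1 - t) • H.om k + t • w
  have htt : ∀ t, T11 (ofHk H k) (wt t) := fun t =>
    ((T11_hk H k).smul (1 - t)).add (ht.smul t)
  have hpt : ∀ t ∈ Icc (0 : ℝ) 1, Pos (ofHk H k) (wt t) := by
    intro t ht i z hz v hv
    have h1 := Pos_hk H k i z hz v hv
    have h2 := hp i z hz v hv
    show 0 < (1 - t) * (H.om k).w i z v _ + t * w.w i z v _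
    rcases eq_or_lt_of_le ht.1 with rfl | h3
    · simpa using h1
    · exact add_pos_of_nonneg_of_pos (mul_nonneg (by linarith [ht.2]) h1.le) (mul_pos h3 h2)
  have hne : ∀ t ∈ Icc (0 : ℝ) 1, ∀ i, ∀ z ∈ (C.e i).target,
      TP b (fun _ : Fin (n + n) => (wt t).w i z) ≠ 0 := fun t ht' i z hz =>
    TP_om_ne b hI h (htt t) (hpt t ht') i z hz
  have hw0 : wt 0 = H.om k := by simp [wt]
  have hw1 : wt 1 = w := by simp [wt]
  have hpos0 : ∀ i, ∀ z ∈ (C.e i).target, 0 < TP b (fun _ : Fin (n + n) => (wt 0).w i z) := by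
    refine sign_pos μ b P T.ori T.nn (hne 0 ⟨le_rfl, zero_le_one⟩) ?_
    rw [T.fuj, hw0, T.q_om H h0]
    exact pow_pos h0 n
  have hpos : ∀ t ∈ Icc (0 : ℝ) 1, ∀ i, ∀ z ∈ (C.e i).target,
      0 < TP b (fun _ : Fin (n + n) => (wt t).w i z) := by
    intro t ht' i z hz
    by_contra hle
    push Not at hle
    have hc : Continuous fun s : ℝ => TP b (fun _ : Fin (n + n) => (wt s).w i z) := by
      have e : (fun s : ℝ => TP b (fun _ : Fin (n + n) => (wt s).w i z)) = fun s =>
          ∑ σ : Equiv.Perm (Fin (n + n) × Fin 2), ((Equiv.Perm.sign σ : ℤ) : ℝ) *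
            ∏ l : Fin (n + n), ((1 - s) * (H.om k).w i z (b (σ (l, 0))) (b (σ (l, 1))) +
              s * w.w i z (b (σ (l, 0))) (b (σ (l, 1)))) := rfl
      rw [e]
      fun_prop
    obtain ⟨s, hs, hs0⟩ := intermediate_value_Icc' (α := ℝ) ht'.1 hc.continuousOn
      ⟨hle, (hpos0 i z hz).le⟩
    exact hne s ⟨hs.1, hs.2.trans ht'.2⟩ i z hz hs0
  have hq : ∀ t ∈ Icc (0 : ℝ) 1, q (wt t) ≠ 0 := by
    intro t ht' hq0
    have h1 : 0 < IM μ b P (fun _ => wt t) := intT_pos P T.nn fun i z hz => hpos t ht' i z hz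
    rw [T.fuj, hq0, zero_pow T.npos.ne'] at h1
    exact lt_irrefl _ h1
  by_contra hle
  push Not at hle
  have hc : Continuous fun s : ℝ => q (wt s) := by
    have e : (fun s : ℝ => q (wt s)) = fun s => (1 - s) * (1 - s) * q (H.om k) + s * s * q w +
        (1 - s) * (s * QuadraticMap.polar q (H.om k) w) := by
      funext s
      show q ((1 - s) • H.om k + s • w) = _
      rw [QuadraticMap.map_add (⇑q) ((1 - s) • H.om k) (s • w), QuadraticMap.map_smul, QuadraticMap.map_smul,
        QuadraticMap.polar_smul_left, QuadraticMap.polar_smul_right]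
      simp only [smul_eq_mul]
    rw [e]
    fun_prop
  have h1 : 0 < q (wt 0) := by rw [hw0, T.q_om H h0]; exact h0
  obtain ⟨s, hs, hs0⟩ := intermediate_value_Icc' (α := ℝ) zero_le_one hc.continuousOn
    (show (0 : ℝ) ∈ Icc (q (wt 1)) (q (wt 0)) from ⟨by rw [hw1]; exact hle, h1.le⟩)
  exact hq s hs hs0

end

end Crest.Agent.R281.Ly6_457
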