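import Crest.Agent.R281.Md2_252
import Crest.Agent.R281.CB1_867
import Crest.Agent.R281.Mem1_69
import Crest.Agent.R281.Hu1_313
import Crest.Agent.R281.Blk6_592
import Crest.Agent.R281.Phl5_655
import Crest.Agent.R281.HkM4_835
import Crest.Agent.R281.HkM5_835

/-!
# Row 281, MEMD-INST (helper252), part 3: the bundle and the form of a member

* `toProj_lk`  : the homogeneous coordinates of a member are lifts of its map to projective space
* `fsE`        : the Fubini-Study form on `EuclideanSpace ℂ (Fin (N + 1))`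
* `hm_toProj`  : **(M4)** for `FS_333.lb (h.toProj κ hκ)`
* `om_indep`   : `[om 1]`, `[om 2]` are independent
* `sig_scal`   : a closed holomorphic 2-form in the class of `z σ` is `z σ`
* `memK_of`    : 69's dictionary `MemK` for a GIVEN atlas of `J 0`
* `sig_det`    : `‖det (z σ)‖ = ‖z‖^d det K0`
-/

set_option autoImplicit false
set_option maxSynthPendingDepth 3
set_option linter.unusedSectionVars false

open Set Filter Topology Complex
open scoped ContDiff Matrix ComplexConjugate ComplexOrder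

namespace Crest.Agent.R281.Md_252

open Crest.Agent.R275.Geo Crest.Agent.R275.Core144 Crest.Agent.R275.EDR890
open Crest.Agent.R275.GC293
open Crest.Agent.R273.Kah_333 Crest.Agent.R273.Hess_333 Crest.Agent.R273.HessB_333
open Crest.Agent.R273.Defs_333 Crest.Agent.R273.HM_333 Crest.Agent.R273.Vol_333
open Crest.Agent.R281.Defs_273
open Crest.Agent.R260.ACM_580 Crest.Agent.R260.NNB_580
open Crest.Agent.R281.HkR_835 Crest.Agent.R281.Ti_846 Crest.Agent.R281.Ehr2_268
open Crest.Agent.R281.NefO_476 Crest.Agent.R281.Dif_268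
open Crest.Agent.R281.Nef_252 Crest.Agent.R281.Pe_313 Crest.Agent.R281.Phl_655
open Crest.Agent.R281.Blk_592 (MapD LkAt Lk fsv)
open Crest.Agent.R281.HkP2_508
open Crest.Agent.R281.HkP1_508 Crest.Agent.R273.NoHVF_376

noncomputable section

variable {d : ℕ} {X : Type} [TopologicalSpace X] {A : Atl d X}
  {V V' : Type} [NormedAddCommGroup V] [NormedSpace ℝ V] [NormedAddCommGroup V']
  [NormedSpace ℝ V'] {C : RCh V X} {C' : RCh V' X}

section lift

variable {H : Type} [NormedAddCommGroup H] [NormedSpace ℂ H] {K : ℕ} {P : HEmb C' H}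
  {b : H ≃L[ℂ] (Fin (K + 1) → ℂ)}

/-- the homogeneous coordinates are lifts of the map of the member -/
theorem toProj_lk (h : HolA P b A) (κ : A.ι → Fin (K + 1))
    (hκ : ∀ a, (A.e a).source ⊆ OX P b (κ a)) :
    Lk (MapD.ofProj (h.toProj κ hκ)) (fun i z => b (P.u i z)) := by
  refine ⟨h.cmp, fun i => (b.toContinuousLinearMap.restrictScalars ℝ).contDiff.comp_contDiffOn
    (P.sm i), fun a i x hx hi => ?_⟩
  have h1 := (mem_OX hi).1 (hκ a hx)
  refine ⟨(b (P.u i (C'.e i x)) (κ a))⁻¹, inv_ne_zero h1.2, ?_⟩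
  show nuX P b (κ a) x = _
  rw [nuX_eq hi (hκ a hx)]
  rfl

theorem fderiv_bu (P : HEmb C' H) (b : H ≃L[ℂ] (Fin (K + 1) → ℂ)) {i : C'.ι} {z : V'}
    (hz : z ∈ (C'.e i).target) (v : V') :
    fderiv ℝ (fun z => b (P.u i z)) z v = b (fderiv ℝ (P.u i) z v) := by
  have h1 : DifferentiableAt ℝ (P.u i) z :=
    ((P.sm i).contDiffAt ((C'.e i).open_target.mem_nhds hz)).differentiableAt (by simp)
  have h2 : HasFDerivAt (fun z => b (P.u i z))
      ((b.toContinuousLinearMap.restrictScalars ℝ).comp (fderiv ℝ (P.u i) z)) z :=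
    (b.toContinuousLinearMap.restrictScalars ℝ).hasFDerivAt.comp z h1.hasFDerivAt
  rw [h2.fderiv]
  rfl

/-- **(M4)**, for the hyperplane bundle of the member -/
theorem hm_toProj [CompactSpace X] [T2Space X] [ConnectedSpace X] [Finite A.ι] (hd : 2 ≤ d)
    (Pt : Part A) (T : HkT C) (hp : Cp (T.acm 0) A) (h : HolA P b A) (κ : A.ι → Fin (K + 1))
    (hκ : ∀ a, (A.e a).source ⊆ OX P b (κ a)) (hc : Cmp C C') (W : F2 C')
    (hW : ∀ i, ∀ y ∈ (C'.e i).target, ∀ v v' : V', W.w i y v v' =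
      fsv (b (P.u i y)) (b (fderiv ℝ (P.u i) y v)) (b (fderiv ℝ (P.u i) y v')))
    {a : F2 C} {κ' : ℝ} (ha : Ex (T.om 0 - a)) (hcl : Ex (W - κ' • hc.F a)) :
    ∃ h' : HM (Crest.Agent.R273.FS_333.lb (h.toProj κ hκ)), ∀ i, ∀ x ∈ (A.e i).source,
      cur h' i x = (κ' : ℂ) • (T.kah hp).g i x := by
  have h1 := hm_lk hd Pt T hp (Q := MapD.ofProj (h.toProj κ hκ)) hc h.cmp W (fun i y hy => by
    refine ⟨fun z => b (P.u i z), (toProj_lk h κ hκ).at hy, fun v v' => ?_⟩
    refine (hW i y hy v v').trans ?_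
    exact congrArg₂ (fun s t => fsv (b (P.u i y)) s t) (fderiv_bu P b hy v).symm
      (fderiv_bu P b hy v').symm) ha hcl
  rwa [MapD.ofProj_lb] at h1

end lift

/-! ### the Fubini-Study form of a Euclidean space -/

theorem nz_bE {N : ℕ} {w : EuclideanSpace ℂ (Fin (N + 1))} (h : w ∈ {x | x ≠ 0}) :
    (CB_867.bE N).toContinuousLinearMap w ∈ {x : Fin (N + 1) → ℂ | x ≠ 0} := by
  intro h0
  exact h ((CB_867.bE N).injective (by rw [map_zero]; exact h0))

/-- the Fubini-Study form of the coordinates -/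
def fsE (N : ℕ) : B1 {x : EuclideanSpace ℂ (Fin (N + 1)) | x ≠ 0} :=
  (Blk_592.FS (Fin (N + 1))).comap (CB_867.bE N).toContinuousLinearMap fun _ h => nz_bE h

theorem fsE_co (N : ℕ) : Co {x : EuclideanSpace ℂ (Fin (N + 1)) | x ≠ 0} :=
  fun _ hx _ ha => smul_ne_zero ha hx

theorem inK_E {N : ℕ} {P : HEmb C' (EuclideanSpace ℂ (Fin (N + 1)))} :
    InK P {x : EuclideanSpace ℂ (Fin (N + 1)) | x ≠ 0} := fun i _ hz => P.ne i _ hz

theorem fsE_w {N : ℕ} (P : HEmb C' (EuclideanSpace ℂ (Fin (N + 1)))) {i : C'.ι} {y : V'}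
    (hy : y ∈ (C'.e i).target) (v v' : V') :
    ((fsE N).pull (fsE_co N) P inK_E).w i y v v' = fsv (CB_867.bE N (P.u i y))
      (CB_867.bE N (fderiv ℝ (P.u i) y v)) (CB_867.bE N (fderiv ℝ (P.u i) y v')) :=
  B1.pull_w _ _ _ _ hy _ _

/-! ### the classes of `om 1`, `om 2` -/

/-- `[a om 1 + b om 2] = 0` only for `a = b = 0` -/
theorem kah_not_ex [CompactSpace X] [T2Space X] [Nonempty X] [Finite A.ι] (hd : 0 < d)
    (K : Kah A) : ¬ Ex (ofKah K).f2 := by
  intro h
  obtain ⟨P⟩ := nonempty_RPart (ofAtl A)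
  have h1 := II_kah_pos K P
  have h2 := IM_ex (lc d) (bc d) P (ori_ofAtl A) (fun _ => (ofKah K).f2) (k := ⟨0, hd⟩)
    (mem_exS.2 h)
  rw [IM_apply] at h2
  exact h1.ne' h2

theorem om0_not_ex [FiniteDimensional ℝ V] [CompactSpace X] [T2Space X] [Nonempty X]
    (hV : Module.finrank ℝ V = 2 * d) (hd : 0 < d) (T : HkT C) : ¬ Ex (T.om 0) := by
  intro h
  obtain ⟨A, _, _, _, hc, K, σ, hm⟩ := Crest.Agent.R281.Mem_69.exists_memK hV T
  refine kah_not_ex hd K ?_
  have h1 : Ex (hc.F (T.om 0)) := (ex_cmp_F hc _).2 h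
  have h2 : Eqv (hc.F (T.om 0)) (ofKah K).f2 := fun i z hz u v => hm.om0 i z hz u v
  exact h2.ex h1

theorem om_indep [FiniteDimensional ℝ V] [CompactSpace X] [T2Space X] [Nonempty X]
    (hV : Module.finrank ℝ V = 2 * d) (hd : 0 < d) (T : HkT C) {a b : ℝ}
    (h : Ex (a • T.om 1 + b • T.om 2)) : a = 0 ∧ b = 0 := by
  by_contra hab
  set w : ℂ := ⟨a, -b⟩ with hw
  have hw0 : w ≠ 0 := by
    intro h0
    apply hab
    have h1 := congrArg Complex.re h0
    have h2 := congrArg Complex.im h0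
    exact ⟨h1, by simpa [hw] using h2⟩
  have hn : 0 < ‖w‖ := norm_pos_iff.2 hw0
  set c : ℂ := ((‖w‖⁻¹ : ℝ) : ℂ) * w with hc
  have hc1 : ‖c‖ = 1 := by
    rw [hc, norm_mul, Complex.norm_real, norm_inv, norm_norm, inv_mul_cancel₀ hn.ne']
  have hre : c.re = ‖w‖⁻¹ * a := by simp [hc, hw]
  have him : c.im = -(‖w‖⁻¹ * b) := by simp [hc, hw]
  refine om0_not_ex hV hd ((Hu_313.rotc T c hc1).cyc 1) ?_
  have e1 : Eqv (((Hu_313.rotc T c hc1).cyc 1).om 0) (‖w‖⁻¹ • (a • T.om 1 + b • T.om 2)) := by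
    refine (cyc_om _ 1 0).trans fun i z hz u v => ?_
    show ((Hu_313.rotc T c hc1).om 1).w i z u v = ‖w‖⁻¹ * (a * (T.om 1).w i z u v +
      b * (T.om 2).w i z u v)
    rw [Hu_313.rotc_om1, hre, him]
    ring
  exact e1.symm.ex (ex_smul _ h)

/-- **a holomorphic 2-form in the class of `z σ` is `z σ`** -/
theorem sig_scal [FiniteDimensional ℝ V] [CompactSpace X] [T2Space X] [Nonempty X] [Finite A.ι]
    (hV : Module.finrank ℝ V = 2 * d) (hd : 0 < d) (Pt : Part A) {T : HkT C}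
    (hp : Cp (T.acm 0) A) (hu : UniqT T) {τ : H2 A} {w₁ w₂ : F2 C}
    (hτ : ∀ (i : A.ι), ∀ z ∈ (A.e i).target, ∀ u v, sb (sl τ i z) u v =
      (((cmp_of_cp hp).F w₁).w i z u v : ℂ) + I * (((cmp_of_cp hp).F w₂).w i z u v : ℂ))
    {c : ℂ} (hc : Ex (w₁ - (c.re • T.om 1 - c.im • T.om 2))) :
    ∀ i, ∀ x ∈ (A.e i).source, τ.s i x = c • (T.sig hp).s i x := by
  set h := cmp_of_cp hp with hh
  obtain ⟨c', hc'⟩ := uniq_of_T Pt hp hu τ
  have e1 : Eqv (h.F w₁) (h.F (c'.re • T.om 1 + (-c'.im) • T.om 2)) := by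
    refine eqvA fun j z hz u v => ?_
    have k1 := hτ j z hz u v
    have k2 : sl τ j z = c' • sl (T.sig hp).toH2 j z := hc' j _ ((A.e j).map_target hz)
    rw [k2, sb_smul, sig_sb T hp hz] at k1
    have k3 := congrArg Complex.re k1
    simp only [Complex.add_re, Complex.mul_re, Complex.ofReal_re, Complex.ofReal_im, Complex.I_re,
      Complex.I_im, Complex.add_im, Complex.mul_im] at k3
    rw [F_lin2A h _ _ _ _ hz]
    linarith
  have e2 : Eqv w₁ (c'.re • T.om 1 + (-c'.im) • T.om 2) :=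
    ((F_F h w₁).symm.trans (F_eqv e1)).trans (F_F h _)
  have e3 : Ex ((c'.re - c.re) • T.om 1 + (c.im - c'.im) • T.om 2) := by
    refine Eqv.ex (fun i z hz u v => ?_) hc
    have k := e2 i z hz u v
    show w₁.w i z u v - (c.re * (T.om 1).w i z u v - c.im * (T.om 2).w i z u v) =
      (c'.re - c.re) * (T.om 1).w i z u v + (c.im - c'.im) * (T.om 2).w i z u v
    have k' : w₁.w i z u v = c'.re * (T.om 1).w i z u v + (-c'.im) * (T.om 2).w i z u v := k
    rw [k']
    ring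
  obtain ⟨r1, r2⟩ := om_indep hV hd T e3
  have hcc : c' = c := Complex.ext (by linarith) (by linarith)
  rw [← hcc]
  exact hc'

/-- the dictionary for a GIVEN atlas of `J 0` -/
theorem memK_of [T2Space X] [CompactSpace X] [Finite A.ι] (Pt : Part A) (T : HkT C)
    (hp : Cp (T.acm 0) A) :
    Crest.Agent.R281.Mem_69.MemK T A (T.kah hp) (T.sig hp) (cmp_of_cp hp) := by
  have hcl : ClH (T.sig hp).toH2 := S0_cl (T.onA hp) (onA_J T hp)
  refine ⟨⟨ric0 (T.onA hp) (onA_J T hp), par_h2 Pt (ric0 (T.onA hp) (onA_J T hp)) _,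
    hr0 (T.onA hp) (onA_J T hp)⟩, hcl, hp, ?_, ?_, ?_, ?_⟩
  · intro i z hz u v
    exact (kah_om0 T hp i z hz u v).symm
  · intro i z hz u v
    have h4 := sig_sb T hp hz u v
    have h5 := congrArg Complex.re h4
    simp only [Complex.add_re, Complex.mul_re, Complex.ofReal_re, Complex.ofReal_im, Complex.I_re,
      Complex.I_im] at h5
    show ((cmp_of_cp hp).F (T.om 1)).w i z u v = (sb (sl (T.sig hp).toH2 i z) u v).re
    linarith
  · intro i z hz u v
    have h4 := sig_sb T hp hz u v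
    have h5 := congrArg Complex.im h4
    simp only [Complex.add_im, Complex.mul_im, Complex.ofReal_re, Complex.ofReal_im, Complex.I_re,
      Complex.I_im] at h5
    show ((cmp_of_cp hp).F (T.om 2)).w i z u v = (sb (sl (T.sig hp).toH2 i z) u v).im
    linarith
  · intro i x hx
    have h3 := congrArg Complex.re (det0 (T.onA hp) (onA_J T hp) i x hx)
    rw [Complex.ofReal_re] at h3
    rw [one_mul]
    exact h3.symm

/-- the determinant of the holomorphic form of the member -/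
theorem sig_det {T : HkT C} (hp : Cp (T.acm 0) A) {τ : H2 A} {c : ℂ}
    (h : ∀ i, ∀ x ∈ (A.e i).source, τ.s i x = c • (T.sig hp).s i x) :
    ∀ i, ∀ x ∈ (A.e i).source, ‖(τ.s i x).det‖ = ‖c‖ ^ d * ((T.kah hp).g i x).det.re := by
  intro i x hx
  have h3 := congrArg Complex.re (det0 (T.onA hp) (onA_J T hp) i x hx)
  rw [Complex.ofReal_re] at h3
  rw [h i x hx, Matrix.det_smul, Fintype.card_fin, norm_mul, norm_pow]
  exact congrArg (fun t => ‖c‖ ^ d * t) h3.symm

end

end Crest.Agent.R281.Md_252
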