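import Crest.Agent.R281.Md4_252
import Crest.Agent.R281.Alg1_867

/-!
# Row 281, MEMD-INST (helper252), part 5: the static node

`m : MemA F A Y κ β τ H` (867): a member of the end with its algebraic data.

* `MemA.exists_node` : atlas `A'` of `J 0`, `O`, `U`, `σ`, `h` with `ConeC Y O U`, `FormC Y.D U σ`,
  `cur h = κ K0`, `σ = c (om 1 + i om 2)`, `‖c‖ = √(N / Q A A) ‖β‖ Im τ`
-/

set_option autoImplicit false
set_option maxSynthPendingDepth 3
set_option linter.unusedSectionVars false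

open Set Filter Topology Complex MeasureTheory
open scoped ContDiff Matrix ComplexConjugate ComplexOrder

namespace Crest.Agent.R281.Md_252

open Crest.Agent.R275.Geo Crest.Agent.R275.Core144 Crest.Agent.R275.EDR890
open Crest.Agent.R275.GC293
open Crest.Agent.R273.Kah_333 Crest.Agent.R273.Hess_333 Crest.Agent.R273.HessB_333
open Crest.Agent.R273.Defs_333 Crest.Agent.R273.HM_333 Crest.Agent.R273.Vol_333
open Crest.Agent.R273.Vm_333
open Crest.Agent.R273.SerA_945 (Fn)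
open Crest.Agent.R281.Defs_273
open Crest.Agent.R260.ACM_580 Crest.Agent.R260.NNB_580
open Crest.Agent.R281.HkR_835 Crest.Agent.R281.Ti_846
open Crest.Agent.R281.NefO_476 Crest.Agent.R281.Dif_268
open Crest.Agent.R281.HkP2_508 Crest.Agent.R281.HkP1_508 Crest.Agent.R281.Ehr2_268
open Crest.Agent.R281.Pe_313 Crest.Agent.R281.CA_867 Crest.Agent.R281.GTi_989
open Crest.Agent.R281.Alg_998 Crest.Agent.R281.Al_830 Crest.Agent.R281.Alg_867
open Crest.Agent.R281.Fuj7_207 (bn bn_rfl)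
open Crest.Agent.R281.Nef_252 Crest.Agent.R281.RkD_902

noncomputable section

section back

variable {V V' X : Type} [NormedAddCommGroup V] [NormedSpace ℝ V] [NormedAddCommGroup V']
  [NormedSpace ℝ V'] [TopologicalSpace X] {C : RCh V X} {C' : RCh V' X}

/-- classes back to the first charts -/
theorem ex_back (h : Cmp C C') {w : F2 C'} {a : F2 C} (he : Ex (w - h.F a)) :
    Ex (h.symm.F w - a) := by
  have h1 : Ex (h.symm.F (w - h.F a)) := HkR_835.ex_F h.symm he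
  refine Eqv.ex ((HkR_835.F_sub h.symm _ _).trans ?_) h1
  exact eqv_sub (fun _ _ _ _ _ => rfl) (F_F h a)

end back

variable {n N : ℕ} {X : Type} [TopologicalSpace X] [CompactSpace X] {C : RCh (Cn (2 * n)) X}
  {Q : F2 C →ₗ[ℝ] F2 C →ₗ[ℝ] ℝ} {F : Frm C Q} {A : F2 C} {Y : CDat (2 * n) N ℂ} {κ : ℝ}
  {β τ : ℂ} {H : HkT C}

/-- **the form of the member** -/
theorem memA_sig [T2Space X] [Nonempty X] (hctx : Ctx n C Q) (hA0 : 0 < Q A A)
    (hAt : AtTau F A H τ) (m : MemA F A Y κ β τ H) (hβ : β ≠ 0) :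
    ∃ c : ℂ, c ≠ 0 ∧ ‖c‖ = √(F.N / Q A A) * ‖β‖ * τ.im ∧
      ∀ (A' : Atl (2 * n) X) [Finite A'.ι] (_ : Part A') (hp : Cp (H.acm 0) A')
        (h : HolA m.P (CB_867.bE N) A') (σ : H2 A'),
        (∀ (i : A'.ι), ∀ z ∈ (A'.e i).target, ∀ u v, sb (sl σ i z) u v =
          ((h.cmp.F m.s1).w i z u v : ℂ) + I * ((h.cmp.F m.s2).w i z u v : ℂ)) →
        ∀ i, ∀ x ∈ (A'.e i).source, σ.s i x = c • (H.sig hp).s i x := by
  obtain ⟨z, hz, hz2, hb⟩ := atTau_z hctx.symm hctx.ex hctx.eq hAt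
  refine ⟨β / z, div_ne_zero hβ hz, norm_z hz F.hN hA0 hAt.im_pos hz2, ?_⟩
  intro A' _ Pt hp h σ hσ
  have hV : Module.finrank ℝ (Cn (2 * n)) = 2 * (2 * n) := by
    rw [Module.finrank_eq_card_basis (bc (2 * n))]
    simp [mul_comm]
  have hn : 0 < 2 * n := by have := hctx.n1; omega
  have hq : 0 < Q (H.om 0) (H.om 0) := by
    have h1 : ∀ x x' : F2 C, Cl x x' → ∀ y, Q x y = Q x' y := by
      intro x x' hx y
      have h3 : Q (x - x') y = 0 := hctx.ex _ _ hx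
      rw [map_sub, LinearMap.sub_apply] at h3
      linarith
    rw [h1 _ _ hAt.om0, hctx.symm, h1 _ _ hAt.om0]
    exact hA0
  have hu : UniqT H := hctx.uniq H hq
  refine sig_scal hV hn Pt hp hu (w₁ := m.cmp.symm.F m.s1) (w₂ := m.cmp.symm.F m.s2) ?_ ?_
  · intro i z' hz' u v
    rw [hσ i z' hz']
    have e1 : Eqv ((cmp_of_cp hp).F (m.cmp.symm.F m.s1)) (h.cmp.F m.s1) :=
      cmp_F_F m.cmp.symm (cmp_of_cp hp) h.cmp m.s1
    have e2 : Eqv ((cmp_of_cp hp).F (m.cmp.symm.F m.s2)) (h.cmp.F m.s2) :=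
      cmp_F_F m.cmp.symm (cmp_of_cp hp) h.cmp m.s2
    rw [e1 i z' hz' u v, e2 i z' hz' u v]
  · have h1 := ex_back m.cmp m.s1_cl
    exact Cl.trans h1 (hb β).1.symm

end

end Crest.Agent.R281.Md_252
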