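import Crest.Agent.R281.Md6_252
import Crest.Agent.R281.HEc3_989

/-!
# Row 281, MEMD-INST (helper252), part 7: the static node of a member

* `h20_sb`      : the value of the `(2,0)`-form of a member
* `nd_of_h20`   : nondegenerate `(2,0)`-form => `Nd s₁`
* `nd_of_memA`  : `Nd m.s1` for `m : MemA F A Y κ β τ H`, `Y.D.Exact`, `β ≠ 0`
* `memA_hF`     : the form (F) of `node_of`
* `memA_node`   : the node at a member
-/

set_option autoImplicit false
set_option maxSynthPendingDepth 3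
set_option linter.unusedSectionVars false

open Set Filter Topology Complex MeasureTheory
open scoped ContDiff Matrix ComplexConjugate ComplexOrder

namespace Crest.Agent.R281.Md_252

open Crest.Agent.R275.Geo Crest.Agent.R275.Core144 Crest.Agent.R275.EDR890
open Crest.Agent.R275.GC293
open Crest.Agent.R273.Kah_333 Crest.Agent.R273.Hess_333 Crest.Agent.R273.HessB_333
open Crest.Agent.R273.Defs_333 Crest.Agent.R273.HM_333 Crest.Agent.R273.Vol_333
open Crest.Agent.R273.Vm_333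
open Crest.Agent.R273.SerA_945 (Fn)
open Crest.Agent.R281.Defs_273
open Crest.Agent.R260.ACM_580 Crest.Agent.R260.NNB_580
open Crest.Agent.R281.HkR_835 Crest.Agent.R281.Ti_846
open Crest.Agent.R281.NefO_476 Crest.Agent.R281.Dif_268
open Crest.Agent.R281.HkP2_508 Crest.Agent.R281.HkP1_508 Crest.Agent.R281.Ehr2_268
open Crest.Agent.R281.Pe_313 Crest.Agent.R281.CA_867 Crest.Agent.R281.GTi_989
open Crest.Agent.R281.Alg_998 Crest.Agent.R281.Al_830 Crest.Agent.R281.Alg_867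
open Crest.Agent.R281.Fuj7_207 (bn bn_rfl)
open Crest.Agent.R281.Nef_252 Crest.Agent.R281.RkD_902

noncomputable section

section h20

variable {V X : Type} [NormedAddCommGroup V] [NormedSpace ℝ V] [TopologicalSpace X]
variable {E : Type} [NormedAddCommGroup E] [NormedSpace ℂ E] {K d : ℕ}
variable {C' : RCh V X} {P : HEmb C' E} {b : E ≃L[ℂ] (Fin (K + 1) → ℂ)} {A' : Atl d X}

/-- the value of the `(2,0)`-form of a member -/
theorem h20_sb (h : HolA P b A') {s₁ s₂ : F2 C'} (ht : Typ P s₁ s₂) {a : A'.ι} {z : Cn d}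
    (hz : z ∈ (A'.e a).target) (u v : Cn d) :
    sb (sl (h20 (h.cmp.F s₁) (h.cmp.F s₂) (h.typ_F ht)) a z) u v =
      ((h.cmp.F s₁).w a z u v : ℂ) + I * ((h.cmp.F s₂).w a z u v : ℂ) := by
  have h1 := sw_eq (h.typ_F ht a z hz) ((h.cmp.F s₁).alt a z hz) ((h.cmp.F s₂).alt a z hz) u v
  have h2 : sl (h20 (h.cmp.F s₁) (h.cmp.F s₂) (h.typ_F ht)) a z =
      SB ((h.cmp.F s₁).w a z) ((h.cmp.F s₂).w a z) := by
    show SB ((h.cmp.F s₁).w a (A'.e a ((A'.e a).symm z)))
      ((h.cmp.F s₂).w a (A'.e a ((A'.e a).symm z))) = _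
    rw [(A'.e a).right_inv hz]
  rw [h2]
  exact h1.symm

/-- nondegeneracy from the holomorphic charts -/
theorem nd_of_h20 (h : HolA P b A') {s₁ s₂ : F2 C'} (ht : Typ P s₁ s₂)
    (hdet : ∀ a, ∀ x ∈ (A'.e a).source,
      ((h20 (h.cmp.F s₁) (h.cmp.F s₂) (h.typ_F ht)).s a x).det ≠ 0) : Nd s₁ := by
  intro i z hz v hv
  set x : X := (C'.e i).symm z with hx
  have hxs : x ∈ (C'.e i).source := (C'.e i).map_target hz
  obtain ⟨a, ha⟩ := A'.cover x
  set y : Cn d := A'.e a x with hy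
  have hyt : y ∈ (A'.e a).target := (A'.e a).map_source ha
  have hyx : (A'.e a).symm y = x := (A'.e a).left_inv ha
  have hm : y ∈ mov C' (ofAtl A') i a := ⟨hyt, by
    show (A'.e a).symm y ∈ (C'.e i).source
    rw [hyx]
    exact hxs⟩
  have hmt : mt C' (ofAtl A') i a y = z := by
    show C'.e i ((A'.e a).symm y) = z
    rw [hyx, hx, (C'.e i).right_inv hz]
  obtain ⟨w, hw⟩ := h.exists_dmt hm v
  have h1 : ∀ u : Cn d, (h.cmp.F s₁).w a y w u = 0 := by
    intro u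
    rw [Cmp.F_w h.cmp s₁ hm, hmt, hw]
    exact hv _
  set S : Matrix (Fin d) (Fin d) ℂ :=
    sl (h20 (h.cmp.F s₁) (h.cmp.F s₂) (h.typ_F ht)) a y with hS
  have h2 : ∀ u : Cn d, (sb S w u).re = 0 := by
    intro u
    rw [hS, h20_sb h ht hyt, h1 u]
    simp
  have h3 : ∀ u : Cn d, sb S w (I • u) = I * sb S w u := by
    intro u
    simp only [sb, Finset.mul_sum]
    refine Finset.sum_congr rfl fun a _ => Finset.sum_congr rfl fun b _ => ?_
    rw [PiLp.smul_apply, smul_eq_mul]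
    ring
  have h4 : ∀ u : Cn d, sb S w u = 0 := by
    intro u
    have e1 := h2 u
    have e2 := h2 (I • u)
    rw [h3] at e2
    simp only [Complex.mul_re, Complex.I_re, Complex.I_im, zero_mul, one_mul, zero_sub,
      neg_eq_zero] at e2
    exact Complex.ext e1 e2
  have h5 : Matrix.vecMul w.ofLp S = 0 := by
    funext c
    have e1 := h4 (EuclideanSpace.single c 1)
    have e2 : sb S w (EuclideanSpace.single c 1) = (Matrix.vecMul w.ofLp S) c := by
      simp only [sb, Matrix.vecMul, dotProduct]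
      refine Finset.sum_congr rfl fun e _ => ?_
      simp [mul_comm]
    rw [e2] at e1
    exact e1
  have h6 : w.ofLp = 0 := by
    by_contra hne
    have e1 := Matrix.exists_vecMul_eq_zero_iff.1 ⟨w.ofLp, hne, h5⟩
    refine hdet a x ha ?_
    rw [← hyx]
    exact e1
  have h7 : w = 0 := by
    ext c
    exact congrFun h6 c
  rw [← hw, h7, map_zero]

end h20

variable {n N : ℕ} {X : Type} [TopologicalSpace X] [CompactSpace X] {C : RCh (Cn (2 * n)) X}
  {Q : F2 C →ₗ[ℝ] F2 C →ₗ[ℝ] ℝ} {F : Frm C Q} {A : F2 C} {Y : CDat (2 * n) N ℂ} {κ : ℝ}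
  {β τ : ℂ} {H : HkT C}

variable [T2Space X] [ConnectedSpace X]

/-- **nondegeneracy at a member** -/
theorem nd_of_memA (hctx : Ctx n C Q) (hA0 : 0 < Q A A) (hAt : AtTau F A H τ)
    (m : MemA F A Y κ β τ H) (hβ : β ≠ 0) (hD : Y.D.Exact) : Nd m.s1 := by
  obtain ⟨c, hc, -, hsig⟩ := memA_sig hctx hA0 hAt m hβ
  let _ : MeasurableSpace X := borel X
  have _ : BorelSpace X := ⟨rfl⟩
  obtain ⟨A', h1, h2, ⟨Pt⟩, h, hp, -, -⟩ := memA_atl m (fun _ : Unit => univ)
    (fun _ => isOpen_univ) fun x => ⟨(), mem_univ x⟩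
  have ht : Typ m.P m.s1 m.s2 := HEc_989.typ_of_seq hD (HEc_989.seq_of_memA m)
  refine nd_of_h20 h ht fun a x hx => ?_
  rw [hsig A' Pt hp h _ (fun i z hz u v => h20_sb h ht hz u v) a x hx, Matrix.det_smul]
  exact mul_ne_zero (pow_ne_zero _ hc) ((H.sig hp).nd a x hx)

/-- **the form of a member** in the atlas -/
theorem memA_hF (hctx : Ctx n C Q) (hA0 : 0 < Q A A) (hAt : AtTau F A H τ)
    (m : MemA F A Y κ β τ H) (hβ : β ≠ 0) (hD : Y.D.Exact) (A' : Atl (2 * n) X)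
    (h : HolA m.P (CB_867.bE N) A') (κ' : A'.ι → Fin (N + 1))
    (hκ' : ∀ a, (A'.e a).source ⊆ OX m.P (CB_867.bE N) (κ' a)) : ∃ σ : HSymp A',
      (∀ (i : A'.ι), ∀ z ∈ (A'.e i).target, ∀ u v, sb (sl σ.toH2 i z) u v =
        ((h.cmp.F m.s1).w i z u v : ℂ) + I * ((h.cmp.F m.s2).w i z u v : ℂ)) ∧
      FormC Y.D (fun k => Crest.Agent.R273.FS_333.sec (h.toProj κ' hκ') k) σ.toH2 := by
  have ht : Typ m.P m.s1 m.s2 := HEc_989.typ_of_seq hD (HEc_989.seq_of_memA m)
  have hnd := nd_of_memA hctx hA0 hAt m hβ hD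
  exact ⟨h.hsymp ht hnd, fun i z hz u v => (h.hsymp_w ht hnd hz u v).symm,
    HEc_989.formC_of_holA h κ' hκ' hD (HEc_989.seq_of_memA m) ht hnd⟩

/-- **the static node of a member** -/
theorem memA_node [MeasurableSpace X] [BorelSpace X] (hctx : Ctx n C Q) (hA0 : 0 < Q A A) {V : ℝ}
    (hV : ∀ (H : HkT C), Cl (H.om 0) A → ∀ (A' : Atl (2 * n) X) [Finite A'.ι] (_ : Part A')
      (hp : Cp (H.acm 0) A'), (vm (volK (H.kah hp))).real univ = V)
    (hAt : AtTau F A H τ) (m : MemA F A Y κ β τ H) (hβ : β ≠ 0) (hD : Y.D.Exact)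
    {ι : Type*} (O : ι → Set X) (hO : ∀ k, IsOpen (O k)) (hOc : ∀ x, ∃ k, x ∈ O k) :
    ∃ (A' : Atl (2 * n) X) (_ : Finite A'.ι) (_ : GoodA A') (_ : Nonempty (Part A'))
      (hp : Cp (H.acm 0) A') (L : LB A') (U : Fin (N + 1) → Fn A') (σ : HSymp A') (h : HM L),
      (∀ a, ∃ k, (A'.e a).source ⊆ O k) ∧
      NodeM Y κ ((√(F.N / Q A A) * ‖β‖ * τ.im) ^ (2 * n)) V H hp L U σ h :=
  node_of hctx hA0 hV hAt m hβ
    (fun _ h κ' hκ' => HEc_989.coneC_of_holA h κ' hκ' Y m.cone)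
    (fun A' h κ' hκ' => memA_hF hctx hA0 hAt m hβ hD A' h κ' hκ') O hO hOc

end

end Crest.Agent.R281.Md_252
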