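import Crest.Agent.R281.Md7_252
import Crest.Agent.R281.SDR3_273

/-!
# Row 281, MEMD-INST (helper252), part 8: 273's `Node`, and `SDAT-RAY` without hypothesis

* `pos_of_at`   : `0 < Q A A` from `AtTau`
* `node_memA`   : 273's `Node` at a member
* `sdat_end`    : `SDR_273.sdat_end_of` with the static node discharged
* `node_alg`, `node_algN` : the node at the members of `K` (and of `MemN K`)
-/

set_option autoImplicit false
set_option maxSynthPendingDepth 3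
set_option linter.unusedSectionVars false

open Set Filter Topology Complex MeasureTheory
open scoped ContDiff Matrix ComplexConjugate ComplexOrder

namespace Crest.Agent.R281.Md_252

open Crest.Agent.R275.Geo Crest.Agent.R275.Core144 Crest.Agent.R275.EDR890
open Crest.Agent.R275.GC293
open Crest.Agent.R273.Kah_333 Crest.Agent.R273.Hess_333 Crest.Agent.R273.HessB_333
open Crest.Agent.R273.Defs_333 Crest.Agent.R273.HM_333 Crest.Agent.R273.Vol_333
open Crest.Agent.R273.Vm_333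
open Crest.Agent.R273.SerA_945 (Fn)
open Crest.Agent.R281.Defs_273
open Crest.Agent.R260.ACM_580 Crest.Agent.R260.NNB_580
open Crest.Agent.R281.HkR_835 Crest.Agent.R281.Ti_846
open Crest.Agent.R281.HkP2_508
open Crest.Agent.R281.CA_867 Crest.Agent.R281.GTi_989
open Crest.Agent.R281.Alg_998 Crest.Agent.R281.Alg_867
open Crest.Agent.R281.RkD_902
open Crest.Agent.R281.Esc1_989 Crest.Agent.R281.Ends2_989 Crest.Agent.R281.Ends3_989
open Crest.Agent.R281.SDR_273 (Node MemW SD memW_of_mem memW_of_memN)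

noncomputable section

variable {n N : ℕ} {X : Type} [TopologicalSpace X] {C : RCh (Cn (2 * n)) X}
  {Q : F2 C →ₗ[ℝ] F2 C →ₗ[ℝ] ℝ} {F : Frm C Q} {A : F2 C} {Y : CDat (2 * n) N ℂ} {κ : ℝ}
  {β τ : ℂ} {H : HkT C}

variable [CompactSpace X] [T2Space X] [ConnectedSpace X]

/-- the class `A` is positive -/
theorem pos_of_at (hctx : Ctx n C Q) (hAt : AtTau F A H τ) : 0 < Q A A := by
  obtain ⟨z, hz, hzN, -⟩ := atTau_z hctx.symm hctx.ex hctx.eq hAt
  have h1 := F.hN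
  have h2 := norm_pos_iff.2 hz
  have h3 := hAt.im_pos
  rw [← hzN]
  positivity

/-- **273's static node at a member** -/
theorem node_memA (hctx : Ctx n C Q) (hY : Y.Ok) (hAt : AtTau F A H τ) (hβ : β ≠ 0)
    (m : MemA F A Y κ β τ H) : Node Y κ ((√(F.N / Q A A) * ‖β‖ * τ.im) ^ (2 * n)) H := by
  have hA0 := pos_of_at hctx hAt
  let _ : MeasurableSpace X := borel X
  have _ : BorelSpace X := ⟨rfl⟩
  obtain ⟨V, -, hV⟩ := exists_vol hctx hA0
  obtain ⟨A', h1, h2, h3, hp, L, U, σ, h, -, hN⟩ := memA_node hctx hA0 hV hAt m hβ hY.exact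
    (fun _ : Unit => univ) (fun _ => isOpen_univ) fun x => ⟨(), mem_univ x⟩
  exact ⟨A', h1, h2, h3, hp, L, U, σ, h, hN.cone, hN.form, hN.curv, hN.det⟩

/-- **SDAT-RAY** -/
theorem sdat_end [MeasurableSpace X] [BorelSpace X] (hX : Ctx n C Q) (K : Cusp F A)
    (a : AlgE F A K) {τ₁ : ℂ} {H₁ : HkT C} (h₁ : K.Mem τ₁ H₁) :
    ∃ (m v C0 c : ℝ) (d : ℕ) (y0 c0 C1 : ℝ) (Lf : ℂ → ℝ), 0 < m ∧ 0 < v ∧ 0 < C0 ∧ 0 < c ∧
      0 < c0 ∧ (∀ τ : ℂ, y0 < τ.im → 1 ≤ Lf τ ∧ c0 * τ.im ≤ Lf τ ∧ Lf τ ≤ C1 * τ.im) ∧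
      ∀ τ : ℂ, y0 < τ.im → ∀ H, MemW K τ H → SD m v C0 c d (Lf τ) H :=
  SDR_273.sdat_end_of hX K a (fun _ hY _ _ _ _ hAt hβ m => node_memA hX hY hAt hβ m) h₁

/-- the static node at the structures with the complex structure of a member -/
theorem node_alg (hctx : Ctx n C Q) {K : Cusp F A} (a : AlgE F A K) {τ : ℂ} {H : HkT C}
    (hM : MemW K τ H) (hτ : 1 < (a.k τ).im) :
    Node (a.Kc.mem fun i => ev (hp (a.k τ) hτ) (a.c' i)) a.κ
      ((√(F.N / Q A A) * ‖a.b (a.k τ)‖ * τ.im) ^ (2 * n)) H := by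
  obtain ⟨hA, H', hH', hJ⟩ := hM
  obtain ⟨m⟩ := a.mem τ H' hH'
  exact node_memA hctx (a.mem_ok _) hA (a.b_ne _ hτ) (m.congr hJ)

end

end Crest.Agent.R281.Md_252
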