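import Crest.Agent.R281.Bx4_557
import Crest.Agent.R281.Al8_830

/-!
# Row 281, MoveFam (helper835), part 1: the family of moves from YAU-VAR

* `hd_of`        : the data `HD` of a triple and a Kaehler form of `J 0`
* `moveFam_topI` : `TopI`, `YauVar C b'` imply 557's `MoveFam C Q`, `Q = a · polar q`, `0 < a`
-/

set_option autoImplicit false
set_option linter.unusedSectionVars false
set_option maxSynthPendingDepth 3

open Set Filter Topology Function MeasureTheory
open scoped ContDiff

namespace Crest.Agent.R281.Mf_835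

open Crest.Agent.R275.EDR890
open Crest.Agent.R281.HkR_835 hiding pb pb_apply
open Crest.Agent.R281.HkR_835.Cmp
open Crest.Agent.R281.Ti_846 hiding pb pb_apply
open Crest.Agent.R281.NefO_476
open Crest.Agent.R281.Nef_252
open Crest.Agent.R281.Tt_476
open Crest.Agent.R281.Dif_268 (Eqv)
open Crest.Agent.R281.Alg_998 (HEqv Cl)
open Crest.Agent.R281.Al_830
open Crest.Agent.R281.Bx_557
open Crest.Agent.R281.Sta2_684 (smulP)

noncomputable section

variable {V X : Type} [NormedAddCommGroup V] [NormedSpace ℝ V] [TopologicalSpace X]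
  {C : RCh V X} [FiniteDimensional ℝ V]
  [MeasurableSpace V] [BorelSpace V] {μ : Measure V}
  [μ.IsAddHaarMeasure] [CompactSpace X] [T2Space X] [ConnectedSpace X] {n : ℕ}
  {b : Module.Basis (Fin (n + n) × Fin 2) ℝ V} {P : RPart C} {q : QuadraticForm ℝ (F2 C)}
  {κ : Type} [Fintype κ] [DecidableEq κ] {b' : Module.Basis κ ℝ V}

theorem hd_of (H : HkT C) {w : F2 C} (ht : T11 (ofHk H 0) w) (hp : Pos (ofHk H 0) w) :
    HD (ofHk H 0) w (H.om 1) (H.om 2) where
  sq i z hz v := H.J_sq 0 i z hz v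
  t11 := ht
  pos := hp
  typ _ _ hz u v := (H.om_J (k := 0) (l := 1) (m := 2) (Or.inl rfl) hz u v).1
  nd _ _ hz u hu := H.nondeg 1 hz u hu

/-- **the family of moves of `om 0`** -/
theorem moveFam_topI (TI : TopI μ b P q) (hY : YauVar C b') {Q : F2 C →ₗ[ℝ] F2 C →ₗ[ℝ] ℝ}
    {a : ℝ} (ha : 0 < a) (hQ : ∀ x y, Q x y = a * QuadraticMap.polar q x y) : MoveFam C Q := by
  intro E _ _ _ T H w hT hH h0 hw ht hp hq
  rcases T.eq_empty_or_nonempty with rfl | hne
  · exact ⟨H, fun _ => 1, hH, contDiffOn_const, fun p hp => absurd hp (notMem_empty p)⟩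
  let D : CFam C T :=
    { J := fun p => ofHk (H p) 0
      om := w
      s1 := fun p => (H p).om 1
      s2 := fun p => (H p).om 2
      jsJ := hH.J 0
      jsom := hw
      js1 := hH.om 1
      js2 := hH.om 2
      hd := fun p hpT => hd_of (H p) (ht p hpT) (hp p hpT) }
  have hn := TI.npos
  have hV : Nontrivial V := by
    refine Module.nontrivial_of_finrank_pos (R := ℝ) ?_
    rw [fin_V b]
    omega
  have hq' : ∀ p ∈ T, 0 < q (D.om p) := by
    intro p hpT
    have h1 := hq p hpT
    have h2 : QuadraticMap.polar q (w p) (w p) = 2 * q (w p) := by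
      rw [QuadraticMap.polar, ← two_smul ℝ (w p), QuadraticMap.map_smul, smul_eq_mul]
      ring
    rw [hQ, h2] at h1
    have h3 := (pos_iff_pos_of_mul_pos h1).1 ha
    show 0 < q (w p)
    linarith
  obtain ⟨H', r, u, hH', hr, -, hm⟩ := TI.exists_hk hY hT hne D hq'
  refine ⟨H', r, ⟨hH'.om, hH'.J⟩, hr, fun p hpT => ?_⟩
  obtain ⟨h1, h2, ⟨hu, h3⟩, h4, h5⟩ := hm p hpT
  have hJ : ∀ i, ∀ z ∈ (C.e i).target, ∀ v, (H' p).J 0 i z v = (H p).J 0 i z v := by
    intro i z _ v
    have h6 : (ofHk (H' p) 0).J i z v = (ofHk (H p) 0).J i z v := by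
      rw [h2]
    exact h6
  have hex : Ex ((H' p).om 0 - w p) := by
    have h6 : (H' p).om 0 - w p = ddc (D.J p) (u p) hu := by
      rw [h3]
      exact add_sub_cancel_left _ _
    rw [h6]
    exact ddc_Ex _ _ _
  refine ⟨h1, hJ, fun i z hz x y => ?_, fun i z hz x y => ?_, hex, fun t ht' hwt => ?_⟩
  · rw [h4]
  · rw [h5]
  · have e1 : ∀ i, ∀ z ∈ (C.e i).target, ∀ x y,
        ((H' p).om 1).w i z x y = (r p / t) * ((smulP t ht' (H p)).om 1).w i z x y := by
      intro i z _ x y
      rw [h4]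
      show r p * ((H p).om 1).w i z x y = (r p / t) * (t * ((H p).om 1).w i z x y)
      have := ht'.ne'
      field_simp
    have e2 : Ex ((H' p).om 0 - (smulP t ht' (H p)).om 0) := by
      have e3 : Ex (w p - t • (H p).om 0) := Crest.Agent.R281.Bx_557.ex_of_eqv hwt
      have e4 := ex_add hex e3
      rwa [sub_add_sub_cancel] at e4
    have e5 := om_unique (fin_V b) (by omega) (H' p) (smulP t ht' (H p)) hJ e2 e1
    exact (hk_unique (H' p) (smulP t ht' (H p)) hJ e5 (div_pos h1 ht') e1).2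

end

end Crest.Agent.R281.Mf_835
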