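import Crest.Agent.R281.Dvp2_326
import Crest.Agent.R281.Aga2_581
import Crest.Agent.R281.Dv3_957
import Crest.Agent.R281.Ehr13_268

/-!
# R281 (S0424), DIV 2 (helper998): `MemA` at a marking with the prescribed classes; `AlgP`, `RoadP`

* `s_eq_mark`  : the value of the algebraic form of a marking, in every coordinate
* `memMk`      : **581's `MemMk`** for every type
* `algP`, `div2P`, `roadP` : **without hypotheses**
-/

set_option autoImplicit false
set_option linter.unusedSectionVars false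
set_option maxSynthPendingDepth 5

open Set Filter Topology Complex
open scoped ContDiff

namespace Crest.Agent.R281.MmF_998

open Crest.Agent.R275.Geo Crest.Agent.R275.Core144
open Crest.Agent.R281.HkR_835 Crest.Agent.R281.Ehr2_268 Crest.Agent.R281.Dif_268
  Crest.Agent.R281.Ehr4_268 Crest.Agent.R281.Ehr6_268 Crest.Agent.R281.Ehr7_268
  Crest.Agent.R281.Ehr8_268 Crest.Agent.R281.Cdr_234
open Crest.Agent.R281.Alg_998 Crest.Agent.R281.RkD_902 Crest.Agent.R281.Dv_957
open Crest.Agent.R281.Pe_313 (CxOf)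
open Crest.Agent.R281.Alg_867
open Crest.Agent.R281.AF_867 (OnE)
open Crest.Agent.R281.Am_957 (QM)
open Crest.Agent.R281.Sta2_684 (QS)
open Crest.Agent.R281.Aga_581 (MemMk algAll_of_mk)
open Crest.Agent.R281.Dvp_326
open Crest.Agent.R281.Hmi_790 (qs hmOut)
open Crest.Agent.R281.Rd_326 (Div2P)

noncomputable section

variable {n : ℕ} {X : Type} [TopologicalSpace X] [CompactSpace X] [T2Space X]
  {C : RCh (Cn (2 * n)) X} {Q : F2 C →ₗ[ℝ] F2 C →ₗ[ℝ] ℝ}

theorem cone_mark (T : Ty (2 * n) C) (m : Mark T.F C) (w : EuclideanSpace ℂ (Fin (T.N + 1))) :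
    w ∈ m.P.cone ↔ w ≠ 0 ∧ OnE (range (T.K.mem (T.M.pt m.q.1.1 m.q.1.2)).G) fun k => w k := by
  rw [m.cone, T.F_S]
  exact Iff.rfl

/-- **the value of the algebraic form of a marking** -/
theorem s_eq_mark (T : Ty (2 * n) C) (m : Mark T.F C) (i : m.C'.ι) {z : Cn (2 * n)}
    (hz : z ∈ (m.C'.e i).target) (j : Fin (T.N + 1)) (v v' : Cn (2 * n)) :
    (((T.qc.re.form' m).w i z v v' : ℂ) + ((T.qc.im.form' m).w i z v v' : ℂ) * I) *
        m.P.u i z j ^ (T.K.mem (T.M.pt m.q.1.1 m.q.1.2)).D.m =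
      (T.K.mem (T.M.pt m.q.1.1 m.q.1.2)).D.b j (fun k => m.P.u i z k)
        (fun k => fderiv ℝ (m.P.u i) z v k) (fun k => fderiv ℝ (m.P.u i) z v' k) := by
  have e1 : (T.qc.re.form' m).w i z v v' = (Qc_377.sgC T.nice T.good m i z v v').re :=
    Qc_377.re_form' T.nice T.good m i z v v'
  have e2 : (T.qc.im.form' m).w i z v v' = (Qc_377.sgC T.nice T.good m i z v v').im :=
    Qc_377.im_form' T.nice T.good m i z v v'
  rw [e1, e2, Complex.re_add_im]
  have key : ∀ j, (Ehr13_268.polC T.nice T.good).val m i z v v' * m.P.u i z j ^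
      (T.K.mem (T.M.pt m.q.1.1 m.q.1.2)).D.m =
      (T.K.mem (T.M.pt m.q.1.1 m.q.1.2)).D.b j (fun k => m.P.u i z k)
        (fun k => fderiv ℝ (m.P.u i) z v k) (fun k => fderiv ℝ (m.P.u i) z v' k) :=
    fun j => (Ehr13_268.polC T.nice T.good).val_eq m hz j v v'
  obtain ⟨l, hl⟩ : ∃ l, m.P.u i z l ≠ 0 := by
    by_contra hcon
    push Not at hcon
    refine m.P.ne i z hz ?_
    ext l
    exact hcon l
  have h1 : Qc_377.sgC T.nice T.good m i z v v' * m.P.u i z l ^
      (T.K.mem (T.M.pt m.q.1.1 m.q.1.2)).D.m =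
      (T.K.mem (T.M.pt m.q.1.1 m.q.1.2)).D.b l (fun k => m.P.u i z k)
        (fun k => fderiv ℝ (m.P.u i) z v k) (fun k => fderiv ℝ (m.P.u i) z v' k) :=
    Qc_377.sgC_mul T.nice T.good m hz l v v' hl
  have h2 : Qc_377.sgC T.nice T.good m i z v v' =
      (Ehr13_268.polC T.nice T.good).val m i z v v' :=
    mul_right_cancel₀ (pow_ne_zero _ hl) (h1.trans (key l).symm)
  rw [h2]
  exact key j

/-- **the markings with the prescribed classes carry the algebraic data** -/
theorem memMk (T : Ty (2 * n) C) (F : Frm C Q) {A : F2 C} {c : ℝ}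
    (h : ∑ k, T.B k = c • cl A) : MemMk T F A (Real.pi * c) := by
  intro m β τ H hcx hk hre him
  exact ⟨{
    C' := m.C'
    cmp := m.cmp
    P := m.P
    cx := hcx
    cone := cone_mark T m
    W := T.qt.form' m
    W_eq := T.form'_qt m
    W_cl := T.ex_qt hk h
    s1 := T.qc.re.form' m
    s2 := T.qc.im.form' m
    s_eq := fun i z hz j v v' => s_eq_mark T m i hz j v v'
    s1_cl := ex_form' _ m hre
    s2_cl := ex_form' _ m him }⟩

/-- **957's (d)** -/
theorem algP : AlgP liftP Alg_867.Alg := by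
  intro n X _ _ _ _ C Q hC F
  refine algAll_of_mk (hmOut hC F) (liftP n X C Q hC F) fun T ok A hA rel => ?_
  obtain ⟨c, hc, h⟩ := rel
  exact ⟨Real.pi * c, mul_pos Real.pi_pos hc, memMk T F h⟩

/-- **DIV 2** -/
theorem div2P : Div2P Alg_867.Alg := div2P_of liftP algP

/-- **the node `RoadP`** -/
theorem roadP : RoadP Alg_867.Alg := roadP_of liftP algP

end

end Crest.Agent.R281.MmF_998
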