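import Crest.Agent.R281.SkM3_474
import Crest.Agent.R281.Isq3_358
import Crest.Agent.R281.NefNum2_137
import Crest.Agent.R281.Nef4_252
import Crest.Agent.R281.KpK_487

/-!
# R281 (S0424), SETUP (helper474), part 4: the given structure

* `exists_H0`  : a hyperkaehler structure on `ofAtl A` with `J 0 = i`
* `given_data` : values of the Fujiki form on the class of the given line bundle
-/

set_option autoImplicit false
set_option linter.unusedSectionVars false
set_option maxSynthPendingDepth 3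

open Set Filter Topology Function MeasureTheory Complex
open scoped ContDiff Matrix ComplexConjugate ComplexOrder

namespace Crest.Agent.R281.SkM_474

open Crest.Agent.R275.Geo Crest.Agent.R275.Core144 Crest.Agent.R275.EDR890
open Crest.Agent.R275.GC293
open Crest.Agent.R273.Defs_333 Crest.Agent.R273.Kah_333
open Crest.Agent.R260.ACM_580 Crest.Agent.R260.NNB_580
open Crest.Agent.R281.Defs_273
open Crest.Agent.R273.Vol_333 (addK)
open Crest.Agent.R281.HkP1_508 Crest.Agent.R281.HkP2_508 Crest.Agent.R281.HkP3_508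
open Crest.Agent.R281.FujP_513 (Symm mixv)
open Crest.Agent.R281.FujSig_358
open Crest.Agent.R281.HkR_835 hiding pb pb_apply
open Crest.Agent.R281.HkR_835.Cmp
open Crest.Agent.R281.Ti_846 hiding pb pb_apply
open Crest.Agent.R281.Dif_268
open Crest.Agent.R281.NefO_476
open Crest.Agent.R281.Nef_252 (T11 T11_hk Pos_hk eqv_ex_sub jA curK)
open Crest.Agent.R281.Al_830
open Crest.Agent.R281.Fuj7_207 (bn Tn Tn_symm Tn_pos fujiki_Tn)
open Crest.Agent.R281.Fuj5_207 (E11 reS imS f2_mem)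
open Crest.Agent.R281.Fuj1_207 (qf Qf polar_qf qf_apply)

noncomputable section

variable {d : ℕ} {X : Type} [TopologicalSpace X] [T2Space X] [CompactSpace X] [ConnectedSpace X]
  {n : ℕ} {A : Atl d X} [Finite A.ι]

/-- the hyperkaehler structure of the given manifold -/
theorem exists_H0 (PA : Part A) (K : Kah A) (σ : HSymp A) (hu : σ.Uniq) (hc : ClH σ.toH2) :
    ∃ (K' : Kah A) (H : HkT (ofAtl A)) (ρ : ℝ), 0 < ρ ∧ (∀ i z v, H.J 0 i z v = I • v) ∧
      H.om 0 = (ofKah K').f2 ∧ H.om 1 = ρ • reS σ.toH2 hc ∧ H.om 2 = ρ • imS σ.toH2 hc := by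
  obtain ⟨u, hs, hp, r, hr, h0, h⟩ := exists_HK_class PA (KpK_487.yau_kah A) K σ hu
  have hc' : ClH (smulHS (r : ℂ) hr σ).toH2 := fun i z hz a b c => h.closed i hz a b c
  refine ⟨addK K u hs hp, HkT.ofKS (addK K u hs hp) (smulHS (r : ℂ) hr σ).toH2 hc' h.rel, r, h0,
    fun i z v => rfl, rfl, ?_, ?_⟩
  · rw [HkT.ofKS_om1]
    refine F2.ext (funext fun i => funext fun z => ?_)
    ext u v
    rw [f2H_w]
    show _ = r * (reS σ.toH2 hc).w i z u v
    rw [Fuj5_207.reS_w]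
    have : sl (smulHS (r : ℂ) hr σ).toH2 i z = (r : ℂ) • sl σ.toH2 i z := rfl
    rw [this, sb_smul, Complex.re_ofReal_mul]
  · rw [HkT.ofKS_om2]
    refine F2.ext (funext fun i => funext fun z => ?_)
    ext u v
    rw [f2H_I_w]
    show _ = r * (imS σ.toH2 hc).w i z u v
    rw [Fuj5_207.imS_w]
    have : sl (smulHS (r : ℂ) hr σ).toH2 i z = (r : ℂ) • sl σ.toH2 i z := rfl
    rw [this, sb_smul, Complex.im_ofReal_mul]

/-- **the numerical data of the given line bundle** -/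
theorem given_data (hd : d = n + n) (hn : 1 ≤ n) (hn2 : 2 ≤ n + n) (PA : Part A) (K : Kah A)
    (σ : HSymp A) (hu : σ.Uniq) (hc : ClH σ.toH2) {L : LB A} (hN : NefW K L) (hF : NonFlat L)
    (hI : Isotropic PA σ L) (h : HM L) :
    ∃ (K' : Kah A) (H : HkT (ofAtl A)) (ρ : ℝ), 0 < ρ ∧ (∀ i z v, H.J 0 i z v = I • v) ∧
      H.om 0 = (ofKah K').f2 ∧ H.om 1 = ρ • reS σ.toH2 hc ∧ H.om 2 = ρ • imS σ.toH2 hc ∧
      0 < qf (Tn hd PA) hn2 n (reS σ.toH2 hc) (H.om 0) ∧
      qf (Tn hd PA) hn2 n (reS σ.toH2 hc) (curK h).f2 = 0 ∧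
      QuadraticMap.polar (qf (Tn hd PA) hn2 n (reS σ.toH2 hc)) (curK h).f2 (H.om 1) = 0 ∧
      QuadraticMap.polar (qf (Tn hd PA) hn2 n (reS σ.toH2 hc)) (curK h).f2 (H.om 2) = 0 ∧
      0 < QuadraticMap.polar (qf (Tn hd PA) hn2 n (reS σ.toH2 hc)) (curK h).f2 (H.om 0) := by
  obtain ⟨K', H, ρ, h0, h1, h2, h3, h4⟩ := exists_H0 PA K σ hu hc
  have S := Crest.Agent.R281.Fuj8_207.sig hd PA hn K' σ hu hc hn2
  have hd2 : 2 ≤ d := by omega
  have hddb : Nef_252.DDb (jA A) := Nef_252.ddb_jA hd2 PA K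
  have hiso : Qf (IM (lc d) (bn hd) (RPart.ofPart PA)) hn2 n (reS σ.toH2 hc) (curK h).f2
      (curK h).f2 = 0 := by
    have hS : 0 < IM (lc d) (bn hd) (RPart.ofPart PA) (fun _ => reS σ.toH2 hc) :=
      Isq3_358.S_pos' σ hc hn (by omega) PA hu K (lc d) (bn hd) (RPart.ofPart PA)
        (fun K => Tn_pos hd PA K)
    exact (Isq3_358.iso_iff PA σ hu hc hn (by omega) hn2 K (lc d) (bn hd) (RPart.ofPart PA)
      hS h).1 hI
  have hnum := NefNum_137.nef_num PA σ hu hc hn hn2 (finCongr hd) (RPart.ofPart PA)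
    (fun K => Fuj8_207.hodge_Tn hd PA hn K) hddb hN hF h hiso
  have r1 := S.r11 _ (f2_mem (curK h))
  have s1 := S.s11 _ (f2_mem (curK h))
  refine ⟨K', H, ρ, h0, h1, h2, h3, h4, ?_, hiso, ?_, ?_, ?_⟩
  · rw [h2]; exact S.qK
  · rw [h3, QuadraticMap.polar_smul_right, QuadraticMap.polar_comm, r1, smul_zero]
  · rw [h4, QuadraticMap.polar_smul_right, QuadraticMap.polar_comm, s1, smul_zero]
  · rw [h2, QuadraticMap.polar_comm, polar_qf (Tn_symm hd PA)]
    have := hnum.2.2.2 K'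
    have h5 : 0 < Qf (Tn hd PA) hn2 n (reS σ.toH2 hc) (ofKah K').f2 (curK h).f2 := this
    linarith

end

end Crest.Agent.R281.SkM_474
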