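import Crest.Agent.R281.MvB1_825
import Crest.Agent.R281.MvA4_825
import Crest.Agent.R281.SkM4_474

/-!
# Row 281, MOV (helper825), part 6: the last glue on `(M, A)`

* `exists_cut` : cut-off profiles exist
* `ray`        : every class `K + y c₁(L)`, `L` nef, `0 ≤ y`, is a Kaehler class
* `mov_T`      : `q (c_1 N) = 0` and `c_1 N = t c_1 L` for a class `N ⟂ L` with nonnegative mixed
                 integrals, for every intersection form
* `MassQ`      : the mass condition for sections of a line bundle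
* `mov_prop_hk`, `mov_line` : the same on a compact irreducible symplectic manifold
-/

set_option autoImplicit false
set_option linter.unusedSectionVars false
set_option maxSynthPendingDepth 3

open Set Filter Topology Complex MeasureTheory
open scoped ContDiff Matrix ComplexConjugate ComplexOrder

namespace Crest.Agent.R281.MvB_825

open Crest.Agent.R275.Geo Crest.Agent.R275.Core144 Crest.Agent.R275.EDR890
open Crest.Agent.R273.Kah_333 Crest.Agent.R273.Hess_333 Crest.Agent.R273.Vol_333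
open Crest.Agent.R273.Defs_333 Crest.Agent.R273.HM_333 Crest.Agent.R273.Vm_333
open Crest.Agent.R281.HkR_835 Crest.Agent.R281.Ti_846 Crest.Agent.R281.FujP_513
open Crest.Agent.R281.Defs_273 (NefW NonFlat Isotropic HSymp)
open Crest.Agent.R281.Deg_751 (Qf)
open Crest.Agent.R281.Nef_252 (jA curK ex_cur KCls_jA nefC_of_nefW)
open Crest.Agent.R281.FujSig_358
open Crest.Agent.R281.MvA_825
open Crest.Agent.R281.Fuj7_207 (bn Tn Tn_symm Tn_pos)
open Crest.Agent.R281.Fuj5_207 (E11 reS imS f2_mem)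
open Crest.Agent.R281.Fuj1_207 (qf)

noncomputable section

/-! ### cut-off profiles -/

theorem exists_cut : ∃ χ : ℝ → ℝ, Cut χ := by
  let f : ContDiffBump (-(3 / 2) : ℝ) := ⟨1 / 4, 1 / 2, by norm_num, by norm_num⟩
  set g : ℝ → ℝ := f.normed volume with hg
  have hgs : ContDiff ℝ ∞ g := f.contDiff_normed
  have hgc : Continuous g := hgs.continuous
  have hg0 : ∀ x, 0 ≤ g x := fun x => f.nonneg_normed x
  have hsup : Function.support g = Metric.ball (-(3 / 2) : ℝ) (1 / 2) := f.support_normed_eq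
  have hsup' : ∀ x, g x ≠ 0 → -2 < x ∧ x < -1 := fun x hx => by
    have h1 : x ∈ Function.support g := hx
    rw [hsup, Metric.mem_ball, Real.dist_eq, abs_lt] at h1
    constructor <;> linarith [h1.1, h1.2]
  set χ : ℝ → ℝ := fun s => ∫ x in (-2 : ℝ)..s, g x with hχ
  have hd : ∀ s, HasDerivAt χ (g s) s := fun s =>
    intervalIntegral.integral_hasDerivAt_right (hgc.intervalIntegrable _ _)
      (hgc.stronglyMeasurableAtFilter _ _) hgc.continuousAt
  have hder : deriv χ = g := funext fun s => (hd s).deriv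
  have hz : ∀ s, s ≤ -2 → χ s = 0 := by
    intro s hs
    have h1 : ∀ r ∈ Set.uIcc (-2 : ℝ) s, g r = 0 := by
      intro r hr
      rw [Set.uIcc_of_ge hs] at hr
      by_contra hne
      linarith [(hsup' r hne).1, hr.2]
    show ∫ x in (-2 : ℝ)..s, g x = 0
    rw [intervalIntegral.integral_congr (g := fun _ => 0) h1]
    simp
  have ho : ∀ s, -1 ≤ s → χ s = 1 := by
    intro s hs
    show ∫ x in (-2 : ℝ)..s, g x = 1
    rw [intervalIntegral.integral_eq_integral_of_support_subset]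
    · exact f.integral_normed
    · intro x hx
      have := hsup' x hx
      exact ⟨this.1, by linarith [this.2]⟩
  have hmono : Monotone χ := monotone_of_deriv_nonneg (fun s => (hd s).differentiableAt)
    fun s => by rw [hder]; exact hg0 s
  refine ⟨χ, ?_, fun s => ?_, fun s => ?_, fun s => ?_, hz, ho⟩
  · rw [contDiff_infty_iff_deriv]
    exact ⟨fun s => (hd s).differentiableAt, by rw [hder]; exact hgs⟩
  · have h1 := hmono (min_le_left s (-2))
    rw [hz _ (min_le_right s (-2))] at h1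
    exact h1
  · have h1 := hmono (le_max_left s (-1))
    rw [ho _ (le_max_right s (-1))] at h1
    exact h1
  · rw [hder]
    exact hg0 s

variable {d : ℕ} {M : Type} [TopologicalSpace M] {A : Atl d M}

/-! ### the Kaehler classes `K + y c₁(L)` -/

theorem ray (K : Kah A) {L : LB A} (hN : NefW K L) (hL : HM L) {y : ℝ} (hy : 0 ≤ y) :
    ∃ K' : Kah A, (ofKah K').f2 - ((ofKah K).f2 + y • (curK hL).f2) ∈ exS (ofAtl A) :=
  (KCls_jA _).1 ((nefC_of_nefW K hN hL).real hy)

section T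

variable [CompactSpace M] {n : ℕ} (μ : Measure (Cn d)) [μ.IsAddHaarMeasure]
  (b : Module.Basis (Fin (n + n) × Fin 2) ℝ (Cn d)) (RP : RPart (ofAtl A))
  {q : QuadraticForm ℝ (F2 (ofAtl A))} {r s : F2 (ofAtl A)}

/-- **the last glue**: classes of movable divisors orthogonal to `c_1(L)` -/
theorem mov_T {K : Kah A} (h : Sig (IM μ b RP) q (exS (ofAtl A)) (E11 A) r s (ofKah K).f2)
    {L : LB A} (hN : NefW K L) (hL : HM L) (hq0 : q (curK hL).f2 = 0)
    (hqK : 0 < QuadraticMap.polar q (ofKah K).f2 (curK hL).f2) {w : F2 (ofAtl A)} (hw : w ∈ E11 A)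
    (hwe : QuadraticMap.polar q w (curK hL).f2 = 0)
    (hmov : ∀ K' : Kah A, 0 ≤ IM μ b RP (mixv (n + n) 2 (ofKah K').f2 w)) :
    q w = 0 ∧ w - (QuadraticMap.polar q (ofKah K).f2 w /
      QuadraticMap.polar q (ofKah K).f2 (curK hL).f2) • (curK hL).f2 ∈ exS (ofAtl A) := by
  refine mov_prop h (f2_mem _) hw hq0 hqK hwe fun B => ⟨max B 0, le_max_left _ _, ?_⟩
  obtain ⟨K', hK'⟩ := ray K hN hL (le_max_right B 0)
  refine (hmov K').trans (le_of_eq ?_)
  refine IM_coh μ b RP (ori_ofAtl A) fun k => ?_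
  unfold mixv
  split_ifs
  · rw [sub_self]
    exact (exS (ofAtl A)).zero_mem
  · exact hK'

end T

/-! ### sections -/

/-- the mass condition for the sections `t` of `N`: they are not all zero almost everywhere, and
`∂∂̄ log |t|²` has no mass on the common zeros -/
def MassQ [Countable A.ι] {N : LB A} (h : HM N) {m : ℕ} (t : Fin m → A.ι → M → ℂ) : Prop :=
  ∀ [MeasurableSpace M] [BorelSpace M], ∀ K : Kah A,
    vm (volK K) {x | Qf h t x = 0} = 0 ∧ ∃ χ, Cut χ ∧
      Tendsto (fun j : ℕ => ∫⁻ x in {x | 0 < Qf h t x},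
        ENNReal.ofReal (dn χ K (Qf h t) j x) ∂(vm (volK K))) atTop (𝓝 0)

section main

variable [T2Space M] [CompactSpace M] [ConnectedSpace M] [Finite A.ι] {n : ℕ}

/-- **MOV** for `Tn` -/
theorem mov_Tn (hd : d = n + n) (hn : 1 ≤ n) (PA : Part A) (K : Kah A) {N : LB A} (h : HM N)
    {m : ℕ} {t : Fin m → A.ι → M → ℂ} (ht : ∀ k, IsHS N univ (t k)) (hM : MassQ h t) :
    0 ≤ Tn hd PA (mixv (n + n) 2 (ofKah K).f2 (curK h).f2) := by
  subst hd
  let _ : MeasurableSpace M := borel M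
  have _ : BorelSpace M := ⟨rfl⟩
  obtain ⟨hZ, χ, hχ, hM'⟩ := hM K
  have hpos := Tn_pos rfl PA K
  unfold Tn at hpos ⊢
  exact mov_IM (by omega) K h ht hχ hZ hM' _ _ _ hpos

/-- **MOV on a compact irreducible symplectic manifold**: a line bundle `N ⟂ L` with sections
without common divisors is, in real cohomology, a multiple of `L` -/
theorem mov_prop_hk (hd : d = n + n) (hn : 1 ≤ n) (hn2 : 2 ≤ n + n) (PA : Part A) (K : Kah A)
    (σ : HSymp A) (hu : σ.Uniq) (hc : HkR_835.ClH σ.toH2) {L : LB A} (hN : NefW K L)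
    (hF : NonFlat L) (hI : Isotropic PA σ L) (hL : HM L) {N : LB A} (h : HM N)
    (hNe : QuadraticMap.polar (qf (Tn hd PA) hn2 n (reS σ.toH2 hc)) (curK h).f2 (curK hL).f2 = 0)
    (hmov : ∀ K' : Kah A, 0 ≤ Tn hd PA (mixv (n + n) 2 (ofKah K').f2 (curK h).f2)) :
    qf (Tn hd PA) hn2 n (reS σ.toH2 hc) (curK h).f2 = 0 ∧
      ∃ t : ℝ, (curK h).f2 - t • (curK hL).f2 ∈ exS (ofAtl A) := by
  obtain ⟨K', H, ρ, h0, h1, h2, h3, h4, h5, h6, h7, h8, h9⟩ :=
    SkM_474.given_data hd hn hn2 PA K σ hu hc hN hF hI hL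
  have S := Fuj8_207.sig hd PA hn K' σ hu hc hn2
  rw [h2] at h9
  rw [QuadraticMap.polar_comm] at h9
  have hN' : NefW K' L := by
    have hd2 : 2 ≤ d := by omega
    have hddb : Nef_252.DDb (jA A) := Nef_252.ddb_jA hd2 PA K
    refine (Nef_252.nefW_iff K' hL hddb).2 ?_
    exact (nefC_of_nefW K hN hL).indep (Nef_252.T11_kah K) (Nef_252.T11_kah K')
      (Nef_252.Pos_kah K')
  obtain ⟨e1, e2⟩ := mov_T _ _ _ S hN' hL h6 h9 (f2_mem (curK h)) hNe hmov
  exact ⟨e1, _, e2⟩

/-- the same with the sections -/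
theorem mov_line (hd : d = n + n) (hn : 1 ≤ n) (hn2 : 2 ≤ n + n) (PA : Part A) (K : Kah A)
    (σ : HSymp A) (hu : σ.Uniq) (hc : HkR_835.ClH σ.toH2) {L : LB A} (hN : NefW K L)
    (hF : NonFlat L) (hI : Isotropic PA σ L) (hL : HM L) {N : LB A} (h : HM N)
    (hNe : QuadraticMap.polar (qf (Tn hd PA) hn2 n (reS σ.toH2 hc)) (curK h).f2 (curK hL).f2 = 0)
    {m : ℕ} {t : Fin m → A.ι → M → ℂ} (ht : ∀ k, IsHS N univ (t k)) (hM : MassQ h t) :
    qf (Tn hd PA) hn2 n (reS σ.toH2 hc) (curK h).f2 = 0 ∧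
      ∃ t : ℝ, (curK h).f2 - t • (curK hL).f2 ∈ exS (ofAtl A) :=
  mov_prop_hk hd hn hn2 PA K σ hu hc hN hF hI hL h hNe
    fun K' => mov_Tn hd hn PA K' h ht hM

end main

end

end Crest.Agent.R281.MvB_825
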