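import Crest.Agent.R281.Fc1_998
import Crest.Agent.R281.Md6_252
import Crest.Agent.R281.HEc1_989
import Crest.Agent.R281.SDR3_273

/-!
# R281 (S0424), the static node and SDAT-RAY without hypotheses (helper998)

* `node`     : 273's static node for every `MemA` (252's `node_of`, 989's `coneC_of_holA`, `sgA`)
* `sdat_end` : 273's `sdat_end_of` with the node plugged in
-/

set_option autoImplicit false
set_option linter.unusedSectionVars false
set_option maxSynthPendingDepth 3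

open Set Filter Topology Complex MeasureTheory
open scoped ContDiff Matrix ComplexConjugate ComplexOrder ENNReal

noncomputable section

namespace Crest.Agent.R281.Fc_998

open Crest.Agent.R275.Geo Crest.Agent.R275.Core144 Crest.Agent.R275.GC293
open Crest.Agent.R281.Defs_273 Crest.Agent.R281.HkR_835
open Crest.Agent.R281.Alg_998 Crest.Agent.R281.RkD_902 Crest.Agent.R281.Alg_867
open Crest.Agent.R281.CA_867 Crest.Agent.R281.SDR_273

variable {n N : ℕ} {X : Type} [TopologicalSpace X] {C : RCh (Cn (2 * n)) X}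
  {Q : F2 C →ₗ[ℝ] F2 C →ₗ[ℝ] ℝ} {F : Frm C Q} {A : F2 C} [CompactSpace X] [T2Space X]
  [ConnectedSpace X]

/-- **the static node** -/
theorem node (hX : Ctx n C Q) (hA : 0 < Q A A) {Y : CDat (2 * n) N ℂ} (hY : Y.Ok) {κ : ℝ}
    {β τ : ℂ} {H : HkT C} (hAt : AtTau F A H τ) (hβ : β ≠ 0) (m : MemA F A Y κ β τ H) :
    Node Y κ ((√(F.N / Q A A) * ‖β‖ * τ.im) ^ (2 * n)) H := by
  let _ : MeasurableSpace X := borel X
  have : BorelSpace X := ⟨rfl⟩
  obtain ⟨V, -, hV⟩ := Md_252.exists_vol hX hA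
  obtain ⟨A', h1, h2, h3, hp, L, U, σ, h, -, hN⟩ := Md_252.node_of hX hA hV hAt m hβ
    (fun A' h κ' hκ' => HEc_989.coneC_of_holA h κ' hκ' Y m.cone)
    (fun A' h κ' hκ' => ⟨sgA hY m h, fun i z hz u v => sgA_w hY m h i z hz u v,
      sgA_formC hY m h κ' hκ'⟩) (fun _ : Unit => univ) (fun _ => isOpen_univ)
    fun x => ⟨(), mem_univ x⟩
  exact ⟨A', h1, h2, h3, hp, L, U, σ, h, hN.cone, hN.form, hN.curv, hN.det⟩

/-- the polarisation is positive at the members -/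
theorem pos_of_at (hX : Ctx n C Q) {H : HkT C} {τ : ℂ} (hAt : AtTau F A H τ) : 0 < Q A A := by
  obtain ⟨z, hz, hzN, -⟩ := Md_252.atTau_z hX.symm hX.ex hX.eq hAt
  have hNp := F.hN
  rw [← hzN]
  have := norm_pos_iff.2 hz
  have := hAt.im_pos
  positivity

/-- **SDAT-RAY** -/
theorem sdat_end [MeasurableSpace X] [BorelSpace X] (hX : Ctx n C Q) (K : Cusp F A)
    (a : AlgE F A K) {τ₁ : ℂ} {H₁ : HkT C} (h₁ : K.Mem τ₁ H₁) :
    ∃ (m v C0 c : ℝ) (d : ℕ) (y0 c0 C1 : ℝ) (Lf : ℂ → ℝ), 0 < m ∧ 0 < v ∧ 0 < C0 ∧ 0 < c ∧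
      0 < c0 ∧ (∀ τ : ℂ, y0 < τ.im → 1 ≤ Lf τ ∧ c0 * τ.im ≤ Lf τ ∧ Lf τ ≤ C1 * τ.im) ∧
      ∀ τ : ℂ, y0 < τ.im → ∀ H, MemW K τ H → SD m v C0 c d (Lf τ) H :=
  sdat_end_of hX K a (fun _ hY _ _ _ _ hAt hβ m => node hX (pos_of_at hX hAt) hY hAt hβ m) h₁

end Crest.Agent.R281.Fc_998
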