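import Crest.Agent.R281.Phl3_655
import Crest.Agent.R281.Fuj4_207

/-!
# R281 (S0424), PER-HOL, part 4 (helper655): integrals of holomorphic families of forms

* `hol_int`   : integrals over a compact set of functions holomorphic in the parameter
* `HolF B a b`: families `a, b : E → F2 C`, jointly smooth, `a + i b` pointwise holomorphic
* `HolF.pull`, `HolF.congr`, `CF.holF` (the pull back of a holomorphic form)
* `HolF.tt`   : `c ↦ T(.., a c, ..) + i T(.., b c, ..)` is holomorphic, `T = IM μ b P`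
* `HolF.qf`   : `c ↦ Qf x (a c) + i Qf x (b c)` is holomorphic (207's form)
-/

set_option autoImplicit false
set_option linter.unusedSectionVars false
set_option synthInstance.maxHeartbeats 100000

open Set Filter Topology Complex MeasureTheory
open scoped ContDiff

namespace Crest.Agent.R281.Phl_655

open Crest.Agent.R281.HkR_835 Crest.Agent.R281.Ehr2_268 Crest.Agent.R281.Ti_846
open Crest.Agent.R281.Dif_268 hiding Coh symm2
open Crest.Agent.R281.Ehr4_268 Crest.Agent.R281.Ehr6_268
open Crest.Agent.R281.Fuj1_207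

noncomputable section

/-! ### real and complex derivatives -/

section diffC

variable {E : Type} [NormedAddCommGroup E] [NormedSpace ℂ E]
variable {G : Type*} [NormedAddCommGroup G] [NormedSpace ℂ G]

/-- a real derivative commuting with `I` is complex linear -/
theorem diffC {f : E → G} {f' : E →L[ℝ] G} {c : E} (h : HasFDerivAt f f' c)
    (hI : ∀ h, f' (I • h) = I • f' h) : DifferentiableAt ℂ f c := by
  have h7 : ∀ (a : ℂ) (h : E), f' (a • h) = a • f' h := by
    intro a h
    have e1 : a • h = a.re • h + a.im • (I • h) := by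
      conv_lhs => rw [← Complex.re_add_im a]
      rw [add_smul, mul_smul]
      rfl
    have e2 : a • f' h = a.re • f' h + a.im • (I • f' h) := by
      conv_lhs => rw [← Complex.re_add_im a]
      rw [add_smul, mul_smul]
      rfl
    rw [e1, e2, map_add, map_smul, map_smul, hI]
  let fC : E →L[ℂ] G :=
    { toFun := f', map_add' := f'.map_add, map_smul' := h7, cont := f'.continuous }
  exact (hasFDerivAt_of_restrictScalars (𝕜' := ℂ) (f' := fC) ℝ h (by ext; rfl)).differentiableAt

theorem diffC_I {f : E → G} {f' : E →L[ℝ] G} {c : E} (h : HasFDerivAt f f' c)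
    (hd : DifferentiableAt ℂ f c) (v : E) : f' (I • v) = I • f' v := by
  have h5 := h.unique (hd.hasFDerivAt.restrictScalars ℝ)
  have h6 : ∀ x : E, f' x = fderiv ℂ f c x := fun x => congrArg (fun L : E →L[ℝ] G => L x) h5
  rw [h6, h6, map_smul]

end diffC

section int

variable {E : Type} [NormedAddCommGroup E] [NormedSpace ℂ E]
variable {V : Type} [NormedAddCommGroup V] [NormedSpace ℝ V] [FiniteDimensional ℝ V]
  [MeasurableSpace V] [BorelSpace V] (μ : Measure V) [IsFiniteMeasureOnCompacts μ]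

open Crest.Agent.R240.SmJ in
/-- integrals of functions holomorphic in the parameter -/
theorem hol_int {B : Set E} (hB : IsOpen B) {W : Set V} (hW : IsOpen W) {Kc : Set V}
    (hK : IsCompact Kc) (hKW : Kc ⊆ W) {g : E × V → ℂ} (hg : ContDiffOn ℝ ∞ g (B ×ˢ W))
    (hol : ∀ c ∈ B, ∀ z ∈ Kc, DifferentiableAt ℂ (fun c => g (c, z)) c) {c : E} (hc : c ∈ B) :
    DifferentiableAt ℂ (fun c => ∫ z in Kc, g (c, z) ∂μ) c := by
  have hs : IsOpen (B ×ˢ W) := hB.prod hW
  have hd := hasFDerivAt_integral hs hB hK (prod_mono subset_rfl hKW) μ hg hc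
  refine diffC hd fun v => ?_
  have hcd : ContDiffOn ℝ ∞ (dx g) (B ×ˢ W) := contDiffOn_dx hs hg
  have h1 : ContinuousOn (fun z => dx g (c, z)) Kc :=
    hcd.continuousOn.comp (by fun_prop) fun z hz => ⟨hc, hKW hz⟩
  have hint : Integrable (fun z => dx g (c, z)) (μ.restrict Kc) := h1.integrableOn_compact hK
  rw [ContinuousLinearMap.integral_apply hint, ContinuousLinearMap.integral_apply hint,
    ← integral_smul]
  refine setIntegral_congr_fun hK.measurableSet fun z hz => ?_
  have h2 : DifferentiableAt ℝ g (c, z) :=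
    (hg.contDiffAt (hs.mem_nhds ⟨hc, hKW hz⟩)).differentiableAt (by simp)
  exact diffC_I (hasFDerivAt_dx h2) (hol c hc z hz) v

end int

/-! ### holomorphic families of forms -/

section HolF

variable {V X : Type} [NormedAddCommGroup V] [NormedSpace ℝ V] [TopologicalSpace X]
variable {V' X' : Type} [NormedAddCommGroup V'] [NormedSpace ℝ V'] [TopologicalSpace X']
variable {E : Type} [NormedAddCommGroup E] [NormedSpace ℂ E]
variable {H : Type} [NormedAddCommGroup H] [NormedSpace ℂ H]
variable {C : RCh V X} {C' : RCh V' X'}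

/-- families `a, b` of closed 2-forms, jointly smooth, with `a + i b` pointwise holomorphic -/
structure HolF (B : Set E) (a b : E → F2 C) : Prop where
  sa : ∀ i, ContDiffOn ℝ ∞ (fun p : E × V => (a p.1).w i p.2) (B ×ˢ (C.e i).target)
  sb : ∀ i, ContDiffOn ℝ ∞ (fun p : E × V => (b p.1).w i p.2) (B ×ˢ (C.e i).target)
  hol : ∀ i, ∀ c ∈ B, ∀ z ∈ (C.e i).target, ∀ u v,
    DifferentiableAt ℂ (fun c => (((a c).w i z u v : ℝ) : ℂ) + (((b c).w i z u v : ℝ) : ℂ) * I) c

/-- the pull back, total in the parameter -/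
def BF.pl {S : Set (E × H)} (σ : BF S) {B : Set E} (F : PFam C H B) (hS : Cn S) (hF : F.In S)
    (c : E) : F2 C :=
  open Classical in if h : c ∈ B then σ.pull F hS hF h else 0

section pl

variable {S : Set (E × H)} {B : Set E} {F : PFam C H B} (hS : Cn S) (hF : F.In S)

theorem pl_eq (σ : BF S) {c : E} (hc : c ∈ B) : σ.pl F hS hF c = σ.pull F hS hF hc :=
  dif_pos hc

theorem pl_w (σ : BF S) {c : E} (hc : c ∈ B) (i : C.ι) (z : V) :
    (σ.pl F hS hF c).w i z = σ.pw i F c z := by rw [pl_eq hS hF σ hc]; rfl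

theorem pl_smooth (σ : BF S) (i : C.ι) :
    ContDiffOn ℝ ∞ (fun p : E × V => (σ.pl F hS hF p.1).w i p.2) (B ×ˢ (C.e i).target) :=
  (pw_smooth σ hS hF i).congr fun p hp => pl_w hS hF σ hp.1 i p.2

/-- **the pull back of a holomorphic form is a holomorphic family** -/
theorem CF.holF (σ : CF S) : HolF B ((σ.part reCLM).pl F hS hF) ((σ.part imCLM).pl F hS hF) where
  sa := pl_smooth hS hF _
  sb := pl_smooth hS hF _
  hol i c hc z hz u v := by
    have h := σ.hol hS hF hc hz u v
    refine h.congr_of_eventuallyEq ?_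
    filter_upwards [F.op.mem_nhds hc] with c' hc'
    rw [pl_w hS hF _ hc', pl_w hS hF _ hc']
    rfl

end pl

namespace HolF

variable {B : Set E} {a b : E → F2 C}

theorem congr (h : HolF B a b) (hB : IsOpen B) {a' b' : E → F2 C}
    (ha : ∀ c ∈ B, Eqv (a' c) (a c)) (hb : ∀ c ∈ B, Eqv (b' c) (b c)) : HolF B a' b' where
  sa i := (h.sa i).congr fun p hp => by ext u v; exact ha p.1 hp.1 i p.2 hp.2 u v
  sb i := (h.sb i).congr fun p hp => by ext u v; exact hb p.1 hp.1 i p.2 hp.2 u v
  hol i c hc z hz u v := by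
    refine (h.hol i c hc z hz u v).congr_of_eventuallyEq ?_
    filter_upwards [hB.mem_nhds hc] with c' hc'
    rw [ha c' hc' i z hz u v, hb c' hc' i z hz u v]

theorem mono (h : HolF B a b) {B' : Set E} (hB : B' ⊆ B) : HolF B' a b where
  sa i := (h.sa i).mono (prod_mono hB subset_rfl)
  sb i := (h.sb i).mono (prod_mono hB subset_rfl)
  hol i c hc := h.hol i c (hB hc)

theorem contDiffAt_pb2 {M : Type*} [NormedAddCommGroup M] [NormedSpace ℝ M] {D : M → V' →L[ℝ] V}
    {s : M → Bil V} {m : M} {n : WithTop ℕ∞} (hD : ContDiffAt ℝ n D m)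
    (hs : ContDiffAt ℝ n s m) :
    ContDiffAt ℝ n (fun y => ((ContinuousLinearMap.compL ℝ V' V ℝ).flip (D y)).comp
      ((s y).comp (D y))) m := by
  have h1 : ContDiffAt ℝ n (fun y => (ContinuousLinearMap.compL ℝ V' V ℝ).flip (D y)) m :=
    ContDiffAt.comp (f := D) (g := fun T => (ContinuousLinearMap.compL ℝ V' V ℝ).flip T) m
      (by exact (ContinuousLinearMap.contDiff _).contDiffAt) hD
  exact h1.clm_comp (hs.clm_comp hD)

/-- joint smoothness of the pull back by a smooth map -/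
theorem smooth_pull (g : SMap C' C) (hB : IsOpen B) {a : E → F2 C}
    (ha : ∀ i, ContDiffOn ℝ ∞ (fun p : E × V => (a p.1).w i p.2) (B ×ˢ (C.e i).target))
    (j : C'.ι) : ContDiffOn ℝ ∞ (fun p : E × V' => (g.pull (a p.1)).w j p.2)
      (B ×ˢ (C'.e j).target) := by
  rintro ⟨c, z⟩ ⟨hc, hz⟩
  obtain ⟨i, hi⟩ := g.exists_dom hz
  have h1 : ContDiffAt ℝ ∞ (fun p : E × V' => (p.1, loc C C' g.f i j p.2)) (c, z) :=
    contDiffAt_fst.prodMk (ContDiffAt.comp (f := fun p : E × V' => p.2)
      (g := loc C C' g.f i j) (c, z) (g.contDiffAt_loc hi) contDiffAt_snd)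
  have h2 : ContDiffAt ℝ ∞ (fun p : E × V' => (a p.1).w i (loc C C' g.f i j p.2)) (c, z) :=
    ContDiffAt.comp (f := fun p : E × V' => (p.1, loc C C' g.f i j p.2))
      (g := fun p : E × V => (a p.1).w i p.2) (c, z)
      ((ha i).contDiffAt ((hB.prod (C.e i).open_target).mem_nhds ⟨hc, g.loc_mem hi⟩)) h1
  have h3 : ContDiffAt ℝ ∞ (fun p : E × V' => fderiv ℝ (loc C C' g.f i j) p.2) (c, z) :=
    ContDiffAt.comp (f := fun p : E × V' => p.2) (g := fderiv ℝ (loc C C' g.f i j)) (c, z)
      ((g.contDiffAt_loc hi).fderiv_right (m := ∞) (by simp)) contDiffAt_snd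
  have h4 := contDiffAt_pb2 h3 h2
  refine (h4.congr_of_eventuallyEq ?_).contDiffWithinAt
  have h5 : ∀ᶠ p : E × V' in 𝓝 (c, z), p.2 ∈ dom C C' g.f i j :=
    continuousAt_snd.eventually ((g.isOpen_dom i j).mem_nhds hi)
  filter_upwards [h5] with p hp
  ext u v
  rw [g.pull_w _ hp]
  rfl

/-- **pull back by a smooth map** -/
theorem pull (h : HolF B a b) (hB : IsOpen B) (g : SMap C' C) :
    HolF B (fun c => g.pull (a c)) (fun c => g.pull (b c)) where
  sa := smooth_pull g hB h.sa
  sb := smooth_pull g hB h.sb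
  hol j c hc z hz u v := by
    obtain ⟨i, hi⟩ := g.exists_dom hz
    refine (h.hol i c hc _ (g.loc_mem hi) (fderiv ℝ (loc C C' g.f i j) z u)
      (fderiv ℝ (loc C C' g.f i j) z v)).congr_of_eventuallyEq ?_
    refine Eventually.of_forall fun c' => ?_
    simp only [g.pull_w _ hi]

section tt

variable [FiniteDimensional ℝ V] [MeasurableSpace V] [BorelSpace V] (μ : Measure V)
  [μ.IsAddHaarMeasure] [CompactSpace X] {K : Type} [Fintype K] [DecidableEq K]

theorem tp_update (bs : K × Fin 2 → V) (w : K → F2 C) (k : K) (x : F2 C) (i : C.ι) (z : V) :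
    TP bs (fun k' => (Function.update w k x k').w i z) =
      ∑ σ : Equiv.Perm (K × Fin 2), (((Equiv.Perm.sign σ : ℤ) : ℝ) *
        ∏ k' ∈ Finset.univ.erase k, (w k').w i z (bs (σ (k', 0))) (bs (σ (k', 1)))) *
          x.w i z (bs (σ (k, 0))) (bs (σ (k, 1))) := by
  unfold TP
  refine Finset.sum_congr rfl fun σ _ => ?_
  rw [← Finset.mul_prod_erase Finset.univ _ (Finset.mem_univ k)]
  simp only [Function.update_self]
  have e : ∏ k' ∈ Finset.univ.erase k, (Function.update w k x k').w i z (bs (σ (k', 0)))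
      (bs (σ (k', 1))) = ∏ k' ∈ Finset.univ.erase k, (w k').w i z (bs (σ (k', 0)))
      (bs (σ (k', 1))) := by
    refine Finset.prod_congr rfl fun k' hk' => ?_
    rw [Function.update_of_ne (Finset.ne_of_mem_erase hk')]
  rw [e]
  ring

/-- **integrals are holomorphic** -/
theorem tt (h : HolF B a b) (hB : IsOpen B) (bs : Module.Basis (K × Fin 2) ℝ V) (P : RPart C)
    (w : K → F2 C) (k : K) {c : E} (hc : c ∈ B) :
    DifferentiableAt ℂ (fun c => ((IM μ bs P (Function.update w k (a c)) : ℝ) : ℂ) +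
      ((IM μ bs P (Function.update w k (b c)) : ℝ) : ℂ) * I) c := by
  -- the integrand
  let L : (E → F2 C) → P.σ → E × V → ℝ := fun a κ p =>
    P.ψ κ ((C.e (P.c κ)).symm p.2) *
      TP bs (fun k' => (Function.update w k (a p.1) k').w (P.c κ) p.2)
  have hL : ∀ a : E → F2 C,
      (∀ i, ContDiffOn ℝ ∞ (fun p : E × V => (a p.1).w i p.2) (B ×ˢ (C.e i).target)) →
      ∀ κ, ContDiffOn ℝ ∞ (L a κ) (B ×ˢ (C.e (P.c κ)).target) := by
    intro a ha κ
    have h1 : ContDiffOn ℝ ∞ (fun p : E × V => P.ψ κ ((C.e (P.c κ)).symm p.2))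
        (B ×ˢ (C.e (P.c κ)).target) :=
      (P.sm κ (P.c κ)).comp contDiffOn_snd fun p hp => hp.2
    refine h1.mul ?_
    unfold TP
    refine ContDiffOn.sum fun σ _ => contDiffOn_const.mul (contDiffOn_prod fun k' _ => ?_)
    by_cases hk : k' = k
    · subst hk
      simp only [Function.update_self]
      exact ((ha (P.c κ)).clm_apply contDiffOn_const).clm_apply contDiffOn_const
    · simp only [Function.update_of_ne hk]
      have h2 : ContDiffOn ℝ ∞ (fun p : E × V => (w k').w (P.c κ) p.2)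
          (B ×ˢ (C.e (P.c κ)).target) :=
        ((w k').sm (P.c κ)).comp contDiffOn_snd fun p hp => hp.2
      exact (h2.clm_apply contDiffOn_const).clm_apply contDiffOn_const
  let Kc : P.σ → Set V := fun κ => C.e (P.c κ) '' tsupport (P.ψ κ)
  have hKc : ∀ κ, IsCompact (Kc κ) := fun κ =>
    ((isClosed_tsupport _).isCompact).image_of_continuousOn
      ((C.e (P.c κ)).continuousOn.mono (P.sub κ))
  have hKs : ∀ κ, Kc κ ⊆ (C.e (P.c κ)).target := by
    rintro κ _ ⟨x, hx, rfl⟩
    exact (C.e (P.c κ)).map_source (P.sub κ hx)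
  -- the integral as a sum of integrals over compact sets
  have hint : ∀ a : E → F2 C, ∀ c, IM μ bs P (Function.update w k (a c)) =
      ∑ κ, ∫ z in Kc κ, L a κ (c, z) ∂μ := by
    intro a c
    show ∑ κ, ∫ z in (C.e (P.c κ)).target, L a κ (c, z) ∂μ = _
    refine Finset.sum_congr rfl fun κ _ => ?_
    refine setIntegral_eq_of_subset_of_forall_sdiff_eq_zero (f := fun z => L a κ (c, z))
      (C.e (P.c κ)).open_target.measurableSet (hKs κ) fun z hz => ?_
    have h1 : (C.e (P.c κ)).symm z ∉ tsupport (P.ψ κ) := fun h =>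
      hz.2 ⟨_, h, (C.e (P.c κ)).right_inv hz.1⟩
    show P.ψ κ ((C.e (P.c κ)).symm z) * _ = 0
    rw [psi_zero P κ h1, zero_mul]
  -- the complex integrand
  let G : P.σ → E × V → ℂ := fun κ p => (L a κ p : ℂ) + (L b κ p : ℂ) * I
  have hG : ∀ κ, ContDiffOn ℝ ∞ (G κ) (B ×ˢ (C.e (P.c κ)).target) := fun κ =>
    (ofRealCLM.contDiff.comp_contDiffOn (hL a h.sa κ)).add
      ((ofRealCLM.contDiff.comp_contDiffOn (hL b h.sb κ)).mul contDiffOn_const)
  have hGh : ∀ κ, ∀ c ∈ B, ∀ z ∈ Kc κ, DifferentiableAt ℂ (fun c => G κ (c, z)) c := by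
    intro κ c hc z hz
    have e1 : (fun c => G κ (c, z)) = fun c => (P.ψ κ ((C.e (P.c κ)).symm z) : ℂ) *
        ∑ σ : Equiv.Perm (K × Fin 2), ((((Equiv.Perm.sign σ : ℤ) : ℝ) *
          ∏ k' ∈ Finset.univ.erase k, (w k').w (P.c κ) z (bs (σ (k', 0))) (bs (σ (k', 1))) :
            ℝ) : ℂ) * ((((a c).w (P.c κ) z (bs (σ (k, 0))) (bs (σ (k, 1))) : ℝ) : ℂ) +
              (((b c).w (P.c κ) z (bs (σ (k, 0))) (bs (σ (k, 1))) : ℝ) : ℂ) * I) := by
      funext c'
      simp only [G, L, tp_update]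
      rw [ofReal_mul, ofReal_mul, ofReal_sum, ofReal_sum, mul_assoc, Finset.sum_mul, ← mul_add,
        ← Finset.sum_add_distrib]
      congr 1
      refine Finset.sum_congr rfl fun σ _ => ?_
      push_cast
      ring
    rw [e1]
    refine (DifferentiableAt.fun_sum fun σ _ => ?_).const_mul _
    exact (h.hol (P.c κ) c hc z (hKs κ hz) _ _).const_mul _
  have hcont : ∀ a : E → F2 C,
      (∀ i, ContDiffOn ℝ ∞ (fun p : E × V => (a p.1).w i p.2) (B ×ˢ (C.e i).target)) →
      ∀ κ, ∀ c ∈ B, IntegrableOn (fun z => (L a κ (c, z) : ℂ)) (Kc κ) μ := by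
    intro a ha κ c hc
    have h1 : ContinuousOn (fun z => L a κ (c, z)) (Kc κ) :=
      (hL a ha κ).continuousOn.comp (by fun_prop) fun z hz => ⟨hc, hKs κ hz⟩
    exact (Complex.continuous_ofReal.comp_continuousOn h1).integrableOn_compact (hKc κ)
  have e2 : (fun c => ((IM μ bs P (Function.update w k (a c)) : ℝ) : ℂ) +
      ((IM μ bs P (Function.update w k (b c)) : ℝ) : ℂ) * I) =ᶠ[𝓝 c]
      fun c => ∑ κ, ∫ z in Kc κ, G κ (c, z) ∂μ := by
    filter_upwards [hB.mem_nhds hc] with c' hc'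
    rw [hint, hint, ofReal_sum, ofReal_sum, Finset.sum_mul, ← Finset.sum_add_distrib]
    refine Finset.sum_congr rfl fun κ _ => ?_
    rw [← integral_complex_ofReal, ← integral_complex_ofReal, ← integral_mul_const, ← integral_add]
    · exact hcont a h.sa κ c' hc'
    · exact (hcont b h.sb κ c' hc').mul_const I
  refine DifferentiableAt.congr_of_eventuallyEq ?_ e2
  exact DifferentiableAt.fun_sum fun κ _ =>
    hol_int μ hB (C.e (P.c κ)).open_target (hKc κ) (hKs κ) (hG κ) (hGh κ) hc

end tt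

/-- linear functionals that are holomorphic along the family -/
def lin (_h : HolF B a b) : Submodule ℝ (F2 C →ₗ[ℝ] ℝ) where
  carrier := {l | ∀ c ∈ B, DifferentiableAt ℂ (fun c => ((l (a c) : ℝ) : ℂ) + (l (b c) : ℂ) * I) c}
  zero_mem' c _ := by simp
  add_mem' {l l'} hl hl' c hc := by
    have h1 := (hl c hc).add (hl' c hc)
    refine h1.congr_of_eventuallyEq (Eventually.of_forall fun c' => ?_)
    simp only [LinearMap.add_apply, ofReal_add, Pi.add_apply]
    ring
  smul_mem' r l hl c hc := by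
    have h1 := (hl c hc).const_mul (r : ℂ)
    refine h1.congr_of_eventuallyEq (Eventually.of_forall fun c' => ?_)
    simp only [LinearMap.smul_apply, smul_eq_mul, ofReal_mul]
    ring

theorem mem_lin (h : HolF B a b) {l : F2 C →ₗ[ℝ] ℝ} : l ∈ h.lin ↔ ∀ c ∈ B,
    DifferentiableAt ℂ (fun c => ((l (a c) : ℝ) : ℂ) + (l (b c) : ℂ) * I) c := Iff.rfl

section qf

variable [FiniteDimensional ℝ V] [MeasurableSpace V] [BorelSpace V] (μ : Measure V)
  [μ.IsAddHaarMeasure] [CompactSpace X] {N : ℕ} (bs : Module.Basis (Fin N × Fin 2) ℝ V)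
  (P : RPart C)

theorem L1_mem (h : HolF B a b) (hB : IsOpen B) (hN : 2 ≤ N) (r : F2 C) :
    L1 (IM μ bs P) hN r ∈ h.lin := by
  intro c hc
  have h1 := h.tt μ hB bs P (fun _ => r) (⟨0, by omega⟩ : Fin N) hc
  simpa only [L1_apply, v1_eq_update hN] using h1

theorem B2_mem (h : HolF B a b) (hB : IsOpen B) (hN : 2 ≤ N) (r x : F2 C) :
    B2 (IM μ bs P) hN r x ∈ h.lin := by
  intro c hc
  have h1 := h.tt μ hB bs P (Function.update (fun _ => r) (⟨0, by omega⟩ : Fin N) x)
    (⟨1, by omega⟩ : Fin N) hc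
  simpa only [B2_apply, v2_eq_update hN] using h1

/-- **the Beauville-Bogomolov-Fujiki pairing with a fixed class is holomorphic** -/
theorem Qf_mem (h : HolF B a b) (hB : IsOpen B) (hN : 2 ≤ N) (ν : ℕ) (r x : F2 C) :
    Qf (IM μ bs P) hN ν r x ∈ h.lin := by
  have e : Qf (IM μ bs P) hN ν r x =
      (rt ((IM μ bs P) fun _ => r) ν / ((IM μ bs P) fun _ => r) * (2 * ν - 1)) •
        B2 (IM μ bs P) hN r x -
      (2 * (ν - 1) * rt ((IM μ bs P) fun _ => r) ν / ((IM μ bs P) fun _ => r) ^ 2 *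
        L1 (IM μ bs P) hN r x) • L1 (IM μ bs P) hN r := by
    ext y
    simp only [Qf_apply, LinearMap.sub_apply, LinearMap.smul_apply, smul_eq_mul, B2_apply,
      L1_apply]
    ring
  rw [e]
  exact h.lin.sub_mem (h.lin.smul_mem _ (h.B2_mem μ bs P hB hN r x))
    (h.lin.smul_mem _ (h.L1_mem μ bs P hB hN r))

end qf

end HolF

end HolF

end

end Crest.Agent.R281.Phl_655
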