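import Crest.Agent.R281.Ehr8_268
import Crest.Agent.R281.Phl4_655
import Crest.Agent.R281.Ph1_429
import Crest.Agent.R281.LI3_473

/-!
# Row 281, PER-HOL, part Ph3 (helper429): the period along the transports of the marked cover

* `HolL E l`    : the functional `l : HdR C → ℝ` is holomorphic along every holomorphic family of
                  closed 2-forms over (an open subset of) `E`
* `holL_of`     : `l = Q y` for every form `Q` on `HdR C` with the Fujiki relation
* `Hp b b' m`   : the pull backs of the two basic forms `b, b' : QBF F` along the transport of the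
                  marking `m` are real and imaginary part of a holomorphic family (268's `QCF`)
* `per_hol`, `per_cont`, `per_an` : `q ↦ l (re class) + i l (im class)` along the transports
* `z0_cont`, `z1_cont`, `z_hol`   : `cont0`, `cont1`, `hol` of 473's `HM`, `HM.geom`
-/

set_option autoImplicit false
set_option linter.unusedSectionVars false
set_option maxSynthPendingDepth 5
set_option maxHeartbeats 400000

open Set Filter Topology Complex MeasureTheory
open scoped ContDiff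

universe uq

namespace Crest.Agent.R281.Ph3_429

open Crest.Agent.R281.HkR_835 Crest.Agent.R281.Ehr2_268 Crest.Agent.R281.Dif_268
open Crest.Agent.R281.Ehr4_268 Crest.Agent.R281.CL_473 Crest.Agent.R281.Ehr6_268
open Crest.Agent.R281.Cdr_234 Crest.Agent.R281.Ehr7_268 Crest.Agent.R281.Phl_655
open Crest.Agent.R281.Ehr8_268
open Crest.Agent.R281.Ti_846 (IM IM_perm RPart)

noncomputable section

section lin

variable {V X : Type} [NormedAddCommGroup V] [NormedSpace ℝ V] [TopologicalSpace X]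
  {C : RCh V X}

/-- functionals on the classes which are holomorphic along every holomorphic family -/
def HolL (E : Type) [NormedAddCommGroup E] [NormedSpace ℂ E] (l : HdR C →ₗ[ℝ] ℝ) : Prop :=
  ∀ (B : Set E) (a b : E → F2 C), IsOpen B → HolF B a b → ∀ c ∈ B,
    DifferentiableAt ℂ (fun c => ((l (cl (a c)) : ℝ) : ℂ) + (l (cl (b c)) : ℂ) * I) c

/-- the class map -/
def clL (C : RCh V X) : F2 C →ₗ[ℝ] HdR C where
  toFun := cl
  map_add' := cl_add
  map_smul' := cl_smul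

variable [FiniteDimensional ℝ V] [MeasurableSpace V] [BorelSpace V] (μ : Measure V)
  [μ.IsAddHaarMeasure] [CompactSpace X] {K : Type} [Fintype K] [DecidableEq K]

/-- **the Fujiki relation makes all products holomorphic** -/
theorem holL_of (E : Type) [NormedAddCommGroup E] [NormedSpace ℂ E]
    (bs : Module.Basis (K × Fin 2) ℝ V) (P : RPart C) {ν : ℕ} (hν : ν ≠ 0)
    (hK : Fintype.card K = 2 * ν) (Q : HdR C →ₗ[ℝ] HdR C →ₗ[ℝ] ℝ)
    (hs : ∀ x y, Q x y = Q y x) {c₀ : ℝ} (hc₀ : c₀ ≠ 0)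
    (hF : ∀ x : F2 C, IM μ bs P (fun _ => x) = c₀ * (Q (cl x) (cl x)) ^ ν) {x₀ : HdR C}
    (h0 : Q x₀ x₀ ≠ 0) (y : HdR C) : HolL E (Q y) := by
  intro B a b hB h c hc
  obtain ⟨y, rfl⟩ := cl_surj y
  obtain ⟨x₀, rfl⟩ := cl_surj x₀
  have hsym : Ph1_429.Sym (c₀⁻¹ • IM μ bs P) := fun σ w => by
    rw [MultilinearMap.smul_apply, MultilinearMap.smul_apply, IM_perm]
  have hF' : ∀ x : F2 C, (c₀⁻¹ • IM μ bs P) (fun _ => x) =
      ((Q.compl₁₂ (clL C) (clL C)) x x) ^ ν := by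
    intro x
    rw [MultilinearMap.smul_apply, hF, smul_eq_mul, ← mul_assoc, inv_mul_cancel₀ hc₀, one_mul]
    rfl
  have h1 := Ph1_429.transfer hν hK hsym (Q.compl₁₂ (clL C) (clL C)) (fun x y => hs _ _) hF'
    (x₀ := x₀) h0 a b (fun f => DifferentiableAt ℂ f c)
    (fun f g s t hf hg => (hf.const_mul (s : ℂ)).add (hg.const_mul (t : ℂ)))
    (fun w k => by
      have h2 := (h.tt μ hB bs P w k hc).const_mul ((c₀⁻¹ : ℝ) : ℂ)
      refine h2.congr_of_eventuallyEq (Eventually.of_forall fun q => ?_)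
      simp only [MultilinearMap.smul_apply, smul_eq_mul]
      push_cast
      ring) y
  exact h1

end lin

variable {Q : Type uq} [TopologicalSpace Q] {E H : Type} [NormedAddCommGroup E]
    [NormedSpace ℂ E] [NormedAddCommGroup H] [NormedSpace ℂ H] {V X : Type}
    [NormedAddCommGroup V] [NormedSpace ℝ V] [TopologicalSpace X]
    {F : QFam Q E H} {C : RCh V X}

/-- the pull back along the transport of a marking, total in the parameter -/
def pl (b : QBF F) (m : Mark F C) : E → F2 m.C' := (b.β m.q).pl m.pf (F.cn m.q) (pf_in m)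

theorem pl_eq (b : QBF F) (m : Mark F C) {c : E}
    (hc : c ∈ Metric.ball (F.u m.q) (F.r m.q)) : pl b m c = b.at' m hc :=
  Phl_655.pl_eq (F.cn m.q) (pf_in m) (b.β m.q) hc

/-- the two basic forms are real and imaginary part of a holomorphic form along the transport -/
def Hp (b b' : QBF F) (m : Mark F C) : Prop :=
  HolF (Metric.ball (F.u m.q) (F.r m.q)) (pl b m) (pl b' m)

/-- the pull back of a `CF` -/
theorem hp_of_cf {b b' : QBF F} {m : Mark F C} (σ : CF (F.R m.q))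
    (h1 : b.β m.q = σ.part reCLM) (h2 : b'.β m.q = σ.part imCLM) : Hp b b' m := by
  unfold Hp pl
  rw [h1, h2]
  exact CF.holF (F.cn m.q) (pf_in m) σ

variable [FiniteDimensional ℝ V] [CompactSpace X] [T2Space X] [FiniteDimensional ℂ H]
  {b b' : QBF F} {m : Mark F C} {l : HdR C →ₗ[ℝ] ℝ}

/-- `l (re class) + i l (im class)` of a marking -/
def pv (b b' : QBF F) (l : HdR C →ₗ[ℝ] ℝ) (x : MQ F C) : ℂ :=
  ((l ((b.natF C).cls x) : ℝ) : ℂ) + ((l ((b'.natF C).cls x) : ℝ) : ℂ) * I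

/-- the same along the transport, as a function of the parameter -/
def pf (b b' : QBF F) (m : Mark F C) (l : HdR C →ₗ[ℝ] ℝ) (c : E) : ℂ :=
  ((l (cl ((SMap.ofCmp m.cmp.symm).pull (pl b m c))) : ℝ) : ℂ) +
    ((l (cl ((SMap.ofCmp m.cmp.symm).pull (pl b' m c))) : ℝ) : ℂ) * I

theorem pv_s (b b' : QBF F) (m : Mark F C) (l : HdR C →ₗ[ℝ] ℝ) {q : Q} (hq : q ∈ F.U m.q) :
    pv b b' l ((ls F C).s (MQ.mk m) q) = pf b b' m l (F.u q) := by
  unfold pv pf
  rw [b.cls_s m hq, b'.cls_s m hq, pl_eq b m (F.ball_of_mem hq), pl_eq b' m (F.ball_of_mem hq)]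

/-- **the period is holomorphic along the transports** -/
theorem pf_hol (h : Hp b b' m) (hl : HolL E l) {c : E}
    (hc : c ∈ Metric.ball (F.u m.q) (F.r m.q)) : DifferentiableAt ℂ (pf b b' m l) c :=
  hl _ _ _ Metric.isOpen_ball (HolF.pull h Metric.isOpen_ball (SMap.ofCmp m.cmp.symm)) c hc

theorem per_hol (h : Hp b b' m) (hl : HolL E l) :
    ∃ φ : E → ℂ, DifferentiableOn ℂ φ (Metric.ball (F.u m.q) (F.r m.q)) ∧
      ∀ q ∈ F.U m.q, pv b b' l ((ls F C).s (MQ.mk m) q) = φ (F.u q) :=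
  ⟨pf b b' m l, fun _ hc => (pf_hol h hl hc).differentiableWithinAt,
    fun _ hq => pv_s b b' m l hq⟩

/-- continuity along the transports -/
theorem per_cont (h : ∀ m : Mark F C, Hp b b' m) (hl : HolL E l) (x : MQ F C) :
    ContinuousOn (fun q => pv b b' l ((ls F C).s x q)) ((ls F C).U ((ls F C).p x)) := by
  obtain ⟨m, rfl⟩ := MQ.exists_rep x
  have h1 : ContinuousOn (fun q => pf b b' m l (F.u q)) (F.U m.q) := by
    intro q hq
    have h2 : ContinuousAt (pf b b' m l) (F.u q) :=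
      (pf_hol (h m) hl (F.ball_of_mem hq)).continuousAt
    exact (ContinuousAt.comp (f := F.u) h2 (F.cont_u q)).continuousWithinAt
  exact h1.congr fun q hq => pv_s b b' m l hq

/-- holomorphy along the transports, one complex parameter -/
theorem per_an {F : QFam Q ℂ H} {b b' : QBF F} (h : ∀ m : Mark F C, Hp b b' m)
    (hl : HolL ℂ l) (x : MQ F C) :
    ∃ φ : ℂ → ℂ, AnalyticAt ℂ φ (F.u ((ls F C).p x)) ∧
      ∀ᶠ q in 𝓝 ((ls F C).p x), pv b b' l ((ls F C).s x q) = φ (F.u q) := by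
  obtain ⟨m, rfl⟩ := MQ.exists_rep x
  refine ⟨pf b b' m l, ?_, ?_⟩
  · have h1 : DifferentiableOn ℂ (pf b b' m l) (Metric.ball (F.u m.q) (F.r m.q)) :=
      fun c hc => (pf_hol (h m) hl hc).differentiableWithinAt
    exact h1.analyticAt (Metric.isOpen_ball.mem_nhds (F.ball_of_mem (F.U_mem m.q)))
  · filter_upwards [(F.U_open m.q).mem_nhds (F.U_mem m.q)] with q hq
    exact pv_s b b' m l hq

/-! ### 473's frame -/

section frame

open LI_473

variable {QQ : HdR C →ₗ[ℝ] HdR C →ₗ[ℝ] ℝ} (Fr' : Fr QQ)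

theorem z0_eq (x : MQ F C) :
    Fr'.z0 ((b.natF C).cls x) ((b'.natF C).cls x) = pv b b' (QQ Fr'.e) x := by
  unfold Fr.z0 pv
  rw [Fr'.sym _ Fr'.e, Fr'.sym _ Fr'.e]

theorem z1_eq (x : MQ F C) :
    Fr'.z1 ((b.natF C).cls x) ((b'.natF C).cls x) = pv b b' (QQ Fr'.v) x := by
  unfold Fr.z1 pv
  rw [Fr'.sym _ Fr'.v, Fr'.sym _ Fr'.v]

/-- `cont0` -/
theorem z0_cont (h : ∀ m : Mark F C, Hp b b' m) (hl : ∀ y, HolL E (QQ y)) (x : MQ F C) :
    ContinuousOn (fun q => Fr'.z0 ((b.natF C).cls ((ls F C).s x q))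
      ((b'.natF C).cls ((ls F C).s x q))) ((ls F C).U ((ls F C).p x)) :=
  (per_cont h (hl Fr'.e) x).congr fun q _ => z0_eq Fr' _

/-- `cont1` -/
theorem z1_cont (h : ∀ m : Mark F C, Hp b b' m) (hl : ∀ y, HolL E (QQ y)) (x : MQ F C) :
    ContinuousOn (fun q => Fr'.z1 ((b.natF C).cls ((ls F C).s x q))
      ((b'.natF C).cls ((ls F C).s x q))) ((ls F C).U ((ls F C).p x)) :=
  (per_cont h (hl Fr'.v) x).congr fun q _ => z1_eq Fr' _

/-- `hol` -/
theorem z_hol {F : QFam Q ℂ H} {b b' : QBF F} (h : ∀ m : Mark F C, Hp b b' m)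
    (hl : ∀ y, HolL ℂ (QQ y)) (x : MQ F C) :
    ∃ φ₀ φ₁ : ℂ → ℂ, AnalyticAt ℂ φ₀ (F.u ((ls F C).p x)) ∧
      AnalyticAt ℂ φ₁ (F.u ((ls F C).p x)) ∧ ∀ᶠ q in 𝓝 ((ls F C).p x),
        Fr'.z0 ((b.natF C).cls ((ls F C).s x q)) ((b'.natF C).cls ((ls F C).s x q)) =
          φ₀ (F.u q) ∧
        Fr'.z1 ((b.natF C).cls ((ls F C).s x q)) ((b'.natF C).cls ((ls F C).s x q)) =
          φ₁ (F.u q) := by
  obtain ⟨φ₀, h1, h2⟩ := per_an h (hl Fr'.e) x
  obtain ⟨φ₁, h3, h4⟩ := per_an h (hl Fr'.v) x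
  refine ⟨φ₀, φ₁, h1, h3, ?_⟩
  filter_upwards [h2, h4] with q h5 h6
  exact ⟨(z0_eq Fr' _).trans h5, (z1_eq Fr' _).trans h6⟩

end frame

end

end Crest.Agent.R281.Ph3_429
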