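import Crest.Agent.R281.Phb3_267
import Crest.Agent.R281.Ehr8_268
import Crest.Agent.R281.Phl3_655
import Crest.Agent.R281.Fuj1_207
import Crest.Agent.R281.Ti5_846

/-!
# R281 (S0424), (D12) PER-HOL, second owner (helper267): the period functions of the marked cover

* `HolL C ℓ`     : `ℓ` sends holomorphic families of closed forms to holomorphic functions
* `HolL.of_II`, `HolL.Qf`, `holL_QH` : intersection numbers, the form of 207
* `HolF.pull`    : pull back of a holomorphic family under a smooth map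
* `QCF F`        : holomorphic forms on the cones of a `QFam`; `QCF.re`, `QCF.im : QBF F`;
                   `QCF.ofQC` from 655's `QC`
* `QCF.holF`     : the family along the transport of a marking
* `QCF.hol_cls`  : `ℓ(re) + i ℓ(im)` along the transport is a holomorphic function of `u q`
* `QCF.cont_cls`, `QCF.ana_cls`
-/

set_option autoImplicit false
set_option linter.unusedSectionVars false
set_option maxSynthPendingDepth 5

open Complex Set Filter Topology MeasureTheory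
open scoped ContDiff

namespace Crest.Agent.R281.Phb_267

open Crest.Agent.R281.HkR_835
open Crest.Agent.R281.Ti_846 (RPart II IM IM_apply)

noncomputable section

universe uq

section HolL

variable {V X : Type} [NormedAddCommGroup V] [NormedSpace ℝ V] [TopologicalSpace X]
  {C : RCh V X}

/-- `ℓ` sends holomorphic families to holomorphic functions -/
def HolL (C : RCh V X) (ℓ : F2 C → ℝ) : Prop :=
  ∀ (E : Type) [NormedAddCommGroup E] [NormedSpace ℂ E] (B : Set E) (R T : E → F2 C), IsOpen B →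
    HolF C B R T → DifferentiableOn ℂ (fun q => (ℓ (R q) : ℂ) + (ℓ (T q) : ℂ) * I) B

theorem HolL.add {ℓ ℓ' : F2 C → ℝ} (h : HolL C ℓ) (h' : HolL C ℓ') :
    HolL C (fun x => ℓ x + ℓ' x) := by
  intro E _ _ B R T hB hf
  have h1 := (h E B R T hB hf).add (h' E B R T hB hf)
  refine h1.congr fun q _ => ?_
  simp only [Pi.add_apply]
  push_cast
  ring

theorem HolL.smul {ℓ : F2 C → ℝ} (h : HolL C ℓ) (a : ℝ) : HolL C (fun x => a * ℓ x) := by
  intro E _ _ B R T hB hf
  have h1 : DifferentiableOn ℂ (fun q => (a : ℂ) * ((ℓ (R q) : ℂ) + (ℓ (T q) : ℂ) * I)) B :=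
    (h E B R T hB hf).const_mul _
  refine h1.congr fun q _ => ?_
  push_cast
  ring

theorem HolL.sub {ℓ ℓ' : F2 C → ℝ} (h : HolL C ℓ) (h' : HolL C ℓ') :
    HolL C (fun x => ℓ x - ℓ' x) := by
  have h1 := h.add (h'.smul (-1))
  refine (funext fun x => ?_ : (fun x => ℓ x + -1 * ℓ' x) = fun x => ℓ x - ℓ' x) ▸ h1
  ring

theorem HolL.congr {ℓ ℓ' : F2 C → ℝ} (h : HolL C ℓ) (he : ∀ x, ℓ' x = ℓ x) : HolL C ℓ' := by
  have : ℓ' = ℓ := funext he
  rw [this]
  exact h

variable [FiniteDimensional ℝ V] [MeasurableSpace V] [BorelSpace V] (μ : Measure V)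
  [μ.IsAddHaarMeasure] [CompactSpace X]

theorem HolL.of_II {K : Type} [Fintype K] [DecidableEq K] (b : Module.Basis (K × Fin 2) ℝ V)
    (P : RPart C) (w : K → F2 C) (k : K) :
    HolL C (fun x => II μ b P (Function.update w k x)) :=
  fun _ _ _ _ _ _ hB hf => II_hol μ hB b P w k hf

section Qf

variable {N : ℕ} (hN : 2 ≤ N) (b : Module.Basis (Fin N × Fin 2) ℝ V) (P : RPart C)

include hN in
theorem HolL.v1 (r : F2 C) : HolL C (fun x => IM μ b P (Fuj1_207.v1 N x r)) := by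
  refine (HolL.of_II μ b P (fun _ => r) (⟨0, by omega⟩ : Fin N)).congr fun x => ?_
  rw [IM_apply, Fuj1_207.v1_eq_update hN]

include hN in
theorem HolL.v2 (r y : F2 C) : HolL C (fun x => IM μ b P (Fuj1_207.v2 N x y r)) := by
  refine (HolL.of_II μ b P (Function.update (fun _ => r) (⟨1, by omega⟩ : Fin N) y)
    (⟨0, by omega⟩ : Fin N)).congr fun x => ?_
  rw [IM_apply, Fuj1_207.v2_eq_update' hN]

/-- the form of 207 -/
theorem HolL.Qf (ν : ℕ) (r y : F2 C) :
    HolL C (fun x => Fuj1_207.Qf (IM μ b P) hN ν r x y) := by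
  have h1 := (HolL.v2 μ hN b P r y).smul
    (Fuj1_207.rt (IM μ b P fun _ => r) ν / (IM μ b P fun _ => r) * (2 * ν - 1))
  have h2 := (HolL.v1 μ hN b P r).smul
    (2 * (ν - 1) * Fuj1_207.rt (IM μ b P fun _ => r) ν / (IM μ b P fun _ => r) ^ 2 *
      IM μ b P (Fuj1_207.v1 N y r))
  refine (h1.sub h2).congr fun x => ?_
  rw [Fuj1_207.Qf_apply]
  ring

end Qf

end HolL

/-! ### pull back -/

section pull

open Crest.Agent.R281.Dif_268

variable {V V' X X' : Type} [NormedAddCommGroup V] [NormedSpace ℝ V]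
  [NormedAddCommGroup V'] [NormedSpace ℝ V'] [TopologicalSpace X] [TopologicalSpace X']
  {C : RCh V X} {C' : RCh V' X'} {E : Type*} [NormedAddCommGroup E] [NormedSpace ℂ E]
  {B : Set E} {R T : E → F2 C}

/-- pull back of a bilinear form -/
def pbv (D : V' →L[ℝ] V) (s : Bil V) : Bil V' :=
  ((ContinuousLinearMap.compL ℝ V' V ℝ).flip D).comp (s.comp D)

@[simp] theorem pbv_apply (D : V' →L[ℝ] V) (s : Bil V) (v w : V') :
    pbv D s v w = s (D v) (D w) := rfl

theorem contDiffAt_pbv {M : Type*} [NormedAddCommGroup M] [NormedSpace ℝ M]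
    {D : M → V' →L[ℝ] V} {s : M → Bil V} {m : M} {n : WithTop ℕ∞} (hD : ContDiffAt ℝ n D m)
    (hs : ContDiffAt ℝ n s m) : ContDiffAt ℝ n (fun y => pbv (D y) (s y)) m := by
  have h1 : ContDiffAt ℝ n (fun y => (ContinuousLinearMap.compL ℝ V' V ℝ).flip (D y)) m :=
    ContDiffAt.comp (f := D) (g := fun T => (ContinuousLinearMap.compL ℝ V' V ℝ).flip T) m
      (by exact (ContinuousLinearMap.contDiff _).contDiffAt) hD
  exact h1.clm_comp (hs.clm_comp hD)

theorem sm_pull (hB : IsOpen B) (g : SMap C' C)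
    (h : ∀ i, ContDiffOn ℝ ∞ (fun p : E × V => (R p.1).w i p.2) (B ×ˢ (C.e i).target))
    (j : C'.ι) :
    ContDiffOn ℝ ∞ (fun p : E × V' => (g.pull (R p.1)).w j p.2) (B ×ˢ (C'.e j).target) := by
  rintro ⟨q, z⟩ ⟨hq, hz⟩
  obtain ⟨i, hi⟩ := g.exists_dom hz
  have h1 : ContDiffAt ℝ ∞ (fun p : E × V => (R p.1).w i p.2) (q, loc C C' g.f i j z) :=
    (h i).contDiffAt ((hB.prod (C.e i).open_target).mem_nhds ⟨hq, g.loc_mem hi⟩)
  have h2 : ContDiffAt ℝ ∞ (loc C C' g.f i j) z := g.contDiffAt_loc hi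
  have h2' : ContDiffAt ℝ ∞ (fun p : E × V' => loc C C' g.f i j p.2) (q, z) :=
    ContDiffAt.comp (f := fun p : E × V' => p.2) (g := loc C C' g.f i j) (q, z) h2 contDiffAt_snd
  have h3 : ContDiffAt ℝ ∞ (fun p : E × V' => (p.1, loc C C' g.f i j p.2)) (q, z) :=
    contDiffAt_fst.prodMk h2'
  have h4 : ContDiffAt ℝ ∞ (fun p : E × V' => (R p.1).w i (loc C C' g.f i j p.2)) (q, z) :=
    ContDiffAt.comp (f := fun p : E × V' => (p.1, loc C C' g.f i j p.2))
      (g := fun p : E × V => (R p.1).w i p.2) (q, z) h1 h3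
  have h5 : ContDiffAt ℝ ∞ (fun p : E × V' => fderiv ℝ (loc C C' g.f i j) p.2) (q, z) :=
    ContDiffAt.comp (f := fun p : E × V' => p.2) (g := fderiv ℝ (loc C C' g.f i j)) (q, z)
      (h2.fderiv_right (m := ∞) (by simp)) contDiffAt_snd
  refine ((contDiffAt_pbv h5 h4).congr_of_eventuallyEq ?_).contDiffWithinAt
  have h6 : ∀ᶠ p : E × V' in 𝓝 (q, z), p.2 ∈ dom C C' g.f i j :=
    continuousAt_snd.eventually ((g.isOpen_dom i j).mem_nhds hi)
  filter_upwards [h6] with p hp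
  ext u v
  rw [g.pull_w _ hp, pbv_apply]

/-- **pull back of a holomorphic family** -/
theorem HolF.pull (hB : IsOpen B) (h : HolF C B R T) (g : SMap C' C) :
    HolF C' B (fun q => g.pull (R q)) (fun q => g.pull (T q)) where
  smR := sm_pull hB g h.smR
  smT := sm_pull hB g h.smT
  hol j z hz u v := by
    obtain ⟨i, hi⟩ := g.exists_dom hz
    refine (h.hol i _ (g.loc_mem hi) (fderiv ℝ (loc C C' g.f i j) z u)
      (fderiv ℝ (loc C C' g.f i j) z v)).congr fun q _ => ?_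
    rw [g.pull_w _ hi, g.pull_w _ hi]

end pull

/-! ### holomorphic forms on a family of cones -/

section QCF

open Crest.Agent.R281.Ehr2_268
open Crest.Agent.R281.Dif_268 hiding Coh symm2
open Crest.Agent.R281.Ehr4_268 Crest.Agent.R281.CL_473 Crest.Agent.R281.Ehr6_268
open Crest.Agent.R281.Cdr_234 Crest.Agent.R281.Ehr7_268 Crest.Agent.R281.Phl_655
open Crest.Agent.R281.Ehr8_268 (QBF)

variable {Q : Type uq} [TopologicalSpace Q] {E H : Type} [NormedAddCommGroup E]
    [NormedSpace ℂ E] [NormedAddCommGroup H] [NormedSpace ℂ H] {V X : Type}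
    [NormedAddCommGroup V] [NormedSpace ℝ V] [TopologicalSpace X]
    {F : QFam Q E H} {C : RCh V X}

/-- restriction of a holomorphic form -/
def cfMono {S S' : Set (E × H)} (σ : CF S') (h : S ⊆ S') : CF S where
  sg := σ.sg
  loc c x hx := by
    obtain ⟨Sg, h1, h2⟩ := σ.loc c x (h hx)
    refine ⟨Sg, ?_, fun u v w hu hv hw => h2 u v w (Ehr8_268.vel_mono h hu)
      (Ehr8_268.vel_mono h hv) (Ehr8_268.vel_mono h hw)⟩
    filter_upwards [h1] with p hp
    exact ⟨hp.1, fun hpS => ⟨(hp.2 (h hpS)).1, fun u v hu hv =>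
      (hp.2 (h hpS)).2 u v (Ehr8_268.vel_mono h hu) (Ehr8_268.vel_mono h hv)⟩⟩
  bas c x hx a ha b b' u v hu hv := σ.bas c x (h hx) a ha b b' u v (Ehr8_268.vel_mono h hu)
    (Ehr8_268.vel_mono h hv)

/-- holomorphic forms on the cones of the family -/
structure QCF (F : QFam Q E H) where
  σ : ∀ q0, CF (F.R q0)
  compat : ∀ q0, ∀ q ∈ (F.e q0).source, ∀ x u v, Vel (F.R q) (F.u q) x u →
    Vel (F.R q) (F.u q) x v → (σ q0).sg (F.u q) x u v = (σ q).sg (F.u q) x u v

namespace QCF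

variable (b : QCF F)

/-- real or imaginary part -/
def part (π : ℂ →L[ℝ] ℝ) : QBF F where
  β q0 := (b.σ q0).part π
  compat q0 q hq x u v hu hv := congrArg π (b.compat q0 q hq x u v hu hv)

/-- real part -/
def re : QBF F := b.part reCLM

/-- imaginary part -/
def im : QBF F := b.part imCLM

/-- from 655's `QC` -/
def ofQC (β : QC F) : QCF F where
  σ q0 := cfMono (β.σ q0) fun _ hp => hp.1
  compat q0 q hq x u v hu hv := by
    have hx : x ∈ F.S q := by
      obtain ⟨γ, h0, -, h2⟩ := hu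
      have h3 := h2.self_of_nhds
      rw [h0] at h3
      exact (F.R_iff (F.mem q) x).mp h3
    have hS : ∀ w, Vel (F.R q) (F.u q) x w → V1 (F.S q) x w := by
      intro w hw
      obtain ⟨γ, h0, h1, h2⟩ := hw
      exact ⟨γ, h0, h1, h2.mono fun t ht => (F.R_iff (F.mem q) _).mp ht⟩
    show (β.σ q0).sg (F.u q) x u v = (β.σ q).sg (F.u q) x u v
    rw [β.eq q0 q hq x hx u v (hS u hu) (hS v hv),
      β.eq q q (F.mem q) x hx u v (hS u hu) (hS v hv)]

/-- the form along the transport, extended by `0` -/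
def ext (β : QBF F) (m : Mark F C) (c : E) : F2 m.C' :=
  open Classical in
  if hc : c ∈ Metric.ball (F.u m.q) (F.r m.q) then β.at' m hc else 0

theorem ext_of_mem (β : QBF F) (m : Mark F C) {c : E}
    (hc : c ∈ Metric.ball (F.u m.q) (F.r m.q)) : ext β m c = β.at' m hc := dif_pos hc

/-- **the family along the transport of a marking** -/
theorem holF (m : Mark F C) :
    HolF m.C' (Metric.ball (F.u m.q) (F.r m.q)) (ext b.re m) (ext b.im m) where
  smR i := by
    refine (pw_smooth ((b.σ m.q).part reCLM) (F.cn m.q) (Ehr8_268.pf_in m) i).congr fun p hp => ?_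
    rw [ext_of_mem _ _ hp.1]
    rfl
  smT i := by
    refine (pw_smooth ((b.σ m.q).part imCLM) (F.cn m.q) (Ehr8_268.pf_in m) i).congr fun p hp => ?_
    rw [ext_of_mem _ _ hp.1]
    rfl
  hol i z hz u v := by
    have h1 : DifferentiableOn ℂ (fun c => (b.σ m.q).cw i m.pf c z u v)
        (Metric.ball (F.u m.q) (F.r m.q)) := fun c hc =>
      (CF.hol (b.σ m.q) (F.cn m.q) (Ehr8_268.pf_in m) hc hz u v).differentiableWithinAt
    refine h1.congr fun c hc => ?_
    rw [ext_of_mem _ _ hc, ext_of_mem _ _ hc]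
    rfl

variable [FiniteDimensional ℝ V] [CompactSpace X] [T2Space X] [FiniteDimensional ℂ H]

/-- **periods along the transport of a marking** -/
theorem hol_mk (m : Mark F C) {ℓ : HdR C → ℝ} (hℓ : HolL C fun w => ℓ (cl w)) :
    ∃ φ : E → ℂ, DifferentiableOn ℂ φ (Metric.ball (F.u m.q) (F.r m.q)) ∧
      ∀ q ∈ F.U m.q, (ℓ ((b.re.natF C).cls ((ls F C).s (MQ.mk m) q)) : ℂ) +
        (ℓ ((b.im.natF C).cls ((ls F C).s (MQ.mk m) q)) : ℂ) * I = φ (F.u q) := by
  have h1 := (b.holF m).pull Metric.isOpen_ball (SMap.ofCmp m.cmp.symm)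
  have h2 := hℓ E _ _ _ Metric.isOpen_ball h1
  refine ⟨_, h2, fun q hq => ?_⟩
  rw [b.re.cls_s m hq, b.im.cls_s m hq]
  simp only [ext_of_mem _ m (F.ball_of_mem hq)]

/-- **periods along the transports** -/
theorem hol_cls (x : MQ F C) {ℓ : HdR C → ℝ} (hℓ : HolL C fun w => ℓ (cl w)) :
    ∃ φ : E → ℂ, DifferentiableOn ℂ φ (Metric.ball (F.u x.p) (F.r x.p)) ∧
      ∀ q ∈ F.U x.p, (ℓ ((b.re.natF C).cls ((ls F C).s x q)) : ℂ) +
        (ℓ ((b.im.natF C).cls ((ls F C).s x q)) : ℂ) * I = φ (F.u q) := by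
  obtain ⟨m, rfl⟩ := MQ.exists_rep x
  exact b.hol_mk m hℓ

/-- continuity (473: `cont0`, `cont1`) -/
theorem cont_cls (x : MQ F C) {ℓ : HdR C → ℝ} (hℓ : HolL C fun w => ℓ (cl w)) :
    ContinuousOn (fun q => (ℓ ((b.re.natF C).cls ((ls F C).s x q)) : ℂ) +
        (ℓ ((b.im.natF C).cls ((ls F C).s x q)) : ℂ) * I) ((ls F C).U ((ls F C).p x)) := by
  obtain ⟨φ, h1, h2⟩ := b.hol_cls x hℓ
  have h3 : ContinuousOn (fun q => φ (F.u q)) (F.U x.p) := by
    intro q hq
    have h4 : ContinuousAt φ (F.u q) :=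
      h1.continuousOn.continuousAt (Metric.isOpen_ball.mem_nhds (F.ball_of_mem hq))
    exact (ContinuousAt.comp (f := F.u) (g := φ) h4 (F.cont_u q)).continuousWithinAt
  exact h3.congr fun q hq => h2 q hq

end QCF

end QCF

section one

open Crest.Agent.R281.Ehr2_268
open Crest.Agent.R281.Ehr4_268 Crest.Agent.R281.CL_473 Crest.Agent.R281.Ehr6_268
open Crest.Agent.R281.Cdr_234 Crest.Agent.R281.Ehr7_268 Crest.Agent.R281.Phl_655

variable {Q : Type uq} [TopologicalSpace Q] {H : Type} [NormedAddCommGroup H] [NormedSpace ℂ H]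
    {V X : Type} [NormedAddCommGroup V] [NormedSpace ℝ V] [TopologicalSpace X]
    {F : QFam Q ℂ H} {C : RCh V X} [FiniteDimensional ℝ V] [CompactSpace X] [T2Space X]
    [FiniteDimensional ℂ H]

/-- analyticity, one parameter (473: `hol`) -/
theorem QCF.ana_cls (b : QCF F) (x : MQ F C) {ℓ : HdR C → ℝ} (hℓ : HolL C fun w => ℓ (cl w)) :
    ∃ φ : ℂ → ℂ, AnalyticAt ℂ φ (F.u x.p) ∧ ∀ᶠ q in 𝓝 x.p,
      (ℓ ((b.re.natF C).cls ((ls F C).s x q)) : ℂ) +
        (ℓ ((b.im.natF C).cls ((ls F C).s x q)) : ℂ) * I = φ (F.u q) := by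
  obtain ⟨φ, h1, h2⟩ := b.hol_cls x hℓ
  refine ⟨φ, h1.analyticAt (Metric.ball_mem_nhds _ (F.hM x.p).hr), ?_⟩
  filter_upwards [(F.U_open x.p).mem_nhds (F.U_mem x.p)] with q hq
  exact h2 q hq

end one

section QH

open Crest.Agent.R281.Cdr_234 Crest.Agent.R281.Ehr7_268

variable {V X : Type} [NormedAddCommGroup V] [NormedSpace ℝ V] [TopologicalSpace X]
  {C : RCh V X} [FiniteDimensional ℝ V] [MeasurableSpace V] [BorelSpace V] (μ : Measure V)
  [μ.IsAddHaarMeasure] [CompactSpace X]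

/-- the form on the classes -/
theorem holL_QH {N : ℕ} (hN : 2 ≤ N) (b : Module.Basis (Fin N × Fin 2) ℝ V) (P : RPart C) (ν : ℕ)
    (r : F2 C) {QH : HdR C →ₗ[ℝ] HdR C →ₗ[ℝ] ℝ}
    (h : ∀ x y : F2 C, QH (cl x) (cl y) = Fuj1_207.Qf (IM μ b P) hN ν r x y) (y : HdR C) :
    HolL C (fun w => QH (cl w) y) := by
  obtain ⟨y, rfl⟩ := cl_surj y
  exact (HolL.Qf μ hN b P ν r y).congr fun x => h x y

end QH

end

end Crest.Agent.R281.Phb_267
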