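import Crest.Agent.R281.Phl9_655
import Crest.Agent.R281.Dv2_957

/-!
# R281 (S0424), PER-HOL, part 10 (helper655): 957's `HmOut` of every type, no hypotheses
-/

set_option autoImplicit false
set_option linter.unusedSectionVars false
set_option maxSynthPendingDepth 5

open Set Filter Topology

namespace Crest.Agent.R281.Per_655

open Crest.Agent.R275.EDR890
open Crest.Agent.R275.Geo Crest.Agent.R275.Core144 Crest.Agent.R275.GC293
open Crest.Agent.R273.Defs_333 Crest.Agent.R273.Kah_333
open Crest.Agent.R260.ACM_580 Crest.Agent.R260.NNB_580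
open Crest.Agent.R281.HkR_835
open Crest.Agent.R281.Dv_957 Crest.Agent.R281.Alg_998 Crest.Agent.R281.RkD_902
open Crest.Agent.R281.Hmi_790 (qs)

noncomputable section

variable {n : ℕ} {X : Type} [TopologicalSpace X] [CompactSpace X] [T2Space X] [ConnectedSpace X]
  {C : RCh (Cn (2 * n)) X} {Q : F2 C →ₗ[ℝ] F2 C →ₗ[ℝ] ℝ}

/-- **the Hodge data of every type** -/
def hmOut (hC : Ctx n C Q) (F : Frm C Q) (T : Ty (2 * n) C) (hok : T.Ok F (qs hC)) :
    HmOut T F (qs hC) where
  D := hmT hC F T hok
  cls := rfl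
  cl := rfl
  re := rfl
  im := rfl
  hol x _ := Hmi_790.hm_hol hC F T hok hok.pos (per hC hok) x

end

end Crest.Agent.R281.Per_655
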