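import Crest.Agent.R281.Phl8_655
import Crest.Agent.R281.Hmi2_790
import Crest.Agent.R281.Pt3_313

/-!
# R281 (S0424), PER-HOL, part 9 (helper655): `Per` of 790's HM instance, no hypotheses

* `per_hmi` : from the point level at every marking
* `per`     : with 313's point level: every type which is `Ok` has `Per`
* `hmT`, `gmT` : 473's `HM` and 267's `GeomM` of a type, from `Ctx` and `Ok` only
-/

set_option autoImplicit false
set_option linter.unusedSectionVars false
set_option maxSynthPendingDepth 3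

open Set Filter Topology

namespace Crest.Agent.R281.Per_655

open Crest.Agent.R275.EDR890
open Crest.Agent.R275.Geo Crest.Agent.R275.Core144 Crest.Agent.R275.GC293
open Crest.Agent.R273.Defs_333 Crest.Agent.R273.Kah_333
open Crest.Agent.R260.ACM_580 Crest.Agent.R260.NNB_580
open Crest.Agent.R281.HkR_835
open Crest.Agent.R281.NefO_476
open Crest.Agent.R281.Al_830
open Crest.Agent.R281.Cdr_234 (HdR)
open Crest.Agent.R281.Ehr6_268 Crest.Agent.R281.Ehr7_268 Crest.Agent.R281.Ehr8_268
open Crest.Agent.R281.Ehr11_268 Crest.Agent.R281.Dif_268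
open Crest.Agent.R281.Sta2_684 (QS)
open Crest.Agent.R281.Sta3_684 (Bq)
open Crest.Agent.R281.Dv_957 Crest.Agent.R281.Alg_998 Crest.Agent.R281.RkD_902
open Crest.Agent.R281.Hmi_790 (qs qc Per)

noncomputable section

variable {n : ℕ} {X : Type} [TopologicalSpace X] [CompactSpace X] [T2Space X] [ConnectedSpace X]
  {C : RCh (Cn (2 * n)) X} {Q : F2 C →ₗ[ℝ] F2 C →ₗ[ℝ] ℝ}

/-- **`Per`** from the point level -/
theorem per_hmi (hC : Ctx n C Q) {F : Frm C Q} {T : Ty (2 * n) C} (hok : T.Ok F (qs hC))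
    (J : Mark T.F C → AJ C)
    (hD : ∀ (m : Mark T.F C) (l : Fin T.ρ → ℝ), (∀ i, 0 < l i) →
      HD (J m) (∑ i, l i • (T.qb i).form m) ((qc T).re.form m) ((qc T).im.form m)) :
    Per T (qs hC) := fun m hm => per_ty hC (qs hC) hok.pos (qc T) J hD (MQ.mk m) hm

theorem finrank_cn (n : ℕ) : Module.finrank ℝ (Cn n) = 2 * n := by
  rw [finrank_real_of_complex, finrank_euclideanSpace, Fintype.card_fin]

/-- **`Per`** -/
theorem per (hC : Ctx n C Q) {F : Frm C Q} {T : Ty (2 * n) C} (hok : T.Ok F (qs hC)) :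
    Per T (qs hC) :=
  per_hmi hC hok T.J fun m _ hl => T.hd (finrank_cn (2 * n)) m hl

/-- 473's `HM` of a type -/
def hmT (hC : Ctx n C Q) (F : Frm C Q) (T : Ty (2 * n) C) (hok : T.Ok F (qs hC)) :=
  Hmi_790.hm hC F T hok hok.pos (per hC hok)

/-- 267's `GeomM` of a type -/
def gmT (hC : Ctx n C Q) (F : Frm C Q) (T : Ty (2 * n) C) (hok : T.Ok F (qs hC)) :=
  Hmi_790.gm hC F T hok hok.pos (per hC hok)

end

end Crest.Agent.R281.Per_655
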