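import Crest.Agent.R281.CFam_830
import Crest.Agent.R281.Pe6_313

/-!
# Row 281, point level, part 1 (helper313): the complex structure of a holomorphic 2-form

* `jS s₁ s₂`  : the endomorphism `J` with `s₁ (J u, v) = - s₂ (u, v)`
* `ajS s₁ s₂` : the field `J` of two closed forms (`0` if `s₁` is degenerate), `js_ajS`
* `Pl w w'`   : `w : F2 C` is `w' : F2 C'` read in the charts of `C`
* `hd_of`     : an embedding with complex tangent spaces, `Typ`, `Nd`, `Typ11`, `Pos11` give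
                `HD (ajS s₁ s₂) w s₁ s₂`; `iRel_ajS` : `ajS` is the complex structure of `P`
-/

set_option autoImplicit false
set_option linter.unusedSectionVars false
set_option maxSynthPendingDepth 3

open Set Filter Topology Complex
open scoped ContDiff

namespace Crest.Agent.R281.Pt_313

open Crest.Agent.R281.HkR_835 Crest.Agent.R281.Ehr2_268
open Crest.Agent.R281.HkR_835.Cmp
open Crest.Agent.R281.NefO_476 (AJ ofHk Pos)
open Crest.Agent.R281.Nef_252 (T11)
open Crest.Agent.R281.Tt_476 (JSJ JS2 JS0)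
open Crest.Agent.R281.Al_830 (HD CFam JSH)
open Crest.Agent.R281.Pe_313 (IRel Typ Typ11 Nd Pos11 exists_iRel CxOf)

noncomputable section

/-! ### linear algebra -/

section lin

variable {V : Type} [NormedAddCommGroup V] [NormedSpace ℝ V]

/-- nondegenerate -/
def NdB (s : Bil V) : Prop := ∀ v, (∀ u, s v u = 0) → v = 0

/-- the endomorphism `J` with `s₁ (J u, v) = - s₂ (u, v)` -/
def jS (s₁ s₂ : Bil V) : V →L[ℝ] V := -((ContinuousLinearMap.inverse s₁).comp s₂)

variable [FiniteDimensional ℝ V]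

theorem exists_eqv {s : Bil V} (h : NdB s) :
    ∃ e : V ≃L[ℝ] (V →L[ℝ] ℝ), (e : V →L[ℝ] (V →L[ℝ] ℝ)) = s := by
  have hd : Module.finrank ℝ V = Module.finrank ℝ (V →L[ℝ] ℝ) := by
    have h1 : Module.finrank ℝ (V →ₗ[ℝ] ℝ) = Module.finrank ℝ (V →L[ℝ] ℝ) :=
      LinearEquiv.finrank_eq (LinearMap.toContinuousLinearMap (𝕜 := ℝ) (E := V) (F' := ℝ))
    rw [← h1]
    exact (Subspace.dual_finrank_eq (K := ℝ) (V := V)).symm
  have hi : Function.Injective (s : V →ₗ[ℝ] (V →L[ℝ] ℝ)) := by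
    rw [injective_iff_map_eq_zero]
    intro v hv
    refine h v fun u => ?_
    have h1 : s v = 0 := hv
    rw [h1]
    rfl
  refine ⟨(LinearMap.linearEquivOfInjective (s : V →ₗ[ℝ] (V →L[ℝ] ℝ)) hi
    hd).toContinuousLinearEquiv, ?_⟩
  ext u v
  rfl

theorem jS_spec {s₁ s₂ : Bil V} (h : NdB s₁) (u v : V) : s₁ (jS s₁ s₂ u) v = -s₂ u v := by
  obtain ⟨e, he⟩ := exists_eqv h
  have h1 : ContinuousLinearMap.inverse s₁ = (e.symm : (V →L[ℝ] ℝ) →L[ℝ] V) := by
    rw [← he, ContinuousLinearMap.inverse_equiv]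
  have h2 : jS s₁ s₂ u = -(e.symm (s₂ u)) := by
    unfold jS
    rw [h1]
    rfl
  rw [h2, map_neg, neg_apply]
  have h3 : s₁ (e.symm (s₂ u)) = s₂ u := by
    have h4 : e (e.symm (s₂ u)) = s₂ u := e.apply_symm_apply _
    rw [← he]
    exact h4
  rw [h3]

theorem jS_uniq {s₁ s₂ : Bil V} (h : NdB s₁) {u u' : V} (hu : ∀ v, s₁ u' v = -s₂ u v) :
    u' = jS s₁ s₂ u := by
  have h1 : u' - jS s₁ s₂ u = 0 := by
    refine h _ fun v => ?_
    rw [map_sub, sub_apply, hu, jS_spec h, sub_self]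
  exact sub_eq_zero.1 h1

theorem contDiffAt_jS {M : Type*} [NormedAddCommGroup M] [NormedSpace ℝ M] {f g : M → Bil V}
    {m : M} {n : WithTop ℕ∞} (hf : ContDiffAt ℝ n f m) (hg : ContDiffAt ℝ n g m)
    (h : NdB (f m)) : ContDiffAt ℝ n (fun y => jS (f y) (g y)) m := by
  have : CompleteSpace V := FiniteDimensional.complete ℝ V
  obtain ⟨e, he⟩ := exists_eqv h
  have h1 : ContDiffAt ℝ n (ContinuousLinearMap.inverse : (V →L[ℝ] (V →L[ℝ] ℝ)) → _) (f m) := by
    rw [← he]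
    exact contDiffAt_map_inverse e
  have h2 : ContDiffAt ℝ n (fun y => ContinuousLinearMap.inverse (f y)) m := h1.comp m hf
  exact (h2.clm_comp hg).neg

end lin

/-! ### the field of endomorphisms -/

section field

variable {V X : Type} [NormedAddCommGroup V] [NormedSpace ℝ V] [TopologicalSpace X]
  {C : RCh V X}

theorem Nd.b {s : F2 C} (h : Nd s) {i : C.ι} {z : V} (hz : z ∈ (C.e i).target) :
    NdB (s.w i z) := h i z hz

variable [FiniteDimensional ℝ V]

open Classical in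
/-- the field `J` with `s₁ (J u, v) = - s₂ (u, v)` -/
def ajS (s₁ s₂ : F2 C) : AJ C where
  J i z := if Nd s₁ then jS (s₁.w i z) (s₂.w i z) else 0
  sm i := by
    by_cases h : Nd s₁
    · simp only [if_pos h]
      intro z hz
      have ho := (C.e i).open_target.mem_nhds hz
      exact (contDiffAt_jS ((s₁.sm i).contDiffAt ho) ((s₂.sm i).contDiffAt ho)
        (Nd.b h hz)).contDiffWithinAt
    · simp only [if_neg h]
      exact contDiffOn_const
  tr i j z hz v := by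
    by_cases h : Nd s₁
    · simp only [if_pos h]
      refine jS_uniq (Nd.b h (RCh.t_mem hz).1) fun w => ?_
      have h1 := RCh.dt_dt' hz w
      rw [← h1, ← s₁.tr i j z hz, ← s₂.tr i j z hz, jS_spec (Nd.b h hz.1)]
    · simp only [if_neg h]
      rw [zero_apply, zero_apply, map_zero]

theorem ajS_J {s₁ s₂ : F2 C} (h : Nd s₁) (i : C.ι) (z : V) :
    (ajS s₁ s₂).J i z = jS (s₁.w i z) (s₂.w i z) := if_pos h

theorem ajS_spec {s₁ s₂ : F2 C} (h : Nd s₁) {i : C.ι} {z : V} (hz : z ∈ (C.e i).target)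
    (u v : V) : s₁.w i z ((ajS s₁ s₂).J i z u) v = -s₂.w i z u v := by
  rw [ajS_J h]
  exact jS_spec (Nd.b h hz) u v

theorem ajS_uniq {s₁ s₂ : F2 C} (h : Nd s₁) {i : C.ι} {z : V} (hz : z ∈ (C.e i).target)
    {u u' : V} (hu : ∀ v, s₁.w i z u' v = -s₂.w i z u v) : u' = (ajS s₁ s₂).J i z u := by
  rw [ajS_J h]
  exact jS_uniq (Nd.b h hz) hu

variable {E : Type} [NormedAddCommGroup E] [NormedSpace ℝ E]

/-- **joint smoothness** of the field of a jointly smooth family of forms -/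
theorem js_ajS {T : Set E} (hT : IsOpen T) {s₁ s₂ : E → F2 C} (h1 : JS2 T s₁) (h2 : JS2 T s₂)
    (hn : ∀ t ∈ T, Nd (s₁ t)) : JSJ T fun t => ajS (s₁ t) (s₂ t) := by
  intro i p hp
  have ho : T ×ˢ (C.e i).target ∈ 𝓝 p := (hT.prod (C.e i).open_target).mem_nhds hp
  have h3 : ContDiffAt ℝ ∞ (fun q : E × V => jS ((s₁ q.1).w i q.2) ((s₂ q.1).w i q.2)) p :=
    contDiffAt_jS (f := fun q : E × V => (s₁ q.1).w i q.2)
      (g := fun q : E × V => (s₂ q.1).w i q.2) ((h1 i).contDiffAt ho) ((h2 i).contDiffAt ho)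
      (Nd.b (hn p.1 hp.1) hp.2)
  refine (h3.congr_of_eventuallyEq ?_).contDiffWithinAt
  filter_upwards [ho] with q hq
  exact ajS_J (hn q.1 hq.1) i q.2

end field

/-! ### forms read in other charts -/

section pl

variable {V V' X : Type} [NormedAddCommGroup V] [NormedSpace ℝ V] [NormedAddCommGroup V']
  [NormedSpace ℝ V'] [TopologicalSpace X] {C : RCh V X} {C' : RCh V' X}

/-- `w` is `w'` read in the charts of `C` -/
def Pl (w : F2 C) (w' : F2 C') : Prop :=
  ∀ (i : C.ι) (j : C'.ι), ∀ z ∈ mov C' C j i, ∀ u v,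
    w.w i z u v = w'.w j (mt C' C j i z) (fderiv ℝ (mt C' C j i) z u)
      (fderiv ℝ (mt C' C j i) z v)

theorem pl_F (h : Cmp C' C) (w' : F2 C') : Pl (h.F w') w' := fun _ _ _ hz u v =>
  h.F_w w' hz u v

theorem Pl.smul {w : F2 C} {w' : F2 C'} (h : Pl w w') (c : ℝ) : Pl (c • w) (c • w') := by
  intro i j z hz u v
  have h1 := h i j z hz u v
  change c * w.w i z u v = c * w'.w j _ _ _
  rw [h1]

theorem Pl.nd (hc : Cmp C C') {s : F2 C} {s' : F2 C'} (h : Pl s s') (hs : Nd s') : Nd s := by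
  intro i z hz v hv
  obtain ⟨j, hj⟩ : ∃ j, z ∈ mov C' C j i := exists_mov C' hz
  refine hc.symm.inj hj ?_
  rw [map_zero]
  refine hs j _ (mt_mem hj).1 _ fun u => ?_
  have h1 := hc.symm.d_d' hj u
  rw [← h1, ← h i j z hj]
  exact hv _

variable {H : Type} [NormedAddCommGroup H] [NormedSpace ℂ H] {P : HEmb C' H}

/-- the complex structure of the embedding, in the charts of `C` -/
theorem exists_rel (hc : Cmp C C') (hcx : P.Cx) {i : C.ι} {j : C'.ι} {z : V}
    (hj : z ∈ mov C' C j i) (u : V) : ∃ u', IRel P j (mt C' C j i z)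
      (fderiv ℝ (mt C' C j i) z u) (fderiv ℝ (mt C' C j i) z u') := by
  obtain ⟨v', hv'⟩ := exists_iRel hcx (mt_mem hj).1 (fderiv ℝ (mt C' C j i) z u)
  refine ⟨fderiv ℝ (mt C C' i j) (mt C' C j i z) v', ?_⟩
  rw [hc.symm.d_d' hj]
  exact hv'

variable [FiniteDimensional ℝ V] {s₁ s₂ w : F2 C} {s₁' s₂' w' : F2 C'}

/-- `ajS s₁ s₂` is the complex structure of the embedding -/
theorem iRel_ajS (hc : Cmp C C') (hcx : P.Cx) (ht : Typ P s₁' s₂') (hn : Nd s₁')
    (h1 : Pl s₁ s₁') (h2 : Pl s₂ s₂') {i : C.ι} {j : C'.ι} {z : V} (hj : z ∈ mov C' C j i)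
    (u : V) : IRel P j (mt C' C j i z) (fderiv ℝ (mt C' C j i) z u)
      (fderiv ℝ (mt C' C j i) z ((ajS s₁ s₂).J i z u)) := by
  obtain ⟨u', hu'⟩ := exists_rel hc hcx hj u
  have h3 : u' = (ajS s₁ s₂).J i z u := by
    refine ajS_uniq (h1.nd hc hn) hj.1 fun v => ?_
    rw [h1 i j z hj, h2 i j z hj]
    exact ht j _ (mt_mem hj).1 _ _ _ hu'
  rw [← h3]
  exact hu'

/-- **the data of a member** -/
theorem hd_of (hc : Cmp C C') (hcx : P.Cx) (ht : Typ P s₁' s₂') (hn : Nd s₁')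
    (ht11 : Typ11 P w') (hp : Pos11 P w') (h1 : Pl s₁ s₁') (h2 : Pl s₂ s₂') (h3 : Pl w w') :
    HD (ajS s₁ s₂) w s₁ s₂ := by
  have hr : ∀ (i : C.ι) (j : C'.ι) (z : V), z ∈ mov C' C j i → ∀ u,
      IRel P j (mt C' C j i z) (fderiv ℝ (mt C' C j i) z u)
        (fderiv ℝ (mt C' C j i) z ((ajS s₁ s₂).J i z u)) :=
    fun i j z hj u => iRel_ajS hc hcx ht hn h1 h2 hj u
  refine ⟨fun i z hz u => ?_, fun i z hz u v => ?_, fun i z hz u hu => ?_, fun i z hz u v => ?_,
    h1.nd hc hn⟩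
  · obtain ⟨j, hj⟩ : ∃ j, z ∈ mov C' C j i := exists_mov C' hz
    refine hc.symm.inj hj ?_
    rw [map_neg]
    exact ((hr i j z hj _).uniq (mt_mem hj).1 (hr i j z hj u).neg)
  · obtain ⟨j, hj⟩ : ∃ j, z ∈ mov C' C j i := exists_mov C' hz
    rw [h3 i j z hj, h3 i j z hj]
    exact ht11 j _ (mt_mem hj).1 _ _ _ _ (hr i j z hj u) (hr i j z hj v)
  · obtain ⟨j, hj⟩ : ∃ j, z ∈ mov C' C j i := exists_mov C' hz
    rw [h3 i j z hj]
    refine hp j _ (mt_mem hj).1 _ _ (hr i j z hj u) fun h0 => hu (hc.symm.inj hj ?_)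
    rw [h0, map_zero]
  · exact ajS_spec (h1.nd hc hn) hz u v

/-- `CxOf` from the equality of the complex structures -/
theorem cxOf_of (hc : Cmp C C') (hcx : P.Cx) (ht : Typ P s₁' s₂') (hn : Nd s₁')
    (h1 : Pl s₁ s₁') (h2 : Pl s₂ s₂') {T : HkT C}
    (hT : ∀ i, ∀ z ∈ (C.e i).target, ∀ u, T.J 0 i z u = (ajS s₁ s₂).J i z u) : CxOf P T := by
  intro i j z hj v
  rw [hT i z hj.1]
  exact iRel_ajS hc hcx ht hn h1 h2 hj v

/-- two structures of the same embedding have the same `J 0` -/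
theorem CxOf.J_eq (hc : Cmp C C') {T T' : HkT C} (h : CxOf P T) (h' : CxOf P T') (i : C.ι)
    (z : V) (hz : z ∈ (C.e i).target) (v : V) : T'.J 0 i z v = T.J 0 i z v := by
  obtain ⟨j, hj⟩ : ∃ j, z ∈ mov C' C j i := exists_mov C' hz
  refine hc.symm.inj hj ?_
  exact (h' i j z hj v).uniq (mt_mem hj).1 (h i j z hj v)

end pl

end

end Crest.Agent.R281.Pt_313
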