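import Crest.Agent.R281.Pt1_313
import Crest.Agent.R281.Ehj3_461
import Crest.Agent.R281.Phb6_267
import Crest.Agent.R281.Phl6_655
import Crest.Agent.R281.Blk6_592

/-!
# Row 281, point level, part 2 (helper313): positivity of the block forms on the members

* `blk_euler`  : a velocity of the Segre cone whose blocks are radial is radial
* `fsh_self_nonneg`, `fsh_self_zero`, `fsv_I`, `fsv_inv` : the Fubini-Study form of a block
* `PosF τ`     : a finite family of basic forms on a cone, invariant, `≥ 0`, jointly definite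
* `PosF.comap`, `posF_segB` : the block forms of the Segre cone, after a linear embedding
* `PosF.typ11`, `PosF.pos11` : positive combinations pulled back by a member
-/

set_option autoImplicit false
set_option linter.unusedSectionVars false
set_option maxSynthPendingDepth 3

open Set Filter Topology Complex
open scoped ContDiff ComplexConjugate

namespace Crest.Agent.R281.Pt_313

open Crest.Agent.R281.HkR_835 Crest.Agent.R281.Ehr2_268
open Crest.Agent.R281.HkR_835.Cmp
open Crest.Agent.R281.Pe_313 (IRel Typ Typ11 Nd Pos11 exists_iRel CxOf)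
open Crest.Agent.R281.Phl_655

noncomputable section

/-! ### the Segre cone -/

section seg

open Crest.Agent.R281.Blk_592 Function

variable {ι : Type} [Fintype ι] [DecidableEq ι] {J : ι → Type}

/-- a velocity with vanishing blocks vanishes -/
theorem dRel_zero {x w : (∀ k, J k) → ℂ} (hw : DRel x w) {a : ∀ k, J k} (ha : x a ≠ 0)
    (h0 : ∀ k, ext k a w = 0) (hwa : w a = 0) (b : ∀ k, J k) : w b = 0 := by
  suffices H : ∀ (s : Finset ι) (b : ∀ k, J k), (∀ k, k ∉ s → b k = a k) → w b = 0 from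
    H Finset.univ b (by simp)
  intro s
  induction s using Finset.induction_on with
  | empty =>
    intro b hb
    have : b = a := funext fun k => hb k (by simp)
    rw [this]
    exact hwa
  | insert k s hk ih =>
    intro b hb
    have h1 := hw k b a
    have h2 : w (update b k (a k)) = 0 := ih _ fun l hl => by
      by_cases hlk : l = k
      · subst hlk
        simp
      · rw [update_of_ne hlk]
        exact hb l (by simp [hlk, hl])
    have h3 : w (update a k (b k)) = 0 := congrFun (h0 k) (b k)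
    rw [hwa, h2, h3] at h1
    simpa [ha] using h1

/-- a velocity with radial blocks is radial -/
theorem blk_euler {x u : (∀ k, J k) → ℂ} (hx : SegRel x) (hu : DRel x u) {a : ∀ k, J k}
    (ha : x a ≠ 0) (h : ∀ k, ∃ c : ℂ, ext k a u = c • ext k a x) : ∃ c : ℂ, u = c • x := by
  refine ⟨u a / x a, ?_⟩
  have h1 := hu.smul_add hx 1 (-(u a / x a))
  have h2 : ∀ b, ((1 : ℂ) • u + (-(u a / x a)) • x) b = 0 := by
    refine dRel_zero h1 ha (fun k => ?_) ?_
    · obtain ⟨c, hc⟩ := h k
      have h3 : u a = c * x a := by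
        have h4 := congrFun hc (a k)
        rw [ext_self] at h4
        rw [h4]
        show c • ext k a x (a k) = _
        rw [ext_self, smul_eq_mul]
      rw [ext_add, ext_smul, ext_smul, hc, h3, mul_div_cancel_right₀ _ ha, one_smul, neg_smul,
        add_neg_cancel]
    · simp only [Pi.add_apply, Pi.smul_apply, smul_eq_mul]
      field_simp
      ring
  funext b
  have h3 := h2 b
  simp only [Pi.add_apply, Pi.smul_apply, smul_eq_mul, one_mul, neg_mul] at h3
  simp only [Pi.smul_apply, smul_eq_mul]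
  linear_combination h3

end seg

/-! ### the Fubini-Study form -/

section fs

open Crest.Agent.R281.Blk_592

variable {J : Type} [Fintype J]

theorem fsh_smul_left (x v w : J → ℂ) (c : ℂ) : fsh x (c • v) w = c * fsh x v w := by
  unfold fsh
  rw [hp_smul_left, hp_smul_left]
  ring

theorem fsh_smul_right (x v w : J → ℂ) (c : ℂ) : fsh x v (c • w) = conj c * fsh x v w := by
  unfold fsh
  rw [hp_smul_right, hp_smul_right]
  ring

theorem fsh_add {x : J → ℂ} (hx : x ≠ 0) (v w : J → ℂ) (b b' : ℂ) :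
    fsh x (v + b • x) (w + b' • x) = fsh x v w := by
  have h := fsh_bas hx v w one_ne_zero b b'
  simpa only [one_smul] using h

theorem fsh_perp {x w : J → ℂ} (h : hp w x = 0) : fsh x w w = hp w w / hp x x := by
  unfold fsh
  rw [h]
  simp

/-- the component orthogonal to `x` -/
theorem fsh_self {x : J → ℂ} (hx : x ≠ 0) (v : J → ℂ) :
    fsh x v v = hp (v - (hp v x / hp x x) • x) (v - (hp v x / hp x x) • x) / hp x x := by
  have h0 := hp_self_ne hx
  have h1 : hp (v - (hp v x / hp x x) • x) x = 0 := by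
    rw [sub_eq_add_neg, ← neg_smul, hp_add_left, hp_smul_left]
    field_simp
    ring
  rw [← fsh_perp h1]
  have h2 := fsh_add hx (v - (hp v x / hp x x) • x) (v - (hp v x / hp x x) • x)
    (hp v x / hp x x) (hp v x / hp x x)
  rw [sub_add_cancel] at h2
  exact h2

theorem fsh_self_re {x : J → ℂ} (hx : x ≠ 0) (v : J → ℂ) :
    (fsh x v v).re = (∑ k, ‖(v - (hp v x / hp x x) • x) k‖ ^ 2) / (∑ k, ‖x k‖ ^ 2) := by
  rw [fsh_self hx, hp_self, hp_self, ← ofReal_div, ofReal_re]

theorem sq_pos {x : J → ℂ} (hx : x ≠ 0) : 0 < ∑ k, ‖x k‖ ^ 2 := by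
  obtain ⟨k, hk⟩ := Function.ne_iff.1 hx
  refine Finset.sum_pos' (fun _ _ => by positivity) ⟨k, Finset.mem_univ _, ?_⟩
  have : 0 < ‖x k‖ := norm_pos_iff.mpr hk
  positivity

theorem fsh_self_nonneg {x : J → ℂ} (hx : x ≠ 0) (v : J → ℂ) : 0 ≤ (fsh x v v).re := by
  rw [fsh_self_re hx]
  exact div_nonneg (Finset.sum_nonneg fun _ _ => by positivity) (sq_pos hx).le

theorem fsh_self_zero {x : J → ℂ} (hx : x ≠ 0) {v : J → ℂ} (h : (fsh x v v).re = 0) :
    ∃ c : ℂ, v = c • x := by
  rw [fsh_self_re hx, div_eq_zero_iff] at h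
  have h1 : ∑ k, ‖(v - (hp v x / hp x x) • x) k‖ ^ 2 = 0 := h.resolve_right (sq_pos hx).ne'
  refine ⟨hp v x / hp x x, ?_⟩
  funext k
  have h2 := (Finset.sum_eq_zero_iff_of_nonneg fun _ _ => by positivity).1 h1 k
    (Finset.mem_univ _)
  have h3 : (v - (hp v x / hp x x) • x) k = 0 := by
    rw [← norm_eq_zero]
    exact pow_eq_zero_iff (two_ne_zero) |>.1 h2
  rw [Pi.sub_apply, sub_eq_zero] at h3
  exact h3

/-- invariance of the form under the complex structure -/
theorem fsv_inv {x : J → ℂ} (hx : x ≠ 0) {u u' v v' : J → ℂ} {a b : ℂ}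
    (hu : I • u = u' + a • x) (hv : I • v = v' + b • x) : fsv x u' v' = fsv x u v := by
  have e1 : fsh x u' v' = fsh x (I • u) (I • v) := by rw [hu, hv, fsh_add hx]
  unfold fsv
  rw [e1, fsh_smul_left, fsh_smul_right, conj_I]
  congr 1
  linear_combination (-(I * fsh x u v)) * I_mul_I

/-- `w(u, Ju)` -/
theorem fsv_I {x : J → ℂ} (hx : x ≠ 0) {u u' : J → ℂ} {a : ℂ} (hu : I • u = u' + a • x) :
    fsv x u u' = (fsh x u u).re := by
  have e1 : fsh x u u' = fsh x u (I • u) := by
    rw [hu]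
    have h := fsh_add hx u u' 0 a
    rw [zero_smul, add_zero] at h
    exact h.symm
  unfold fsv
  rw [e1, fsh_smul_right, conj_I]
  congr 1
  linear_combination (-(fsh x u u)) * I_mul_I

end fs

/-! ### positive families of basic forms -/

section posF

variable {H : Type} [NormedAddCommGroup H] [NormedSpace ℂ H] {K : Set H}

/-- a family of basic forms on a cone: invariant, `≥ 0`, jointly definite -/
structure PosF {κ : Type} (τ : κ → B1 K) : Prop where
  inv : ∀ k, ∀ x ∈ K, ∀ u u' v v', V1 K x u → V1 K x u' → V1 K x v → V1 K x v' →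
    (∃ a : ℂ, I • u = u' + a • x) → (∃ b : ℂ, I • v = v' + b • x) →
    (τ k).sg x u' v' = (τ k).sg x u v
  nn : ∀ k, ∀ x ∈ K, ∀ u u', V1 K x u → V1 K x u' → (∃ a : ℂ, I • u = u' + a • x) →
    0 ≤ (τ k).sg x u u'
  df : ∀ x ∈ K, ∀ u u', V1 K x u → V1 K x u' → (∃ a : ℂ, I • u = u' + a • x) →
    (∀ k, (τ k).sg x u u' = 0) → ∃ c : ℂ, u = c • x

theorem v1_map {G : Type} [NormedAddCommGroup G] [NormedSpace ℂ G] {K' : Set G} (T : H →L[ℂ] G)
    (hT : ∀ x ∈ K, T x ∈ K') {x v : H} (h : V1 K x v) : V1 K' (T x) (T v) := by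
  obtain ⟨γ, g0, g1, g2⟩ := h
  refine ⟨fun t => T (γ t), by simp only [g0], ?_, g2.mono fun t ht => hT _ ht⟩
  exact (T.restrictScalars ℝ).hasFDerivAt.comp_hasDerivAt (0 : ℝ) g1

/-- linear pull back -/
theorem PosF.comap {κ : Type} {G : Type} [NormedAddCommGroup G] [NormedSpace ℂ G] {K' : Set G}
    {τ : κ → B1 K'} (h : PosF τ) (T : H →L[ℂ] G) (hT : ∀ x ∈ K, T x ∈ K')
    (hi : Function.Injective T) : PosF fun k => (τ k).comap T hT where
  inv k x hx u u' v v' hu hu' hv hv' := by
    rintro ⟨a, ha⟩ ⟨b, hb⟩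
    refine h.inv k (T x) (hT x hx) _ _ _ _ (v1_map T hT hu) (v1_map T hT hu') (v1_map T hT hv)
      (v1_map T hT hv') ⟨a, ?_⟩ ⟨b, ?_⟩
    · rw [← map_smul, ha, map_add, map_smul]
    · rw [← map_smul, hb, map_add, map_smul]
  nn k x hx u u' hu hu' := by
    rintro ⟨a, ha⟩
    refine h.nn k (T x) (hT x hx) _ _ (v1_map T hT hu) (v1_map T hT hu') ⟨a, ?_⟩
    rw [← map_smul, ha, map_add, map_smul]
  df x hx u u' hu hu' := by
    rintro ⟨a, ha⟩ h0
    obtain ⟨c, hc⟩ := h.df (T x) (hT x hx) _ _ (v1_map T hT hu) (v1_map T hT hu')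
      ⟨a, by rw [← map_smul, ha, map_add, map_smul]⟩ h0
    refine ⟨c, hi ?_⟩
    rw [hc, map_smul]

section segB

open Crest.Agent.R281.Blk_592

variable {ι : Type} [Fintype ι] [DecidableEq ι] {J : ι → Type} [∀ k, Fintype (J k)]

/-- **the block forms of the Segre cone** -/
theorem posF_segB : PosF fun k : ι => (segB k : B1 (segK J)) where
  inv k x hx u u' v v' hu hu' hv hv' := by
    rintro ⟨a, ha⟩ ⟨b, hb⟩
    obtain ⟨α, hα⟩ := exists_nz hx.1
    rw [segB_sg k hx hu' hv' hα, segB_sg k hx hu hv hα]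
    refine fsv_inv (ext_ne hα k) (a := a) (b := b) ?_ ?_
    · rw [← ext_smul, ha, ext_add, ext_smul]
    · rw [← ext_smul, hb, ext_add, ext_smul]
  nn k x hx u u' hu hu' := by
    rintro ⟨a, ha⟩
    obtain ⟨α, hα⟩ := exists_nz hx.1
    rw [segB_sg k hx hu hu' hα, fsv_I (ext_ne hα k) (a := a)
      (by rw [← ext_smul, ha, ext_add, ext_smul])]
    exact fsh_self_nonneg (ext_ne hα k) _
  df x hx u u' hu hu' := by
    rintro ⟨a, ha⟩ h0
    obtain ⟨α, hα⟩ := exists_nz hx.1
    refine blk_euler hx.2 (dRel_of_V1 hu) hα fun k => ?_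
    have h1 := h0 k
    rw [segB_sg k hx hu hu' hα, fsv_I (ext_ne hα k) (a := a)
      (by rw [← ext_smul, ha, ext_add, ext_smul])] at h1
    exact fsh_self_zero (ext_ne hα k) h1

end segB

/-! ### pull back by a member -/

variable {V X : Type} [NormedAddCommGroup V] [NormedSpace ℝ V] [TopologicalSpace X]
  {C : RCh V X} {P : HEmb C H}

/-- the velocities of a member -/
theorem v1_member (hP : InK P K) {i : C.ι} {z : V} (hz : z ∈ (C.e i).target) (v : V) :
    V1 K (P.u i z) (fderiv ℝ (P.u i) z v) := by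
  have hd : DifferentiableAt ℝ (P.u i) z :=
    ((P.sm i).contDiffAt ((C.e i).open_target.mem_nhds hz)).differentiableAt (by simp)
  have hm : ∀ᶠ y in 𝓝 z, ((0 : ℂ), P.u i y) ∈ {p : ℂ × H | p.2 ∈ K} := by
    filter_upwards [(C.e i).open_target.mem_nhds hz] with y hy using hP i y hy
  exact vel_of hd hm v

variable {κ : Type} [Fintype κ] {τ : κ → B1 K} {lam : κ → ℝ} {w : F2 C}

/-- **type (1,1)** of a combination of the forms -/
theorem PosF.typ11 (h : PosF τ) (hP : InK P K)
    (hw : ∀ i, ∀ z ∈ (C.e i).target, ∀ u v, w.w i z u v = ∑ k, lam k *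
      (τ k).sg (P.u i z) (fderiv ℝ (P.u i) z u) (fderiv ℝ (P.u i) z v)) : Typ11 P w := by
  intro i z hz v v' u u' hv hu
  rw [hw i z hz, hw i z hz]
  refine Finset.sum_congr rfl fun k _ => ?_
  rw [h.inv k _ (hP i z hz) _ _ _ _ (v1_member hP hz v) (v1_member hP hz v')
    (v1_member hP hz u) (v1_member hP hz u') hv hu]

/-- **positivity** of a positive combination of the forms -/
theorem PosF.pos11 (h : PosF τ) (hP : InK P K) (hlam : ∀ k, 0 < lam k)
    (hw : ∀ i, ∀ z ∈ (C.e i).target, ∀ u v, w.w i z u v = ∑ k, lam k *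
      (τ k).sg (P.u i z) (fderiv ℝ (P.u i) z u) (fderiv ℝ (P.u i) z v)) : Pos11 P w := by
  intro i z hz v v' hv hv0
  rw [hw i z hz]
  have hnn : ∀ k, 0 ≤ (τ k).sg (P.u i z) (fderiv ℝ (P.u i) z v) (fderiv ℝ (P.u i) z v') :=
    fun k => h.nn k _ (hP i z hz) _ _ (v1_member hP hz v) (v1_member hP hz v') hv
  obtain ⟨k, hk⟩ : ∃ k, (τ k).sg (P.u i z) (fderiv ℝ (P.u i) z v)
      (fderiv ℝ (P.u i) z v') ≠ 0 := by
    by_contra hcon
    push Not at hcon
    obtain ⟨c, hc⟩ := h.df _ (hP i z hz) _ _ (v1_member hP hz v) (v1_member hP hz v') hv hcon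
    exact hv0 (P.imm i z hz v ⟨c, hc⟩)
  exact Finset.sum_pos' (fun k _ => mul_nonneg (hlam k).le (hnn k))
    ⟨k, Finset.mem_univ _, mul_pos (hlam k) ((hnn k).lt_of_ne' hk)⟩

end posF

end

end Crest.Agent.R281.Pt_313
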