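import Crest.Agent.R281.QF1_871
import Crest.Agent.R281.Sl4_957
import Crest.Agent.R281.Esc2_989

/-!
# R281, QFAM (helper871): specialisation of the coefficient ring `k₀[c]`

`A k₀ c = k₀[c] ⊆ ℂ`; a vector `c'` satisfying all `k₀`-relations of `c` gives `spec : k₀[c] →+* ℂ`,
`c i ↦ c' i`.  Along a plane curve (989's `Reg`) and along a format (957's `Fmt`).
-/

set_option autoImplicit false
set_option linter.unusedSectionVars false

open Set Filter Topology Polynomial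

namespace Crest.Agent.R281.QF_871

open Crest.Agent.R281.Sl_957 Crest.Agent.R281.Ends1_989 Crest.Agent.R281.Esc1_989
  Crest.Agent.R281.Esc2_989

noncomputable section

section alg

variable (k₀ : Type*) [Field k₀] [Algebra k₀ ℂ] {ι : Type*}

/-- the ring `k₀[c]` -/
def A (c : ι → ℂ) : Subalgebra k₀ ℂ := (MvPolynomial.aeval c : MvPolynomial ι k₀ →ₐ[k₀] ℂ).range

/-- the inclusion -/
def inc0 (c : ι → ℂ) : A k₀ c →+* ℂ := (A k₀ c).val

theorem inc0_injective (c : ι → ℂ) : Function.Injective (inc0 k₀ c) := Subtype.val_injective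

/-- the generators -/
def gen (c : ι → ℂ) (i : ι) : A k₀ c := ⟨c i, MvPolynomial.X i, MvPolynomial.aeval_X c i⟩

@[simp] theorem inc0_gen (c : ι → ℂ) (i : ι) : inc0 k₀ c (gen k₀ c i) = c i := rfl

/-- `c'` satisfies the `k₀`-relations of `c` -/
def Spz (c c' : ι → ℂ) : Prop :=
  ∀ G : MvPolynomial ι k₀, MvPolynomial.aeval c G = 0 → MvPolynomial.aeval c' G = 0

theorem Spz.refl (c : ι → ℂ) : Spz k₀ c c := fun _ h => h

variable {k₀} {c c' : ι → ℂ}

/-- a polynomial representing an element -/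
def rep (r : A k₀ c) : MvPolynomial ι k₀ := Classical.choose r.2

theorem aeval_rep (r : A k₀ c) : MvPolynomial.aeval c (rep r) = (r : ℂ) :=
  Classical.choose_spec r.2

theorem Spz.congr (h : Spz k₀ c c') {G G' : MvPolynomial ι k₀}
    (hG : MvPolynomial.aeval c G = MvPolynomial.aeval c G') :
    MvPolynomial.aeval c' G = MvPolynomial.aeval c' G' := by
  have h1 := h (G - G') (by rw [map_sub, hG, sub_self])
  rwa [map_sub, sub_eq_zero] at h1

/-- the specialisation -/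
def spec (h : Spz k₀ c c') : A k₀ c →+* ℂ where
  toFun r := MvPolynomial.aeval c' (rep r)
  map_one' := by
    rw [← map_one (MvPolynomial.aeval c' : MvPolynomial ι k₀ →ₐ[k₀] ℂ)]
    exact h.congr (by rw [aeval_rep, map_one]; rfl)
  map_mul' a b := by
    rw [← map_mul]
    exact h.congr (by rw [aeval_rep, map_mul, aeval_rep, aeval_rep]; rfl)
  map_zero' := by
    rw [← map_zero (MvPolynomial.aeval c' : MvPolynomial ι k₀ →ₐ[k₀] ℂ)]
    exact h.congr (by rw [aeval_rep, map_zero]; rfl)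
  map_add' a b := by
    rw [← map_add]
    exact h.congr (by rw [aeval_rep, map_add, aeval_rep, aeval_rep]; rfl)

theorem spec_apply (h : Spz k₀ c c') (r : A k₀ c) : spec h r = MvPolynomial.aeval c' (rep r) := rfl

theorem spec_eq (h : Spz k₀ c c') {r : A k₀ c} {G : MvPolynomial ι k₀}
    (hG : MvPolynomial.aeval c G = (r : ℂ)) : spec h r = MvPolynomial.aeval c' G :=
  h.congr (by rw [aeval_rep, hG])

@[simp] theorem spec_gen (h : Spz k₀ c c') (i : ι) : spec h (gen k₀ c i) = c' i := by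
  rw [spec_eq h (G := MvPolynomial.X i) (MvPolynomial.aeval_X c i), MvPolynomial.aeval_X]

theorem spec_refl : spec (Spz.refl k₀ c) = inc0 k₀ c := by
  ext r
  exact aeval_rep r

theorem spec_congr (h : Spz k₀ c c') {c'' : ι → ℂ} (h' : Spz k₀ c c'') (he : c' = c'') :
    spec h = spec h' := by
  subst he
  rfl

theorem spec_eq_inc0 (h : Spz k₀ c c') (he : c' = c) : spec h = inc0 k₀ c := by
  subst he
  exact spec_refl

end alg

/-! ### along a plane curve -/

section curve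

variable {k₀ : Type*} [Field k₀] [Algebra k₀ ℂ] {ι : Type*} {c : ι → ℂ}

/-- homogenisation of polynomials in the fractions `P i / δ` -/
theorem exists_reg (δ : ℂ[X]) (P : ι → ℂ[X][X]) (G : MvPolynomial ι k₀) :
    ∃ (g : ℂ[X][X]) (k : ℕ), ∀ u w : ℂ, δ.eval u ≠ 0 →
      MvPolynomial.aeval (fun i => (P i).evalEval u w / δ.eval u) G =
        g.evalEval u w / δ.eval u ^ k := by
  induction G using MvPolynomial.induction_on with
  | C a =>
    refine ⟨C (C (algebraMap k₀ ℂ a)), 0, fun u w _ => ?_⟩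
    rw [MvPolynomial.aeval_C, pow_zero, div_one]
    simp [evalEval]
  | add p q hp hq =>
    obtain ⟨g₁, k₁, h₁⟩ := hp
    obtain ⟨g₂, k₂, h₂⟩ := hq
    refine ⟨g₁ * C (δ ^ k₂) + g₂ * C (δ ^ k₁), k₁ + k₂, fun u w hu => ?_⟩
    rw [map_add, h₁ u w hu, h₂ u w hu, evalEval_add, evalEval_mul, evalEval_mul, evalEval_C,
      evalEval_C, eval_pow, eval_pow, pow_add]
    field_simp
  | mul_X p i hp =>
    obtain ⟨g₁, k₁, h₁⟩ := hp
    refine ⟨g₁ * P i, k₁ + 1, fun u w hu => ?_⟩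
    rw [map_mul, h₁ u w hu, MvPolynomial.aeval_X, evalEval_mul, pow_succ]
    field_simp

/-- **989's `Reg`** -/
def regOf (f : ℂ[X][X]) (δ : ℂ[X]) (P : ι → ℂ[X][X])
    (h : ∀ q : Qs f δ, Spz k₀ c fun i => (P i).evalEval q.1.1 q.1.2 / δ.eval q.1.1) :
    Reg f δ (A k₀ c) where
  evq q := spec (h q)
  reg r := by
    obtain ⟨g, k, hg⟩ := exists_reg δ P (rep r)
    exact ⟨g, k, fun q => hg q.1.1 q.1.2 q.2.2⟩

/-- 957's `Line` -/
def regLine {rr : MvPolynomial ι k₀} (L : Line k₀ c rr) : Reg L.f L.δ (A k₀ c) :=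
  regOf L.f L.δ L.P fun q G hG => L.spec q.1.1 q.1.2 q.2.1 q.2.2 G hG

theorem evq_regLine {rr : MvPolynomial ι k₀} (L : Line k₀ c rr) (q : Qs L.f L.δ) (i : ι) :
    (regLine L).evq q (gen k₀ c i) = L.pt q.1.1 q.1.2 i :=
  spec_gen (fun G hG => L.spec q.1.1 q.1.2 q.2.1 q.2.2 G hG) i

/-- the base point of the line -/
def baseLine {rr : MvPolynomial ι k₀} (L : Line k₀ c rr) : Qs L.f L.δ :=
  ⟨(1, L.w₁), L.root, L.δ_one⟩

theorem evq_baseLine {rr : MvPolynomial ι k₀} (L : Line k₀ c rr) :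
    (regLine L).evq (baseLine L) = inc0 k₀ c :=
  spec_eq_inc0 (fun G hG => L.spec 1 L.w₁ L.root L.δ_one G hG) L.pt_one

/-- lines of a format -/
def regFmt (M : Fmt k₀ ι) (hM : ∀ (z : Fin M.m → ℂ) (w : ℂ), M.On z w → Spz k₀ c (M.pt z w))
    (a d : Fin M.m → ℂ) : Reg (M.lf a d) (M.lδ a d) (A k₀ c) :=
  regOf (M.lf a d) (M.lδ a d) (M.lP a d) fun q => by
    have h1 := hM (fun j => a j + q.1.1 * d j) q.1.2 ((M.on_iff a d q.1.1 q.1.2).2 q.2)
    have h2 : (fun i => (M.lP a d i).evalEval q.1.1 q.1.2 / (M.lδ a d).eval q.1.1) =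
        M.pt (fun j => a j + q.1.1 * d j) q.1.2 := by
      funext i
      exact (M.pt_line a d q.1.1 q.1.2 i).symm
    rw [h2]
    exact h1

/-- **QFam over the plane curve** -/
def qfamQs {n N : ℕ} {f : ℂ[X][X]} {δ : ℂ[X]} (hs : Sep f δ) {R : Type*} [CommRing R]
    (C : Cert n N R) (ρ : Reg f δ R) :
    Ehr6_268.QFam (Qs f δ) ℂ (EuclideanSpace ℂ (Fin (N + 1))) :=
  qfam (isLocalHomeomorph_uQ hs) C ρ.evq fun r => an_reg hs ρ r

@[simp] theorem qfamQs_u {n N : ℕ} {f : ℂ[X][X]} {δ : ℂ[X]} (hs : Sep f δ) {R : Type*} [CommRing R]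
    (C : Cert n N R) (ρ : Reg f δ R) : (qfamQs hs C ρ).u = uQ f δ := rfl

@[simp] theorem qfamQs_S {n N : ℕ} {f : ℂ[X][X]} {δ : ℂ[X]} (hs : Sep f δ) {R : Type*} [CommRing R]
    (C : Cert n N R) (ρ : Reg f δ R) (q : Qs f δ) : (qfamQs hs C ρ).S q = C.cone (ρ.evq q) := rfl

end curve

/-! ### over an open set of the parameter space -/

section open_

universe ue

variable {E0 : Type} [NormedAddCommGroup E0] [NormedSpace ℂ E0] [FiniteDimensional ℂ E0]

theorem isLocalHomeomorph_val {U : Set E0} (hU : IsOpen U) :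
    IsLocalHomeomorph (Subtype.val : U → E0) :=
  hU.isOpenEmbedding_subtypeVal.isLocalHomeomorph

/-- **QFam over an open set** -/
def qfamU {n N : ℕ} {U : Set E0} (hU : IsOpen U) {R : Type*} [CommRing R] (C : Cert n N R)
    (ev : E0 → (R →+* ℂ)) (han : ∀ r, ∀ p ∈ U, AnalyticAt ℂ (fun p => ev p r) p) :
    Ehr6_268.QFam U E0 (EuclideanSpace ℂ (Fin (N + 1))) :=
  qfam (isLocalHomeomorph_val hU) C (fun q => ev q.1) fun r q =>
    ⟨fun p => ev p r, han r q.1 q.2, Filter.Eventually.of_forall fun _ => rfl⟩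

@[simp] theorem qfamU_u {n N : ℕ} {U : Set E0} (hU : IsOpen U) {R : Type*} [CommRing R]
    (C : Cert n N R) (ev : E0 → (R →+* ℂ)) (han : ∀ r, ∀ p ∈ U, AnalyticAt ℂ (fun p => ev p r) p) :
    (qfamU hU C ev han).u = Subtype.val := rfl

@[simp] theorem qfamU_S {n N : ℕ} {U : Set E0} (hU : IsOpen U) {R : Type*} [CommRing R]
    (C : Cert n N R) (ev : E0 → (R →+* ℂ)) (han : ∀ r, ∀ p ∈ U, AnalyticAt ℂ (fun p => ev p r) p)
    (q : U) : (qfamU hU C ev han).S q = C.cone (ev q.1) := rfl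

end open_

end

end Crest.Agent.R281.QF_871
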