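import Crest.Agent.R281.QF2_871
import Crest.Agent.R281.Am1_957

/-!
# R281, QFAM (helper871): QFam over the `m`-dimensional model `QM M` of helper957
-/

set_option autoImplicit false
set_option linter.unusedSectionVars false

open Set Filter Topology Polynomial

namespace Crest.Agent.R281.QF_871

open Crest.Agent.R281.Sl_957 Crest.Agent.R281.Am_957 Crest.Agent.R281.Esc1_989

noncomputable section

variable {k₀ ι : Type*} [Field k₀] [Algebra k₀ ℂ] {M : Fmt k₀ ι}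

/-- functions analytic in `(z, w)` are analytic functions of the coordinate -/
theorem anE_of_analytic (h : M.Nice) {F : (Fin M.m → ℂ) × ℂ → ℂ}
    (hF : ∀ q : QM M, AnalyticAt ℂ F q.1) : AnE (zc M) fun q => F q.1 := by
  intro x
  obtain ⟨W, h1, h2, -, h4⟩ := exists_root h (z₀ := x.1.1) (w₀ := x.1.2) x.2
  refine ⟨fun z => F (z, W z), ?_, ?_⟩
  · have h5 : AnalyticAt ℂ F ((fun z => (z, W z)) (zc M x)) := by
      show AnalyticAt ℂ F (x.1.1, W x.1.1)
      rw [h2]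
      exact hF x
    exact AnalyticAt.comp (g := F) (f := fun z => (z, W z)) h5 (analyticAt_id.prod h1)
  · have h5 : ∀ᶠ q : QM M in 𝓝 x, M.F.eval₂ (ez q.1.1) q.1.2 = 0 → q.1.2 = W q.1.1 :=
      continuous_subtype_val.continuousAt.eventually h4
    filter_upwards [h5] with q hq
    show F q.1 = F (q.1.1, W q.1.1)
    rw [← hq q.2.1]

theorem analyticAt_pt (M : Fmt k₀ ι) (i : ι) (q : QM M) :
    AnalyticAt ℂ (fun p : (Fin M.m → ℂ) × ℂ => M.pt p.1 p.2 i) q.1 := by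
  have h1 : AnalyticAt ℂ (fun p : (Fin M.m → ℂ) × ℂ => (M.P i).eval₂ (ez p.1) p.2) q.1 :=
    ((contDiff_eval₂ (M.P i) ⊤).contDiffAt (x := q.1)).analyticAt
  have h2 : AnalyticAt ℂ (fun p : (Fin M.m → ℂ) × ℂ => (ez p.1 M.D : ℂ)) q.1 :=
    (((contDiff_ez M.D ⊤).comp contDiff_fst).contDiffAt (x := q.1)).analyticAt
  exact h1.div h2 q.2.2

theorem analyticAt_aeval_pt (M : Fmt k₀ ι) (G : MvPolynomial ι k₀) (q : QM M) :
    AnalyticAt ℂ (fun p : (Fin M.m → ℂ) × ℂ => MvPolynomial.aeval (M.pt p.1 p.2) G) q.1 := by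
  induction G using MvPolynomial.induction_on with
  | C a =>
    simp only [MvPolynomial.aeval_C]
    exact analyticAt_const
  | add p q hp hq =>
    simp only [map_add]
    exact hp.add hq
  | mul_X p i hp =>
    simp only [map_mul, MvPolynomial.aeval_X]
    exact hp.mul (analyticAt_pt M i q)

variable {c : ι → ℂ}

/-- the specialisation at the points of the model -/
def evM (hM : ∀ (z : Fin M.m → ℂ) (w : ℂ), M.On z w → Spz k₀ c (M.pt z w)) (q : QM M) :
    A k₀ c →+* ℂ := spec (hM q.1.1 q.1.2 q.2)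

theorem evM_gen (hM : ∀ (z : Fin M.m → ℂ) (w : ℂ), M.On z w → Spz k₀ c (M.pt z w)) (q : QM M)
    (i : ι) : evM hM q (gen k₀ c i) = M.pt q.1.1 q.1.2 i := spec_gen (hM q.1.1 q.1.2 q.2) i

/-- at the base point the specialisation is the inclusion -/
theorem evM_base (hM : ∀ (z : Fin M.m → ℂ) (w : ℂ), M.On z w → Spz k₀ c (M.pt z w)) (q : QM M)
    (hq : M.pt q.1.1 q.1.2 = c) : evM hM q = inc0 k₀ c := spec_eq_inc0 (hM q.1.1 q.1.2 q.2) hq

theorem anE_evM (h : M.Nice) (hM : ∀ (z : Fin M.m → ℂ) (w : ℂ), M.On z w → Spz k₀ c (M.pt z w))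
    (r : A k₀ c) : AnE (zc M) fun q => evM hM q r :=
  anE_of_analytic h (F := fun p => MvPolynomial.aeval (M.pt p.1 p.2) (rep r))
    fun q => analyticAt_aeval_pt M (rep r) q

/-- **QFam over the model** -/
def qfamM {n N : ℕ} (h : M.Nice)
    (hM : ∀ (z : Fin M.m → ℂ) (w : ℂ), M.On z w → Spz k₀ c (M.pt z w)) (C : Cert n N (A k₀ c)) :
    Ehr6_268.QFam (QM M) (Fin M.m → ℂ) (EuclideanSpace ℂ (Fin (N + 1))) :=
  qfam (isLocalHomeomorph_zc h) C (evM hM) (anE_evM h hM)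

@[simp] theorem qfamM_u {n N : ℕ} (h : M.Nice)
    (hM : ∀ (z : Fin M.m → ℂ) (w : ℂ), M.On z w → Spz k₀ c (M.pt z w)) (C : Cert n N (A k₀ c)) :
    (qfamM h hM C).u = zc M := rfl

@[simp] theorem qfamM_S {n N : ℕ} (h : M.Nice)
    (hM : ∀ (z : Fin M.m → ℂ) (w : ℂ), M.On z w → Spz k₀ c (M.pt z w)) (C : Cert n N (A k₀ c))
    (q : QM M) : (qfamM h hM C).S q = C.cone (evM hM q) := rfl

/-- the cone over the base point is the cone of the complexified certificate -/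
theorem qfamM_S_base {n N : ℕ} (h : M.Nice)
    (hM : ∀ (z : Fin M.m → ℂ) (w : ℂ), M.On z w → Spz k₀ c (M.pt z w)) (C : Cert n N (A k₀ c))
    (q : QM M) (hq : M.pt q.1.1 q.1.2 = c) : (qfamM h hM C).S q = C.cone (inc0 k₀ c) := by
  rw [qfamM_S, evM_base hM q hq]

/-- **everything from `c`** -/
theorem exists_model [CharZero k₀] [Finite ι] (c : ι → ℂ) :
    ∃ (M : Fmt k₀ ι) (_ : M.Nice)
      (_ : ∀ (z : Fin M.m → ℂ) (w : ℂ), M.On z w → Spz k₀ c (M.pt z w)) (q : QM M),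
      AlgebraicIndependent k₀ q.1.1 ∧ M.pt q.1.1 q.1.2 = c := by
  obtain ⟨M, z, b, hN, hz, hon, hpt, hsp⟩ :=
    Fmt.exists_fmt (k₀ := k₀) c 1 (by rw [map_one]; exact one_ne_zero)
  exact ⟨M, hN, fun z' w h => (hsp z' w h).1, ⟨(z, b), hon⟩, hz, hpt⟩

end

end Crest.Agent.R281.QF_871
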