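import Crest.Agent.R281.Ehr11_268
import Crest.Agent.R281.QF5_871

/-!
# R281 (S0424), PER-HOL (helper377), part 1: pointwise certificates, tangent spaces and forms

Port of helper268's Ehr9 / Ehr10 to 871's pointwise certificates (`PCert`, `OkAt`):

* `jfP`          : `JForm` (655) on `S ⊆ KC ev E` from `FDat` (867), exact at every point only
* `finrank_TSp`, `self_mem_TSp`, `span_tanp`, `cx_of_pcert`, `nd_of_pimp`
-/

set_option autoImplicit false
set_option linter.unusedSectionVars false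
set_option synthInstance.maxHeartbeats 200000
set_option maxSynthPendingDepth 3

open Set Filter Topology Complex
open scoped ContDiff

namespace Crest.Agent.R281.Qc_377

open Crest.Agent.R281.HkR_835 Crest.Agent.R281.Ehr2_268 Crest.Agent.R281.Phl_655
  Crest.Agent.R281.AF_867 Crest.Agent.R281.KrB1_871 Crest.Agent.R281.KrB4_871
  Crest.Agent.R281.Kr_488 Crest.Agent.R281.QF_871 Crest.Agent.R281.Ehr9_268
  Crest.Agent.R281.Ehr10_268

noncomputable section

/-! ### the form -/

section form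

variable {P : Type} [NormedAddCommGroup P] [NormedSpace ℂ P] {N : ℕ} {R : Type*} [CommRing R]
  {ev : P → (R →+* ℂ)}

/-- **the `JForm` of polynomial data, exact at every point** -/
def jfP {E : Set (MvPolynomial (Fin (N + 1)) R)} {S : Set (P × EuclideanSpace ℂ (Fin (N + 1)))}
    (hS : S ⊆ KC ev E) (D : FDat (Fin (N + 1)) R) (hm : 2 ≤ D.m)
    (hX : ∀ c x, (c, x) ∈ S → (D.map (ev c)).Exact)
    (han : ∀ c x, (c, x) ∈ S → ∀ r, AnalyticAt ℂ (fun p => ev p r) c)
    (hI : ∀ c x, (c, x) ∈ S → (D.map (ev c)).Imp (MvPolynomial.map (ev c) '' E)) :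
    JForm S (Fin (N + 1)) where
  m := D.m
  hm := hm
  X j := EuclideanSpace.proj j
  s := sj ev D
  cover c x hx := by
    by_contra hcon
    push Not at hcon
    refine (hS hx).1 ?_
    ext j
    exact hcon j
  hol j c x hx := by
    filter_upwards [(analyticAt_sj (han c x hx) D j x).eventually_analyticAt] with p hp
    exact hp.contDiffAt
  alt j p hp u v := by
    rw [sj_apply, sj_apply]
    exact FDat.b_alt j _ (hX p.1 p.2 hp) _ _
  hom j c x hx a _ u v := by
    rw [sj_apply, sj_apply]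
    exact b_scale (hX c x hx) j a _ _ _
  eul j c x hx v := by
    rw [sj_apply]
    exact FDat.b_self_left j _ (hX c x hx) _
  agr i j c x hx u v hu hv := by
    rw [sj_apply, sj_apply]
    refine (hI c x hx).agr (fun i => x i) _ _ ?_ (tanE_of_vel hS hu) (tanE_of_vel hS hv) i j
    rintro _ ⟨p, hp, rfl⟩
    exact (hS hx).2 p hp
  clo j c x hx _ u v w hu hv hw := by
    rw [fderiv_sj (han c x hx), fderiv_sj (han c x hx), fderiv_sj (han c x hx), sj_apply, sj_apply,
      sj_apply]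
    refine (hI c x hx).clo (fun i => x i) _ _ _ ?_ (tanE_of_vel hS hu) (tanE_of_vel hS hv)
      (tanE_of_vel hS hw) j
    rintro _ ⟨p, hp, rfl⟩
    exact (hS hx).2 p hp

/-- the value of a form, in terms of its data -/
def valG {H κ : Type} [NormedAddCommGroup H] [NormedSpace ℂ H] (Xc : κ → H →L[ℂ] ℂ)
    (s : κ → H →L[ℂ] H →L[ℂ] ℂ) (m : ℕ) (x u v : H) : ℂ :=
  open Classical in
  if h : ∃ j, Xc j x ≠ 0 then s h.choose u v / Xc h.choose x ^ m else 0

theorem val_eq_valG {E H κ : Type} [NormedAddCommGroup E] [NormedSpace ℂ E]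
    [NormedAddCommGroup H] [NormedSpace ℂ H] {S : Set (E × H)} (J : JForm S κ) (c : E)
    (x u v : H) : J.val c x u v = valG J.X (fun j => J.s j (c, x)) J.m x u v := rfl

theorem val_congr {E H κ : Type} [NormedAddCommGroup E] [NormedSpace ℂ E]
    [NormedAddCommGroup H] [NormedSpace ℂ H] {S S' : Set (E × H)} (J : JForm S κ)
    (J' : JForm S' κ) (hX : J.X = J'.X) (hm : J.m = J'.m) {c : E} {x : H}
    (hs : (fun j => J.s j (c, x)) = fun j => J'.s j (c, x)) (u v : H) :
    J.val c x u v = J'.val c x u v := by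
  rw [val_eq_valG, val_eq_valG, hX, hm, hs]

end form

/-! ### tangent spaces -/

variable {n N : ℕ} {R : Type*} [CommRing R]

/-- the dimension of the tangent space where `dG ≠ 0` -/
theorem finrank_TS_of_goodp {φ : R →+* ℂ} {E : Set (MvPolynomial (Fin (N + 1)) R)}
    {κ : KDat n N R} (hg : (mapK κ φ).Good (MvPolynomial.map φ '' E)) {x : Fin (N + 1) → ℂ}
    (hd : MvPolynomial.eval x (MvPolynomial.map φ κ.dG) ≠ 0) :
    Module.finrank ℂ (TS φ E x) ≤ n + 1 := by
  set κ' := KrB1_871.mapK κ φ with hκ'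
  have hd' : MvPolynomial.eval x κ'.dG ≠ 0 := by
    rw [hκ', KrB1_871.dG_map]
    exact hd
  let L : TS φ E x →ₗ[ℂ] (Fin (n + 1) → ℂ) :=
    { toFun := fun t j => lv (κ'.lam j) (fun i => t.1 i)
      map_add' := fun a b => by
        funext j
        exact lv_add (κ'.lam j) (fun i => a.1 i) (fun i => b.1 i)
      map_smul' := fun c a => by
        funext j
        exact lv_smul' (κ'.lam j) (fun i => a.1 i) c }
  have hinj : Function.Injective L := by
    rw [injective_iff_map_eq_zero]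
    intro t ht
    have h1 : (fun i => t.1 i) ∈ kerL κ' := mem_kerL.mpr fun j => congrFun ht j
    have h2 : fderiv ℂ κ'.Hv x (fun i => t.1 i) = 0 := by
      funext k
      rw [fderiv_Hv_dE]
      exact t.2 _ (hg.memN k)
    have h3 := hg.fderiv_inj hd' h1 h2
    ext i
    exact congrFun h3 i
  have h4 := LinearMap.finrank_le_finrank_of_injective hinj
  rwa [Module.finrank_fin_fun] at h4

variable {c : PCert n N R} {φ : R →+* ℂ}

theorem finrank_TSp (hc : c.OkAt φ) {x : EuclideanSpace ℂ (Fin (N + 1))}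
    (hx : x ∈ c.cone φ) : Module.finrank ℂ (TS φ c.E (fun i => x i)) ≤ n + 1 := by
  obtain ⟨a, ha⟩ := hc.cov x hx.1 hx.2
  exact finrank_TS_of_goodp (hc.good a) ha

/-- the Euler vector is tangent -/
theorem self_mem_TSp (hc : c.OkAt φ) {x : EuclideanSpace ℂ (Fin (N + 1))}
    (hx : x ∈ c.cone φ) : x ∈ TS φ c.E (fun i => x i) := by
  rintro _ ⟨F, hF, rfl⟩
  obtain ⟨m, hm⟩ := hc.hom F hF
  rw [dE_self hm, hx.2 F hF, mul_zero]

variable {V X : Type} [NormedAddCommGroup V] [NormedSpace ℝ V] [TopologicalSpace X]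
  [FiniteDimensional ℝ V] {C : RCh V X}

theorem fderiv_mem_TSp (P : HEmb C (EuclideanSpace ℂ (Fin (N + 1))))
    (hP : ∀ w ∈ P.cone, w ∈ c.cone φ) {i : C.ι} {z : V} (hz : z ∈ (C.e i).target) (v : V) :
    fderiv ℝ (P.u i) z v ∈ TS φ c.E (fun k => P.u i z k) :=
  tanE_of_vel (ev := fun _ : ℂ => φ) (S := KC (fun _ : ℂ => φ) c.E) (fun _ h => h)
    (vel_member P hz v fun w hw => hP w hw)

/-- **the tangent space is `image Du + ℂ u`** -/
theorem span_tanp (hc : c.OkAt φ) (hV : Module.finrank ℝ V = 2 * n)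
    (P : HEmb C (EuclideanSpace ℂ (Fin (N + 1)))) (hP : ∀ w ∈ P.cone, w ∈ c.cone φ)
    {i : C.ι} {z : V} (hz : z ∈ (C.e i).target) {t : EuclideanSpace ℂ (Fin (N + 1))}
    (ht : t ∈ TS φ c.E (fun k => P.u i z k)) :
    ∃ (v : V) (a : ℂ), t = fderiv ℝ (P.u i) z v + a • P.u i z :=
  span_of_dim _ (finrank_TSp hc (hP _ (P.mem_cone hz))) hV (fderiv ℝ (P.u i) z) (P.ne i z hz)
    (fun v => fderiv_mem_TSp P hP hz v) (self_mem_TSp hc (hP _ (P.mem_cone hz)))
    (fun v hv => P.imm i z hz v hv) ht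

/-- **the tangent spaces of the members are complex** -/
theorem cx_of_pcert (hc : c.OkAt φ) (hV : Module.finrank ℝ V = 2 * n)
    (P : HEmb C (EuclideanSpace ℂ (Fin (N + 1)))) (hP : ∀ w ∈ P.cone, w ∈ c.cone φ) : P.Cx :=
  fun _ _ hz v => span_tanp hc hV P hP hz
    ((TS φ c.E _).smul_mem I (fderiv_mem_TSp P hP hz v))

/-- **nondegeneracy of the polynomial form** -/
theorem nd_of_pimp (hc : c.OkAt φ) (hV : Module.finrank ℝ V = 2 * n)
    {D : FDat (Fin (N + 1)) R} (hX : (D.map φ).Exact)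
    (hI : (D.map φ).Imp (MvPolynomial.map φ '' c.E))
    (P : HEmb C (EuclideanSpace ℂ (Fin (N + 1)))) (hP : ∀ w ∈ P.cone, w ∈ c.cone φ)
    {i : C.ι} {z : V} (hz : z ∈ (C.e i).target) {j : Fin (N + 1)} (hj : P.u i z j ≠ 0) {v : V}
    (h0 : ∀ w, (D.map φ).b j (fun k => P.u i z k) (fun k => fderiv ℝ (P.u i) z v k)
      (fun k => fderiv ℝ (P.u i) z w k) = 0) : v = 0 := by
  have hon : OnE (MvPolynomial.map φ '' c.E) (fun k => P.u i z k) := by
    rintro _ ⟨F, hF, rfl⟩
    exact (hP _ (P.mem_cone hz)).2 F hF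
  obtain ⟨a, ha⟩ := hI.nd (fun k => P.u i z k) (fun k => fderiv ℝ (P.u i) z v k) j hon
    (fderiv_mem_TSp P hP hz v) (fun t ht => by
      obtain ⟨w, b, hw⟩ := span_tanp hc hV P hP hz (t := WithLp.toLp 2 t) ht
      have h1 : t = (fun k => fderiv ℝ (P.u i) z w k) + b • fun k => P.u i z k := by
        funext k
        exact congrArg (fun s : EuclideanSpace ℂ (Fin (N + 1)) => s k) hw
      rw [h1, FDat.b_add_right, FDat.b_smul_right, FDat.b_self_right j _ hX, h0 w,
        mul_zero, add_zero]) hj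
  refine P.imm i z hz v ⟨a, ?_⟩
  ext k
  exact congrFun ha k

end

end Crest.Agent.R281.Qc_377
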