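import Crest.Agent.R281.Qc2_377
import Crest.Agent.R281.Sm1_871
import Crest.Agent.R281.Dv1_957
import Crest.Agent.R281.Phb7_267

/-!
# R281 (S0424), PER-HOL (helper377), part 3: the form of a type

* `val`       : 871's `Val` for `qcfC`, at every marking
* `Ty.qc`     : the holomorphic form on the family of a type (957)
* `Ty.re`, `Ty.im` : classes of its real and imaginary part at a marking
* `Ty.cont01`, `Ty.hol` : `cont0`, `cont1` of `HM` and the hypothesis of `HM.geomM` (267)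
-/

set_option autoImplicit false
set_option linter.unusedSectionVars false
set_option synthInstance.maxHeartbeats 200000
set_option maxSynthPendingDepth 5

open Set Filter Topology Complex
open scoped ContDiff

namespace Crest.Agent.R281.Qc_377

open Crest.Agent.R281.HkR_835 Crest.Agent.R281.Ehr2_268 Crest.Agent.R281.Dif_268
  Crest.Agent.R281.Ehr4_268 Crest.Agent.R281.Ehr6_268 Crest.Agent.R281.Ehr7_268
  Crest.Agent.R281.Ehr8_268 Crest.Agent.R281.Ehr11_268 Crest.Agent.R281.Cdr_234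
  Crest.Agent.R281.Phl_655 Crest.Agent.R281.Kr_488 Crest.Agent.R281.QF_871
  Crest.Agent.R281.Sl_957 Crest.Agent.R281.Am_957 Crest.Agent.R281.CA_867
  Crest.Agent.R281.CL_473 Crest.Agent.R281.LI_473
open Crest.Agent.R281.Phb_267 (HolL hol_of_QCF cont_of_QCF)

noncomputable section

section val

variable {k₀ : Type} [Field k₀] [Algebra k₀ ℂ] {n N : ℕ} {K : Code k₀ n N}
  {M : Fmt k₀ (Fin K.k)} (h : M.Nice)
  (hM : ∀ (z : Fin M.m → ℂ) (w : ℂ), M.On z w → K.Good (M.pt z w))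
  {V X : Type} [NormedAddCommGroup V] [NormedSpace ℝ V] [TopologicalSpace X]
  [FiniteDimensional ℝ V] {C : RCh V X}

/-- **871's `Val`** -/
theorem val (m : Mark (qfamC K M h hM) C) : Sm_871.Val (qcfC K M h hM) m :=
  fun _ _ hz j hj v w => sgC_mul h hM m hz j v w hj

end val

section conv

variable {Q : Type*} [TopologicalSpace Q] {E H : Type} [NormedAddCommGroup E]
  [NormedSpace ℂ E] [NormedAddCommGroup H] [NormedSpace ℂ H] {F : QFam Q E H}

/-- 268's `QCF` as 267's `QCF` (the same structure, field `σ` instead of `β`) -/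
def toPhb (b : QCF F) : Phb_267.QCF F where
  σ := b.β
  compat := b.compat

theorem toPhb_re (b : QCF F) : (toPhb b).re = b.re := rfl

theorem toPhb_im (b : QCF F) : (toPhb b).im = b.im := rfl

end conv

section ty

variable {V X : Type} [NormedAddCommGroup V] [NormedSpace ℝ V] [TopologicalSpace X]
  {C : RCh V X} {n : ℕ}

variable (T : Dv_957.Ty n C) [FiniteDimensional ℝ V] [CompactSpace X] [T2Space X]

/-- class of the real part at a marking -/
def _root_.Crest.Agent.R281.Dv_957.Ty.re : MQ T.F C → HdR C := (T.qc.re.natF C).cls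

/-- class of the imaginary part at a marking -/
def _root_.Crest.Agent.R281.Dv_957.Ty.im : MQ T.F C → HdR C := (T.qc.im.natF C).cls

theorem _root_.Crest.Agent.R281.Dv_957.Ty.re_mk (m : Mark T.F C) :
    T.re (MQ.mk m) = cl (T.qc.re.form m) := rfl

theorem _root_.Crest.Agent.R281.Dv_957.Ty.im_mk (m : Mark T.F C) :
    T.im (MQ.mk m) = cl (T.qc.im.form m) := rfl

theorem _root_.Crest.Agent.R281.Dv_957.Ty.re_smul (g : difG C ⧸ tG C) (x : MQ T.F C) :
    T.re (g • x) = rG C g (T.re x) := T.qc.re.cls_smul g x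

theorem _root_.Crest.Agent.R281.Dv_957.Ty.im_smul (g : difG C ⧸ tG C) (x : MQ T.F C) :
    T.im (g • x) = rG C g (T.im x) := T.qc.im.cls_smul g x

variable {QH : HdR C →ₗ[ℝ] HdR C →ₗ[ℝ] ℝ}

/-- `cont0`, `cont1` of `HM` -/
theorem _root_.Crest.Agent.R281.Dv_957.Ty.cont01 (Fr : Fr QH)
    (hQ : ∀ y, HolL C fun w => QH (cl w) y) (x : MQ T.F C) :
    ContinuousOn (fun q => Fr.z0 (T.re (T.L.s x q)) (T.im (T.L.s x q))) (T.L.U (T.L.p x)) ∧
    ContinuousOn (fun q => Fr.z1 (T.re (T.L.s x q)) (T.im (T.L.s x q))) (T.L.U (T.L.p x)) :=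
  cont_of_QCF (toPhb T.qc) Fr hQ x

/-- **the hypothesis of `HM.geomM`** -/
theorem _root_.Crest.Agent.R281.Dv_957.Ty.hol (Fr : Fr QH)
    (hQ : ∀ y, HolL C fun w => QH (cl w) y) (x : MQ T.F C) :
    ∃ φ₀ φ₁ : (Fin T.M.m → ℂ) → ℂ,
      AnalyticAt ℂ φ₀ (T.L.p x).1.1 ∧ AnalyticAt ℂ φ₁ (T.L.p x).1.1 ∧
        ∀ᶠ q in 𝓝 (T.L.p x), Fr.z0 (T.re (T.L.s x q)) (T.im (T.L.s x q)) = φ₀ q.1.1 ∧
          Fr.z1 (T.re (T.L.s x q)) (T.im (T.L.s x q)) = φ₁ q.1.1 :=
  hol_of_QCF (toPhb T.qc) Fr hQ (fun _ => rfl) x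

/-- **871's `Val`** for a type -/
theorem _root_.Crest.Agent.R281.Dv_957.Ty.val (m : Mark T.F C) : Sm_871.Val T.qc m :=
  Qc_377.val T.nice T.good m

end ty

end

end Crest.Agent.R281.Qc_377
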