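import Crest.Agent.R281.Tp6_836
import Crest.Agent.R281.Cr4_808
import Crest.Agent.R281.Alg1_867

/-!
# R281 (S0424), node ToriP (helper836), file 7: **`toriP`** without hypotheses
-/

set_option autoImplicit false
set_option linter.unusedSectionVars false
set_option maxSynthPendingDepth 3
set_option synthInstance.maxHeartbeats 200000

open Set Metric Filter Topology Complex Function
open scoped NNReal ContDiff

namespace Crest.Agent.R281.Tp_836

open Crest.Agent.R275.Geo Crest.Agent.R275.Core144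
open Crest.Agent.R281.HkR_835 Crest.Agent.R281.Ti_846 Crest.Agent.R281.Dif_268
open Crest.Agent.R281.NefO_476 Crest.Agent.R281.Nef_252
open Crest.Agent.R281.Mc673 Crest.Agent.R281.Bt_156
open Crest.Agent.R281.Alg_998 Crest.Agent.R281.RkD_902 Crest.Agent.R281.Cr_808

/-- **the node `ToriP`** -/
theorem toriP : ToriP Alg_867.Alg TubV := by
  intro n X _ _ _ _ C Q hX H0 L0 e hG B R x hx hE
  obtain ⟨Λ, hΛ, hcore⟩ := road_tube hX R x
  obtain ⟨δ, hδ, hT⟩ := toriR (2 * n) Λ (1 / 2) 1 hΛ (by norm_num) one_pos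
  obtain ⟨Y1, hY⟩ := hcore (2 * 1) δ (by norm_num) hδ
  obtain ⟨K, -, hK⟩ := hE
  obtain ⟨t, ht⟩ : ∃ t : ℝ, Y1 < R.K.Y + Real.exp t := by
    obtain ⟨t, ht⟩ := (Real.tendsto_exp_atTop.eventually_gt_atTop (Y1 - R.K.Y)).exists
    exact ⟨t, by linarith⟩
  obtain ⟨hm, hiso⟩ := hK t
  obtain ⟨A', -, -, -, hp, L, hL, Θ, hMt⟩ := hY (R.K.Y + Real.exp t) ht (K t) hm
  exact tub_of_mtub hX (B.pos2 R.a R.aB (R.c x) hx) hiso one_pos hT hMt

end Crest.Agent.R281.Tp_836
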