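import Crest.Agent.R281.Qb_975
import Crest.Agent.R281.Tp7_836
import Crest.Agent.R281.Qp1_831

/-!
# Row 281, QTubP (A4), skeleton (helper975): from the statement at one member to `QTubP Alg_867.Alg`

* `MQ`        : at one member: `Mtub` (helper808) gives the quantified tube with a tube of tori
                (922's qtube_of_mtub + 836's tubeQ_of)
* `qtubP_of_mq : MQ → QTubP Alg_867.Alg`
-/

set_option autoImplicit false
set_option linter.unusedSectionVars false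
set_option maxSynthPendingDepth 3

open Set Filter Topology
open scoped ContDiff

namespace Crest.Agent.R281.Qb_975

open Crest.Agent.R275.Geo Crest.Agent.R275.Core144 Crest.Agent.R275.GC293
open Crest.Agent.R275.EDR890
open Crest.Agent.R273.Defs_333 Crest.Agent.R273.Kah_333
open Crest.Agent.R260.ACM_580 Crest.Agent.R260.NNB_580
open Crest.Agent.R281.HkR_835 Crest.Agent.R281.Ti_846 Crest.Agent.R281.Cdr_234
open Crest.Agent.R281.Dif_268 Crest.Agent.R281.PL_713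
open Crest.Agent.R281.NefO_476 Crest.Agent.R281.Nef_252
open Crest.Agent.R281.Alg_998 Crest.Agent.R281.RkD_902
open Crest.Agent.R281.KapD_975
open Crest.Agent.R281.Mc673 (W)
open Crest.Agent.R281.Cr_808 (Mtub road_tube)
open Crest.Agent.R281.Tp_836 (exists_atlK)
open Crest.Agent.R281.Qp_831 (exists_kah_k)

/-- the statement at one member -/
def MQ : Prop :=
  ∀ (n : ℕ) (Λ : ℝ), 1 ≤ n → 0 < Λ → ∃ κ : ℝ, 0 < κ ∧ ∀ ρ : ℝ, 0 < ρ →
    ∃ R : ℝ, 0 < R ∧ ∃ δ : ℝ, 0 < δ ∧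
    ∀ (X : Type) [TopologicalSpace X] [CompactSpace X] [T2Space X] (C : RCh (Cn (2 * n)) X)
      (H : HkT C) (Q : F2 C →ₗ[ℝ] F2 C →ₗ[ℝ] ℝ) (e : F2 C) (A : Atl (2 * n) X)
      (hp : Cp (H.acm 0) A) (L : ℝ) (hL : 0 < L) (Θ : W (2 * n) → X),
      Mtub H {v | Q v e = 0} R Λ δ A hp L hL Θ →
    ∀ (A1 : Atl (2 * n) X) (hA1 : Cp (H.acm 1) A1) (K : Kah A1),
      Eqv (ofKah K).f2 (L • (cmp_of_cp hA1).F (H.om 1)) → TubeQ Q e H 1 A1 K κ ρ

theorem qray_of_mq (h : MQ) : QRay Alg_867.Alg := by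
  intro n X _ _ _ _ C Q hX H0 L0 e hG B R x
  obtain ⟨Λ, hΛ, hr⟩ := road_tube hX R x
  obtain ⟨κ, hκ, hq⟩ := h n Λ hX.n1 hΛ
  refine ⟨κ, hκ, fun r hr0 => ?_⟩
  obtain ⟨R', hR', δ, hδ, hm⟩ := hq r hr0
  obtain ⟨Y1, hY1⟩ := hr R' δ hR' hδ
  refine ⟨Y1, fun y hy H hM => ?_⟩
  obtain ⟨A', -, -, -, hp, L, hL, Θ, hMt⟩ := hY1 y hy H hM
  obtain ⟨A1, hA1⟩ := exists_atlK H 1
  obtain ⟨K, hK⟩ := exists_kah_k H 1 hL hA1
  exact ⟨L, hL, A1, hA1, K, hK, hm X C H Q e A' hp L hL Θ hMt A1 hA1 K hK⟩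

/-- **QTubP from the statement at one member** -/
theorem qtubP_of_mq (h : MQ) : QTubP Alg_867.Alg := qtubP_of_ray _ (qray_of_mq h)

end Crest.Agent.R281.Qb_975
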