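import Crest.Agent.R281.Tp6_836
import Crest.Agent.R281.KapD_975
import Crest.Agent.R281.Qt11_355

/-!
# Row 281, QTubP (helper836): the tube of tori inside the quantified tube

* `HolTube.mono`, `PVT.mono` : restriction to a smaller base
* `exists_holTube_lag`  : a tube of tori `Ψ` over a disc, `f (Ψ (y, x)) = y`, from `LagFib`
* `tubeQ_of`            : `TubeQ` from the quantified tube
-/

set_option autoImplicit false
set_option linter.unusedSectionVars false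
set_option maxSynthPendingDepth 3
set_option synthInstance.maxHeartbeats 200000

open Set Metric Filter Topology Complex Function
open scoped NNReal ContDiff

namespace Crest.Agent.R281.Tq_836

open Crest.Agent.R275.Geo Crest.Agent.R275.Core144
open Crest.Agent.R275.EDR890
open Crest.Agent.R273.Defs_333 Crest.Agent.R273.Kah_333
open Crest.Agent.R260.ACM_580 Crest.Agent.R260.NNB_580
open Crest.Agent.R281.HkR_835 Crest.Agent.R281.Ti_846 Crest.Agent.R281.Dif_268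
open Crest.Agent.R281.NefO_476 Crest.Agent.R281.Nef_252
open Crest.Agent.R281.Mc673 Crest.Agent.R281.T5D_808 Crest.Agent.R281.Ab_729
open Crest.Agent.R281.Bt_156 Crest.Agent.R281.Tub_836 Crest.Agent.R281.Tub_831
open Crest.Agent.R281.Alg_998 Crest.Agent.R281.RkD_902 Crest.Agent.R281.Cr_808
open Crest.Agent.R281.Per_368 (SmI pull pl)
open Crest.Agent.R281.Exo_368 (ExOn TubeO pvt_of_exOn)
open Crest.Agent.R281.KapD_975 (TubeQ)
open Crest.Agent.R281.Qt_922 (QTube)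
open Crest.Agent.R281.Tub_57 (LagFib)
open Crest.Agent.R281.Tp_836
open Crest.Agent.R238.Sch (ee)

noncomputable section

section mono

variable {V X : Type} [NormedAddCommGroup V] [NormedSpace ℝ V] [TopologicalSpace X]
  {C : RCh V X} {J : C.ι → V → V →L[ℝ] V} {w w' : F2 C} {n : ℕ} {D D' : Set (Cn n)}
  {Ψ : Cn n × Cn n → X} {l : Fin (2 * n) → Cn n → Cn n} {τ : Cn n → Cn n → Cn n → ℂ}

/-- restriction to a smaller base -/
theorem HolTube.mono (h : HolTube C J w w' n D Ψ l τ) (hD : D' ⊆ D) (ho : IsOpen D')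
    (hc : Convex ℝ D') (hn : D'.Nonempty) : HolTube C J w w' n D' Ψ l τ where
  op := ho
  cv := hc
  ne := hn
  sm := h.sm.mono (prod_mono hD Subset.rfl) (ho.prod isOpen_univ)
  hol p hp := h.hol p (hD hp)
  inj p hp := h.inj p (hD hp)
  lhol k := (h.lhol k).mono hD
  lli y hy := h.lli y (hD hy)
  eq_iff y hy y' hy' := h.eq_iff y (hD hy) y' (hD hy')
  symp p hp := h.symp p (hD hp)

theorem PVT.mono {Q : F2 C →ₗ[ℝ] F2 C →ₗ[ℝ] ℝ} {e : F2 C} (h : PVT Q e D Ψ l) (hD : D' ⊆ D) :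
    PVT Q e D' Ψ l := fun v hv y hy => h v hv y (hD hy)

end mono

section hol

variable {n : ℕ} {X : Type} [TopologicalSpace X] [CompactSpace X] [T2Space X]
  {C : RCh (Cn (2 * n)) X} {H : HkT C}

/-- **tube of tori of a Lagrangian fibration `f`**, `f (Ψ (y, x)) = y` -/
theorem exists_holTube_lag {A : Atl (2 * n) X} (hA : Cp (H.acm 1) A) {L ρ : ℝ} (hL : 0 < L)
    {U : Set X} {f : X → Cn n}
    (hf : LagFib A (L • (cmp_of_cp hA).F (H.om 2)) (L • (cmp_of_cp hA).F (H.om 0)) n U f ρ) :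
    ∃ (D : Set (Cn n)) (Φ : Cn n × Cn n → X) (lt : Fin (2 * n) → Cn n → Cn n)
      (τ : Cn n → Cn n → Cn n → ℂ), HolTube C (H.J 1) (H.om 2) (H.om 0) n D Φ lt τ ∧
      (∀ y ∈ D, ∀ x, Φ (y, x) ∈ U ∧ f (Φ (y, x)) = y) ∧ (0 : Cn n) ∈ D := by
  obtain ⟨x0, hx0U, hx0⟩ := hf.ne 0 (by simpa using hf.pos)
  let U' : TopologicalSpace.Opens X := ⟨U, hf.op⟩
  have hlag : ∀ i, ∀ x ∈ (A.e i).source, x ∈ U' → ∀ u v,
      fderiv ℂ (fun z => f ((A.e i).symm z)) (A.e i x) u = 0 →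
      fderiv ℂ (fun z => f ((A.e i).symm z)) (A.e i x) v = 0 →
      ((cmp_of_cp hA).F (H.om 2)).w i (A.e i x) u v = 0 ∧
      ((cmp_of_cp hA).F (H.om 0)).w i (A.e i x) u v = 0 := by
    intro i x hx hxU u v hu hv
    obtain ⟨h1, h2⟩ := hf.lag i x hx hxU u v hu hv
    have h1' : L * ((cmp_of_cp hA).F (H.om 2)).w i (A.e i x) u v = 0 := h1
    have h2' : L * ((cmp_of_cp hA).F (H.om 0)).w i (A.e i x) u v = 0 := h2
    exact ⟨(mul_eq_zero.1 h1').resolve_left hL.ne', (mul_eq_zero.1 h2').resolve_left hL.ne'⟩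
  have hlf := lagF_of (H := H) (k := 1) (l := 2) (m := 0) (Or.inr (Or.inl rfl)) hA
    (U := U') (f := f) hf.hol hf.surj hlag
  obtain ⟨D, Φ, lt, τ, h1, h2, h3, -⟩ := exists_holTube (H := H) (k := 1) (l := 2) (m := 0)
    (Or.inr (Or.inl rfl)) hA hlf (x0 := x0) (T := {x | x ∈ U ∧ f x = 0}) ⟨hx0U, hx0⟩
    (hf.cpt 0 (by simpa using hf.pos)) (hf.con 0 (by simpa using hf.pos)) (fun x hx => hx.1)
    (fun x hx => by rw [hx.2, hx0]) (O := univ) isOpen_univ (subset_univ _)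
    (fun x _ hxU hx => ⟨hxU, by rw [hx, hx0]⟩)
  exact ⟨D, Φ, lt, τ, h1, h2, hx0 ▸ h3⟩

/-- **`TubeQ` from the quantified tube** -/
theorem tubeQ_of {Q : F2 C →ₗ[ℝ] F2 C →ₗ[ℝ] ℝ} {e : F2 C} {A : Atl (2 * n) X}
    {hp : Cp (H.acm 0) A} {L Λ δ R0 : ℝ} {hL : 0 < L} (hR0 : 0 < R0) {Θ : W (2 * n) → X}
    (t : Mtub H {v | Q v e = 0} R0 Λ δ A hp L hL Θ)
    {A1 : Atl (2 * n) X} (hA1 : Cp (H.acm 1) A1) {K : Kah A1} {κ ρ : ℝ}
    (q : QTube A1 K n κ ρ)
    (hlag : LagFib A1 (L • (cmp_of_cp hA1).F (H.om 2)) (L • (cmp_of_cp hA1).F (H.om 0)) n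
      q.U q.f ρ)
    (hU : q.U ⊆ Θ '' tube (2 * n) R0) : TubeQ Q e H 1 A1 K κ ρ := by
  obtain ⟨D, Φ, lt, τ, h1, h2, h3⟩ := exists_holTube_lag hA1 hL hlag
  have hρ : 0 < ρ := hlag.pos
  have t0 := tubeD_C (hp := hp) hR0 t.tub
  have hpv : PVT Q e D Φ lt := by
    refine pvt_of_exOn h1 t0.toO.isOpen (fun y hy x => hU (h2 y hy x).1) fun v hv => ?_
    refine t0.toO.exOn_per hR0 fun j k θ => ?_
    have hm : ((θ, 0) : W (2 * n)) ∈ tube (2 * n) R0 := by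
      show ‖(0 : Mc673.V (2 * n))‖ < _
      rw [norm_zero]
      exact hR0
    rw [per_cmp (cmp_of_cp hp) t0.sm v hm]
    exact t.per v hv _ hm j k
  have hs : D ∩ ball (0 : Cn n) (ρ / 4) ⊆ D := inter_subset_left
  refine ⟨q, D ∩ ball 0 (ρ / 4), Φ, lt, τ, H.om 2, H.om 0,
    HolTube.mono h1 hs (h1.op.inter isOpen_ball) (h1.cv.inter (convex_ball _ _))
      ⟨0, h3, mem_ball_self (by linarith)⟩, PVT.mono hpv hs, fun y hy c => ?_⟩
  have h4 := h2 y hy.1 c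
  have h5 := h2 y hy.1 0
  refine ⟨h4.1, by rw [h4.2, h5.2], ?_⟩
  rw [h4.2]
  exact mem_ball_zero_iff.1 hy.2

end hol

end

end Crest.Agent.R281.Tq_836
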