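import Crest.Agent.R281.Qc_975
import Crest.Agent.R281.Tq1_836
import Crest.Agent.R281.Qd5_956
import Crest.Agent.R281.QtB2_355
import Crest.Agent.R281.Qt11_355
import Crest.Agent.R281.Qt9_922

/-!
# Row 281, QTubP (A4) (helper975): one member, from 922's `real_data`

* `RealData` : 922's Qt12 `real_data` as a Prop
* `mq_of : RealData → MQ`
-/

set_option autoImplicit false
set_option linter.unusedSectionVars false
set_option maxSynthPendingDepth 3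

open Set Filter Topology Metric
open scoped ContDiff

namespace Crest.Agent.R281.Qb_975

open Crest.Agent.R275.Geo Crest.Agent.R275.Core144 Crest.Agent.R275.GC293
open Crest.Agent.R275.EDR890
open Crest.Agent.R273.Defs_333 Crest.Agent.R273.Kah_333
open Crest.Agent.R260.ACM_580 Crest.Agent.R260.NNB_580
open Crest.Agent.R281.HkR_835 Crest.Agent.R281.Ti_846 Crest.Agent.R281.Cdr_234
open Crest.Agent.R281.Dif_268 Crest.Agent.R281.PL_713
open Crest.Agent.R281.NefO_476 Crest.Agent.R281.Nef_252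
open Crest.Agent.R281.Alg_998 Crest.Agent.R281.RkD_902
open Crest.Agent.R281.KapD_975
open Crest.Agent.R281.Mc673 (V W Fo tube ClF kv)
open Crest.Agent.R281.T5D_808 (TubeD)
open Crest.Agent.R281.Cr_808 (Mtub road_tube)
open Crest.Agent.R281.Per_368 (SmI pull)
open Crest.Agent.R281.Tub_57 (Geo IT LagFib)
open Crest.Agent.R281.Qt_922 (TFam RTube Push QTube reg Disc)
open Crest.Agent.R281.Sta2_684 (smulP)
open Crest.Agent.R281.Qd_956 (kap hq2 disc_mono pull_F)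

/-- 922's `real_data` -/
def RealData : Prop :=
  ∀ (n : ℕ) (Λ : ℝ), 0 < Λ → ∃ C : ℝ, 0 < C ∧ ∀ R : ℝ, 0 < R → ∃ δ : ℝ, 0 < δ ∧
    ∀ (X : Type) [TopologicalSpace X] (A : Atl (2 * n) X) (w w' : F2 (ofAtl A))
      (Θ : W (2 * n) → X), TubeD (ofAtl A) w w' (2 * n) (2 * R) Λ δ Θ →
      Geo (2 * R) (pull w Θ) (pull w' Θ) (IT A Θ) →
      ∃ (ε : ℝ) (a : V (2 * n) → V (2 * n) → V (2 * n)) (g : V (2 * n) → Cn n)
        (G : W (2 * n) → Cn n), 0 < ε ∧ ε ≤ 1 ∧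
        TFam (2 * R) R ε (pull w Θ) (pull w' Θ) a ∧ RTube n C R (IT A Θ) a g G

/-- **the statement at one member** -/
theorem mq_of (hRD : RealData) : MQ := by
  intro n Λ hn hΛ
  have hΛ1 : 0 < Λ + Λ ^ 3 := by positivity
  obtain ⟨C₀, hC₀, hD⟩ := hRD n (Λ + Λ ^ 3) hΛ1
  refine ⟨max (C₀ ^ 2 * Λ) (kap n Λ (Λ + Λ ^ 3) C₀), lt_max_of_lt_left (by positivity),
    fun ρ hρ => ?_⟩
  have hR : 0 < C₀ * ρ := mul_pos hC₀ hρ
  have hR2 : 0 < 2 * (C₀ * ρ) := by linarith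
  obtain ⟨δ, hδ, hδ'⟩ := hD (C₀ * ρ) hR
  refine ⟨2 * (C₀ * ρ), hR2, δ, hδ, fun X _ _ _ C H Q e A hp L hL Θ hM A1 hA1 K hK => ?_⟩
  obtain ⟨tD, G, P⟩ := Crest.Agent.R281.QtB_355.adapter hM hA1 hR2 hΛ K hK
  obtain ⟨ε, a, g, G', hε0, hε1, hT, hRt⟩ := hδ' X A1 _ _ Θ tD G
  have hs : SmI (ofAtl A1) (tube (2 * n) (2 * (C₀ * ρ))) Θ := Crest.Agent.R281.Qt11_355.Push.smI P
  have h2 : ∀ c, ‖c‖ < C₀ * ρ → ‖g c‖ < C₀ * ρ / C₀ → ∀ θ θ', ∃ γ : ℂ → X,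
      Disc A1 K (kap n Λ (Λ + Λ ^ 3) C₀) (range fun t => Θ (t, a c t)) γ ∧ γ 0 = Θ (θ', a c θ') ∧
        γ 1 = Θ (θ, a c θ) := by
    refine hq2 (H := smulP L hL H) (k := 1) (l := 2) (m := 0) (Or.inr (Or.inl rfl)) (A := A1)
      hA1 rfl P hRt hT hε1 hΛ.le hC₀.le (fun p hp' => ?_) (fun p hp' => ?_) tD.bd
      (fun p hp' u => Or.inl (tD.nd p hp' u))
    · exact pull_F (H := smulP L hL H) (k := 1) hA1 hs ((smulP L hL H).om 2) hp'
    · exact pull_F (H := smulP L hL H) (k := 1) hA1 hs ((smulP L hL H).om 0) hp'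
  obtain ⟨q, -, hqU, -, hlag, -⟩ := Crest.Agent.R281.Qt11_355.exists_qtube_lag rfl P hRt hT hC₀ hR
    (le_max_left _ _) (w := L • (cmp_of_cp hA1).F (H.om 2)) (w' := L • (cmp_of_cp hA1).F (H.om 0))
    (fun p _ => rfl) (fun p _ => rfl) (κ := max (C₀ ^ 2 * Λ) (kap n Λ (Λ + Λ ^ 3) C₀))
    (fun c hc hg θ θ' => by
      obtain ⟨γ, h3, h4, h5⟩ := h2 c hc hg θ θ'
      exact ⟨γ, disc_mono h3 (le_max_right _ _) Subset.rfl, h4, h5⟩)
  have hρ' : C₀ * ρ / C₀ = ρ := by field_simp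
  revert q
  rw [hρ']
  intro q hqU hlag
  exact Crest.Agent.R281.Tq_836.tubeQ_of hR2 hM hA1 q hlag hqU

end Crest.Agent.R281.Qb_975
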