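import Crest.Agent.R281.Qe_975
import Crest.Agent.R281.Kap_975

/-!
# Row 281, QTubP (A4) (helper975): `real_data`, `QTubP Alg_867.Alg`, `KappaP Alg_867.Alg Tub`
-/

set_option autoImplicit false
set_option linter.unusedSectionVars false
set_option maxSynthPendingDepth 3

open Set Filter Topology Metric
open scoped ContDiff

namespace Crest.Agent.R281.Qb_975

open Crest.Agent.R275.Geo Crest.Agent.R275.Core144 Crest.Agent.R275.GC293
open Crest.Agent.R275.EDR890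
open Crest.Agent.R273.Defs_333 Crest.Agent.R273.Kah_333
open Crest.Agent.R281.HkR_835 Crest.Agent.R281.Ti_846 Crest.Agent.R281.Cdr_234
open Crest.Agent.R281.RkD_902
open Crest.Agent.R281.KapD_975
open Crest.Agent.R281.Mc673 (V W Fo tube ClF kv Tori isOpen_tube)
open Crest.Agent.R281.T5D_808 (TubeD)
open Crest.Agent.R281.Per_368 (SmI pull)
open Crest.Agent.R281.Tub_57 (Geo IT LagFib Leaf)
open Crest.Agent.R281.Qt_922 (TFam RTube real_tube)
open Crest.Agent.R281.Bt_156 (Hyp toriR)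
open Crest.Agent.R281.Tp_836 (hyp_tubeD)

theorem hyp_mono {N : ℕ} {r Λ δ δ' : ℝ} {x y : Fo N} (h : Hyp r Λ δ x y) (hδ : δ ≤ δ') :
    Hyp r Λ δ' x y where
  cx := h.cx
  cy := h.cy
  bx := h.bx
  byy := h.byy
  nd := h.nd
  dx p hp := (h.dx p hp).trans hδ
  ddx p hp := (h.ddx p hp).trans hδ
  dy p hp := (h.dy p hp).trans hδ
  ddy p hp := (h.ddy p hp).trans hδ
  I := h.I
  mx := h.mx
  my := h.my

theorem tfam_of {N : ℕ} {r R ε : ℝ} {x y : Fo N} {a : V N → V N → V N} (h : Tori N r R ε x y a) :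
    TFam r R ε x y a where
  leaf c hc :=
    { c1 := h.c1 c hc.le
      per := h.per c hc.le
      tub := fun θ => h.lt c hc.le θ
      ix := fun θ u v => h.x0 c hc.le θ u v
      iy := fun θ u v => h.y0 c hc.le θ u v }
  near c hc := h.near c hc.le
  dnear c hc := h.dnear c hc.le
  lip c hc c' hc' := h.lip c c' hc.le hc'.le
  dlip c hc c' hc' := h.dlip c c' hc.le hc'.le

theorem tfam_mono {N : ℕ} {r R ε ε' : ℝ} {x y : Fo N} {a : V N → V N → V N}
    (h : TFam r R ε x y a) (he : ε ≤ ε') : TFam r R ε' x y a where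
  leaf := h.leaf
  near c hc θ := (h.near c hc θ).trans he
  dnear c hc θ := (h.dnear c hc θ).trans he
  lip c hc c' hc' θ := (h.lip c hc c' hc' θ).trans (mul_le_mul_of_nonneg_right he (norm_nonneg _))
  dlip c hc c' hc' θ :=
    (h.dlip c hc c' hc' θ).trans (mul_le_mul_of_nonneg_right he (norm_nonneg _))

theorem convex_tube (N : ℕ) (r : ℝ) : Convex ℝ (tube N r) := by
  have h1 : tube N r = (ContinuousLinearMap.snd ℝ (V N) (V N)) ⁻¹' ball (0 : V N) r := by
    ext p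
    simp [tube]
  rw [h1]
  exact (convex_ball _ _).linear_preimage _

/-- mean value estimate on the tube -/
theorem mv {N : ℕ} {r δ : ℝ} (hr : 0 < r) {x : Fo N} (hx : ClF r x)
    (hd : ∀ p ∈ tube N r, ‖fderiv ℝ x p‖ ≤ δ) {p : W N} (hp : p ∈ tube N r) (hp1 : ‖p.1‖ ≤ 1) :
    ‖x p - x 0‖ ≤ δ * (1 + r) := by
  have h0 : (0 : W N) ∈ tube N r := by
    show ‖(0 : W N).2‖ < r
    simpa using hr
  have h1 := Convex.norm_image_sub_le_of_norm_fderiv_le (𝕜 := ℝ) (f := x) (s := tube N r) (C := δ)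
    (fun q hq => (hx.sm.contDiffAt ((isOpen_tube r).mem_nhds hq)).differentiableAt (by simp))
    hd (convex_tube N r) h0 hp
  refine h1.trans (mul_le_mul_of_nonneg_left ?_ ((norm_nonneg _).trans (hd 0 h0)))
  rw [sub_zero, Prod.norm_def]
  have h2 : ‖p.2‖ < r := hp
  exact max_le (by linarith) (by linarith)

/-- nondegeneracy of the second form -/
theorem nd2 {N : ℕ} {r Λ δ : ℝ} {x y : Fo N} (hΛ : 0 < Λ) (h : Hyp r Λ δ x y) {p : W N}
    (hp : p ∈ tube N r) (u : W N) : ‖u‖ ≤ Λ ^ 3 * ‖y p u‖ := by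
  obtain ⟨I, h1, h2⟩ := h.I p hp
  have e1 : ∀ u, ‖x p (I u)‖ = ‖y p u‖ := fun u => by
    have : x p (I u) = - y p u := ContinuousLinearMap.ext fun w => h2 u w
    rw [this, norm_neg]
  have h3 : ‖I u‖ ≤ Λ * ‖y p u‖ := by
    have := h.nd p hp (I u)
    rwa [e1] at this
  have h4 : ‖u‖ ≤ Λ * ‖y p (I u)‖ := by
    have := h.nd p hp (I (I u))
    rwa [e1, h1, norm_neg] at this
  have h5 : ‖y p (I u)‖ ≤ Λ * ‖I u‖ :=
    ((y p).le_opNorm (I u)).trans (mul_le_mul_of_nonneg_right (h.byy p hp) (norm_nonneg _))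
  calc ‖u‖ ≤ Λ * (Λ * (Λ * ‖y p u‖)) :=
        h4.trans (mul_le_mul_of_nonneg_left (h5.trans (mul_le_mul_of_nonneg_left h3 hΛ.le)) hΛ.le)
    _ = _ := by ring

/-- **`real_data`** -/
theorem real_data : RealData := by
  intro n Λ hΛ
  have hΛ' : 1 ≤ 1 + Λ + Λ ^ 3 := by
    have : 0 < Λ ^ 3 := by positivity
    linarith
  obtain ⟨ε1, hε1, C, hC, hrt⟩ := real_tube (N := 2 * n) (n := n) rfl hΛ'
  refine ⟨C, hC, fun R hR => ?_⟩
  obtain ⟨del, hdel, hT⟩ := toriR (2 * n) Λ (min ε1 1) R hΛ (lt_min hε1 one_pos) hR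
  have hR2 : 0 < 2 * R := by linarith
  have hd1 : 0 < ε1 / (1 + 2 * R) := by positivity
  refine ⟨min del (ε1 / (1 + 2 * R)), lt_min hdel hd1, fun X _ A w w' Θ tD G => ?_⟩
  have hy := hyp_tubeD tD
  obtain ⟨a, ha⟩ := hT _ _ (hyp_mono hy (min_le_left _ _))
  have hF := tfam_of ha
  have h0 : (0 : W (2 * n)) ∈ tube (2 * n) (2 * R) := by
    show ‖(0 : W (2 * n)).2‖ < 2 * R
    simpa using hR2
  have hde : min del (ε1 / (1 + 2 * R)) * (1 + 2 * R) ≤ ε1 := by
    calc min del (ε1 / (1 + 2 * R)) * (1 + 2 * R) ≤ ε1 / (1 + 2 * R) * (1 + 2 * R) :=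
          mul_le_mul_of_nonneg_right (min_le_right _ _) (by linarith)
      _ = ε1 := by field_simp
  have hde1 : min del (ε1 / (1 + 2 * R)) ≤ ε1 := by
    have h1 : 0 < min del (ε1 / (1 + 2 * R)) := lt_min hdel hd1
    nlinarith
  have hΛ3 : 0 < Λ ^ 3 := by positivity
  obtain ⟨g, G', hg⟩ := hrt (2 * R) R (pull w Θ) (pull w' Θ) (IT A Θ) a hR G
    ((hy.bx 0 h0).trans (by linarith)) ((hy.byy 0 h0).trans (by linarith))
    (fun u => (nd2 hΛ hy h0 u).trans
      (mul_le_mul_of_nonneg_right (by linarith) (norm_nonneg _)))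
    (fun u v => ((tD.hh 0 h0 u v).2).trans (mul_le_mul_of_nonneg_right
      (mul_le_mul_of_nonneg_right hde1 (norm_nonneg _)) (norm_nonneg _)))
    (fun p hp hp1 => (mv hR2 hy.cx (fun q hq => hy.dx q hq) hp hp1).trans hde)
    (fun p hp hp1 => (mv hR2 hy.cy (fun q hq => hy.dy q hq) hp hp1).trans hde)
    (tfam_mono hF (min_le_left _ _))
  exact ⟨min ε1 1, a, g, G', lt_min hε1 one_pos, min_le_right _ _, hF, hg⟩

/-- **QTubP** -/
theorem qtubP : QTubP Alg_867.Alg := qtubP_of_mq (mq_of real_data)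

/-- **node N7** -/
theorem kappaP (Tub : TubTT) : KappaP Alg_867.Alg Tub :=
  Crest.Agent.R281.Kap_975.kappaP_of _ _ qtubP

end Crest.Agent.R281.Qb_975
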