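import Crest.Agent.R281.Rich2_710

/-!
# R281 (S0424), DIV 6, QPSH-LIM (helper911), file 1: ball averages of `C²` plurisubharmonic functions

* `mp_rot`, `rot_ball` : additive Haar measures are invariant under unit complex scalars;
* `Sm2 K u`  : `u` is `C²` with Levi form `≥ 0` at every point of `K`;
* `core`     : `∫_{B(0,R)} u (z + φ(0) y) ≤ ∫_{B(0,R)} u (z + y)` for an inner function `φ`;
* `core_id`, `core_mono`, `core_holo`, `core_radial`.
-/

set_option autoImplicit false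
set_option linter.unusedSectionVars false

open Set Filter Topology Metric Real MeasureTheory
open scoped ContDiff

noncomputable section

namespace Crest.Agent.R281.Qp1_911

open Crest.Agent.R269.SubM_79 Crest.Agent.R257.HoB_843 Crest.Agent.R257.Glue2_101
  Crest.Agent.R281.Rich_710

section rot

variable {E : Type*} [NormedAddCommGroup E] [NormedSpace ℂ E] [NormedSpace ℝ E]
  [IsScalarTower ℝ ℂ E] [FiniteDimensional ℝ E] [MeasurableSpace E] [BorelSpace E]
  {μ : Measure E} [μ.IsAddHaarMeasure]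

/-- multiplication by a unit complex number preserves additive Haar measures -/
theorem mp_rot {c : ℂ} (hc : ‖c‖ = 1) : MeasurePreserving (fun y : E => c • y) μ μ := by
  have hc0 : c ≠ 0 := by
    rintro rfl
    simp at hc
  let L : E ≃ₗ[ℝ] E := (LinearEquiv.smulOfNeZero ℂ E c hc0).restrictScalars ℝ
  have hL : ∀ y, L y = c • y := fun y => rfl
  have hdet : LinearMap.det (L : E →ₗ[ℝ] E) ≠ 0 := (LinearEquiv.isUnit_det' L).ne_zero
  have h1 := Measure.map_linearMap_addHaar_eq_smul_addHaar (μ := μ) hdet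
  have hcont : Continuous fun y : E => c • y := by fun_prop
  have h2 : (μ.map fun y : E => c • y) (ball 0 1) = μ (ball 0 1) := by
    rw [Measure.map_apply hcont.measurable measurableSet_ball]
    congr 1
    ext y
    simp [norm_smul, hc]
  have h3 : (⇑(L : E →ₗ[ℝ] E)) = fun y : E => c • y := by
    funext y; rfl
  rw [h3] at h1
  rw [h1] at h2
  have h4 : μ (ball (0 : E) 1) ≠ 0 := (measure_ball_pos μ 0 one_pos).ne'
  have hprop : ProperSpace E := FiniteDimensional.proper ℝ E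
  have h5 : μ (ball (0 : E) 1) ≠ ⊤ := measure_ball_lt_top.ne
  have h6 : ENNReal.ofReal |(LinearMap.det (L : E →ₗ[ℝ] E))⁻¹| = 1 := by
    rw [Measure.smul_apply, smul_eq_mul] at h2
    exact (ENNReal.mul_eq_right h4 h5).1 h2
  rw [h6, one_smul] at h1
  exact ⟨hcont.measurable, h1⟩

theorem rot_ball {c : ℂ} (hc : ‖c‖ = 1) (g : E → ℝ) (r : ℝ) :
    ∫ y in ball (0 : E) r, g (c • y) ∂μ = ∫ y in ball (0 : E) r, g y ∂μ := by
  have hc0 : c ≠ 0 := by
    rintro rfl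
    simp at hc
  have h1 := (mp_rot (E := E) (μ := μ) hc).setIntegral_preimage_emb
    (Homeomorph.smulOfNeZero c hc0).measurableEmbedding g (ball (0 : E) r)
  rw [← h1]
  congr 2
  ext y
  simp [norm_smul, hc]

theorem rot_univ {c : ℂ} (hc : ‖c‖ = 1) (g : E → ℝ) :
    ∫ y, g (c • y) ∂μ = ∫ y, g y ∂μ := by
  have hc0 : c ≠ 0 := by
    rintro rfl
    simp at hc
  exact (mp_rot (E := E) (μ := μ) hc).integral_comp
    (Homeomorph.smulOfNeZero c hc0).measurableEmbedding g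

end rot

/-! ### the basic inequality -/

/-- `C²` with Levi form `≥ 0` at every point of `K` -/
def Sm2 {E : Type*} [NormedAddCommGroup E] [NormedSpace ℂ E] [NormedSpace ℝ E] (K : Set E)
    (u : E → ℝ) : Prop := ∀ x ∈ K, ContDiffAt ℝ 2 u x ∧ ∀ a, 0 ≤ lvE u x a

section core

variable {E : Type*} [NormedAddCommGroup E] [NormedSpace ℂ E] [NormedSpace ℝ E]
  [IsScalarTower ℝ ℂ E]

theorem Sm2.mono {K K' : Set E} {u : E → ℝ} (h : Sm2 K u) (hK : K' ⊆ K) : Sm2 K' u :=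
  fun x hx => h x (hK hx)

theorem Sm2.continuousOn {K : Set E} {u : E → ℝ} (h : Sm2 K u) : ContinuousOn u K :=
  fun x hx => (h x hx).1.continuousAt.continuousWithinAt

/-- one point version of the basic inequality -/
theorem Sm2.le_avg {u : E → ℝ} {z y : E} {φ : ℂ → ℂ}
    (hφ : ∀ ζ ∈ closedBall (0 : ℂ) 1, AnalyticAt ℂ φ ζ)
    (hu : ∀ ζ ∈ closedBall (0 : ℂ) 1, ContDiffAt ℝ 2 u (z + φ ζ • y) ∧
      ∀ a, 0 ≤ lvE u (z + φ ζ • y) a) :
    u (z + φ 0 • y) ≤ circleAverage (fun ζ => u (z + φ ζ • y)) 0 1 := by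
  have hT : ∀ ζ ∈ closedBall (0 : ℂ) 1, ContDiffAt ℂ 2 (fun ζ : ℂ => z + φ ζ • y) ζ := by
    intro ζ hζ
    exact contDiffAt_const.add ((hφ ζ hζ).contDiffAt.smul contDiffAt_const)
  have h := Crest.Agent.R275.FL884.le_circleAverage_of_contDiffAt
    (ψ := fun ζ : ℂ => u (z + φ ζ • y)) (c := 0)
    (fun ζ hζ => ((hu ζ hζ).1).comp ζ ((hT ζ hζ).restrict_scalars ℝ))
    (fun ζ hζ => by
      rw [lap_eq_lvE]
      have h1 := lvE_comp (T := fun ζ : ℂ => z + φ ζ • y) (u := u) (z := ζ) (hT ζ hζ)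
        (hu ζ hζ).1 1
      have h2 : lvE (fun ζ : ℂ => u (z + φ ζ • y)) ζ 1 =
          lvE u (z + φ ζ • y) (fderiv ℂ (fun ζ : ℂ => z + φ ζ • y) ζ 1) := h1
      rw [h2]
      have := (hu ζ hζ).2 (fderiv ℂ (fun ζ : ℂ => z + φ ζ • y) ζ 1)
      linarith)
  simpa using h

variable [FiniteDimensional ℝ E] [MeasurableSpace E] [BorelSpace E]
  {μ : Measure E} [μ.IsAddHaarMeasure]

/-- weighted basic inequality: `η` a continuous function, invariant under unit complex scalars -/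
theorem core_w {u : E → ℝ} {z : E} {R : ℝ} (hu : Sm2 (closedBall z R) u) {η : E → ℝ}
    (hη : Continuous η) (hη0 : ∀ y, 0 ≤ η y) (hηr : ∀ (c : ℂ) (y : E), ‖c‖ = 1 → η (c • y) = η y)
    {φ : ℂ → ℂ} (hφ : ∀ ζ ∈ closedBall (0 : ℂ) 1, AnalyticAt ℂ φ ζ)
    (h1 : ∀ ζ ∈ closedBall (0 : ℂ) 1, ‖φ ζ‖ ≤ 1) (h2 : ∀ ζ : ℂ, ‖ζ‖ = 1 → ‖φ ζ‖ = 1) :
    ∫ y in ball (0 : E) R, η y * u (z + φ 0 • y) ∂μ ≤ ∫ y in ball (0 : E) R, η y * u (z + y) ∂μ := by
  have hprop : ProperSpace E := FiniteDimensional.proper ℝ E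
  have hmem : ∀ ζ ∈ closedBall (0 : ℂ) 1, ∀ y ∈ closedBall (0 : E) R,
      z + φ ζ • y ∈ closedBall z R := by
    intro ζ hζ y hy
    rw [mem_closedBall, dist_eq_norm, add_sub_cancel_left, norm_smul]
    have hy' : ‖y‖ ≤ R := by simpa using hy
    calc ‖φ ζ‖ * ‖y‖ ≤ 1 * ‖y‖ := by gcongr; exact h1 ζ hζ
      _ ≤ R := by rwa [one_mul]
  have hpt : ∀ y ∈ ball (0 : E) R, u (z + φ 0 • y) ≤
      circleAverage (fun ζ => u (z + φ ζ • y)) 0 1 := fun y hy =>
    Sm2.le_avg hφ fun ζ hζ => hu _ (hmem ζ hζ y (ball_subset_closedBall hy))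
  -- continuity on the product
  set F : ℝ → E → ℝ := fun θ y => η y * u (z + φ (circleMap 0 1 θ) • y) with hF
  have hcm : ∀ θ, circleMap 0 1 θ ∈ closedBall (0 : ℂ) 1 := fun θ => by
    simp [circleMap_zero]
  have hφc : Continuous fun θ : ℝ => φ (circleMap 0 1 θ) := by
    rw [continuous_iff_continuousAt]
    intro θ
    exact ContinuousAt.comp (f := circleMap 0 1) (g := φ) (hφ _ (hcm θ)).continuousAt
      (continuous_circleMap 0 1).continuousAt
  have hFc : ContinuousOn (Function.uncurry F) (univ ×ˢ closedBall (0 : E) R) := by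
    refine (hη.comp continuous_snd).continuousOn.mul (hu.continuousOn.comp (Continuous.continuousOn ?_) ?_)
    · exact continuous_const.add ((hφc.comp continuous_fst).smul continuous_snd)
    · rintro ⟨θ, y⟩ ⟨-, hy⟩
      exact hmem _ (hcm θ) y hy
  have hI : Integrable (Function.uncurry F)
      ((volume.restrict (uIoc 0 (2 * π))).prod (μ.restrict (ball (0 : E) R))) := by
    rw [Measure.prod_restrict]
    have h3 : IntegrableOn (Function.uncurry F) ((Icc 0 (2 * π)) ×ˢ closedBall (0 : E) R)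
        (volume.prod μ) :=
      (hFc.mono (prod_mono (subset_univ _) subset_rfl)).integrableOn_compact
        (isCompact_Icc.prod (isCompact_closedBall _ _))
    refine h3.mono_set (prod_mono ?_ ball_subset_closedBall)
    rw [uIoc_of_le (by positivity)]
    exact Ioc_subset_Icc_self
  have h0 : (0 : ℂ) ∈ closedBall (0 : ℂ) 1 := by simp
  have hL : IntegrableOn (fun y => η y * u (z + φ 0 • y)) (ball (0 : E) R) μ := by
    have h4 : ContinuousOn (fun y => η y * u (z + φ 0 • y)) (closedBall (0 : E) R) := by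
      refine hη.continuousOn.mul (hu.continuousOn.comp (by fun_prop) ?_)
      intro y hy
      exact hmem 0 h0 y hy
    exact (h4.integrableOn_compact (isCompact_closedBall _ _)).mono_set ball_subset_closedBall
  have hswap : ∫ y in ball (0 : E) R, η y * circleAverage (fun ζ => u (z + φ ζ • y)) 0 1 ∂μ =
      (2 * π)⁻¹ * ∫ θ in (0 : ℝ)..2 * π, ∫ y in ball (0 : E) R, F θ y ∂μ := by
    rw [intervalIntegral_integral_swap hI, ← integral_const_mul]
    congr 1
    funext y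
    rw [hF, intervalIntegral.integral_const_mul]
    have : circleAverage (fun ζ => u (z + φ ζ • y)) 0 1 =
      (2 * π)⁻¹ * ∫ θ in (0 : ℝ)..2 * π, u (z + φ (circleMap 0 1 θ) • y) := rfl
    rw [this]; ring
  have hR : IntegrableOn (fun y => η y * circleAverage (fun ζ => u (z + φ ζ • y)) 0 1)
      (ball (0 : E) R) μ := by
    have h5 := hI.integral_prod_right
    have h6 := h5.const_mul (2 * π)⁻¹
    refine h6.congr (Eventually.of_forall fun y => ?_)
    show (2 * π)⁻¹ * ∫ θ in uIoc 0 (2 * π), η y * u (z + φ (circleMap 0 1 θ) • y) = _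
    rw [uIoc_of_le (by positivity), ← intervalIntegral.integral_of_le (by positivity),
      intervalIntegral.integral_const_mul]
    show (2 * π)⁻¹ * (η y * ∫ θ in (0 : ℝ)..2 * π, u (z + φ (circleMap 0 1 θ) • y)) =
      η y * ((2 * π)⁻¹ * ∫ θ in (0 : ℝ)..2 * π, u (z + φ (circleMap 0 1 θ) • y))
    ring
  have h7 : ∀ θ : ℝ, ∫ y in ball (0 : E) R, F θ y ∂μ = ∫ y in ball (0 : E) R, η y * u (z + y) ∂μ := by
    intro θ
    have h8 : ‖φ (circleMap 0 1 θ)‖ = 1 := h2 _ (by simp [circleMap_zero])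
    rw [← rot_ball (μ := μ) h8 (fun y => η y * u (z + y)) R]
    simp only [hF]
    congr 1
    funext y
    rw [hηr _ _ h8]
  calc ∫ y in ball (0 : E) R, η y * u (z + φ 0 • y) ∂μ
      ≤ ∫ y in ball (0 : E) R, η y * circleAverage (fun ζ => u (z + φ ζ • y)) 0 1 ∂μ :=
        setIntegral_mono_on hL hR measurableSet_ball fun y hy =>
          mul_le_mul_of_nonneg_left (hpt y hy) (hη0 y)
    _ = (2 * π)⁻¹ * ∫ θ in (0 : ℝ)..2 * π, ∫ y in ball (0 : E) R, F θ y ∂μ := hswap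
    _ = ∫ y in ball (0 : E) R, η y * u (z + y) ∂μ := by
        simp only [h7]
        rw [intervalIntegral.integral_const, smul_eq_mul]
        field_simp
        ring

theorem core {u : E → ℝ} {z : E} {R : ℝ} (hu : Sm2 (closedBall z R) u)
    {φ : ℂ → ℂ} (hφ : ∀ ζ ∈ closedBall (0 : ℂ) 1, AnalyticAt ℂ φ ζ)
    (h1 : ∀ ζ ∈ closedBall (0 : ℂ) 1, ‖φ ζ‖ ≤ 1) (h2 : ∀ ζ : ℂ, ‖ζ‖ = 1 → ‖φ ζ‖ = 1) :
    ∫ y in ball (0 : E) R, u (z + φ 0 • y) ∂μ ≤ ∫ y in ball (0 : E) R, u (z + y) ∂μ := by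
  have := core_w (μ := μ) hu (η := fun _ => 1) continuous_const (fun _ => zero_le_one)
    (fun _ _ _ => rfl) hφ h1 h2
  simpa using this

/-- sub-mean value property on balls -/
theorem core_id {u : E → ℝ} {z : E} {R : ℝ} (hu : Sm2 (closedBall z R) u) :
    μ.real (ball (0 : E) R) * u z ≤ ∫ y in ball (0 : E) R, u (z + y) ∂μ := by
  have := core (μ := μ) hu (φ := fun ζ => ζ) (fun ζ _ => analyticAt_id)
    (fun ζ hζ => by simpa using hζ) (fun ζ hζ => hζ)
  simpa using this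

/-- weighted sub-mean value property on balls -/
theorem core_id_w {u : E → ℝ} {z : E} {R : ℝ} (hu : Sm2 (closedBall z R) u) {η : E → ℝ}
    (hη : Continuous η) (hη0 : ∀ y, 0 ≤ η y)
    (hηr : ∀ (c : ℂ) (y : E), ‖c‖ = 1 → η (c • y) = η y) :
    (∫ y in ball (0 : E) R, η y ∂μ) * u z ≤ ∫ y in ball (0 : E) R, η y * u (z + y) ∂μ := by
  have := core_w (μ := μ) hu hη hη0 hηr (φ := fun ζ => ζ) (fun ζ _ => analyticAt_id)
    (fun ζ hζ => by simpa using hζ) (fun ζ hζ => hζ)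
  simpa [integral_mul_const] using this

/-- the Moebius function `ζ ↦ (ζ + t) / (1 + t ζ)` -/
theorem moeb {t : ℝ} (ht : 0 ≤ t) (ht1 : t < 1) :
    (∀ ζ ∈ closedBall (0 : ℂ) 1, AnalyticAt ℂ (fun ζ : ℂ => (ζ + t) / (1 + t * ζ)) ζ) ∧
    (∀ ζ ∈ closedBall (0 : ℂ) 1, ‖(ζ + t) / (1 + t * ζ)‖ ≤ 1) ∧
    (∀ ζ : ℂ, ‖ζ‖ = 1 → ‖(ζ + t) / (1 + t * ζ)‖ = 1) := by
  have hne : ∀ ζ : ℂ, ‖ζ‖ ≤ 1 → (1 : ℂ) + t * ζ ≠ 0 := by
    intro ζ hζ h
    have h1 : (t : ℂ) * ζ = -1 := by linear_combination h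
    have h2 : ‖(t : ℂ) * ζ‖ = 1 := by rw [h1]; simp
    rw [norm_mul, Complex.norm_real, Real.norm_of_nonneg ht] at h2
    nlinarith [norm_nonneg ζ]
  have hsq : ∀ ζ : ℂ, ‖1 + (t : ℂ) * ζ‖ ^ 2 - ‖ζ + t‖ ^ 2 = (1 - t ^ 2) * (1 - ‖ζ‖ ^ 2) := by
    intro ζ
    simp only [← Complex.normSq_eq_norm_sq, Complex.normSq_apply]
    simp
    ring
  refine ⟨fun ζ hζ => ?_, fun ζ hζ => ?_, fun ζ hζ => ?_⟩
  · have hζ1 : ‖ζ‖ ≤ 1 := by simpa using hζ
    exact (analyticAt_id.add analyticAt_const).div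
      (analyticAt_const.add (analyticAt_const.mul analyticAt_id)) (hne ζ hζ1)
  · have hζ1 : ‖ζ‖ ≤ 1 := by simpa using hζ
    rw [norm_div, div_le_one (norm_pos_iff.2 (hne ζ hζ1))]
    have h1 := hsq ζ
    have h2 : 0 ≤ (1 - t ^ 2) * (1 - ‖ζ‖ ^ 2) := by
      refine mul_nonneg ?_ ?_
      · nlinarith
      · nlinarith [norm_nonneg ζ]
    exact (sq_le_sq₀ (norm_nonneg _) (norm_nonneg _)).1 (by linarith)
  · rw [norm_div, div_eq_one_iff_eq (norm_ne_zero_iff.2 (hne ζ hζ.le))]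
    have h1 := hsq ζ
    rw [hζ] at h1
    have h2 : ‖1 + (t : ℂ) * ζ‖ ^ 2 = ‖ζ + t‖ ^ 2 := by linarith
    exact ((sq_eq_sq₀ (norm_nonneg _) (norm_nonneg _)).1 h2).symm

/-- monotonicity -/
theorem core_mono {u : E → ℝ} {z : E} {R : ℝ} (hu : Sm2 (closedBall z R) u) {t : ℝ} (ht : 0 ≤ t)
    (ht1 : t ≤ 1) :
    ∫ y in ball (0 : E) R, u (z + t • y) ∂μ ≤ ∫ y in ball (0 : E) R, u (z + y) ∂μ := by
  rcases ht1.eq_or_lt with rfl | ht1
  · simp
  obtain ⟨a, b, c⟩ := moeb ht ht1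
  have := core (μ := μ) hu (φ := fun ζ : ℂ => (ζ + t) / (1 + t * ζ)) a b c
  have e : ∀ y : E, (((0 : ℂ) + t) / (1 + t * 0)) • y = t • y := by
    intro y
    rw [show ((0 : ℂ) + t) / (1 + t * 0) = algebraMap ℝ ℂ t by simp, algebraMap_smul]
  simpa only [e] using this

end core

/-! ### composition with holomorphic maps -/

section holo

variable {E F : Type*} [NormedAddCommGroup E] [NormedSpace ℂ E] [NormedSpace ℝ E]
  [IsScalarTower ℝ ℂ E] [NormedAddCommGroup F] [NormedSpace ℂ F] [NormedSpace ℝ F]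
  [IsScalarTower ℝ ℂ F]

theorem Sm2.comp [FiniteDimensional ℝ E] {K : Set F} {S : Set E} {u : E → ℝ} (hu : Sm2 S u) {ψ : F → E}
    (hψ : ∀ w ∈ K, AnalyticAt ℂ ψ w) (hm : ∀ w ∈ K, ψ w ∈ S) : Sm2 K (fun w => u (ψ w)) := by
  intro w hw
  have : CompleteSpace E := FiniteDimensional.complete ℝ E
  have h1 : ContDiffAt ℂ 2 ψ w := (hψ w hw).contDiffAt
  refine ⟨(hu _ (hm w hw)).1.comp w (h1.restrict_scalars ℝ), fun a => ?_⟩
  have h2 := lvE_comp (T := ψ) (u := u) (z := w) h1 (hu _ (hm w hw)).1 a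
  have h3 : lvE (fun w => u (ψ w)) w a = lvE u (ψ w) (fderiv ℂ ψ w a) := h2
  rw [h3]
  exact (hu _ (hm w hw)).2 _

end holo

end Crest.Agent.R281.Qp1_911
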