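import Crest.Agent.R281.Qp1_911

/-!
# R281 (S0424), DIV 6, QPSH-LIM (helper911), file 2: ball averages of integrable functions

* `Av μ v r z` : average of `v` over the ball `B(z, r)`;
* `Av_sub_le`, `Av_mono_fun`, `continuousAt_Av`, `tendsto_Av_cont`, `Av_smul`;
* `Good μ v z` : the averages converge (in `ℝ`) as `r → 0+`; `val μ v z` : the limit;
* `ae_good` : Lebesgue differentiation theorem: a.e. point of an open set on which `v` is locally
  integrable is good, with `val μ v z = v z`;
* `Good.add_cont`, `val_add_cont` : adding a continuous function.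
-/

set_option autoImplicit false
set_option linter.unusedSectionVars false

open Set Filter Topology Metric Real MeasureTheory
open scoped ContDiff Pointwise

noncomputable section

namespace Crest.Agent.R281.Qp2_911

open Crest.Agent.R281.Qp1_911

variable {E : Type*} [NormedAddCommGroup E] [NormedSpace ℝ E] [FiniteDimensional ℝ E]
  [MeasurableSpace E] [BorelSpace E] {μ : Measure E} [μ.IsAddHaarMeasure]

/-- average over the ball `B(z, r)` -/
def Av (μ : Measure E) (v : E → ℝ) (r : ℝ) (z : E) : ℝ :=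
  (μ.real (ball (0 : E) r))⁻¹ * ∫ y in ball z r, v y ∂μ

theorem vol_pos {r : ℝ} (hr : 0 < r) : 0 < μ.real (ball (0 : E) r) := by
  have hprop : ProperSpace E := FiniteDimensional.proper ℝ E
  exact ENNReal.toReal_pos (measure_ball_pos μ 0 hr).ne' measure_ball_lt_top.ne

theorem vol_ball (z : E) (r : ℝ) : μ.real (ball z r) = μ.real (ball (0 : E) r) :=
  Measure.addHaar_real_ball_center μ z r

theorem ball_ne_top (z : E) (r : ℝ) : μ (ball z r) ≠ ⊤ := by
  have hprop : ProperSpace E := FiniteDimensional.proper ℝ E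
  exact measure_ball_lt_top.ne

theorem int_trans (v : E → ℝ) (r : ℝ) (z : E) :
    ∫ y in ball (0 : E) r, v (z + y) ∂μ = ∫ y in ball z r, v y ∂μ := by
  have h1 := (measurePreserving_add_left μ z).setIntegral_preimage_emb
    (Homeomorph.addLeft z).measurableEmbedding v (ball z r)
  rw [← h1]
  congr 2
  ext y
  simp [dist_eq_norm]

theorem Av_eq (v : E → ℝ) (r : ℝ) (z : E) :
    Av μ v r z = (μ.real (ball (0 : E) r))⁻¹ * ∫ y in ball (0 : E) r, v (z + y) ∂μ := by
  rw [int_trans]; rfl

theorem Av_const (c : ℝ) {r : ℝ} (hr : 0 < r) (z : E) : Av μ (fun _ => c) r z = c := by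
  have h := vol_pos (μ := μ) hr
  unfold Av
  rw [setIntegral_const, vol_ball z r, smul_eq_mul]
  field_simp

theorem Av_congr {v v' : E → ℝ} {r : ℝ} {z : E} (h : ∀ᵐ y ∂μ.restrict (ball z r), v y = v' y) :
    Av μ v r z = Av μ v' r z := by
  unfold Av
  rw [integral_congr_ae h]

theorem Av_add {v v' : E → ℝ} {r : ℝ} {z : E} (h : IntegrableOn v (ball z r) μ)
    (h' : IntegrableOn v' (ball z r) μ) :
    Av μ (fun y => v y + v' y) r z = Av μ v r z + Av μ v' r z := by
  unfold Av
  rw [integral_add h h']; ring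

theorem Av_neg (v : E → ℝ) (r : ℝ) (z : E) : Av μ (fun y => - v y) r z = - Av μ v r z := by
  unfold Av
  rw [integral_neg]; ring

theorem Av_sub {v v' : E → ℝ} {r : ℝ} {z : E} (h : IntegrableOn v (ball z r) μ)
    (h' : IntegrableOn v' (ball z r) μ) :
    Av μ (fun y => v y - v' y) r z = Av μ v r z - Av μ v' r z := by
  unfold Av
  rw [integral_sub h h']; ring

theorem Av_const_mul (c : ℝ) (v : E → ℝ) (r : ℝ) (z : E) :
    Av μ (fun y => c * v y) r z = c * Av μ v r z := by
  unfold Av
  rw [integral_const_mul]; ring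

theorem Av_le {v v' : E → ℝ} {r : ℝ} {z : E} (h : IntegrableOn v (ball z r) μ)
    (h' : IntegrableOn v' (ball z r) μ) (hle : ∀ᵐ y ∂μ.restrict (ball z r), v y ≤ v' y) :
    Av μ v r z ≤ Av μ v' r z := by
  unfold Av
  exact mul_le_mul_of_nonneg_left (integral_mono_ae h h' hle) (by positivity)

/-- two functions which are close in `L¹` have close averages -/
theorem abs_Av_sub_le {u v : E → ℝ} {r : ℝ} {z : E} {K : Set E} (hK : ball z r ⊆ K)
    (hu : IntegrableOn u K μ) (hv : IntegrableOn v K μ) :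
    |Av μ u r z - Av μ v r z| ≤ (μ.real (ball (0 : E) r))⁻¹ * ∫ y in K, |u y - v y| ∂μ := by
  rw [← Av_sub (hu.mono_set hK) (hv.mono_set hK)]
  unfold Av
  rw [abs_mul, abs_of_nonneg (by positivity : 0 ≤ (μ.real (ball (0 : E) r))⁻¹)]
  refine mul_le_mul_of_nonneg_left ?_ (by positivity)
  refine (abs_integral_le_integral_abs).trans ?_
  exact setIntegral_mono_set (hu.sub hv).abs (Eventually.of_forall fun y => abs_nonneg _)
    (LE.le.eventuallyLE hK)

/-- continuity of the averages in the centre -/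
theorem continuousAt_Av {v : E → ℝ} {z₀ : E} {r r' : ℝ} (h0 : 0 < r) (hr : r < r')
    (hv : IntegrableOn v (closedBall z₀ r') μ) : ContinuousAt (Av μ v r) z₀ := by
  unfold Av
  refine continuousAt_const.mul ?_
  have e : ∀ z, ∫ y in ball z r, v y ∂μ = ∫ y, (ball z r).indicator v y ∂μ := fun z =>
    (integral_indicator measurableSet_ball).symm
  simp only [e]
  have hsub : ∀ z ∈ ball z₀ (r' - r), ball z r ⊆ closedBall z₀ r' := by
    intro z hz y hy
    rw [mem_closedBall]
    rw [mem_ball] at hz hy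
    linarith [dist_triangle y z z₀]
  have hnear : ∀ᶠ z in 𝓝 z₀, z ∈ ball z₀ (r' - r) := ball_mem_nhds z₀ (by linarith)
  refine continuousAt_of_dominated (bound := fun y => (closedBall z₀ r').indicator (fun y => ‖v y‖) y)
    ?_ ?_ ?_ ?_
  · filter_upwards [hnear] with z hz
    exact ((hv.mono_set (hsub z hz)).integrable_indicator measurableSet_ball).aestronglyMeasurable
  · filter_upwards [hnear] with z hz
    refine Eventually.of_forall fun y => ?_
    by_cases hy : y ∈ ball z r
    · rw [indicator_of_mem hy, indicator_of_mem (hsub z hz hy)]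
    · rw [indicator_of_notMem hy, norm_zero]
      exact indicator_nonneg (fun _ _ => norm_nonneg _) _
  · exact (IntegrableOn.integrable_indicator hv.norm measurableSet_closedBall)
  · have h1 : μ (sphere z₀ r) = 0 := Measure.addHaar_sphere_of_ne_zero μ z₀ h0.ne'
    have h2 : ∀ᵐ y ∂μ, y ∉ sphere z₀ r := measure_eq_zero_iff_ae_notMem.1 h1
    filter_upwards [h2] with y hy
    have hy' : dist y z₀ ≠ r := hy
    have hd : Continuous fun z : E => dist y z := by fun_prop
    rcases lt_or_gt_of_ne hy' with h | h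
    · have h3 : ∀ᶠ z in 𝓝 z₀, dist y z < r := hd.continuousAt.eventually (gt_mem_nhds h)
      refine ContinuousAt.congr (f := fun _ => v y) continuousAt_const ?_
      filter_upwards [h3] with z hz
      rw [indicator_of_mem]
      exact hz
    · have h3 : ∀ᶠ z in 𝓝 z₀, r < dist y z := hd.continuousAt.eventually (lt_mem_nhds h)
      refine ContinuousAt.congr (f := fun _ => (0 : ℝ)) continuousAt_const ?_
      filter_upwards [h3] with z hz
      rw [indicator_of_notMem]
      exact not_lt.2 hz.le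

/-- averages of a function continuous at the centre -/
theorem tendsto_Av_cont {h : E → ℝ} {z : E} {R : ℝ} (hR : 0 < R)
    (hi : IntegrableOn h (ball z R) μ) (hc : ContinuousAt h z) :
    Tendsto (fun r => Av μ h r z) (𝓝[>] 0) (𝓝 (h z)) := by
  rw [Metric.tendsto_nhds]
  intro ε hε
  obtain ⟨δ, hδ, hb⟩ := Metric.continuousAt_iff.1 hc (ε / 2) (half_pos hε)
  have h1 : ∀ᶠ r in 𝓝[>] (0 : ℝ), r < δ ∧ r < R :=
    nhdsWithin_le_nhds ((gt_mem_nhds hδ).and (gt_mem_nhds hR))
  filter_upwards [h1, self_mem_nhdsWithin] with r hr hr0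
  have hr0' : 0 < r := hr0
  have h2 : Av μ h r z - h z = Av μ (fun y => h y - h z) r z := by
    rw [Av_sub (hi.mono_set (ball_subset_ball hr.2.le)) (integrableOn_const (ball_ne_top z r)),
      Av_const _ hr0']
  rw [Real.dist_eq, h2]
  unfold Av
  rw [abs_mul, abs_of_nonneg (by positivity : 0 ≤ (μ.real (ball (0 : E) r))⁻¹)]
  have h3 : ‖∫ y in ball z r, (h y - h z) ∂μ‖ ≤ (ε / 2) * μ.real (ball z r) := by
    refine norm_setIntegral_le_of_norm_le_const (ball_ne_top z r).lt_top fun y hy => ?_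
    have := hb (show dist y z < δ from lt_trans hy hr.1)
    rw [Real.dist_eq] at this
    exact this.le
  rw [vol_ball] at h3
  have h4 := vol_pos (μ := μ) hr0'
  calc (μ.real (ball (0 : E) r))⁻¹ * |∫ y in ball z r, (h y - h z) ∂μ|
      ≤ (μ.real (ball (0 : E) r))⁻¹ * ((ε / 2) * μ.real (ball (0 : E) r)) := by
        gcongr; exact h3
    _ = ε / 2 := by field_simp
    _ < ε := half_lt_self hε

/-- scaling -/
theorem Av_smul (v : E → ℝ) {r t : ℝ} (ht : 0 < t) (z : E) :
    Av μ v (t * r) z = (μ.real (ball (0 : E) r))⁻¹ * ∫ y in ball (0 : E) r, v (z + t • y) ∂μ := by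
  have h1 := Measure.setIntegral_comp_smul_of_pos μ (fun y => v (z + y)) (ball (0 : E) r) ht
  have h2 : t • ball (0 : E) r = ball 0 (t * r) := by
    rw [_root_.smul_ball ht.ne' (0 : E) r, Real.norm_eq_abs, abs_of_pos ht, smul_zero]
  rw [h1, h2, Av_eq, smul_eq_mul]
  have h3 : μ.real (ball (0 : E) (t * r)) =
      t ^ Module.finrank ℝ E * μ.real (ball (0 : E) r) := by
    rw [measureReal_def, measureReal_def, Measure.addHaar_ball_mul_of_pos μ 0 ht r,
      ENNReal.toReal_mul, ENNReal.toReal_ofReal (by positivity)]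
  rw [h3, mul_inv]
  ring

/-! ### good points -/

/-- the averages converge -/
def Good (μ : Measure E) (v : E → ℝ) (z : E) : Prop :=
  ∃ c, Tendsto (fun r => Av μ v r z) (𝓝[>] 0) (𝓝 c)

/-- the limit of the averages -/
def val (μ : Measure E) (v : E → ℝ) (z : E) : ℝ := limUnder (𝓝[>] 0) (fun r => Av μ v r z)

theorem Good.tendsto {v : E → ℝ} {z : E} (h : Good μ v z) :
    Tendsto (fun r => Av μ v r z) (𝓝[>] 0) (𝓝 (val μ v z)) := tendsto_nhds_limUnder h

theorem val_eq {v : E → ℝ} {z : E} {c : ℝ} (h : Tendsto (fun r => Av μ v r z) (𝓝[>] 0) (𝓝 c)) :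
    val μ v z = c := h.limUnder_eq

theorem good_of_tendsto {v : E → ℝ} {z : E} {c : ℝ}
    (h : Tendsto (fun r => Av μ v r z) (𝓝[>] 0) (𝓝 c)) : Good μ v z := ⟨c, h⟩

theorem Good.seq {v : E → ℝ} {z : E} (h : Good μ v z) {ρ : ℕ → ℝ} (h0 : ∀ k, 0 < ρ k)
    (hρ : Tendsto ρ atTop (𝓝 0)) : Tendsto (fun k => Av μ v (ρ k) z) atTop (𝓝 (val μ v z)) :=
  h.tendsto.comp (tendsto_nhdsWithin_iff.2 ⟨hρ, Eventually.of_forall h0⟩)

/-- the averages depend only on the germ of the a.e. class -/
theorem Av_eventually_congr {v v' : E → ℝ} {z : E} {R : ℝ} (hR : 0 < R)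
    (h : ∀ᵐ y ∂μ.restrict (ball z R), v y = v' y) :
    (fun r => Av μ v r z) =ᶠ[𝓝[>] 0] fun r => Av μ v' r z := by
  filter_upwards [nhdsWithin_le_nhds (gt_mem_nhds hR)] with r hr
  exact Av_congr (ae_restrict_of_ae_restrict_of_subset (ball_subset_ball (le_of_lt hr)) h)

theorem Good.congr {v v' : E → ℝ} {z : E} {R : ℝ} (hR : 0 < R) (hg : Good μ v z)
    (h : ∀ᵐ y ∂μ.restrict (ball z R), v y = v' y) : Good μ v' z ∧ val μ v' z = val μ v z := by
  have h1 := hg.tendsto.congr' (Av_eventually_congr hR h)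
  exact ⟨⟨_, h1⟩, val_eq h1⟩

/-- adding a function continuous at the point -/
theorem Good.add_cont {v h : E → ℝ} {z : E} {R : ℝ} (hR : 0 < R) (hg : Good μ v z)
    (hv : IntegrableOn v (ball z R) μ) (hh : IntegrableOn h (ball z R) μ)
    (hc : ContinuousAt h z) : Good μ (fun y => v y + h y) z ∧
      val μ (fun y => v y + h y) z = val μ v z + h z := by
  have h1 := hg.tendsto.add (tendsto_Av_cont hR hh hc)
  have h2 : Tendsto (fun r => Av μ (fun y => v y + h y) r z) (𝓝[>] 0)
      (𝓝 (val μ v z + h z)) := by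
    refine h1.congr' ?_
    filter_upwards [nhdsWithin_le_nhds (gt_mem_nhds hR)] with r hr
    exact (Av_add (hv.mono_set (ball_subset_ball (le_of_lt hr)))
      (hh.mono_set (ball_subset_ball (le_of_lt hr)))).symm
  exact ⟨⟨_, h2⟩, val_eq h2⟩

theorem good_of_cont {h : E → ℝ} {z : E} {R : ℝ} (hR : 0 < R)
    (hi : IntegrableOn h (ball z R) μ) (hc : ContinuousAt h z) : Good μ h z ∧ val μ h z = h z :=
  ⟨⟨_, tendsto_Av_cont hR hi hc⟩, val_eq (tendsto_Av_cont hR hi hc)⟩

/-- upper bounds pass to the limit -/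
theorem Good.le {v : E → ℝ} {z : E} {R C : ℝ} (hR : 0 < R) (hg : Good μ v z)
    (hv : IntegrableOn v (ball z R) μ) (h : ∀ᵐ y ∂μ.restrict (ball z R), v y ≤ C) :
    val μ v z ≤ C := by
  refine le_of_tendsto hg.tendsto ?_
  filter_upwards [nhdsWithin_le_nhds (gt_mem_nhds hR), self_mem_nhdsWithin] with r hr hr0
  have hs := ball_subset_ball (x := z) (le_of_lt hr)
  rw [← Av_const (μ := μ) C hr0 z]
  exact Av_le (hv.mono_set hs) (integrableOn_const (ball_ne_top z r))
    (ae_restrict_of_ae_restrict_of_subset hs h)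

theorem exists_ball {Ω : Set E} (hΩ : IsOpen Ω) {z : E} (hz : z ∈ Ω) :
    ∃ R > 0, closedBall z R ⊆ Ω :=
  Metric.nhds_basis_closedBall.mem_iff.1 (hΩ.mem_nhds hz)

/-- Lebesgue differentiation -/
theorem ae_good {Ω : Set E} (hΩ : IsOpen Ω) {v : E → ℝ}
    (hv : ∀ K ⊆ Ω, IsCompact K → IntegrableOn v K μ) :
    ∀ᵐ z ∂μ, z ∈ Ω → Good μ v z ∧ val μ v z = v z := by
  have hprop : ProperSpace E := FiniteDimensional.proper ℝ E
  have hsc : SecondCountableTopology E := secondCountable_of_proper
  rw [ae_iff]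
  refine measure_null_of_locally_null _ fun x hx => ?_
  have hxΩ : x ∈ Ω := by
    by_contra h
    exact hx fun h' => absurd h' h
  obtain ⟨R, hR, hb⟩ := exists_ball hΩ hxΩ
  refine ⟨_, inter_mem_nhdsWithin _ (ball_mem_nhds x hR), ?_⟩
  have hi : IntegrableOn v (closedBall x R) μ := hv _ hb (isCompact_closedBall _ _)
  set f : E → ℝ := (closedBall x R).indicator v with hf
  have hfi : Integrable f μ := hi.integrable_indicator measurableSet_closedBall
  have h1 := IsUnifLocDoublingMeasure.ae_tendsto_average (μ := μ) hfi.locallyIntegrable 1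
  have h2 : ∀ᵐ z ∂μ, z ∈ ball x R → Good μ v z ∧ val μ v z = v z := by
    filter_upwards [h1] with z hz hzx
    have h3 := @hz ℝ (𝓝[>] 0) (fun _ => z) (fun r => r) tendsto_id (by
      filter_upwards [self_mem_nhdsWithin] with r hr
      have hr' : 0 < r := hr
      simp [hr'.le])
    have h4 : f z = v z := by
      rw [hf, indicator_of_mem (ball_subset_closedBall hzx)]
    rw [h4] at h3
    obtain ⟨δ, hδ, hbz⟩ := exists_ball isOpen_ball hzx
    have h5 : Tendsto (fun r => Av μ v r z) (𝓝[>] 0) (𝓝 (v z)) := by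
      refine h3.congr' ?_
      filter_upwards [nhdsWithin_le_nhds (gt_mem_nhds hδ), self_mem_nhdsWithin] with r hr hr0
      have hr0' : 0 < r := hr0
      have e1 : (ball z r : Set E) =ᵐ[μ] closedBall z r := by
        refine ae_eq_of_subset_of_measure_ge ball_subset_closedBall ?_
          measurableSet_ball.nullMeasurableSet (isCompact_closedBall z r).measure_lt_top.ne
        rw [Measure.addHaar_closedBall μ z hr0'.le, Measure.addHaar_ball_of_pos μ z hr0']
      rw [← setAverage_congr e1, setAverage_eq, vol_ball z r, smul_eq_mul]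
      unfold Av
      congr 1
      refine setIntegral_congr_fun measurableSet_ball fun y hy => ?_
      rw [hf, indicator_of_mem]
      exact ball_subset_closedBall (hbz (closedBall_subset_closedBall (le_of_lt hr)
        (ball_subset_closedBall hy)))
    exact ⟨⟨_, h5⟩, val_eq h5⟩
  refine measure_mono_null (fun z hz => ?_) (ae_iff.1 h2)
  intro h
  exact hz.1 fun _ => h hz.2

end Crest.Agent.R281.Qp2_911
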