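import Crest.Agent.R281.Qp3_911

/-!
# R281 (S0424), DIV 6, QPSH-LIM (helper911), file 4: change of coordinates

* `null_image` : differentiable maps between spaces of the same dimension map null sets to null sets;
* `Bih Ω Ω' T S` : `T` is biholomorphic from `Ω` to `Ω'` with inverse `S`;
* **`chg`** : `v = v' ∘ T + k` a.e., `k` continuous, `v`, `v'` local `L¹` limits of psh functions ⟹
  `z` is good for `v` iff `T z` is good for `v'`, and `val v z = val v' (T z) + k z`.
-/

set_option autoImplicit false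
set_option linter.unusedSectionVars false

open Set Filter Topology Metric Real MeasureTheory
open scoped ContDiff Pointwise

noncomputable section

namespace Crest.Agent.R281.Qp4_911

open Crest.Agent.R257.HoB_843 Crest.Agent.R281.Qp1_911 Crest.Agent.R281.Qp2_911
  Crest.Agent.R281.Qp3_911

section null

variable {E : Type*} [NormedAddCommGroup E] [NormedSpace ℝ E] [FiniteDimensional ℝ E]
  [MeasurableSpace E] [BorelSpace E] {μ : Measure E} [μ.IsAddHaarMeasure]
  {F : Type*} [NormedAddCommGroup F] [NormedSpace ℝ F] [FiniteDimensional ℝ F]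
  [MeasurableSpace F] [BorelSpace F] {ν : Measure F} [ν.IsAddHaarMeasure]

/-- differentiable maps between spaces of the same dimension preserve null sets -/
theorem null_image (L : E ≃L[ℝ] F) {f : F → E} {s : Set F} (hf : DifferentiableOn ℝ f s)
    (hs : ν s = 0) : μ (f '' s) = 0 := by
  have hprop : ProperSpace F := FiniteDimensional.proper ℝ F
  have h1 : ν ((fun y => L (f y)) '' s) = 0 :=
    addHaar_image_eq_zero_of_differentiableOn_of_addHaar_eq_zero ν
      (L.differentiable.comp_differentiableOn hf) hs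
  have h2 : (μ.map L) ((fun y => L (f y)) '' s) = 0 :=
    (Measure.absolutelyContinuous_isAddHaarMeasure (μ.map L) ν) h1
  have h3 : μ (L ⁻¹' ((fun y => L (f y)) '' s)) = 0 := by
    have h4 := (L.toHomeomorph.toMeasurableEquiv).map_apply (μ := μ) ((fun y => L (f y)) '' s)
    have h5 : (μ.map L) ((fun y => L (f y)) '' s) = μ (L ⁻¹' ((fun y => L (f y)) '' s)) := h4
    rw [← h5, h2]
  refine measure_mono_null ?_ h3
  rintro _ ⟨y, hy, rfl⟩
  exact ⟨y, hy, rfl⟩

end null

variable {E : Type*} [NormedAddCommGroup E] [NormedSpace ℂ E] [NormedSpace ℝ E]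
  [IsScalarTower ℝ ℂ E] [FiniteDimensional ℝ E] [MeasurableSpace E] [BorelSpace E]
  {μ : Measure E} [μ.IsAddHaarMeasure]
  {F : Type*} [NormedAddCommGroup F] [NormedSpace ℂ F] [NormedSpace ℝ F]
  [IsScalarTower ℝ ℂ F] [FiniteDimensional ℝ F] [MeasurableSpace F] [BorelSpace F]
  {ν : Measure F} [ν.IsAddHaarMeasure]

/-- `T` is biholomorphic from the open set `Ω` onto the open set `Ω'`, with inverse `S` -/
structure Bih (Ω : Set E) (Ω' : Set F) (T : E → F) (S : F → E) : Prop where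
  op : IsOpen Ω
  op' : IsOpen Ω'
  hT : ∀ z ∈ Ω, AnalyticAt ℂ T z
  hS : ∀ y ∈ Ω', AnalyticAt ℂ S y
  mT : ∀ z ∈ Ω, T z ∈ Ω'
  mS : ∀ y ∈ Ω', S y ∈ Ω
  ST : ∀ z ∈ Ω, S (T z) = z
  TS : ∀ y ∈ Ω', T (S y) = y

namespace Bih

variable {Ω : Set E} {Ω' : Set F} {T : E → F} {S : F → E}

theorem symm (h : Bih Ω Ω' T S) : Bih Ω' Ω S T :=
  ⟨h.op', h.op, h.hS, h.hT, h.mS, h.mT, h.TS, h.ST⟩

/-- the derivative at one point is an isomorphism of the two spaces -/
theorem exists_equiv (h : Bih Ω Ω' T S) {z : E} (hz : z ∈ Ω) : Nonempty (E ≃L[ℝ] F) := by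
  have h1 : HasFDerivAt T ((fderiv ℂ T z).restrictScalars ℝ) z :=
    (h.hT z hz).differentiableAt.hasFDerivAt.restrictScalars ℝ
  have h2 : HasFDerivAt S ((fderiv ℂ S (T z)).restrictScalars ℝ) (T z) :=
    (h.hS _ (h.mT z hz)).differentiableAt.hasFDerivAt.restrictScalars ℝ
  have h3 : HasFDerivAt T ((fderiv ℂ T z).restrictScalars ℝ) (S (T z)) := by
    rw [h.ST z hz]; exact h1
  have e1 := (h2.comp z h1).congr_of_eventuallyEq (f₁ := fun x => x) (by
    filter_upwards [h.op.mem_nhds hz] with x hx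
    exact (h.ST x hx).symm)
  have e2 := (h3.comp (T z) h2).congr_of_eventuallyEq (f₁ := fun x => x) (by
    filter_upwards [h.op'.mem_nhds (h.mT z hz)] with x hx
    exact (h.TS x hx).symm)
  have i1 := e1.unique (hasFDerivAt_id z)
  have i2 := e2.unique (hasFDerivAt_id (T z))
  exact ⟨ContinuousLinearEquiv.equivOfInverse ((fderiv ℂ T z).restrictScalars ℝ)
    ((fderiv ℂ S (T z)).restrictScalars ℝ) (fun x => DFunLike.congr_fun i1 x)
    (fun x => DFunLike.congr_fun i2 x)⟩

theorem null_preimage (h : Bih Ω Ω' T S) {s : Set F} (hs : ν s = 0) :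
    ∀ᵐ z ∂μ, z ∈ Ω → T z ∉ s := by
  rcases Ω.eq_empty_or_nonempty with rfl | ⟨z₀, hz₀⟩
  · exact Eventually.of_forall fun z hz => absurd hz (notMem_empty z)
  obtain ⟨L⟩ := h.exists_equiv hz₀
  have h1 : μ (S '' (Ω' ∩ s)) = 0 := by
    refine null_image (ν := ν) L (s := Ω' ∩ s) (fun y hy => ?_) (measure_mono_null inter_subset_right hs)
    exact ((h.hS y hy.1).differentiableAt.restrictScalars ℝ).differentiableWithinAt
  rw [ae_iff]
  refine measure_mono_null ?_ h1
  intro z hz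
  simp only [mem_ofPred_eq, not_forall, not_not] at hz
  obtain ⟨hzΩ, hzs⟩ := hz
  exact ⟨T z, ⟨h.mT z hzΩ, hzs⟩, h.ST z hzΩ⟩

theorem ae_comp (h : Bih Ω Ω' T S) {p : F → Prop} (hp : ∀ᵐ y ∂ν, p y) :
    ∀ᵐ z ∂μ, z ∈ Ω → p (T z) := by
  filter_upwards [h.null_preimage (μ := μ) (ν := ν) (s := {y | ¬ p y}) (ae_iff.1 hp)] with z hz hzΩ
  have := hz hzΩ
  simpa using this

end Bih

/-- one direction of the change of coordinates -/
theorem chg_le {Ω : Set E} {Ω' : Set F} {T : E → F} {S : F → E} (hB : Bih Ω Ω' T S)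
    {v : E → ℝ} {v' : F → ℝ} (h : LimPsh μ Ω v) (h' : LimPsh ν Ω' v') {k : E → ℝ}
    (hk : ContinuousOn k Ω) (he : ∀ᵐ z ∂μ, z ∈ Ω → v z = v' (T z) + k z) {z : E} (hz : z ∈ Ω)
    (hg : Good ν v' (T z)) : Good μ v z ∧ val ν v' (T z) + k z ≤ val μ v z := by
  have hprop : ProperSpace E := FiniteDimensional.proper ℝ E
  obtain ⟨R, hR, hb⟩ := exists_ball h.op hz
  have hkc : ContinuousAt k z := hk.continuousAt (h.op.mem_nhds hz)
  have hki : IntegrableOn k (ball z R) μ :=
    ((hk.mono hb).integrableOn_compact (isCompact_closedBall z R)).mono_set ball_subset_closedBall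
  have hvi := h.intBall hb
  have hae : ∀ᵐ w ∂μ, w ∈ Ω → val ν v' (T w) = v' (T w) := by
    filter_upwards [hB.ae_comp (μ := μ) h'.ae_good] with w hw hwΩ
    exact (hw hwΩ (hB.mT w hwΩ)).2
  -- lower bound of the averages
  have key : ∀ r, 0 < r → r ≤ R → val ν v' (T z) + Av μ k r z ≤ Av μ v r z := by
    intro r hr hrR
    have hs : closedBall z r ⊆ Ω := (closedBall_subset_closedBall hrR).trans hb
    obtain ⟨-, h1, h2⟩ := h'.holo (ν := μ) (ψ := T) hr (fun w hw => hB.hT w (hs hw))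
      (fun w hw => hB.mT w (hs hw)) hg
    have hki' : IntegrableOn k (ball z r) μ := hki.mono_set (ball_subset_ball hrR)
    have h3 : Av μ v r z = Av μ (fun w => val ν v' (T w) + k w) r z := by
      refine Av_congr ?_
      filter_upwards [ae_restrict_of_ae he, ae_restrict_of_ae hae,
        ae_restrict_mem measurableSet_ball] with w h4 h5 h6
      have h7 := hs (ball_subset_closedBall h6)
      rw [h4 h7, h5 h7]
    rw [h3, Av_add h1 hki']
    linarith
  have hkt := tendsto_Av_cont (μ := μ) hR hki hkc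
  have hlow : ∀ᶠ r in 𝓝[>] (0 : ℝ), k z - 1 < Av μ k r z :=
    hkt.eventually (lt_mem_nhds (by linarith))
  obtain ⟨δ, hδ, hδ'⟩ := mem_nhdsGT_iff_exists_Ioo_subset.1 hlow
  have hδ0 : 0 < δ := hδ
  set r₀ := min R (δ / 2) with hr₀
  have hr₀0 : 0 < r₀ := by rw [hr₀]; positivity
  have hgood : Good μ v z := by
    refine h.tendsto_of_lb hr₀0 (m := val ν v' (T z) + (k z - 1))
      ((closedBall_subset_closedBall (min_le_left _ _)).trans hb) fun r hr hrr => ?_
    have h8 : k z - 1 < Av μ k r z := hδ' ⟨hr, by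
      have := hrr.trans (min_le_right _ _)
      linarith⟩
    have h9 := key r hr (hrr.trans (min_le_left _ _))
    linarith
  refine ⟨hgood, ?_⟩
  refine le_of_tendsto_of_tendsto (hkt.const_add (val ν v' (T z))) hgood.tendsto ?_
  filter_upwards [nhdsWithin_le_nhds (gt_mem_nhds hR), self_mem_nhdsWithin] with r hr hr0
  exact key r hr0 (le_of_lt hr)

/-- **change of coordinates** -/
theorem chg {Ω : Set E} {Ω' : Set F} {T : E → F} {S : F → E} (hB : Bih Ω Ω' T S)
    {v : E → ℝ} {v' : F → ℝ} (h : LimPsh μ Ω v) (h' : LimPsh ν Ω' v') {k : E → ℝ}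
    (hk : ContinuousOn k Ω) (he : ∀ᵐ z ∂μ, z ∈ Ω → v z = v' (T z) + k z) {z : E} (hz : z ∈ Ω) :
    (Good μ v z ↔ Good ν v' (T z)) ∧ (Good μ v z → val μ v z = val ν v' (T z) + k z) := by
  have hSc : ContinuousOn S Ω' := fun y hy => (hB.hS y hy).continuousAt.continuousWithinAt
  have hk' : ContinuousOn (fun y => - k (S y)) Ω' := (hk.comp hSc hB.mS).neg
  have he' : ∀ᵐ y ∂ν, y ∈ Ω' → v' y = v (S y) + - k (S y) := by
    filter_upwards [hB.symm.ae_comp (μ := ν) he] with y hy hyΩ
    have h1 := hy hyΩ (hB.mS y hyΩ)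
    rw [hB.TS y hyΩ] at h1
    linarith
  have hrev : Good μ v z → Good ν v' (T z) ∧ val μ v z + - k z ≤ val ν v' (T z) := by
    intro hg
    have := chg_le hB.symm h' h hk' he' (hB.mT z hz) (by rw [hB.ST z hz]; exact hg)
    rwa [hB.ST z hz] at this
  refine ⟨⟨fun hg => (hrev hg).1, fun hg => (chg_le hB h h' hk he hz hg).1⟩, fun hg => ?_⟩
  obtain ⟨h1, h2⟩ := hrev hg
  obtain ⟨-, h3⟩ := chg_le hB h h' hk he hz h1
  linarith

end Crest.Agent.R281.Qp4_911
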