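import Crest.Agent.R281.Un2_360

/-!
# R281 (S0424), UNIQ (helper360), part 3: the potential, definitions

* `HolBall A i ψ z r` : `ψ : Cn d → M` is holomorphic near the closed ball, into the chart `i`;
* `SubB φ G g ψ z r`  : `φ ∘ ψ` is integrable on the ball, a.e. finite, `φ + g` has the sub-mean
                        property;
* `QPsh h`            : a potential `φ` on `M`: `φ + wt h` is psh along all holomorphic balls,
                        `φ` is finite on `G`;
* `Good Q T' x`       : `x ∈ T'` is a good point of a tube around `T'`: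
                        `φ + wt h - c |f|²` is psh near `x`, `T' = {f = f x}` near `x`.
-/

set_option autoImplicit false
set_option linter.unusedSectionVars false

open Set Filter Topology Complex MeasureTheory
open scoped ContDiff Matrix ComplexConjugate

namespace Crest.Agent.R281.Un_360

open Crest.Agent.R275 Crest.Agent.R275.Geo Crest.Agent.R275.Core144
open Crest.Agent.R273.Defs_333

noncomputable section

variable {N : ℕ} {M : Type} [TopologicalSpace M] {A : Atl N M}

/-- `ψ` is holomorphic near `closedBall z r`, with values in the chart `i` -/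
def HolBall (A : Atl N M) (i : A.ι) {d : ℕ} (ψ : Cn d → M) (z : Cn d) (r : ℝ) : Prop :=
  0 < r ∧ ∃ U, IsOpen U ∧ Metric.closedBall z r ⊆ U ∧ (∀ w ∈ U, ψ w ∈ (A.e i).source) ∧
    DifferentiableOn ℂ (fun w => A.e i (ψ w)) U

/-- the sub-mean property of `φ + g` on `ψ (ball z r)`, a.e. finiteness and integrability of `φ` -/
structure SubB (φ : M → ℝ) (G : Set M) (g : M → ℝ) {d : ℕ} (ψ : Cn d → M) (z : Cn d) (r : ℝ) :
    Prop where
  ae : ∀ᵐ w ∂(volume.restrict (Metric.ball z r)), ψ w ∈ G
  int : IntegrableOn (fun w => φ (ψ w)) (Metric.ball z r)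
  sub : φ (ψ z) + g (ψ z) ≤ ⨍ w in Metric.ball z r, (φ (ψ w) + g (ψ w))

/-- a potential: `φ + wt h` is psh along all holomorphic balls, finite on `G` -/
structure QPsh {L : LB A} (h : HM L) where
  φ : M → ℝ
  G : Set M
  C : ℝ
  le : ∀ x ∈ G, φ x ≤ C
  sm : ∀ (d : ℕ) (i : A.ι) (ψ : Cn d → M) (z : Cn d) (r : ℝ), HolBall A i ψ z r → ψ z ∈ G →
    SubB φ G (fun x => h.wt i (A.e i x)) ψ z r

/-- `x ∈ T'` is a good point of a tube around `T'` -/
structure Good {L : LB A} {h : HM L} (Q : QPsh h) (T' : Set M) (x : M) where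
  mem : x ∈ Q.G
  W : Set M
  oW : IsOpen W
  xW : x ∈ W
  m : ℕ
  f : M → Cn m
  hol : ∀ i, DifferentiableOn ℂ (fun z => f ((A.e i).symm z))
    ((A.e i).target ∩ (A.e i).symm ⁻¹' W)
  lvl : ∀ y ∈ W, y ∈ T' ↔ f y = f x
  c : ℝ
  cpos : 0 < c
  sm : ∀ (d : ℕ) (i : A.ι) (ψ : Cn d → M) (z : Cn d) (r : ℝ), HolBall A i ψ z r →
    (∀ w ∈ Metric.closedBall z r, ψ w ∈ W) → ψ z ∈ Q.G →
    SubB Q.φ Q.G (fun x => h.wt i (A.e i x) - c * ‖f x‖ ^ 2) ψ z r

end

end Crest.Agent.R281.Un_360
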