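import Crest.Agent.R281.Qp4_911
import Crest.Agent.R281.LogSm_911
import Crest.Agent.R281.Un3_360

/-!
# R281 (S0424), DIV 6, QPSH-LIM (helper911), file 5: the potential on the manifold

`φ0 : M → ℝ` with `φ0 + wt h` a local `L¹` limit of psh functions in every chart (`LPsh h φ0`).
* `GG h φ0`, `ph h φ0` : the good points and the pointwise potential (limits of averages in a chart);
  independent of the chart (`mem_GG`, `ph_eq`), equal to `φ0` a.e. (`ae_GG`);
* **`qpsh`** : the `QPsh h` of 360;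
* **`sub_tube`** : the inequality with `- κ ∘ P` on a tube, from `LimPsh` of
  `φ0 ∘ Φ + wt ∘ Φ - κ` in the coordinates `Φ` of the tube;
* **`good_tube`** : 360's `Good Q T' x`.
-/

set_option autoImplicit false
set_option linter.unusedSectionVars false

open Set Filter Topology Metric Real MeasureTheory
open scoped ContDiff Pointwise

noncomputable section

namespace Crest.Agent.R281.Qp5_911

open Crest.Agent.R275 Crest.Agent.R275.Geo Crest.Agent.R275.Core144
open Crest.Agent.R273.Defs_333 Crest.Agent.R273.HM_333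
open Crest.Agent.R257.HoB_843 Crest.Agent.R281.Qp1_911 Crest.Agent.R281.Qp2_911
  Crest.Agent.R281.Qp3_911 Crest.Agent.R281.Qp4_911 Crest.Agent.R281.LogSm_911
open Crest.Agent.R281.Un_360 (HolBall SubB QPsh)

variable {N : ℕ} {M : Type} [TopologicalSpace M] {A : Atl N M} {L : LB A}

/-- the local potential in the chart `i` -/
def lp (h : HM L) (φ0 : M → ℝ) (i : A.ι) (z : Cn N) : ℝ := φ0 ((A.e i).symm z) + h.wt i z

/-- in every chart `φ0 + wt h` is a local `L¹` limit of psh functions -/
def LPsh (h : HM L) (φ0 : M → ℝ) : Prop := ∀ i, LimPsh volume (A.e i).target (lp h φ0 i)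

/-- a chart at a point -/
def cha (A : Atl N M) (x : M) : A.ι := (A.cover x).choose

theorem cha_mem (A : Atl N M) (x : M) : x ∈ (A.e (cha A x)).source := (A.cover x).choose_spec

/-- the good points -/
def GG (h : HM L) (φ0 : M → ℝ) : Set M :=
  {x | Good volume (lp h φ0 (cha A x)) (A.e (cha A x) x)}

/-- the potential -/
def ph (h : HM L) (φ0 : M → ℝ) (x : M) : ℝ :=
  val volume (lp h φ0 (cha A x)) (A.e (cha A x) x) - h.wt (cha A x) (A.e (cha A x) x)

theorem isOpen_ov' (A : Atl N M) (i j : A.ι) : IsOpen (A.ov i j) :=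
  (A.e i).isOpen_inter_preimage_symm (A.e j).open_source

theorem bih_ov (A : Atl N M) (i j : A.ι) :
    Bih (A.ov i j) (A.ov j i) (fun z => A.e j ((A.e i).symm z))
      (fun z => A.e i ((A.e j).symm z)) where
  op := isOpen_ov' A i j
  op' := isOpen_ov' A j i
  hT _ hz := analyticAt_of_diffOn (isOpen_ov' A i j) (A.holo i j) hz
  hS _ hz := analyticAt_of_diffOn (isOpen_ov' A j i) (A.holo j i) hz
  mT z hz := ⟨(A.e j).map_source hz.2, by
    rw [(A.e j).left_inv hz.2]; exact (A.e i).map_target hz.1⟩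
  mS z hz := ⟨(A.e i).map_source hz.2, by
    rw [(A.e i).left_inv hz.2]; exact (A.e j).map_target hz.1⟩
  ST z hz := by rw [(A.e j).left_inv hz.2, (A.e i).right_inv hz.1]
  TS z hz := by rw [(A.e i).left_inv hz.2, (A.e j).right_inv hz.1]

theorem wt_cont (h : HM L) (i : A.ι) : ContinuousOn (h.wt i) (A.e i).target :=
  (wt_smooth h i).continuousOn

variable {h : HM L} {φ0 : M → ℝ}

/-- independence of the chart -/
theorem indep (H : LPsh h φ0) {i j : A.ι} {x : M}
    (hx : x ∈ (A.e i).source ∩ (A.e j).source) :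
    (Good volume (lp h φ0 i) (A.e i x) ↔ Good volume (lp h φ0 j) (A.e j x)) ∧
      (Good volume (lp h φ0 i) (A.e i x) →
        val volume (lp h φ0 i) (A.e i x) - h.wt i (A.e i x) =
          val volume (lp h φ0 j) (A.e j x) - h.wt j (A.e j x)) := by
  have hz : A.e i x ∈ A.ov i j := ⟨(A.e i).map_source hx.1, by
    rw [(A.e i).left_inv hx.1]; exact hx.2⟩
  have hB := bih_ov A i j
  have h1 := (H i).mono (isOpen_ov' A i j) fun z hz => hz.1
  have h2 := (H j).mono (isOpen_ov' A j i) fun z hz => hz.1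
  have hTc : ContinuousOn (fun z => A.e j ((A.e i).symm z)) (A.ov i j) := fun z hz =>
    (hB.hT z hz).continuousAt.continuousWithinAt
  have hk : ContinuousOn (fun z => h.wt i z - h.wt j (A.e j ((A.e i).symm z))) (A.ov i j) :=
    ((wt_cont h i).mono fun z hz => hz.1).sub ((wt_cont h j).comp hTc fun z hz => (hB.mT z hz).1)
  have h3 := chg hB h1 h2 hk (Eventually.of_forall fun z hz => by
    simp only [lp]
    rw [(A.e j).left_inv hz.2]; ring) hz
  simp only [(A.e i).left_inv hx.1] at h3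
  refine ⟨h3.1, fun hg => ?_⟩
  rw [h3.2 hg]
  ring

theorem mem_GG (H : LPsh h φ0) {i : A.ι} {x : M} (hx : x ∈ (A.e i).source) :
    x ∈ GG h φ0 ↔ Good volume (lp h φ0 i) (A.e i x) :=
  (indep H ⟨cha_mem A x, hx⟩).1

theorem ph_eq (H : LPsh h φ0) {i : A.ι} {x : M} (hx : x ∈ (A.e i).source) (hg : x ∈ GG h φ0) :
    val volume (lp h φ0 i) (A.e i x) = ph h φ0 x + h.wt i (A.e i x) := by
  have h1 := (indep H ⟨cha_mem A x, hx⟩).2 hg
  have h2 : ph h φ0 x = val volume (lp h φ0 i) (A.e i x) - h.wt i (A.e i x) := h1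
  rw [h2]; ring

/-- a.e. point is good, and the potential is `φ0` a.e. -/
theorem ae_GG (H : LPsh h φ0) (i : A.ι) : ∀ᵐ z : Cn N, z ∈ (A.e i).target →
    (A.e i).symm z ∈ GG h φ0 ∧ ph h φ0 ((A.e i).symm z) = φ0 ((A.e i).symm z) := by
  filter_upwards [(H i).ae_good] with z hz hzt
  obtain ⟨h1, h2⟩ := hz hzt
  have h3 := (A.e i).map_target hzt
  have h4 : (A.e i).symm z ∈ GG h φ0 := by
    rw [mem_GG H h3, (A.e i).right_inv hzt]; exact h1
  refine ⟨h4, ?_⟩
  have h5 := ph_eq H h3 h4
  rw [(A.e i).right_inv hzt, h2] at h5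
  simp only [lp] at h5
  linarith

/-- upper bounds -/
theorem ph_le (H : LPsh h φ0) {C : ℝ}
    (hC : ∀ i, ∀ᵐ z : Cn N, z ∈ (A.e i).target → φ0 ((A.e i).symm z) ≤ C) {x : M}
    (hg : x ∈ GG h φ0) : ph h φ0 x ≤ C := by
  set i := cha A x with hi
  have hx : x ∈ (A.e i).source := cha_mem A x
  have hz := (A.e i).map_source hx
  have hprop : ProperSpace (Cn N) := FiniteDimensional.proper ℝ _
  obtain ⟨R, hR, hb⟩ := exists_ball (A.e i).open_target hz
  have hwi : IntegrableOn (h.wt i) (ball (A.e i x) R) volume :=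
    (((wt_cont h i).mono hb).integrableOn_compact (isCompact_closedBall _ _)).mono_set
      ball_subset_closedBall
  have hwc : ContinuousAt (h.wt i) (A.e i x) :=
    (wt_cont h i).continuousAt ((A.e i).open_target.mem_nhds hz)
  have hgi : Good volume (lp h φ0 i) (A.e i x) := hg
  obtain ⟨h1, h2⟩ := hgi.add_cont (h := fun z => - h.wt i z) hR ((H i).intBall hb) hwi.neg hwc.neg
  have h3 : (fun y => lp h φ0 i y + - h.wt i y) = fun z => φ0 ((A.e i).symm z) := by
    funext y; simp only [lp]; ring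
  rw [h3] at h1 h2
  have hi3 : IntegrableOn (fun z => φ0 ((A.e i).symm z)) (ball (A.e i x) R) volume := by
    rw [← h3]
    exact ((H i).intBall hb).add hwi.neg
  have h4 := h1.le hR hi3 (C := C) (by
    filter_upwards [ae_restrict_of_ae (hC i), ae_restrict_mem measurableSet_ball] with z h5 h6
    exact h5 (hb (ball_subset_closedBall h6)))
  have h5 : ph h φ0 x = val volume (lp h φ0 i) (A.e i x) + - h.wt i (A.e i x) := by
    simp only [ph, ← hi]; ring
  rw [h5, ← h2]
  exact h4

/-- a general packaging lemma: sub-mean value property of the values ⟹ `SubB` -/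
theorem subB_of {G : Set M} {φ g : M → ℝ} {d : ℕ} {ψ : Cn d → M} {z : Cn d} {r : ℝ} (hr : 0 < r)
    {V : Cn d → ℝ} (hae : ∀ᵐ w ∂(volume.restrict (ball z r)), ψ w ∈ G)
    (hV : ∀ w ∈ closedBall z r, ψ w ∈ G → V w = φ (ψ w) + g (ψ w))
    (hg : IntegrableOn (fun w => g (ψ w)) (ball z r))
    (hi : IntegrableOn V (ball z r)) (hz : ψ z ∈ G) (hs : V z ≤ Av volume V r z) :
    SubB φ G g ψ z r := by
  have h1 : V =ᵐ[volume.restrict (ball z r)] fun w => φ (ψ w) + g (ψ w) := by
    filter_upwards [hae, ae_restrict_mem measurableSet_ball] with w h2 h3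
    exact hV w (ball_subset_closedBall h3) h2
  refine ⟨hae, ?_, ?_⟩
  · have h2 := (hi.congr h1).sub hg
    refine h2.congr (Eventually.of_forall fun w => ?_)
    simp
  · rw [← hV z (mem_closedBall_self hr.le) hz, Av_eq_average, ← Av_congr h1]
    exact hs

/-- adding a psh function on the ball -/
theorem SubB.add_sm2 {G : Set M} {φ g g' : M → ℝ} {d : ℕ} {ψ : Cn d → M} {z : Cn d} {r : ℝ}
    (hr : 0 < r) (hS : SubB φ G g ψ z r) (hg : IntegrableOn (fun w => g (ψ w)) (ball z r))
    {k : Cn d → ℝ} (hk : Sm2 (closedBall z r) k)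
    (he : ∀ w ∈ closedBall z r, g' (ψ w) = g (ψ w) + k w) : SubB φ G g' ψ z r := by
  have hprop : ProperSpace (Cn d) := FiniteDimensional.proper ℝ _
  refine ⟨hS.ae, hS.int, ?_⟩
  have h1 := hS.sub
  have hki : IntegrableOn k (ball z r) volume :=
    (Sm2.intOn hk (isCompact_closedBall _ _)).mono_set ball_subset_closedBall
  have h2 := core_id (μ := (volume : Measure (Cn d))) hk
  rw [int_trans] at h2
  have hvol := vol_pos (μ := (volume : Measure (Cn d))) hr
  have h3 : k z ≤ Av volume k r z := by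
    unfold Av
    calc k z = (volume.real (ball (0 : Cn d) r))⁻¹ *
          (volume.real (ball (0 : Cn d) r) * k z) := by field_simp
      _ ≤ _ := mul_le_mul_of_nonneg_left h2 (by positivity)
  have h4 : Av volume (fun w => φ (ψ w) + g' (ψ w)) r z =
      Av volume (fun w => (φ (ψ w) + g (ψ w)) + k w) r z := by
    refine Av_congr ?_
    filter_upwards [ae_restrict_mem measurableSet_ball] with w hw
    rw [he w (ball_subset_closedBall hw)]; ring
  rw [Av_eq_average] at h1
  have h5 : Av volume (fun w => φ (ψ w) + g (ψ w) + k w) r z =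
      Av volume (fun w => φ (ψ w) + g (ψ w)) r z + Av volume k r z :=
    Av_add (hS.int.add hg) hki
  rw [Av_eq_average, h4, h5, he z (mem_closedBall_self hr.le)]
  linarith

/-- composition of a holomorphic ball with the chart -/
theorem HolBall.analyticAt {i : A.ι} {d : ℕ} {ψ : Cn d → M} {z : Cn d} {r : ℝ}
    (hψ : HolBall A i ψ z r) : ∀ w ∈ closedBall z r, AnalyticAt ℂ (fun w => A.e i (ψ w)) w := by
  obtain ⟨-, U, hU, hs, -, hd⟩ := hψ
  exact fun w hw => analyticAt_of_diffOn hU hd (hs hw)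

theorem HolBall.mem {i : A.ι} {d : ℕ} {ψ : Cn d → M} {z : Cn d} {r : ℝ}
    (hψ : HolBall A i ψ z r) : ∀ w ∈ closedBall z r, ψ w ∈ (A.e i).source := by
  obtain ⟨-, U, hU, hs, hm, -⟩ := hψ
  exact fun w hw => hm w (hs hw)

theorem wt_int (h : HM L) {i : A.ι} {d : ℕ} {ψ : Cn d → M} {z : Cn d} {r : ℝ}
    (hψ : HolBall A i ψ z r) : ContinuousOn (fun w => h.wt i (A.e i (ψ w))) (closedBall z r) :=
  (wt_cont h i).comp (fun w hw => (HolBall.analyticAt hψ w hw).continuousAt.continuousWithinAt)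
    fun w hw => (A.e i).map_source (HolBall.mem hψ w hw)

/-- **the potential is plurisubharmonic along holomorphic balls** -/
theorem sub_all (H : LPsh h φ0) {d : ℕ} {i : A.ι} {ψ : Cn d → M} {z : Cn d} {r : ℝ}
    (hψ : HolBall A i ψ z r) (hz : ψ z ∈ GG h φ0) :
    SubB (ph h φ0) (GG h φ0) (fun x => h.wt i (A.e i x)) ψ z r := by
  have hprop : ProperSpace (Cn d) := FiniteDimensional.proper ℝ _
  have hr := hψ.1
  have hm := HolBall.mem hψ
  have hzs := hm z (mem_closedBall_self hr.le)
  obtain ⟨h1, h2, h3⟩ := (H i).holo (ν := (volume : Measure (Cn d))) hr (HolBall.analyticAt hψ)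
    (fun w hw => (A.e i).map_source (hm w hw)) ((mem_GG H hzs).1 hz)
  refine subB_of hr (V := fun w => val volume (lp h φ0 i) (A.e i (ψ w))) ?_ ?_ ?_ h2 hz h3
  · filter_upwards [h1, ae_restrict_mem measurableSet_ball] with w h4 h5
    exact (mem_GG H (hm w (ball_subset_closedBall h5))).2 h4
  · intro w hw hg
    exact ph_eq H (hm w hw) hg
  · exact ((wt_int h hψ).integrableOn_compact (isCompact_closedBall _ _)).mono_set
      ball_subset_closedBall

/-- **QPSH-LIM** -/
def qpsh (H : LPsh h φ0) {C : ℝ}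
    (hC : ∀ i, ∀ᵐ z : Cn N, z ∈ (A.e i).target → φ0 ((A.e i).symm z) ≤ C) : QPsh h where
  φ := ph h φ0
  G := GG h φ0
  C := C
  le _ hx := ph_le H hC hx
  sm _ _ _ _ _ hψ hz := sub_all H hψ hz

end Crest.Agent.R281.Qp5_911
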