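import Crest.Agent.R281.Qp5_911

/-!
# R281 (S0424), DIV 6, QPSH-LIM (helper911), file 6: the potential on a tube

* `exists_bih` : inverse function theorem, local biholomorphisms;
* `TubC` : coordinates `Φ : D → W` with inverse `P` on the manifold, and `φ0 ∘ Φ + wt ∘ Φ - κ` a local
  `L¹` limit of psh functions; **`TubC.sub`** : the sub-mean inequality for `φ + wt - κ ∘ P` along every
  holomorphic ball into `W`, in every chart;
* **`good_tube`** : 360's `Good (qpsh H hC) T' x` from the holomorphic tube `Ψ` near `p₀`.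
-/

set_option autoImplicit false
set_option linter.unusedSectionVars false

open Set Filter Topology Metric Real MeasureTheory
open scoped ContDiff Pointwise

noncomputable section

namespace Crest.Agent.R281.Qp6_911

open Crest.Agent.R275 Crest.Agent.R275.Geo Crest.Agent.R275.Core144
open Crest.Agent.R273.Defs_333 Crest.Agent.R273.HM_333
open Crest.Agent.R257.HoB_843 Crest.Agent.R281.Qp1_911 Crest.Agent.R281.Qp2_911
  Crest.Agent.R281.Qp3_911 Crest.Agent.R281.Qp4_911 Crest.Agent.R281.LogSm_911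
  Crest.Agent.R281.Qp5_911
open Crest.Agent.R281.Un_360 (HolBall SubB QPsh)

/-! ### inverse function theorem -/

section ift

variable {E : Type*} [NormedAddCommGroup E] [NormedSpace ℂ E] [FiniteDimensional ℂ E]
  {F : Type*} [NormedAddCommGroup F] [NormedSpace ℂ F] [FiniteDimensional ℂ F]

theorem exists_bih {D : Set F} (hD : IsOpen D) {T : F → E} (hT : ∀ p ∈ D, AnalyticAt ℂ T p)
    {p₀ : F} (hp : p₀ ∈ D) (hd : Function.Injective (fderiv ℂ T p₀))
    (hdim : Module.finrank ℂ F = Module.finrank ℂ E) :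
    ∃ D₀ ⊆ D, ∃ S : E → F, p₀ ∈ D₀ ∧ Bih D₀ (T '' D₀) T S := by
  have hcE : CompleteSpace E := FiniteDimensional.complete ℂ E
  have hcF : CompleteSpace F := FiniteDimensional.complete ℂ F
  let L₀ : F ≃L[ℂ] E := (LinearEquiv.ofInjectiveOfFinrankEq (fderiv ℂ T p₀ : F →ₗ[ℂ] E) hd
    hdim).toContinuousLinearEquiv
  have hL₀ : (L₀ : F →L[ℂ] E) = fderiv ℂ T p₀ := by
    ext x; rfl
  have hcd : ContDiffAt ℂ ω T p₀ := (hT p₀ hp).contDiffAt
  have hfd : HasFDerivAt T (L₀ : F →L[ℂ] E) p₀ := by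
    rw [hL₀]; exact (hT p₀ hp).differentiableAt.hasFDerivAt
  let e : OpenPartialHomeomorph F E := hcd.toOpenPartialHomeomorph T hfd (by simp)
  have he : (e : F → E) = T := hcd.toOpenPartialHomeomorph_coe hfd (by simp)
  have hp₀e : p₀ ∈ e.source := hcd.mem_toOpenPartialHomeomorph_source hfd (by simp)
  set O : Set F := D ∩ (fderiv ℂ T) ⁻¹' (range ((↑) : (F ≃L[ℂ] E) → F →L[ℂ] E)) with hO
  have hOo : IsOpen O := by
    refine ContinuousOn.isOpen_inter_preimage (fun p hp => ?_) hD (ContinuousLinearEquiv.isOpen (𝕜 := ℂ))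
    exact (hT p hp).fderiv.continuousAt.continuousWithinAt
  have hp₀O : p₀ ∈ O := ⟨hp, L₀, hL₀⟩
  set D₀ : Set F := e.source ∩ O with hD₀
  have hD₀o : IsOpen D₀ := e.open_source.inter hOo
  have himg : T '' D₀ = e '' D₀ := by rw [he]
  have hmem : ∀ p ∈ D₀, T p ∈ e.target := fun p hp => by
    rw [← he]; exact e.map_source hp.1
  have hst : ∀ p ∈ D₀, e.symm (T p) = p := fun p hp => by
    rw [← he]; exact e.left_inv hp.1
  refine ⟨D₀, fun p hp => hp.2.1, e.symm, ⟨hp₀e, hp₀O⟩, ?_⟩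
  refine ⟨hD₀o, ?_, fun z hz => hT z hz.2.1, ?_, fun z hz => mem_image_of_mem _ hz, ?_, hst, ?_⟩
  · rw [himg]
    exact e.isOpen_image_of_subset_source hD₀o fun p hp => hp.1
  · rintro _ ⟨p, hp, rfl⟩
    obtain ⟨L, hL⟩ := hp.2.2
    have h1 := hst p hp
    refine ContDiffAt.analyticAt (OpenPartialHomeomorph.contDiffAt_symm e (f₀' := L) (hmem p hp) ?_ ?_)
    · rw [h1, he, hL]
      exact (hT p hp.2.1).differentiableAt.hasFDerivAt
    · rw [h1, he]
      exact (hT p hp.2.1).contDiffAt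
  · rintro _ ⟨p, hp, rfl⟩
    rw [hst p hp]; exact hp
  · rintro _ ⟨p, hp, rfl⟩
    rw [hst p hp]

end ift

/-! ### tubes -/

variable {N : ℕ} {M : Type} [TopologicalSpace M] {A : Atl N M} {L : LB A}

variable {F : Type*} [NormedAddCommGroup F] [NormedSpace ℂ F] [NormedSpace ℝ F]
  [IsScalarTower ℝ ℂ F] [FiniteDimensional ℝ F] [MeasurableSpace F] [BorelSpace F]
  {ν : Measure F} [ν.IsAddHaarMeasure]

/-- coordinates `Φ : D → W` on the open part `W` of the chart `i`, with inverse `P` -/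
structure TubC (h : HM L) (φ0 : M → ℝ) (ν : Measure F) (D : Set F) (W : Set M) (i : A.ι)
    (Φ : F → M) (P : M → F) (κ : F → ℝ) : Prop where
  oD : IsOpen D
  oW : IsOpen W
  sub : W ⊆ (A.e i).source
  mΦ : ∀ p ∈ D, Φ p ∈ W
  mP : ∀ y ∈ W, P y ∈ D
  PΦ : ∀ p ∈ D, P (Φ p) = p
  ΦP : ∀ y ∈ W, Φ (P y) = y
  hΦ : ∀ p ∈ D, AnalyticAt ℂ (fun p => A.e i (Φ p)) p
  hP : ∀ y ∈ W, AnalyticAt ℂ (fun z => P ((A.e i).symm z)) (A.e i y)
  κc : ContinuousOn κ D
  lim : LimPsh ν D (fun p => φ0 (Φ p) + h.wt i (A.e i (Φ p)) - κ p)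

namespace TubC

variable {h : HM L} {φ0 : M → ℝ} {D : Set F} {W : Set M} {i : A.ι} {Φ : F → M} {P : M → F}
  {κ : F → ℝ}

theorem bih (T : TubC h φ0 ν D W i Φ P κ) :
    Bih D ((A.e i).target ∩ (A.e i).symm ⁻¹' W) (fun p => A.e i (Φ p))
      (fun z => P ((A.e i).symm z)) where
  op := T.oD
  op' := (A.e i).isOpen_inter_preimage_symm T.oW
  hT := T.hΦ
  hS z hz := by
    have := T.hP _ hz.2
    rwa [(A.e i).right_inv hz.1] at this
  mT p hp := ⟨(A.e i).map_source (T.sub (T.mΦ p hp)), by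
    rw [mem_preimage, (A.e i).left_inv (T.sub (T.mΦ p hp))]; exact T.mΦ p hp⟩
  mS z hz := T.mP _ hz.2
  ST p hp := by rw [(A.e i).left_inv (T.sub (T.mΦ p hp)), T.PΦ p hp]
  TS z hz := by rw [T.ΦP _ hz.2, (A.e i).right_inv hz.1]

/-- good points and values in the coordinates of the tube -/
theorem good_iff (T : TubC h φ0 ν D W i Φ P κ) (H : LPsh h φ0) {p : F} (hp : p ∈ D) :
    (Good ν (fun p => φ0 (Φ p) + h.wt i (A.e i (Φ p)) - κ p) p ↔ Φ p ∈ GG h φ0) ∧
      (Φ p ∈ GG h φ0 → val ν (fun p => φ0 (Φ p) + h.wt i (A.e i (Φ p)) - κ p) p =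
        ph h φ0 (Φ p) + (h.wt i (A.e i (Φ p)) - κ p)) := by
  have hB := T.bih
  have hps := T.sub (T.mΦ p hp)
  have h1 := (H i).mono hB.op' fun z hz => hz.1
  have h2 := chg hB T.lim h1 (k := fun p => - κ p) T.κc.neg (Eventually.of_forall fun p hp => by
    simp only [Qp5_911.lp]
    rw [(A.e i).left_inv (T.sub (T.mΦ p hp))]; ring) hp
  have h3 := mem_GG H hps
  refine ⟨h2.1.trans h3.symm, fun hg => ?_⟩
  have h4 := h2.2 (h2.1.2 (h3.1 hg))
  rw [h4, ph_eq H hps hg]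
  ring

/-- the inequality in the chart `i` -/
theorem sub_self (T : TubC h φ0 ν D W i Φ P κ) (H : LPsh h φ0) {d : ℕ} {ψ : Cn d → M} {z : Cn d}
    {r : ℝ} (hψ : HolBall A i ψ z r) (hW : ∀ w ∈ closedBall z r, ψ w ∈ W)
    (hz : ψ z ∈ GG h φ0) :
    SubB (ph h φ0) (GG h φ0) (fun x => h.wt i (A.e i x) - κ (P x)) ψ z r := by
  have hprop : ProperSpace (Cn d) := FiniteDimensional.proper ℝ _
  have hr := hψ.1
  have hm := HolBall.mem hψ
  have hz0 := mem_closedBall_self (x := z) hr.le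
  have hPψ : ∀ w ∈ closedBall z r, AnalyticAt ℂ (fun w => P (ψ w)) w := by
    intro w hw
    have h1 : AnalyticAt ℂ (fun w => P ((A.e i).symm (A.e i (ψ w)))) w :=
      AnalyticAt.comp (g := fun z => P ((A.e i).symm z)) (f := fun w => A.e i (ψ w))
        (T.hP _ (hW w hw)) (HolBall.analyticAt hψ w hw)
    refine h1.congr ?_
    obtain ⟨-, U, hU, hs, hmU, -⟩ := hψ
    filter_upwards [hU.mem_nhds (hs hw)] with y hy
    rw [(A.e i).left_inv (hmU y hy)]
  have hcont : ContinuousOn (fun w => P (ψ w)) (closedBall z r) := fun w hw =>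
    (hPψ w hw).continuousAt.continuousWithinAt
  have hg0 : Good ν (fun p => φ0 (Φ p) + h.wt i (A.e i (Φ p)) - κ p) (P (ψ z)) := by
    rw [(T.good_iff H (T.mP _ (hW z hz0))).1, T.ΦP _ (hW z hz0)]
    exact hz
  obtain ⟨h1, h2, h3⟩ := T.lim.holo (ν := (volume : Measure (Cn d))) hr hPψ
    (fun w hw => T.mP _ (hW w hw)) hg0
  refine subB_of hr
    (V := fun w => val ν (fun p => φ0 (Φ p) + h.wt i (A.e i (Φ p)) - κ p) (P (ψ w)))
    ?_ ?_ ?_ h2 hz h3
  · filter_upwards [h1, ae_restrict_mem measurableSet_ball] with w h4 h5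
    have h6 := hW w (ball_subset_closedBall h5)
    have h7 := (T.good_iff H (T.mP _ h6)).1.1 h4
    rwa [T.ΦP _ h6] at h7
  · intro w hw hg
    have h6 := hW w hw
    have h7 := (T.good_iff H (T.mP _ h6)).2 (by rw [T.ΦP _ h6]; exact hg)
    rw [T.ΦP _ h6] at h7
    exact h7
  · have h8 : ContinuousOn (fun w => h.wt i (A.e i (ψ w)) - κ (P (ψ w))) (closedBall z r) :=
      (wt_int h hψ).sub (T.κc.comp hcont fun w hw => T.mP _ (hW w hw))
    exact (h8.integrableOn_compact (isCompact_closedBall _ _)).mono_set ball_subset_closedBall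

/-- **the inequality in every chart** -/
theorem sub' (T : TubC h φ0 ν D W i Φ P κ) (H : LPsh h φ0) {d : ℕ} {j : A.ι} {ψ : Cn d → M}
    {z : Cn d} {r : ℝ} (hψ : HolBall A j ψ z r) (hW : ∀ w ∈ closedBall z r, ψ w ∈ W)
    (hz : ψ z ∈ GG h φ0) :
    SubB (ph h φ0) (GG h φ0) (fun x => h.wt j (A.e j x) - κ (P x)) ψ z r := by
  have hprop : ProperSpace (Cn d) := FiniteDimensional.proper ℝ _
  have hr := hψ.1
  obtain ⟨-, U, hU, hs, hmU, hdU⟩ := id hψ
  -- the same ball in the chart `i`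
  have hUc : ContinuousOn ψ U := by
    have h1 : ContinuousOn (fun w => (A.e j).symm (A.e j (ψ w))) U :=
      (A.e j).continuousOn_symm.comp hdU.continuousOn fun w hw => (A.e j).map_source (hmU w hw)
    exact h1.congr fun w hw => ((A.e j).left_inv (hmU w hw)).symm
  have hU' : IsOpen (U ∩ ψ ⁻¹' W) := hUc.isOpen_inter_preimage hU T.oW
  have hov : ∀ w ∈ U ∩ ψ ⁻¹' W, A.e j (ψ w) ∈ A.ov j i := fun w hw =>
    ⟨(A.e j).map_source (hmU w hw.1), by
      rw [(A.e j).left_inv (hmU w hw.1)]; exact T.sub hw.2⟩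
  have hψi : HolBall A i ψ z r := by
    refine ⟨hr, U ∩ ψ ⁻¹' W, hU', fun w hw => ⟨hs hw, hW w hw⟩, fun w hw => T.sub hw.2, ?_⟩
    have h1 : DifferentiableOn ℂ (fun w => A.e i ((A.e j).symm (A.e j (ψ w)))) (U ∩ ψ ⁻¹' W) :=
      (A.holo j i).comp (hdU.mono inter_subset_left) hov
    exact h1.congr fun w hw => by rw [(A.e j).left_inv (hmU w hw.1)]
  have hSi := T.sub_self H hψi hW hz
  have hm := HolBall.mem hψ
  have hmi := HolBall.mem hψi
  -- the difference of the weights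
  have hga : ∀ w ∈ closedBall z r, AnalyticAt ℂ (fun w => (L.g i j (ψ w))⁻¹) w := by
    intro w hw
    have h1 : A.e i (ψ w) ∈ A.ov i j := ⟨(A.e i).map_source (hmi w hw), by
      rw [(A.e i).left_inv (hmi w hw)]; exact hm w hw⟩
    have h2 : AnalyticAt ℂ (fun z => L.g i j ((A.e i).symm z)) (A.e i (ψ w)) :=
      analyticAt_of_diffOn (isOpen_ov' A i j) (L.hol i j) h1
    have h3 : AnalyticAt ℂ (fun w => L.g i j ((A.e i).symm (A.e i (ψ w)))) w :=
      AnalyticAt.comp (g := fun z => L.g i j ((A.e i).symm z)) (f := fun w => A.e i (ψ w))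
        h2 (HolBall.analyticAt hψi w hw)
    have h4 : AnalyticAt ℂ (fun w => L.g i j (ψ w)) w := by
      refine h3.congr ?_
      filter_upwards [hU'.mem_nhds ⟨hs hw, hW w hw⟩] with y hy
      rw [(A.e i).left_inv (T.sub hy.2)]
    exact h4.inv (L.ne_zero i j _)
  have hk : Sm2 (closedBall z r) (fun w => Real.log (‖(L.g i j (ψ w))⁻¹‖ ^ 2)) :=
    sm2_log hga fun w _ => inv_ne_zero (L.ne_zero i j _)
  refine SubB.add_sm2 hr hSi ?_ hk fun w hw => ?_
  · have hPc : ContinuousOn (fun w => P (ψ w)) (closedBall z r) := by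
      intro w hw
      have h1 : AnalyticAt ℂ (fun w => P ((A.e i).symm (A.e i (ψ w)))) w :=
        AnalyticAt.comp (g := fun z => P ((A.e i).symm z)) (f := fun w => A.e i (ψ w))
          (T.hP _ (hW w hw)) (HolBall.analyticAt hψi w hw)
      refine ContinuousAt.continuousWithinAt (h1.continuousAt.congr ?_)
      filter_upwards [hU'.mem_nhds ⟨hs hw, hW w hw⟩] with y hy
      rw [(A.e i).left_inv (T.sub hy.2)]
    have h8 : ContinuousOn (fun w => h.wt i (A.e i (ψ w)) - κ (P (ψ w))) (closedBall z r) :=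
      (wt_int h hψi).sub (T.κc.comp hPc fun w hw => T.mP _ (hW w hw))
    exact (h8.integrableOn_compact (isCompact_closedBall _ _)).mono_set ball_subset_closedBall
  · have h1 : A.e i (ψ w) ∈ A.ov i j := ⟨(A.e i).map_source (hmi w hw), by
      rw [(A.e i).left_inv (hmi w hw)]; exact hm w hw⟩
    have h2 := wt_tr h h1
    rw [(A.e i).left_inv (hmi w hw)] at h2
    rw [h2, norm_inv, inv_pow, Real.log_inv]
    ring

end TubC

/-- **good points of a tube** -/
theorem good_tube {h : HM L} {φ0 : M → ℝ} (H : LPsh h φ0) {C : ℝ}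
    (hC : ∀ i, ∀ᵐ z : Cn N, z ∈ (A.e i).target → φ0 ((A.e i).symm z) ≤ C)
    {m m' : ℕ} (hdim : m + m' = N) {Ψ : Cn m × Cn m' → M} {Db : Set (Cn m)} (hDb : IsOpen Db)
    (cont : ∀ p : Cn m × Cn m', p.1 ∈ Db → ContinuousAt Ψ p)
    (hol : ∀ p : Cn m × Cn m', p.1 ∈ Db → ∀ i, Ψ p ∈ (A.e i).source →
      AnalyticAt ℂ (fun q => A.e i (Ψ q)) p ∧
        Function.Injective (fderiv ℂ (fun q => A.e i (Ψ q)) p))
    (sep : ∀ p p' : Cn m × Cn m', p.1 ∈ Db → p'.1 ∈ Db → Ψ p = Ψ p' → p.1 = p'.1)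
    {p₀ : Cn m × Cn m'} (hp₀ : p₀.1 ∈ Db) {i : A.ι} (hi : Ψ p₀ ∈ (A.e i).source)
    {ν : Measure (Cn m × Cn m')} [ν.IsAddHaarMeasure] {O : Set (Cn m × Cn m')} (hO : p₀ ∈ O)
    {c : ℝ} (hc : 0 < c)
    (hl : LimPsh ν O (fun p => φ0 (Ψ p) + h.wt i (A.e i (Ψ p)) - c * ‖p.1‖ ^ 2))
    (hg : Ψ p₀ ∈ GG h φ0) {T' : Set M} (hT' : ∀ y, y ∈ T' ↔ ∃ x, y = Ψ (p₀.1, x)) :
    Nonempty (Crest.Agent.R281.Un_360.Good (qpsh H hC) T' (Ψ p₀)) := by
  -- an open set on which everything is defined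
  set O₁ : Set (Cn m × Cn m') := {p | p.1 ∈ Db} with hO₁
  have hO₁o : IsOpen O₁ := hDb.preimage continuous_fst
  have hΨc : ContinuousOn Ψ O₁ := fun p hp => (cont p hp).continuousWithinAt
  have hD₁ : IsOpen (O ∩ (O₁ ∩ Ψ ⁻¹' (A.e i).source)) :=
    hl.op.inter (hΨc.isOpen_inter_preimage hO₁o (A.e i).open_source)
  have hfin : Module.finrank ℂ (Cn m × Cn m') = Module.finrank ℂ (Cn N) := by
    rw [Module.finrank_prod]
    simp [hdim]
  obtain ⟨D₀, hD₀, S, hpD, hB⟩ := exists_bih hD₁ (T := fun q => A.e i (Ψ q))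
    (fun p hp => (hol p hp.2.1 i hp.2.2).1) (p₀ := p₀) ⟨hO, hp₀, hi⟩ (hol p₀ hp₀ i hi).2 hfin
  set T : Cn m × Cn m' → Cn N := fun q => A.e i (Ψ q) with hT
  have hsrc : ∀ p ∈ D₀, Ψ p ∈ (A.e i).source := fun p hp => (hD₀ hp).2.2
  have hTt : T '' D₀ ⊆ (A.e i).target := by
    rintro _ ⟨p, hp, rfl⟩
    exact (A.e i).map_source (hsrc p hp)
  have hWe : Ψ '' D₀ = (A.e i).symm '' (T '' D₀) := by
    rw [image_image]
    refine image_congr fun p hp => ?_
    rw [hT]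
    exact ((A.e i).left_inv (hsrc p hp)).symm
  have hWo : IsOpen (Ψ '' D₀) := by
    rw [hWe]
    exact (A.e i).symm.isOpen_image_of_subset_source hB.op' hTt
  have hTub : TubC h φ0 ν D₀ (Ψ '' D₀) i Ψ (fun y => S (A.e i y)) (fun p => c * ‖p.1‖ ^ 2) := by
    refine ⟨hB.op, hWo, ?_, fun p hp => mem_image_of_mem _ hp, ?_, hB.ST, ?_, hB.hT, ?_, ?_,
      hl.mono hB.op fun p hp => (hD₀ hp).1⟩
    · rintro _ ⟨p, hp, rfl⟩
      exact hsrc p hp
    · rintro _ ⟨p, hp, rfl⟩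
      have := hB.ST p hp
      show S (A.e i (Ψ p)) ∈ D₀
      rw [this]; exact hp
    · rintro _ ⟨p, hp, rfl⟩
      have := hB.ST p hp
      show Ψ (S (A.e i (Ψ p))) = Ψ p
      rw [this]
    · rintro _ ⟨p, hp, rfl⟩
      have h1 : AnalyticAt ℂ S (A.e i (Ψ p)) := hB.hS _ (mem_image_of_mem T hp)
      refine h1.congr ?_
      filter_upwards [(A.e i).open_target.mem_nhds ((A.e i).map_source (hsrc p hp))] with z hz
      rw [(A.e i).right_inv hz]
    · exact (continuous_const.mul (continuous_fst.norm.pow 2)).continuousOn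
  have hf₀ : ∀ p ∈ D₀, (S (A.e i (Ψ p))).1 = p.1 := fun p hp => by
    have := hB.ST p hp
    rw [this]
  refine ⟨⟨hg, Ψ '' D₀, hWo, mem_image_of_mem _ hpD, m, fun y => (S (A.e i y)).1, ?_, ?_, c, hc,
    ?_⟩⟩
  · rintro j z ⟨hz, ⟨p, hp, hpz⟩⟩
    have h1 : z ∈ A.ov j i := ⟨hz, by rw [← hpz]; exact hsrc p hp⟩
    have h2 : DifferentiableAt ℂ (fun z => A.e i ((A.e j).symm z)) z :=
      (A.holo j i).differentiableAt ((isOpen_ov' A j i).mem_nhds h1)
    have h3 : A.e i ((A.e j).symm z) ∈ T '' D₀ := ⟨p, hp, by rw [hT]; simp only [hpz]⟩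
    have h4 : DifferentiableAt ℂ (fun z => S (A.e i ((A.e j).symm z))) z :=
      DifferentiableAt.comp (g := S) (f := fun z => A.e i ((A.e j).symm z)) z
        (hB.hS _ h3).differentiableAt h2
    exact h4.fst.differentiableWithinAt
  · rintro _ ⟨p, hp, rfl⟩
    rw [hT', hf₀ p hp, hf₀ p₀ hpD]
    constructor
    · rintro ⟨x, hx⟩
      exact sep p (p₀.1, x) (hD₀ hp).2.1 hp₀ hx
    · intro h1
      exact ⟨p.2, by rw [← h1]⟩
  · intro d j ψ z r hψ hW hz
    exact hTub.sub' H hψ hW hz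

end Crest.Agent.R281.Qp6_911
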