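import Crest.Agent.R281.Qp3_911

/-!
# R281 (S0424), DIV 6, QPSH-LIM (helper911), file 7: weakly psh functions are limits of psh functions

* `cv μ w ρ` : the convolution `∫ w(t) ρ(x - t) dt`;
* `int_cv_sub_le` : `L¹` convergence of mollifications;
* `lvE_cv` : the Levi form of a mollification;
* **`limPsh_of_weak`** : `B a ∫ χ ≤ ∫ w (lvE χ · a)` for all test functions `χ ≥ 0` on `Ω`, `q` of class
  `C²` with Levi form `≤ B` ⟹ `LimPsh μ Ω (w - q)`.
-/

set_option autoImplicit false
set_option linter.unusedSectionVars false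

open Set Filter Topology Metric Real MeasureTheory
open scoped ContDiff Pointwise Convolution

noncomputable section

namespace Crest.Agent.R281.Qp7_911

open Crest.Agent.R257.HoB_843 Crest.Agent.R257.Glue2_101 Crest.Agent.R281.Rich_710
  Crest.Agent.R281.Qp1_911 Crest.Agent.R281.Qp2_911 Crest.Agent.R281.Qp3_911

section real

variable {E : Type*} [NormedAddCommGroup E] [NormedSpace ℝ E] [FiniteDimensional ℝ E]
  [MeasurableSpace E] [BorelSpace E] {μ : Measure E} [μ.IsAddHaarMeasure]

/-- convolution with a real kernel on the right -/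
def cv (μ : Measure E) (w ρ : E → ℝ) : E → ℝ := w ⋆[ContinuousLinearMap.mul ℝ ℝ, μ] ρ

theorem cv_apply (w ρ : E → ℝ) (x : E) : cv μ w ρ x = ∫ t, w t * ρ (x - t) ∂μ := rfl

theorem integrable_cv {w ρ : E → ℝ} (hw : Integrable w μ) (hρ : Integrable ρ μ) :
    Integrable (cv μ w ρ) μ := by
  have hprop : ProperSpace E := FiniteDimensional.proper ℝ E
  exact hw.integrable_convolution (ContinuousLinearMap.mul ℝ ℝ) hρ

/-- a bump function as kernel -/
theorem bump_int (φ : ContDiffBump (0 : E)) : Integrable (φ.normed μ) μ := by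
  have hprop : ProperSpace E := FiniteDimensional.proper ℝ E
  exact φ.integrable_normed

/-- convolution with a probability kernel is a contraction in `L¹` -/
theorem int_abs_cv_le (φ : ContDiffBump (0 : E)) {w : E → ℝ} (hw : Integrable w μ) :
    ∫ x, |cv μ w (φ.normed μ) x| ∂μ ≤ ∫ x, |w x| ∂μ := by
  have hprop : ProperSpace E := FiniteDimensional.proper ℝ E
  have h1 : ∫ x, cv μ (fun x => |w x|) (φ.normed μ) x ∂μ = ∫ x, |w x| ∂μ := by
    have := integral_convolution (ContinuousLinearMap.mul ℝ ℝ) (μ := μ) (ν := μ) hw.abs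
      (bump_int (μ := μ) φ)
    rw [φ.integral_normed] at this
    simpa [cv] using this
  rw [← h1]
  refine integral_mono (integrable_cv hw (bump_int φ)).abs (integrable_cv hw.abs (bump_int φ))
    fun x => ?_
  show |cv μ w (φ.normed μ) x| ≤ cv μ (fun x => |w x|) (φ.normed μ) x
  rw [cv_apply, cv_apply]
  refine (abs_integral_le_integral_abs).trans (le_of_eq ?_)
  refine integral_congr_ae (Eventually.of_forall fun t => ?_)
  simp only [abs_mul, abs_of_nonneg (φ.nonneg_normed _)]

theorem cv_sub {w g : E → ℝ} (φ : ContDiffBump (0 : E)) (hw : Integrable w μ)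
    (hg : Integrable g μ) (x : E) :
    cv μ (fun y => w y - g y) (φ.normed μ) x = cv μ w (φ.normed μ) x - cv μ g (φ.normed μ) x := by
  have hprop : ProperSpace E := FiniteDimensional.proper ℝ E
  rw [cv_apply, cv_apply, cv_apply]
  have hb : ∀ {u : E → ℝ}, Integrable u μ → Integrable (fun t => u t * φ.normed μ (x - t)) μ := by
    intro u hu
    obtain ⟨C, hC⟩ := φ.hasCompactSupport_normed (μ := μ) |>.exists_bound_of_continuous
      (φ.continuous_normed (μ := μ))
    refine hu.mul_bdd (c := C) ?_ (Eventually.of_forall fun t => hC _)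
    exact (φ.continuous_normed.comp (continuous_const.sub continuous_id)).aestronglyMeasurable
  rw [← integral_sub (hb hw) (hb hg)]
  refine integral_congr_ae (Eventually.of_forall fun t => ?_)
  simp only
  ring

/-- near a uniformly continuous function -/
theorem cv_near (φ : ContDiffBump (0 : E)) {g : E → ℝ} (hg : Continuous g) {x : E} {η : ℝ}
    (h : ∀ y ∈ ball x φ.rOut, |g y - g x| ≤ η) : |cv μ g (φ.normed μ) x - g x| ≤ η := by
  have hprop : ProperSpace E := FiniteDimensional.proper ℝ E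
  have h1 := φ.dist_normed_convolution_le (μ := μ) (g := g) (x₀ := x) (ε := η)
    hg.aestronglyMeasurable (fun y hy => by rw [Real.dist_eq]; exact h y hy)
  have h2 : (φ.normed μ ⋆[ContinuousLinearMap.lsmul ℝ ℝ, μ] g : E → ℝ) x =
      cv μ g (φ.normed μ) x := by
    rw [convolution_lsmul_swap, cv_apply]
    refine integral_congr_ae (Eventually.of_forall fun t => ?_)
    simp only [smul_eq_mul]
    ring
  rw [h2, Real.dist_eq] at h1
  exact h1

/-- `L¹` convergence of mollifications -/
theorem exists_cv_near {w : E → ℝ} (hw : Integrable w μ) {K : Set E} (hK : IsCompact K) {ε : ℝ}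
    (hε : 0 < ε) : ∃ r > 0, ∀ φ : ContDiffBump (0 : E), φ.rOut < r →
      ∫ x in K, |cv μ w (φ.normed μ) x - w x| ∂μ ≤ ε := by
  have hprop : ProperSpace E := FiniteDimensional.proper ℝ E
  obtain ⟨g, hgc, hgw, hg, hgi⟩ := hw.exists_hasCompactSupport_integral_sub_le
    (show 0 < ε / 3 by positivity)
  have hKm : μ K < ⊤ := hK.measure_lt_top
  set V : ℝ := μ.real K with hV
  have hV0 : 0 ≤ V := measureReal_nonneg
  obtain ⟨r, hr, hgu⟩ := Metric.uniformContinuous_iff.1
    (hgc.uniformContinuous_of_continuous hg) (ε / (3 * (V + 1))) (by positivity)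
  refine ⟨r, hr, fun φ hφ => ?_⟩
  have h1 : ∀ x, |cv μ w (φ.normed μ) x - w x| ≤ |cv μ (fun y => w y - g y) (φ.normed μ) x| +
      (|cv μ g (φ.normed μ) x - g x| + |w x - g x|) := by
    intro x
    rw [cv_sub φ hw hgi]
    have e : cv μ w (φ.normed μ) x - w x = (cv μ w (φ.normed μ) x - cv μ g (φ.normed μ) x) +
        ((cv μ g (φ.normed μ) x - g x) + -(w x - g x)) := by ring
    rw [e]
    refine (abs_add_le _ _).trans (add_le_add le_rfl ((abs_add_le _ _).trans (add_le_add le_rfl ?_)))
    rw [abs_neg]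
  have i1 : Integrable (fun x => |cv μ (fun y => w y - g y) (φ.normed μ) x|) μ :=
    (integrable_cv (hw.sub hgi) (bump_int φ)).abs
  have i2 : Integrable (fun x => |cv μ g (φ.normed μ) x - g x|) μ :=
    ((integrable_cv hgi (bump_int φ)).sub hgi).abs
  have i3 : Integrable (fun x => |w x - g x|) μ := (hw.sub hgi).abs
  have i0 : Integrable (fun x => |cv μ w (φ.normed μ) x - w x|) μ :=
    ((integrable_cv hw (bump_int φ)).sub hw).abs
  calc ∫ x in K, |cv μ w (φ.normed μ) x - w x| ∂μ
      ≤ ∫ x in K, (|cv μ (fun y => w y - g y) (φ.normed μ) x| +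
      (|cv μ g (φ.normed μ) x - g x| + |w x - g x|)) ∂μ :=
        integral_mono i0.integrableOn ((i1.add (i2.add i3)).integrableOn) h1
    _ = ∫ x in K, |cv μ (fun y => w y - g y) (φ.normed μ) x| ∂μ +
        (∫ x in K, |cv μ g (φ.normed μ) x - g x| ∂μ + ∫ x in K, |w x - g x| ∂μ) :=
        (integral_add i1.integrableOn (i2.add i3).integrableOn).trans
          (congrArg _ (integral_add i2.integrableOn i3.integrableOn))
    _ ≤ ε / 3 + (ε / 3 + ε / 3) := by
        refine add_le_add ?_ (add_le_add ?_ ?_)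
        · refine (setIntegral_le_integral i1 (Eventually.of_forall fun x => abs_nonneg _)).trans ?_
          refine (int_abs_cv_le φ (hw.sub hgi)).trans ?_
          exact hgw
        · have h2 : ∀ x ∈ K, |cv μ g (φ.normed μ) x - g x| ≤ ε / (3 * (V + 1)) := by
            intro x _
            refine cv_near φ hg fun y hy => ?_
            have := hgu (show dist y x < r from lt_trans hy hφ)
            rw [Real.dist_eq] at this
            exact this.le
          have h3 : ∫ x in K, |cv μ g (φ.normed μ) x - g x| ∂μ ≤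
              ∫ x in K, ε / (3 * (V + 1)) ∂μ :=
            setIntegral_mono_on i2.integrableOn (integrableOn_const hKm.ne) hK.measurableSet h2
          refine h3.trans ?_
          rw [setIntegral_const, smul_eq_mul, ← hV, ← div_div]
          rw [mul_div_assoc']
          rw [div_le_iff₀ (by positivity)]
          nlinarith [show 0 < ε / 3 by positivity]
        · refine (setIntegral_le_integral i3 (Eventually.of_forall fun x => abs_nonneg _)).trans ?_
          exact hgw
    _ = ε := by ring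

/-- derivatives of a mollification -/
theorem fderiv_cv {w ρ : E → ℝ} (hw : LocallyIntegrable w μ) (hρ : ContDiff ℝ 1 ρ)
    (hc : HasCompactSupport ρ) (x a : E) :
    fderiv ℝ (cv μ w ρ) x a = cv μ w (fun t => fderiv ℝ ρ t a) x := by
  have h1 := hc.hasFDerivAt_convolution_right (ContinuousLinearMap.mul ℝ ℝ) hw hρ x
  have h2 : fderiv ℝ (cv μ w ρ) x = (w ⋆[(ContinuousLinearMap.mul ℝ ℝ).precompR E, μ] fderiv ℝ ρ) x :=
    h1.fderiv
  rw [h2, convolution_precompR_apply (ContinuousLinearMap.mul ℝ ℝ) hw (hc.fderiv (𝕜 := ℝ))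
    (hρ.continuous_fderiv (by norm_num)) x a]
  rfl

theorem contDiff_cv {w ρ : E → ℝ} (hw : LocallyIntegrable w μ) (hρ : ContDiff ℝ ∞ ρ)
    (hc : HasCompactSupport ρ) : ContDiff ℝ ∞ (cv μ w ρ) :=
  hc.contDiff_convolution_right (ContinuousLinearMap.mul ℝ ℝ) hw hρ

/-- second derivatives as iterated directional derivatives -/
theorem fd2_apply {u : E → ℝ} (hu : ContDiff ℝ ∞ u) (x a b : E) :
    fderiv ℝ (fderiv ℝ u) x a b = fderiv ℝ (fun y => fderiv ℝ u y b) x a := by
  have h1 : DifferentiableAt ℝ (fderiv ℝ u) x :=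
    ((hu.fderiv_right (m := ∞) (by simp)).differentiable (by simp)) x
  rw [fderiv_clm_apply h1 (differentiableAt_const b)]
  simp

theorem fd2_cv {w ρ : E → ℝ} (hw : LocallyIntegrable w μ) (hρ : ContDiff ℝ ∞ ρ)
    (hc : HasCompactSupport ρ) (x a b : E) :
    fderiv ℝ (fderiv ℝ (cv μ w ρ)) x a b = cv μ w (fun t => fderiv ℝ (fderiv ℝ ρ) t a b) x := by
  rw [fd2_apply (contDiff_cv hw hρ hc)]
  have h1 : (fun y => fderiv ℝ (cv μ w ρ) y b) = cv μ w (fun t => fderiv ℝ ρ t b) := by
    funext y
    exact fderiv_cv hw (hρ.of_le (by simp)) hc y b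
  have h2 : ContDiff ℝ ∞ (fun t => fderiv ℝ ρ t b) :=
    (hρ.fderiv_right (m := ∞) (by simp)).clm_apply contDiff_const
  have h3 : HasCompactSupport (fun t => fderiv ℝ ρ t b) := hc.fderiv_apply (𝕜 := ℝ) b
  rw [h1, fderiv_cv hw (h2.of_le (by simp)) h3]
  congr 1
  funext t
  rw [fd2_apply hρ]

end real

variable {E : Type*} [NormedAddCommGroup E] [NormedSpace ℂ E] [NormedSpace ℝ E]
  [IsScalarTower ℝ ℂ E] [FiniteDimensional ℝ E] [MeasurableSpace E] [BorelSpace E]
  {μ : Measure E} [μ.IsAddHaarMeasure]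

theorem lvE_sub2 {u q : E → ℝ} {z : E} (hu : ContDiffAt ℝ 2 u z) (hq : ContDiffAt ℝ 2 q z)
    (a : E) : lvE (fun y => u y - q y) z a = lvE u z a - lvE q z a := by
  have d1 : ∀ {f : E → ℝ}, ContDiffAt ℝ 2 f z → ∀ᶠ y in 𝓝 z, DifferentiableAt ℝ f y := by
    intro f hf
    exact (hf.eventually (by simp)).mono fun y hy => hy.differentiableAt (by norm_num)
  have d2 : ∀ {f : E → ℝ}, ContDiffAt ℝ 2 f z → DifferentiableAt ℝ (fderiv ℝ f) z := by
    intro f hf
    exact (hf.fderiv_right (m := 1) (by norm_num)).differentiableAt (by norm_num)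
  have e : fderiv ℝ (fun y => u y - q y) =ᶠ[𝓝 z] fun y => fderiv ℝ u y - fderiv ℝ q y := by
    filter_upwards [d1 hu, d1 hq] with y h1 h2
    exact fderiv_sub h1 h2
  have e2 : fderiv ℝ (fun y => fderiv ℝ u y - fderiv ℝ q y) z =
      fderiv ℝ (fderiv ℝ u) z - fderiv ℝ (fderiv ℝ q) z := fderiv_sub (d2 hu) (d2 hq)
  unfold lvE
  rw [e.fderiv_eq, e2]
  simp only [_root_.sub_apply]
  ring

/-- reflection and translation -/
theorem lvE_refl {ρ : E → ℝ} (hρ : ContDiff ℝ ∞ ρ) (x t a : E) :
    lvE (fun t => ρ (x - t)) t a = lvE ρ (x - t) a := by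
  have hT : ContDiffAt ℂ 2 (fun t : E => x - t) t := contDiffAt_const.sub contDiffAt_id
  have h1 := lvE_comp (T := fun t : E => x - t) (u := ρ) (z := t) hT
    ((hρ.of_le (by norm_cast)).contDiffAt) a
  have h2 : fderiv ℂ (fun t : E => x - t) t a = -a := by
    rw [fderiv_const_sub, fderiv_fun_id]
    rfl
  rw [h2] at h1
  have h3 : lvE (fun t => ρ (x - t)) t a = lvE ρ (x - t) (-a) := h1
  rw [h3]
  unfold lvE
  simp

theorem lvE_cv {w ρ : E → ℝ} (hw : LocallyIntegrable w μ) (hρ : ContDiff ℝ ∞ ρ)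
    (hc : HasCompactSupport ρ) (x a : E) :
    lvE (cv μ w ρ) x a = ∫ t, w t * lvE (fun t => ρ (x - t)) t a ∂μ := by
  simp only [lvE_refl hρ]
  have hi : ∀ b : E, Integrable (fun t => w t * fderiv ℝ (fderiv ℝ ρ) (x - t) b b) μ := by
    intro b
    have h2 : ContDiff ℝ ∞ (fun t => fderiv ℝ ρ t b) :=
      (hρ.fderiv_right (m := ∞) (by simp)).clm_apply contDiff_const
    have h3 : HasCompactSupport (fun t => fderiv ℝ ρ t b) := hc.fderiv_apply (𝕜 := ℝ) b
    have h4 : ContDiff ℝ ∞ (fun t => fderiv ℝ (fun t => fderiv ℝ ρ t b) t b) :=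
      (h2.fderiv_right (m := ∞) (by simp)).clm_apply contDiff_const
    have h5 : HasCompactSupport (fun t => fderiv ℝ (fun t => fderiv ℝ ρ t b) t b) :=
      h3.fderiv_apply (𝕜 := ℝ) b
    have h6 := h5.convolutionExists_right (ContinuousLinearMap.mul ℝ ℝ) hw h4.continuous x
    refine h6.congr (Eventually.of_forall fun t => ?_)
    simp only [ContinuousLinearMap.mul_apply', fd2_apply hρ]
  have e : ∀ t, w t * lvE ρ (x - t) a = (1 / 4) * (w t * fderiv ℝ (fderiv ℝ ρ) (x - t) a a +
      w t * fderiv ℝ (fderiv ℝ ρ) (x - t) (Complex.I • a) (Complex.I • a)) := fun t => by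
    unfold lvE; ring
  simp only [e]
  rw [integral_const_mul, integral_add (hi a) (hi (Complex.I • a))]
  conv_lhs => unfold lvE
  rw [fd2_cv hw hρ hc, fd2_cv hw hρ hc]
  rfl

/-- test functions on `Ω` -/
structure Tst (Ω : Set E) (χ : E → ℝ) : Prop where
  sm : ContDiff ℝ ∞ χ
  cs : HasCompactSupport χ
  sub : tsupport χ ⊆ Ω
  nn : ∀ p, 0 ≤ χ p

/-- **weakly psh functions are local `L¹` limits of psh functions** -/
theorem limPsh_of_weak {Ω : Set E} (hΩ : IsOpen Ω) {w q : E → ℝ}
    (hw : ∀ K ⊆ Ω, IsCompact K → IntegrableOn w K μ) {B : E → ℝ}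
    (hq : ∀ z ∈ Ω, ContDiffAt ℝ 2 q z ∧ ∀ a, lvE q z a ≤ B a)
    (H : ∀ χ, Tst Ω χ → ∀ a, B a * ∫ p, χ p ∂μ ≤ ∫ p, w p * lvE χ p a ∂μ) :
    LimPsh μ Ω (fun z => w z - q z) := by
  have hprop : ProperSpace E := FiniteDimensional.proper ℝ E
  have hqc : ContinuousOn q Ω := fun z hz => (hq z hz).1.continuousAt.continuousWithinAt
  refine ⟨hΩ, fun K hK hc => (hw K hK hc).sub ((hqc.mono hK).integrableOn_compact hc),
    fun K hK hc ε hε => ?_⟩
  obtain ⟨δ, hδ, hδΩ⟩ := hc.exists_cthickening_subset_open hΩ hK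
  set K' := cthickening δ K with hK'
  have hK'c : IsCompact K' := hc.cthickening
  have hKK' : K ⊆ K' := self_subset_cthickening K
  set w' : E → ℝ := K'.indicator w with hw'
  have hw'i : Integrable w' μ := (hw K' hδΩ hK'c).integrable_indicator hK'c.measurableSet
  obtain ⟨r, hr, hnear⟩ := exists_cv_near hw'i hc hε
  set η : ℝ := min r δ / 2 with hη
  have hη0 : 0 < η := by have := lt_min hr hδ; positivity
  have hηr : η < r := by
    have h1 : 0 < min r δ := lt_min hr hδ
    have := min_le_left r δ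
    rw [hη]; linarith
  have hηδ : η < δ := by
    have h1 : 0 < min r δ := lt_min hr hδ
    have := min_le_right r δ
    rw [hη]; linarith
  set φ : ContDiffBump (0 : E) := ⟨η / 2, η, half_pos hη0, half_lt_self hη0⟩ with hφ
  have hφr : φ.rOut = η := rfl
  set ρ : E → ℝ := φ.normed μ with hρ
  have hρs : ContDiff ℝ ∞ ρ := φ.contDiff_normed
  have hρc : HasCompactSupport ρ := φ.hasCompactSupport_normed
  set u : E → ℝ := cv μ w' ρ with hu
  have hus : ContDiff ℝ ∞ u := contDiff_cv hw'i.locallyIntegrable hρs hρc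
  -- Levi form of the mollification
  have hlev : ∀ x ∈ K, ∀ a, B a ≤ lvE u x a := by
    intro x hx a
    set χ : E → ℝ := fun t => ρ (x - t) with hχ
    have hsupp : tsupport χ ⊆ closedBall x η := by
      refine closure_minimal ?_ isClosed_closedBall
      intro t ht
      have h1 : x - t ∈ Function.support ρ := ht
      rw [hρ, φ.support_normed_eq] at h1
      rw [mem_ball, dist_zero_right, hφr] at h1
      rw [mem_closedBall, dist_comm, dist_eq_norm]
      exact h1.le
    have hsubK' : closedBall x η ⊆ K' :=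
      (closedBall_subset_closedBall hηδ.le).trans (closedBall_subset_cthickening hx δ)
    have hχT : Tst Ω χ := by
      refine ⟨hρs.comp (contDiff_const.sub contDiff_id), ?_, (hsupp.trans hsubK').trans hδΩ,
        fun p => φ.nonneg_normed _⟩
      exact HasCompactSupport.of_support_subset_isCompact (isCompact_closedBall x η)
        ((subset_tsupport _).trans hsupp)
    have h1 := H χ hχT a
    have h2 : ∫ p, χ p ∂μ = 1 := by
      have h3 : ∫ p, ρ (x - p) ∂μ = ∫ p, ρ p ∂μ := integral_sub_left_eq_self ρ μ x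
      rw [hχ, h3]
      exact φ.integral_normed
    rw [h2, mul_one] at h1
    rw [hu, lvE_cv hw'i.locallyIntegrable hρs hρc]
    refine h1.trans (le_of_eq ?_)
    refine integral_congr_ae (Eventually.of_forall fun t => ?_)
    simp only
    by_cases ht : t ∈ K'
    · rw [hw', indicator_of_mem ht]
    · have h4 : t ∉ tsupport χ := fun h => ht (hsubK' (hsupp h))
      have h5 : χ =ᶠ[𝓝 t] fun _ => 0 := notMem_tsupport_iff_eventuallyEq.1 h4
      have h6 : lvE χ t a = 0 := by
        rw [lvE_congr h5]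
        unfold lvE
        simp
      rw [h6, mul_zero, mul_zero]
  refine ⟨fun z => u z - q z, fun x hx => ?_, ?_⟩
  · have h1 := (hq x (hK hx)).1
    have h2 : ContDiffAt ℝ 2 u x := (hus.of_le (by norm_cast)).contDiffAt
    refine ⟨h2.sub h1, fun a => ?_⟩
    rw [lvE_sub2 h2 h1]
    have h5 := (hq x (hK hx)).2 a
    have h6 := hlev x hx a
    linarith
  · have h1 : ∫ x in K, |u x - q x - (w x - q x)| ∂μ = ∫ x in K, |cv μ w' (φ.normed μ) x - w' x| ∂μ := by
      refine setIntegral_congr_fun hc.measurableSet fun x hx => ?_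
      simp only [hw', indicator_of_mem (hKK' hx)]
      congr 1
      ring
    rw [h1]
    exact hnear φ (by rw [hφr]; exact hηr)

end Crest.Agent.R281.Qp7_911
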