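import Crest.Agent.R281.Qp6_911
import Crest.Agent.R281.Qp7_911
import Crest.Agent.R281.Th1_799

/-!
# R281 (S0424), DIV 6, QPSH-LIM (helper911), file 8: from 799's weak form to the good points of a tube

* `lvE_nsq_cn` : Levi form of `‖·‖²`; `L_eq_lvE` : 799's `L v χ` is the Levi form;
* `limPsh_weak_tube` : 799's weak inequality on an open set `O` ⟹ `LimPsh ν O (w - c ‖p.1‖²)`;
* **`good_weak`** : 360's `Good` at a good point of a holomorphic tube satisfying 799's weak inequality.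
-/

set_option autoImplicit false
set_option linter.unusedSectionVars false

open Set Filter Topology Metric Real MeasureTheory
open scoped ContDiff Pointwise

noncomputable section

namespace Crest.Agent.R281.Qp8_911

open Crest.Agent.R275 Crest.Agent.R275.Geo Crest.Agent.R275.Core144
open Crest.Agent.R273.Defs_333 Crest.Agent.R273.HM_333
open Crest.Agent.R257.HoB_843 Crest.Agent.R281.Qp1_911 Crest.Agent.R281.Qp2_911
  Crest.Agent.R281.Qp3_911 Crest.Agent.R281.Qp4_911 Crest.Agent.R281.LogSm_911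
  Crest.Agent.R281.Qp5_911 Crest.Agent.R281.Qp6_911 Crest.Agent.R281.Qp7_911
open Crest.Agent.R281.Th_799 (TF dv)

/-- Levi form of the square of the norm -/
theorem lvE_nsq_cn {m : ℕ} (ζ v : Cn m) : lvE (fun x : Cn m => ‖x‖ ^ 2) ζ v = ‖v‖ ^ 2 := by
  have e : fderiv ℝ (fun x : Cn m => ‖x‖ ^ 2) = fun x => (2 : ℝ) • innerSL ℝ x := by
    funext x
    rw [fderiv_norm_sq_apply]
    ext v
    simp
  have e2 : HasFDerivAt (fun x : Cn m => (2 : ℝ) • innerSL ℝ x)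
      ((2 : ℝ) • (innerSL ℝ : Cn m →L[ℝ] Cn m →L[ℝ] ℝ)) ζ :=
    ((innerSL ℝ : Cn m →L[ℝ] Cn m →L[ℝ] ℝ).hasFDerivAt).const_smul (2 : ℝ)
  have hin : ∀ v : Cn m, ((innerSL ℝ : Cn m →L[ℝ] Cn m →L[ℝ] ℝ) v) v = ‖v‖ ^ 2 := fun v =>
    real_inner_self_eq_norm_sq v
  unfold lvE
  rw [e, e2.fderiv]
  simp only [_root_.smul_apply, smul_eq_mul, hin, norm_smul, Complex.norm_I, one_mul]
  ring

section gen

variable {E : Type*} [NormedAddCommGroup E] [NormedSpace ℂ E]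

theorem dv_dv {f : E → ℝ} (hf : ContDiff ℝ ∞ f) (p v : E) :
    dv v (dv v f) p = fderiv ℝ (fderiv ℝ f) p v v := by
  have h1 : DifferentiableAt ℝ (fderiv ℝ f) p :=
    ((hf.fderiv_right (m := ∞) (by simp)).differentiable (by simp)) p
  have h2 : fderiv ℝ (fun y => fderiv ℝ f y v) p v = fderiv ℝ (fderiv ℝ f) p v v := by
    rw [fderiv_clm_apply h1 (differentiableAt_const v)]
    simp
  exact h2

/-- 799's `L` is the Levi form -/
theorem L_eq_lvE {f : E → ℝ} (hf : ContDiff ℝ ∞ f) (p v : E) : Th_799.L v f p = lvE f p v := by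
  unfold Th_799.L lvE
  rw [dv_dv hf, dv_dv hf]
  ring

/-- 799's weak inequality on `O` -/
def Weak [MeasurableSpace E] (ν : Measure E) (O : Set E) (w : E → ℝ) (B : E → ℝ) : Prop :=
  ∀ χ : E → ℝ, TF χ → tsupport χ ⊆ O → (∀ p, 0 ≤ χ p) → ∀ v : E,
    B v * ∫ p, χ p ∂ν ≤ ∫ p, w p * Th_799.L v χ p ∂ν

variable [FiniteDimensional ℝ E] [MeasurableSpace E] [BorelSpace E] {ν : Measure E}
  [ν.IsAddHaarMeasure]

theorem limPsh_of_Weak {O : Set E} (hO : IsOpen O) {w q B : E → ℝ}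
    (hw : ∀ K ⊆ O, IsCompact K → IntegrableOn w K ν)
    (hq : ∀ z ∈ O, ContDiffAt ℝ 2 q z ∧ ∀ a, lvE q z a ≤ B a) (H : Weak ν O w B) :
    LimPsh ν O (fun z => w z - q z) := by
  refine limPsh_of_weak hO hw hq fun χ hχ a => ?_
  have h1 := H χ ⟨hχ.sm, hχ.cs⟩ hχ.sub hχ.nn a
  refine h1.trans (le_of_eq ?_)
  refine integral_congr_ae (Eventually.of_forall fun p => ?_)
  simp only [L_eq_lvE hχ.sm]

end gen

/-- the weak inequality on a tube -/
theorem limPsh_weak_tube {m m' : ℕ} {ν : Measure (Cn m × Cn m')} [ν.IsAddHaarMeasure]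
    {O : Set (Cn m × Cn m')} (hO : IsOpen O) {w : Cn m × Cn m' → ℝ} {c : ℝ}
    (hw : ∀ K ⊆ O, IsCompact K → IntegrableOn w K ν)
    (H : Weak ν O w (fun v => c * ‖v.1‖ ^ 2)) :
    LimPsh ν O (fun p => w p - c * ‖p.1‖ ^ 2) := by
  refine limPsh_of_Weak hO hw (fun z _ => ⟨?_, fun a => ?_⟩) H
  · exact contDiffAt_const.mul ((contDiff_fst.norm_sq ℝ).contDiffAt)
  · have h1 : ContDiffAt ℝ 2 (fun x : Cn m => c * ‖x‖ ^ 2) z.1 :=
      contDiffAt_const.mul ((contDiff_norm_sq ℝ).contDiffAt)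
    have h2 := lvE_comp (T := fun p : Cn m × Cn m' => p.1) (u := fun x : Cn m => c * ‖x‖ ^ 2)
      (z := z) contDiffAt_fst h1 a
    have h3 : fderiv ℂ (fun p : Cn m × Cn m' => p.1) z a = a.1 := by
      rw [fderiv_fst]; rfl
    have h4 : lvE (fun x : Cn m => c * ‖x‖ ^ 2) z.1 a.1 = c * ‖a.1‖ ^ 2 := by
      rw [Crest.Agent.R257.Glue2_101.lvE_const_mul (contDiff_norm_sq ℝ).contDiffAt, lvE_nsq_cn]
    rw [h3] at h2
    exact (h2.trans h4).le

variable {N : ℕ} {M : Type} [TopologicalSpace M] {A : Atl N M} {L : LB A}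

/-- **good points of a tube from the weak inequality** -/
theorem good_weak {h : HM L} {φ0 : M → ℝ} (H : LPsh h φ0) {C : ℝ}
    (hC : ∀ i, ∀ᵐ z : Cn N, z ∈ (A.e i).target → φ0 ((A.e i).symm z) ≤ C)
    {m m' : ℕ} (hdim : m + m' = N) {Ψ : Cn m × Cn m' → M} {Db : Set (Cn m)} (hDb : IsOpen Db)
    (cont : ∀ p : Cn m × Cn m', p.1 ∈ Db → ContinuousAt Ψ p)
    (hol : ∀ p : Cn m × Cn m', p.1 ∈ Db → ∀ i, Ψ p ∈ (A.e i).source →
      AnalyticAt ℂ (fun q => A.e i (Ψ q)) p ∧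
        Function.Injective (fderiv ℂ (fun q => A.e i (Ψ q)) p))
    (sep : ∀ p p' : Cn m × Cn m', p.1 ∈ Db → p'.1 ∈ Db → Ψ p = Ψ p' → p.1 = p'.1)
    {p₀ : Cn m × Cn m'} (hp₀ : p₀.1 ∈ Db) {i : A.ι} (hi : Ψ p₀ ∈ (A.e i).source)
    {ν : Measure (Cn m × Cn m')} [ν.IsAddHaarMeasure] {O : Set (Cn m × Cn m')} (hOo : IsOpen O)
    (hO : p₀ ∈ O) {c : ℝ} (hc : 0 < c)
    (hw : ∀ K ⊆ O, IsCompact K →
      IntegrableOn (fun p => φ0 (Ψ p) + h.wt i (A.e i (Ψ p))) K ν)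
    (hW : Weak ν O (fun p => φ0 (Ψ p) + h.wt i (A.e i (Ψ p))) (fun v => c * ‖v.1‖ ^ 2))
    (hg : Ψ p₀ ∈ GG h φ0) {T' : Set M} (hT' : ∀ y, y ∈ T' ↔ ∃ x, y = Ψ (p₀.1, x)) :
    Nonempty (Crest.Agent.R281.Un_360.Good (qpsh H hC) T' (Ψ p₀)) :=
  good_tube H hC hdim hDb cont hol sep hp₀ hi hO hc (limPsh_weak_tube hOo hw hW) hg hT'

end Crest.Agent.R281.Qp8_911
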