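import Crest.Agent.R281.Qp8_911
import Crest.Agent.R281.Kas2_975

/-!
# R281 (S0424), DIV 6, QPSH-LIM (helper911), file 9: good points of 22's `HTube`

* `htube_an`, `htube_inj` : `A.e i ∘ T.P` is analytic with injective derivative;
* **`good_htube`** : 360's `Good (qpsh H hC) (fib T z.2) (T.P z)` from 799's weak inequality in the
  coordinates `(y, x)`, `Ψ (y, x) = T.P (x, y)`.
-/

set_option autoImplicit false
set_option linter.unusedSectionVars false

open Set Filter Topology Metric Real MeasureTheory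
open scoped ContDiff Pointwise

noncomputable section

namespace Crest.Agent.R281.Qp9_911

open Crest.Agent.R275 Crest.Agent.R275.Geo Crest.Agent.R275.Core144
open Crest.Agent.R273.Defs_333 Crest.Agent.R273.HM_333
open Crest.Agent.R281.Qp1_911 Crest.Agent.R281.Qp2_911 Crest.Agent.R281.Qp3_911
  Crest.Agent.R281.Qp4_911 Crest.Agent.R281.LogSm_911 Crest.Agent.R281.Qp5_911
  Crest.Agent.R281.Qp6_911 Crest.Agent.R281.Qp7_911 Crest.Agent.R281.Qp8_911
open Crest.Agent.R281.Kd_22 Crest.Agent.R281.Kas_975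

variable {N : ℕ} {M : Type} [TopologicalSpace M] {A : Atl N M} {L : LB A}

section tube

variable {F B : Type} [NormedAddCommGroup F] [NormedSpace ℂ F] [NormedAddCommGroup B]
  [NormedSpace ℂ B]

theorem htube_an (T : HTube A F B) {p : F × B} (hp : p.2 ∈ T.Om) {i : A.ι}
    (hi : T.P p ∈ (A.e i).source) : AnalyticAt ℂ (fun q => A.e i (T.P q)) p := by
  have h1 : ∀ k, AnalyticAt ℂ (fun q => (A.e i (T.P q)) k) p := fun k =>
    T.pull p hp (fun y => (A.e i y) k)
      (hm_chart (φ := fun z : Cn N => z k) hi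
        ((EuclideanSpace.proj (𝕜 := ℂ) k).analyticAt _))
  have h2 : AnalyticAt ℂ (fun q => (fun k => (A.e i (T.P q)) k : Fin N → ℂ)) p :=
    analyticAt_pi_iff.2 h1
  have h3 := ((EuclideanSpace.equiv (Fin N) ℂ).symm.toContinuousLinearMap.analyticAt
    (fun k => (A.e i (T.P p)) k)).comp_of_eq h2 rfl
  exact h3

theorem htube_inj [FiniteDimensional ℂ F] [FiniteDimensional ℂ B] (T : HTube A F B)
    (hdim : Module.finrank ℂ (F × B) = N) {p : F × B} (hp : p.2 ∈ T.Om) {i : A.ι}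
    (hi : T.P p ∈ (A.e i).source) :
    Function.Injective (fderiv ℂ (fun q => A.e i (T.P q)) p) := by
  obtain ⟨χ, h1, h2, h3, h4⟩ := T.inv p hp
  have ha := htube_an T hp hi
  have hl : (A.e i).symm (A.e i (T.P p)) = T.P p := (A.e i).left_inv hi
  -- `S` is analytic, by its coordinates
  let e : (F × B) ≃L[ℂ] (Fin (Module.finrank ℂ (F × B)) → ℂ) :=
    (Module.finBasis ℂ (F × B)).equivFunL
  have hS1 : AnalyticAt ℂ (fun z => e (χ ((A.e i).symm z))) (A.e i (T.P p)) := by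
    rw [analyticAt_pi_iff]
    intro k
    have h5 : AnalyticAt ℂ (fun q : F × B => e q k) p := by
      have h6 : AnalyticAt ℂ (fun q : F × B => (ContinuousLinearMap.proj (R := ℂ) (φ := fun _ => ℂ) k)
          (e.toContinuousLinearMap q)) p :=
        ((ContinuousLinearMap.proj (R := ℂ) (φ := fun _ => ℂ) k).comp
          e.toContinuousLinearMap).analyticAt p
      exact h6
    exact h3 (fun q => e q k) h5 i hi
  have hS : AnalyticAt ℂ (fun z => χ ((A.e i).symm z)) (A.e i (T.P p)) := by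
    have h5 := (e.symm.toContinuousLinearMap.analyticAt
      (e (χ ((A.e i).symm (A.e i (T.P p)))))).comp_of_eq hS1 rfl
    refine h5.congr (Eventually.of_forall fun z => ?_)
    exact e.symm_apply_apply _
  have hid : (fun z => A.e i (T.P (χ ((A.e i).symm z)))) =ᶠ[𝓝 (A.e i (T.P p))] fun z => z := by
    filter_upwards [(ev_iff hi).1 h4, (A.e i).open_target.mem_nhds ((A.e i).map_source hi)]
      with z h5 h6
    rw [h5, (A.e i).right_inv h6]
  have hSp : χ ((A.e i).symm (A.e i (T.P p))) = p := by rw [hl, h1]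
  have hT' : HasFDerivAt (fun q => A.e i (T.P q)) (fderiv ℂ (fun q => A.e i (T.P q)) p)
      (χ ((A.e i).symm (A.e i (T.P p)))) := by
    rw [hSp]; exact ha.differentiableAt.hasFDerivAt
  have hc := hT'.comp (A.e i (T.P p)) hS.differentiableAt.hasFDerivAt
  have hc2 := (hc.congr_of_eventuallyEq hid.symm).unique (hasFDerivAt_id _)
  have hsurj : Function.Surjective (fderiv ℂ (fun q => A.e i (T.P q)) p) := fun z =>
    ⟨fderiv ℂ (fun z => χ ((A.e i).symm z)) (A.e i (T.P p)) z, DFunLike.congr_fun hc2 z⟩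
  have hfr : Module.finrank ℂ (F × B) = Module.finrank ℂ (Cn N) := by
    rw [hdim]; simp
  exact (LinearMap.injective_iff_surjective_of_finrank_eq_finrank hfr
    (f := (fderiv ℂ (fun q => A.e i (T.P q)) p : F × B →ₗ[ℂ] Cn N))).2 hsurj

end tube

/-- **good points of an `HTube` from the weak inequality** -/
theorem good_htube {h : HM L} {φ0 : M → ℝ} (H : LPsh h φ0) {C : ℝ}
    (hC : ∀ i, ∀ᵐ z : Cn N, z ∈ (A.e i).target → φ0 ((A.e i).symm z) ≤ C)
    {m m' : ℕ} (hdim : m + m' = N) (T : HTube A (Cn m') (Cn m))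
    (hdis : ∀ b ∈ T.Om, ∀ b' ∈ T.Om, ∀ c c', T.P (c, b) = T.P (c', b') → b = b')
    {z : Cn m' × Cn m} (hz : z.2 ∈ T.Om) {i : A.ι} (hi : T.P z ∈ (A.e i).source)
    {ν : Measure (Cn m × Cn m')} [ν.IsAddHaarMeasure] {O : Set (Cn m × Cn m')} (hOo : IsOpen O)
    (hO : (z.2, z.1) ∈ O) {c : ℝ} (hc : 0 < c)
    (hw : ∀ K ⊆ O, IsCompact K →
      IntegrableOn (fun p => φ0 (T.P (p.2, p.1)) + h.wt i (A.e i (T.P (p.2, p.1)))) K ν)
    (hW : Weak ν O (fun p => φ0 (T.P (p.2, p.1)) + h.wt i (A.e i (T.P (p.2, p.1))))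
      (fun v => c * ‖v.1‖ ^ 2))
    (hg : T.P z ∈ GG h φ0) :
    Nonempty (Crest.Agent.R281.Un_360.Good (qpsh H hC) (fib T z.2) (T.P z)) := by
  have hfin : Module.finrank ℂ (Cn m' × Cn m) = N := by
    rw [Module.finrank_prod]
    simp [← hdim, add_comm]
  have hsw : ∀ p : Cn m × Cn m', AnalyticAt ℂ (fun p : Cn m × Cn m' => (p.2, p.1)) p := fun p =>
    analyticAt_snd.prod analyticAt_fst
  refine good_weak (Ψ := fun p => T.P (p.2, p.1)) H hC hdim T.isOpen (fun p hp => ?_)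
    (fun p hp j hj => ⟨?_, ?_⟩) (fun p p' hp hp' he => hdis _ hp _ hp' _ _ he)
    (p₀ := (z.2, z.1)) hz hi hOo hO hc hw hW hg fun y => ?_
  · exact ContinuousAt.comp (f := fun p : Cn m × Cn m' => (p.2, p.1)) (g := T.P)
      (T.cont (p.2, p.1) hp) (hsw p).continuousAt
  · exact AnalyticAt.comp (g := fun q => A.e j (T.P q)) (f := fun p : Cn m × Cn m' => (p.2, p.1))
      (htube_an T hp hj) (hsw p)
  · have h1 := htube_an T (p := (p.2, p.1)) hp hj
    have h2 := htube_inj T hfin (p := (p.2, p.1)) hp hj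
    have h3 : HasFDerivAt (fun p : Cn m × Cn m' => (p.2, p.1))
        ((ContinuousLinearMap.snd ℂ (Cn m) (Cn m')).prod (ContinuousLinearMap.fst ℂ (Cn m) (Cn m')))
        p := by
      exact ((ContinuousLinearMap.snd ℂ (Cn m) (Cn m')).prod
        (ContinuousLinearMap.fst ℂ (Cn m) (Cn m'))).hasFDerivAt
    have h4 := (h1.differentiableAt.hasFDerivAt.comp p h3).fderiv
    have h5 : fderiv ℂ (fun q : Cn m × Cn m' => A.e j (T.P (q.2, q.1))) p =
      (fderiv ℂ (fun q => A.e j (T.P q)) (p.2, p.1)).comp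
        ((ContinuousLinearMap.snd ℂ (Cn m) (Cn m')).prod
          (ContinuousLinearMap.fst ℂ (Cn m) (Cn m'))) := h4
    rw [h5]
    intro a b hab
    have h6 := h2 hab
    have h7 : (a.2, a.1) = (b.2, b.1) := h6
    rw [Prod.mk.injEq] at h7
    exact Prod.ext h7.2 h7.1
  · constructor
    · rintro ⟨x, rfl⟩
      exact ⟨x, rfl⟩
    · rintro ⟨x, rfl⟩
      exact ⟨x, rfl⟩

/-- a.e. point of the tube is a good point -/
theorem ae_htube {h : HM L} {φ0 : M → ℝ} (H : LPsh h φ0) {m m' : ℕ} (hdim : m + m' = N)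
    (T : HTube A (Cn m') (Cn m)) {ν : Measure (Cn m × Cn m')} [ν.IsAddHaarMeasure] :
    ∀ᵐ z ∂ν, z.1 ∈ T.Om → T.P (z.2, z.1) ∈ GG h φ0 := by
  have hfin : Module.finrank ℂ (Cn m' × Cn m) = N := by
    rw [Module.finrank_prod]
    simp [← hdim, add_comm]
  have hfin' : Module.finrank ℂ (Cn m × Cn m') = Module.finrank ℂ (Cn N) := by
    rw [Module.finrank_prod]
    simp [hdim]
  have hsw : ∀ p : Cn m × Cn m', AnalyticAt ℂ (fun p : Cn m × Cn m' => (p.2, p.1)) p := fun p =>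
    analyticAt_snd.prod analyticAt_fst
  rw [ae_iff]
  refine measure_null_of_locally_null _ fun z₀ hz₀ => ?_
  have hz₀' : z₀.1 ∈ T.Om := by
    by_contra h
    exact hz₀ fun h' => absurd h' h
  obtain ⟨i, hi⟩ := A.cover (T.P (z₀.2, z₀.1))
  set O₁ : Set (Cn m × Cn m') := {p | p.1 ∈ T.Om} with hO₁
  have hO₁o : IsOpen O₁ := T.isOpen.preimage continuous_fst
  have hc : ContinuousOn (fun p : Cn m × Cn m' => T.P (p.2, p.1)) O₁ := fun p hp =>
    (ContinuousAt.comp (f := fun p : Cn m × Cn m' => (p.2, p.1)) (g := T.P)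
      (T.cont (p.2, p.1) hp) (hsw p).continuousAt).continuousWithinAt
  have hD₁ : IsOpen (O₁ ∩ (fun p : Cn m × Cn m' => T.P (p.2, p.1)) ⁻¹' (A.e i).source) :=
    hc.isOpen_inter_preimage hO₁o (A.e i).open_source
  have han : ∀ p ∈ O₁ ∩ (fun p : Cn m × Cn m' => T.P (p.2, p.1)) ⁻¹' (A.e i).source,
      AnalyticAt ℂ (fun q : Cn m × Cn m' => A.e i (T.P (q.2, q.1))) p := fun p hp =>
    AnalyticAt.comp (g := fun q => A.e i (T.P q)) (f := fun p : Cn m × Cn m' => (p.2, p.1))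
      (htube_an T (p := (p.2, p.1)) hp.1 hp.2) (hsw p)
  have hinj : Function.Injective (fderiv ℂ (fun q : Cn m × Cn m' => A.e i (T.P (q.2, q.1))) z₀) := by
    have h1 := htube_an T (p := (z₀.2, z₀.1)) hz₀' hi
    have h2 := htube_inj T hfin (p := (z₀.2, z₀.1)) hz₀' hi
    have h3 : HasFDerivAt (fun p : Cn m × Cn m' => (p.2, p.1))
        ((ContinuousLinearMap.snd ℂ (Cn m) (Cn m')).prod (ContinuousLinearMap.fst ℂ (Cn m) (Cn m')))
        z₀ := by
      exact ((ContinuousLinearMap.snd ℂ (Cn m) (Cn m')).prod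
        (ContinuousLinearMap.fst ℂ (Cn m) (Cn m'))).hasFDerivAt
    have h4 := (h1.differentiableAt.hasFDerivAt.comp z₀ h3).fderiv
    have h5 : fderiv ℂ (fun q : Cn m × Cn m' => A.e i (T.P (q.2, q.1))) z₀ =
      (fderiv ℂ (fun q => A.e i (T.P q)) (z₀.2, z₀.1)).comp
        ((ContinuousLinearMap.snd ℂ (Cn m) (Cn m')).prod
          (ContinuousLinearMap.fst ℂ (Cn m) (Cn m'))) := h4
    rw [h5]
    intro a b hab
    have h7 : (a.2, a.1) = (b.2, b.1) := h2 hab
    rw [Prod.mk.injEq] at h7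
    exact Prod.ext h7.2 h7.1
  obtain ⟨D₀, hD₀, S, hpD, hB⟩ := exists_bih hD₁ han (p₀ := z₀) ⟨hz₀', hi⟩ hinj hfin'
  have h8 := hB.ae_comp (μ := ν) (ae_GG H i)
  refine ⟨_, inter_mem_nhdsWithin _ (hB.op.mem_nhds hpD), ?_⟩
  refine measure_mono_null (fun z hz => ?_) (ae_iff.1 h8)
  intro h9
  have hzs : T.P (z.2, z.1) ∈ (A.e i).source := (hD₀ hz.2).2
  have h10 := (h9 hz.2 ((A.e i).map_source hzs)).1
  rw [(A.e i).left_inv hzs] at h10
  exact hz.1 fun _ => h10

instance instHaarProd (m m' : ℕ) : (volume : Measure (Cn m × Cn m')).IsAddHaarMeasure :=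
  Measure.prod.instIsAddHaarMeasure (volume : Measure (Cn m)) (volume : Measure (Cn m'))

/-- **the last step of THETA: from weak inequalities near all points to 360's `Good` a.e.** -/
theorem theta_good {h : HM L} {φ0 : M → ℝ} (H : LPsh h φ0) {C : ℝ}
    (hC : ∀ i, ∀ᵐ z : Cn N, z ∈ (A.e i).target → φ0 ((A.e i).symm z) ≤ C)
    {m m' : ℕ} (hdim : m + m' = N) (T : HTube A (Cn m') (Cn m))
    (hdis : ∀ b ∈ T.Om, ∀ b' ∈ T.Om, ∀ c c', T.P (c, b) = T.P (c', b') → b = b')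
    (hweak : ∀ z : Cn m × Cn m', z.1 ∈ T.Om → ∃ i, T.P (z.2, z.1) ∈ (A.e i).source ∧
      ∃ O, IsOpen O ∧ z ∈ O ∧ ∃ c : ℝ, 0 < c ∧
        (∀ K ⊆ O, IsCompact K → IntegrableOn
          (fun p : Cn m × Cn m' => φ0 (T.P (p.2, p.1)) + h.wt i (A.e i (T.P (p.2, p.1)))) K volume) ∧
        Weak volume O (fun p => φ0 (T.P (p.2, p.1)) + h.wt i (A.e i (T.P (p.2, p.1))))
          (fun v => c * ‖v.1‖ ^ 2)) :
    ∃ Z : Set (Cn m × Cn m'), volume Z = 0 ∧ ∀ z, z.1 ∈ T.Om → z ∉ Z →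
      Nonempty (Crest.Agent.R281.Un_360.Good (qpsh H hC) (fib T z.1) (T.P (z.2, z.1))) := by
  refine ⟨{z | ¬ (z.1 ∈ T.Om → T.P (z.2, z.1) ∈ GG h φ0)}, ae_iff.1 (ae_htube H hdim T),
    fun z hz hzZ => ?_⟩
  have hg : T.P (z.2, z.1) ∈ GG h φ0 := by
    by_contra hcon
    exact hzZ fun h => hcon (h hz)
  obtain ⟨i, hi, O, hOo, hO, c, hc, hw, hW⟩ := hweak z hz
  exact good_htube H hC hdim T hdis (z := (z.2, z.1)) hz hi hOo hO hc hw hW hg

end Crest.Agent.R281.Qp9_911
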