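import Crest.Agent.R281.Ab3_729
import Crest.Agent.R281.Exo4_368
import Crest.Agent.R281.Bt3_156
import Crest.Agent.R281.Tp1_836

/-!
# R281 (S0424), node ToriP, END 1 (helper836), file 5: the tube coordinates `TubeD` (808)

* `pull_cmp'`  : pull back of a 2-form read in other charts
* `tubeD_tr`   : `TubeD` in other charts
* `tubeD_neg`  : `TubeD w w' ⟹ TubeD w (-w')`
* `hyp_tubeD`  : `TubeD ⟹ Hyp` (input of LAGT, 156)
-/

set_option autoImplicit false
set_option linter.unusedSectionVars false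
set_option maxSynthPendingDepth 3
set_option synthInstance.maxHeartbeats 200000

open Set Metric Filter Topology Complex Function
open scoped NNReal ContDiff

namespace Crest.Agent.R281.Tp_836

open Crest.Agent.R275.Geo (Cn)
open Crest.Agent.R281.HkR_835 Crest.Agent.R281.Ti_846 Crest.Agent.R281.Dif_268
open Crest.Agent.R281.Mc673 Crest.Agent.R281.T5D_808 Crest.Agent.R281.Ab_729
open Crest.Agent.R281.Bt_156 Crest.Agent.R281.Tub_836
open Crest.Agent.R281.Per_368 (SmI pull pl)
open Crest.Agent.R238.Sch (ee)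

noncomputable section

variable {V₁ V₂ X : Type} [NormedAddCommGroup V₁] [NormedSpace ℝ V₁] [NormedAddCommGroup V₂]
  [NormedSpace ℝ V₂] [TopologicalSpace X] {C : RCh V₁ X} {C' : RCh V₂ X}
  {E : Type} [NormedAddCommGroup E] [NormedSpace ℝ E] {S : Set E} {Φ : E → X}

/-- the pull back of a form read in other charts -/
theorem pull_cmp' (h : Cmp C C') (hs : SmI C S Φ) (w : F2 C) {ζ : E} (hζ : ζ ∈ S) :
    pull (h.F w) Φ ζ = pull w Φ ζ := by
  have hs' : SmI C' S Φ := smI_cmp h.symm hs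
  obtain ⟨j, hj⟩ := C'.cover (Φ ζ)
  rw [hs'.pull_eq _ hζ hj]
  ext u v
  rw [Per_368.pl_apply]
  exact (pull_cmp h hs' w hζ hj u v).symm

section tubeD

variable {w w' : F2 C} {N : ℕ} {R Λ δ : ℝ} {Θ : W N → X}

theorem tubeD_tr (h : Cmp C C') (hR : 0 < R) (t : TubeD C w w' N R Λ δ Θ) {w₁ w₁' : F2 C'}
    (h1 : ∀ p ∈ tube N R, pull w₁ Θ p = pull w Θ p)
    (h2 : ∀ p ∈ tube N R, pull w₁' Θ p = pull w' Θ p) : TubeD C' w₁ w₁' N R Λ δ Θ := by
  have hO := isOpen_tube (N := N) R
  have hz : ∀ θ : Mc673.V N, ((θ, 0) : W N) ∈ tube N R := fun θ => by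
    show ‖(0 : Mc673.V N)‖ < R
    rw [norm_zero]; exact hR
  have e1 : ∀ p ∈ tube N R, pull w₁ Θ =ᶠ[𝓝 p] pull w Θ := fun p hp => by
    filter_upwards [hO.mem_nhds hp] with q hq using h1 q hq
  have e2 : ∀ p ∈ tube N R, pull w₁' Θ =ᶠ[𝓝 p] pull w' Θ := fun p hp => by
    filter_upwards [hO.mem_nhds hp] with q hq using h2 q hq
  have hsm : SmI C' (tube N R) Θ := smI_cmp h.symm t.sm
  have hcl : ∀ {x x' : Fo N}, ClF R x → (∀ p ∈ tube N R, x' p = x p) → ClF R x' := by
    intro x x' hx hxx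
    refine ⟨hx.sm.congr hxx, fun p hp u v => ?_, fun p hp u v z => ?_, fun k p hp => ?_⟩
    · rw [hxx p hp]
      exact hx.alt p hp u v
    · have : x' =ᶠ[𝓝 p] x := by filter_upwards [hO.mem_nhds hp] with q hq using hxx q hq
      rw [this.fderiv_eq]
      exact hx.cl p hp u v z
    · rw [hxx p hp, hxx (p.1 + kv k, p.2) hp]
      exact hx.per k p hp
  refine
    { sm := hsm
      bij := fun p hp j hj => ?_
      eq_iff := t.eq_iff
      cx := hcl t.cx h1
      cy := hcl t.cy h2
      bd := fun p hp => by rw [h1 p hp, h2 p hp]; exact t.bd p hp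
      nd := fun p hp => by rw [h1 p hp]; exact t.nd p hp
      dd := fun p hp => by
        rw [(e1 p hp).fderiv_eq, ((e1 p hp).fderiv (𝕜 := ℝ)).fderiv_eq, (e2 p hp).fderiv_eq,
          ((e2 p hp).fderiv (𝕜 := ℝ)).fderiv_eq]
        exact t.dd p hp
      cpx := fun p hp => by rw [h1 p hp, h2 p hp]; exact t.cpx p hp
      per0 := fun j k => by
        have e3 : (fun θ => pull w₁ Θ (θ, 0) (ee j, 0) (ee k, 0)) =
            fun θ => pull w Θ (θ, 0) (ee j, 0) (ee k, 0) := by
          funext θ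
          rw [h1 _ (hz θ)]
        have e4 : (fun θ => pull w₁' Θ (θ, 0) (ee j, 0) (ee k, 0)) =
            fun θ => pull w' Θ (θ, 0) (ee j, 0) (ee k, 0) := by
          funext θ
          rw [h2 _ (hz θ)]
        rw [e3, e4]
        exact t.per0 j k
      hh := fun p hp => by rw [h1 p hp, h2 p hp]; exact t.hh p hp
      vv := fun p hp => by rw [h1 p hp, h2 p hp]; exact t.vv p hp }
  obtain ⟨i, hi⟩ := C.cover (Θ p)
  have hb := t.bij p hp i hi
  have hf := fun u => fderiv_cmp h.symm t.sm hp (i := j) (j := i) hj hi u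
  have hz' : C.e i (Θ p) ∈ mov C' C j i := mem_mov hj hi
  constructor
  · intro u v huv
    rw [hf, hf] at huv
    exact hb.1 (h.symm.inj hz' huv)
  · intro v
    obtain ⟨u, hu⟩ := hb.2 (fderiv ℝ (mt C C' i j) (mt C' C j i (C.e i (Θ p))) v)
    refine ⟨u, ?_⟩
    rw [hf, hu]
    exact h.symm.d_d' hz' v

theorem tubeD_neg (t : TubeD C w w' N R Λ δ Θ) : TubeD C w (-w') N R Λ δ Θ := by
  have hpe : pull (-w') Θ = fun p => -pull w' Θ p := by
    funext p
    exact ContinuousLinearMap.ext fun u => ContinuousLinearMap.ext fun v => rfl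
  have hO := isOpen_tube (N := N) R
  have hfd : fderiv ℝ (pull (-w') Θ) = fun p => -fderiv ℝ (pull w' Θ) p := by
    funext p
    rw [hpe]
    exact fderiv_fun_neg
  have hfd2 : ∀ p, fderiv ℝ (fderiv ℝ (pull (-w') Θ)) p = -fderiv ℝ (fderiv ℝ (pull w' Θ)) p := by
    intro p
    rw [hfd]
    exact fderiv_fun_neg
  refine
    { sm := t.sm
      bij := t.bij
      eq_iff := t.eq_iff
      cx := t.cx
      cy := ?_
      bd := fun p hp => ⟨(t.bd p hp).1, by rw [hpe]; simpa using (t.bd p hp).2⟩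
      nd := t.nd
      dd := fun p hp => ?_
      cpx := fun p hp => ?_
      per0 := fun j k => ⟨(t.per0 j k).1, ?_⟩
      hh := fun p hp u v => ⟨(t.hh p hp u v).1, ?_⟩
      vv := fun p hp u v => ⟨(t.vv p hp u v).1, ?_⟩ }
  · refine ⟨?_, fun p hp u v => ?_, fun p hp u v z => ?_, fun k p hp => ?_⟩
    · rw [hpe]
      exact t.cy.sm.neg
    · rw [hpe]
      have := t.cy.alt p hp u v
      simp only [neg_apply]
      rw [this]
    · rw [hfd]
      have := t.cy.cl p hp u v z
      simp only [neg_apply]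
      linarith
    · rw [hpe]
      exact congrArg Neg.neg (t.cy.per k p hp)
  · obtain ⟨a1, a2, a3, a4⟩ := t.dd p hp
    refine ⟨a1, a2, ?_, ?_⟩
    · rw [hfd]; exact (norm_neg _).trans_le a3
    · rw [hfd2]; exact (ContinuousLinearMap.opNorm_neg _).trans_le a4
  · obtain ⟨I, h1, h2⟩ := t.cpx p hp
    refine ⟨fun u => -I u, fun u => ?_, fun u v => ?_⟩
    · have h3 : ∀ u v, pull w Θ p (I (-I u)) v = pull w Θ p u v := by
        intro u v
        have a1 := h2 (-I u) v
        have a2 := h2 (I u) v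
        rw [h1 u] at a2
        rw [a1, map_neg, neg_apply, neg_neg]
        have a3 : pull w Θ p (-u) v = - pull w Θ p u v := by rw [map_neg, neg_apply]
        rw [a3] at a2
        linarith
      have h4 : I (-I u) = u := by
        rw [← sub_eq_zero, ← norm_le_zero_iff]
        refine (t.nd p hp _).trans ?_
        have : pull w Θ p (I (-I u) - u) = 0 := by
          refine ContinuousLinearMap.ext fun v => ?_
          rw [map_sub, sub_apply, h3]
          simp
        rw [this, norm_zero, mul_zero]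
      show -I (-I u) = -u
      rw [h4]
    · rw [map_neg, neg_apply, h2, hpe]
      simp
  · have : (fun θ => pull (-w') Θ (θ, 0) (ee j, 0) (ee k, 0)) =
        fun θ => -pull w' Θ (θ, 0) (ee j, 0) (ee k, 0) := by rw [hpe]; rfl
    rw [this]
    have h1 := (t.per0 j k).2
    unfold mn at h1 ⊢
    rw [MeasureTheory.integral_neg, h1, neg_zero]
  · rw [hpe]
    simpa using (t.hh p hp u v).2
  · rw [hpe]
    simpa using (t.vv p hp u v).2

/-- the input of LAGT -/
theorem hyp_tubeD (t : TubeD C w w' N R Λ δ Θ) : Hyp R Λ δ (pull w Θ) (pull w' Θ) where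
  cx := t.cx
  cy := t.cy
  bx p hp := (t.bd p hp).1
  byy p hp := (t.bd p hp).2
  nd := t.nd
  dx p hp := (t.dd p hp).1
  ddx p hp := (t.dd p hp).2.1
  dy p hp := (t.dd p hp).2.2.1
  ddy p hp := (t.dd p hp).2.2.2
  I := t.cpx
  mx j k := (t.per0 j k).1
  my j k := (t.per0 j k).2

end tubeD

end

end Crest.Agent.R281.Tp_836
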