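import Crest.Agent.R281.Qt9_922
import Crest.Agent.R281.QtB2_355
import Crest.Agent.R281.Tp5_836
import Crest.Agent.R281.Bt3_156

/-!
# R281 (S0424), QTUBE (helper922), part 12: from `TubeD` and `Geo` to `TFam` and `RTube`

* `tfam_of_tor` : a family of tori (156 / 40) is a `TFam`
* `real_data`   : constants `C (n, Λ)`, then for every radius `R` a `δ` such that `TubeD` and `Geo`
  on the tube of radius `2 R` give `TFam` and `RTube`
-/

set_option autoImplicit false
set_option linter.unusedSectionVars false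
set_option maxSynthPendingDepth 3

open Set Metric Filter Topology
open scoped ContDiff

namespace Crest.Agent.R281.Qt_922

open Crest.Agent.R281.Mc673 (V W Fo tube ClF isOpen_tube kv)
open Crest.Agent.R275.Geo Crest.Agent.R273.Defs_333 Crest.Agent.R273.Kah_333
open Crest.Agent.R281.HkR_835
open Crest.Agent.R281.Tub_57 (Geo IT Leaf)
open Crest.Agent.R281.Bt_156 (Tor Hyp lagtR)
open Crest.Agent.R281.T5D_808 (TubeD)
open Crest.Agent.R281.Per_368 (SmI pull)

noncomputable section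

/-- a family of tori -/
theorem tfam_of_tor {N : ℕ} {R ε : ℝ} {x y : Fo N} {a : V N → V N → V N} (h : Tor N R ε x y a)
    (he : ε ≤ R) : TFam (2 * R) R ε x y a where
  leaf c hc :=
    { c1 := h.c1 c hc.le
      per := h.per c hc.le
      tub := fun θ => by
        show ‖a c θ‖ < 2 * R
        have h1 := h.near c hc.le θ
        have h2 : ‖a c θ‖ ≤ ‖a c θ - c‖ + ‖c‖ := by
          calc ‖a c θ‖ = ‖(a c θ - c) + c‖ := by rw [sub_add_cancel]
            _ ≤ _ := norm_add_le _ _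
        linarith
      ix := fun θ u v => h.x0 c hc.le θ u v
      iy := fun θ u v => h.y0 c hc.le θ u v }
  near c hc θ := h.near c hc.le θ
  dnear c hc θ := h.dnear c hc.le θ
  lip c hc c' hc' θ := h.lip c c' hc.le hc'.le θ
  dlip c hc c' hc' θ := h.dlip c c' hc.le hc'.le θ

theorem TFam.mono {N : ℕ} {r R ε ε' : ℝ} {x y : Fo N} {a : V N → V N → V N}
    (h : TFam r R ε x y a) (he : ε ≤ ε') : TFam r R ε' x y a where
  leaf := h.leaf
  near c hc θ := (h.near c hc θ).trans he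
  dnear c hc θ := (h.dnear c hc θ).trans he
  lip c hc c' hc' θ := (h.lip c hc c' hc' θ).trans (by gcongr)
  dlip c hc c' hc' θ := (h.dlip c hc c' hc' θ).trans (by gcongr)

theorem convex_tube' (N : ℕ) (r : ℝ) : Convex ℝ (tube N r) := by
  have h : tube N r = univ ×ˢ ball (0 : V N) r := by
    ext p
    simp only [mem_prod, mem_univ, true_and, mem_ball_zero_iff]
    rfl
  rw [h]
  exact convex_univ.prod (convex_ball _ _)

/-- closeness to the value at `0` from the bound of the derivative -/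
theorem close_of_dd {N : ℕ} {r δ : ℝ} (hr : 0 < r) {x : Fo N} (hx : ClF r x)
    (hd : ∀ p ∈ tube N r, ‖fderiv ℝ x p‖ ≤ δ) (hδ : 0 ≤ δ) {p : W N} (hp : p ∈ tube N r)
    (hp1 : ‖p.1‖ ≤ 1) : ‖x p - x 0‖ ≤ δ * (1 + r) := by
  have h0 : (0 : W N) ∈ tube N r := by
    show ‖(0 : V N)‖ < r
    simpa using hr
  have h1 := (convex_tube' N r).norm_image_sub_le_of_norm_fderiv_le (𝕜 := ℝ) (f := x)
    (fun q hq => (hx.sm.contDiffAt ((isOpen_tube r).mem_nhds hq)).differentiableAt (by simp)) hd h0 hp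
  refine h1.trans ?_
  gcongr
  rw [sub_zero, Prod.norm_def]
  refine max_le (by linarith) ?_
  have : ‖p.2‖ < r := hp
  linarith

/-- **the data on the real tube**: `w = L om_2`, `w' = L om_0`, atlas of `J 1` -/
theorem real_data (n : ℕ) {Λ : ℝ} (hΛ : 0 < Λ) : ∃ C > 0, ∀ R > 0, ∃ δ > 0,
    ∀ {X : Type} [TopologicalSpace X] (A : Atl (2 * n) X) (w w' : F2 (ofAtl A))
      (Θ : W (2 * n) → X), TubeD (ofAtl A) w w' (2 * n) (2 * R) Λ δ Θ →
      Geo (2 * R) (pull w Θ) (pull w' Θ) (IT A Θ) →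
      ∃ (ε : ℝ) (a : V (2 * n) → V (2 * n) → V (2 * n)) (g : V (2 * n) → Cn n)
        (G : W (2 * n) → Cn n), 0 < ε ∧ ε ≤ 1 ∧ TFam (2 * R) R ε (pull w Θ) (pull w' Θ) a ∧
        RTube n C R (IT A Θ) a g G := by
  set Λ1 : ℝ := Λ + Λ ^ 3 + 1 with hΛ1
  have h3 : 0 < Λ ^ 3 := by positivity
  have h1 : 1 ≤ Λ1 := by rw [hΛ1]; linarith
  obtain ⟨ε1, hε1, C, hC, H⟩ := real_tube (N := 2 * n) rfl h1
  refine ⟨C, hC, fun R hR => ?_⟩
  set ε : ℝ := min (min ε1 1) R with hε
  have hε0 : 0 < ε := lt_min (lt_min hε1 one_pos) hR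
  obtain ⟨δ0, hδ0, HL⟩ := lagtR (2 * n) Λ ε R hΛ hε0 hR
  set δ : ℝ := min δ0 (min ε1 (ε1 / (1 + 2 * R))) with hδ
  have hδ' : 0 < δ := lt_min hδ0 (lt_min hε1 (by positivity))
  refine ⟨δ, hδ', ?_⟩
  intro X _ A w w' Θ T G0
  have T' : TubeD (ofAtl A) w w' (2 * n) (2 * R) Λ δ0 Θ :=
    { sm := T.sm, bij := T.bij, eq_iff := T.eq_iff, cx := T.cx, cy := T.cy, bd := T.bd, nd := T.nd
      dd := fun p hp => by
        obtain ⟨e1, e2, e3, e4⟩ := T.dd p hp
        have hle : δ ≤ δ0 := min_le_left _ _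
        exact ⟨e1.trans hle, e2.trans hle, e3.trans hle, e4.trans hle⟩
      cpx := T.cpx, per0 := T.per0
      hh := fun p hp u v => by
        have hle : δ ≤ δ0 := min_le_left _ _
        obtain ⟨e1, e2⟩ := T.hh p hp u v
        exact ⟨e1.trans (by gcongr), e2.trans (by gcongr)⟩
      vv := fun p hp u v => by
        have hle : δ ≤ δ0 := min_le_left _ _
        obtain ⟨e1, e2⟩ := T.vv p hp u v
        exact ⟨e1.trans (by gcongr), e2.trans (by gcongr)⟩ }
  obtain ⟨a, ha⟩ := HL _ _ (Tp_836.hyp_tubeD T')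
  have hF : TFam (2 * R) R ε (pull w Θ) (pull w' Θ) a := tfam_of_tor ha (min_le_right _ _)
  have hεε1 : ε ≤ ε1 := (min_le_left _ _).trans (min_le_left _ _)
  have hεone : ε ≤ 1 := (min_le_left _ _).trans (min_le_right _ _)
  have hz : (0 : W (2 * n)) ∈ tube (2 * n) (2 * R) := by
    show ‖(0 : V (2 * n))‖ < 2 * R
    rw [norm_zero]
    positivity
  have hδ1 : δ ≤ ε1 := (min_le_right _ _).trans (min_le_left _ _)
  have hδ2 : δ * (1 + 2 * R) ≤ ε1 := by
    have h2 : δ ≤ ε1 / (1 + 2 * R) := (min_le_right _ _).trans (min_le_right _ _)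
    rwa [le_div_iff₀ (by positivity)] at h2
  have Ts := Crest.Agent.R281.QtB_355.tubeD_swap T hΛ
  obtain ⟨g, G, hG⟩ := H (2 * R) R (pull w Θ) (pull w' Θ) (IT A Θ) a hR G0
    ((T.bd 0 hz).1.trans (by rw [hΛ1]; linarith)) ((T.bd 0 hz).2.trans (by rw [hΛ1]; linarith))
    (fun u => (Ts.nd 0 hz u).trans (by gcongr; rw [hΛ1]; linarith))
    (fun u v => (T.hh 0 hz u v).2.trans (by gcongr))
    (fun p hp hp1 => (close_of_dd (by positivity) T.cx (fun q hq => (T.dd q hq).1) hδ'.le hp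
      hp1).trans hδ2)
    (fun p hp hp1 => (close_of_dd (by positivity) T.cy (fun q hq => (T.dd q hq).2.2.1) hδ'.le hp
      hp1).trans hδ2)
    (hF.mono hεε1)
  exact ⟨ε, a, g, G, hε0, hεone, hF, hG⟩

end

end Crest.Agent.R281.Qt_922
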