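import Crest.Agent.R281.Qt12_922
import Crest.Agent.R281.Qd5_956

/-!
# R281 (S0424), QTUBE (helper922), part 13: **the quantified tube of a member**

`qtube_of_mtub` : `κ (n, Λ)`, for every radius `ρ` there are `R`, `δ` such that a `Mtub` (808) with
radius `R`, error `δ` gives, in every atlas of `J 1` and for the metric with form `L om_1`, a
`QTube` of radius `ρ` whose projection is a Lagrangian fibration for `L om_2`, `L om_0`
-/

set_option autoImplicit false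
set_option linter.unusedSectionVars false
set_option maxSynthPendingDepth 3

open Set Metric Filter Topology
open scoped ContDiff

namespace Crest.Agent.R281.Qt_922

open Crest.Agent.R281.Mc673 (V W Fo tube ClF isOpen_tube kv)
open Crest.Agent.R275.Geo Crest.Agent.R273.Defs_333 Crest.Agent.R273.Kah_333
open Crest.Agent.R260.ACM_580 Crest.Agent.R260.NNB_580
open Crest.Agent.R281.HkR_835 Crest.Agent.R281.Dif_268
open Crest.Agent.R281.Tub_57 (Geo IT Leaf LagFib)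
open Crest.Agent.R281.T5D_808 (TubeD)
open Crest.Agent.R281.Per_368 (SmI pull)
open Crest.Agent.R281.Cr_808 (Mtub)
open Crest.Agent.R281.Sta2_684 (smulP)
open Crest.Agent.R281.Qd_956 (kap)

noncomputable section

/-- **the quantified tube of a member** -/
theorem qtube_of_mtub (n : ℕ) {Λ : ℝ} (hΛ : 0 < Λ) : ∃ κ : ℝ, 0 < κ ∧ ∀ ρ : ℝ, 0 < ρ →
    ∃ R δ : ℝ, 0 < R ∧ 0 < δ ∧
    ∀ {X : Type} [TopologicalSpace X] [T2Space X] {C : RCh (Cn (2 * n)) X} {H : HkT C}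
      {S : Set (F2 C)} {A : Atl (2 * n) X} {hp : Cp (H.acm 0) A} {L : ℝ} {hL : 0 < L}
      {Θ : W (2 * n) → X}, Mtub H S R Λ δ A hp L hL Θ →
    ∀ (A1 : Atl (2 * n) X) (hA1 : Cp (H.acm 1) A1) (K : Kah A1),
      Eqv (ofKah K).f2 (L • (cmp_of_cp hA1).F (H.om 1)) →
      ∃ q : QTube A1 K n κ ρ, q.U ⊆ Θ '' tube (2 * n) R ∧
        LagFib A1 (L • (cmp_of_cp hA1).F (H.om 2)) (L • (cmp_of_cp hA1).F (H.om 0)) n q.U q.f ρ := by
  set Λ1 : ℝ := Λ + Λ ^ 3 with hΛ1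
  have hΛ10 : 0 < Λ1 := by positivity
  obtain ⟨C0, hC0, Hd⟩ := real_data n hΛ10
  set κ : ℝ := max (C0 ^ 2 * Λ) (kap n Λ Λ1 C0) with hκ
  have hκ0 : 0 < κ := lt_max_of_lt_left (by positivity)
  refine ⟨κ, hκ0, fun ρ hρ => ?_⟩
  have hR0 : 0 < C0 * ρ := by positivity
  obtain ⟨δ, hδ, Hd⟩ := Hd (C0 * ρ) hR0
  refine ⟨2 * (C0 * ρ), δ, by positivity, hδ, ?_⟩
  intro X _ _ C H S A hp L hL Θ hM A1 hA1 K hK
  obtain ⟨hT, hG, hP⟩ := QtB_355.adapter hM hA1 (by positivity) hΛ K hK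
  obtain ⟨ε, a, g, G, hε, hε1, hF, hRT⟩ := Hd A1 _ _ Θ hT hG
  have hsm := QtB_355.m_smA hM hA1
  have hA1' : Cp ((smulP L hL H).acm 1) A1 := hA1
  have hq := Qd_956.hq2 (C' := C) (H := smulP L hL H) (k := 1) (l := 2) (m := 0)
    (Or.inr (Or.inl rfl)) hA1' rfl hP hRT hF hε1 hΛ.le hC0.le
    (fun p hp' => by
      have := Qd_956.pull_F (hA := hA1) hsm (H.om 2) hp'
      show L • pull ((cmp_of_cp hA1).F (H.om 2)) Θ p = L • pull (H.om 2) Θ p
      rw [this])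
    (fun p hp' => by
      have := Qd_956.pull_F (hA := hA1) hsm (H.om 0) hp'
      show L • pull ((cmp_of_cp hA1).F (H.om 0)) Θ p = L • pull (H.om 0) Θ p
      rw [this])
    hT.bd (fun p hp' u => Or.inl (hT.nd p hp' u))
  obtain ⟨q, h1, h2, h3, h4, h5⟩ := Qt11_355.exists_qtube_lag (κ := κ) rfl hP hRT hF hC0 hR0
    (le_max_left _ _) (fun p _ => rfl) (fun p _ => rfl) (fun c hc hgc θ θ' => by
      obtain ⟨γ, e1, e2, e3⟩ := hq c hc hgc θ θ'
      exact ⟨γ, Qd_956.disc_mono e1 (le_max_right _ _) subset_rfl, e2, e3⟩)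
  have key : ∀ ρ' : ℝ, C0 * ρ / C0 = ρ' → ∃ q : QTube A1 K n κ ρ',
      q.U ⊆ Θ '' tube (2 * n) (2 * (C0 * ρ)) ∧
        LagFib A1 (L • (cmp_of_cp hA1).F (H.om 2)) (L • (cmp_of_cp hA1).F (H.om 0)) n q.U q.f
          ρ' := by
    rintro _ rfl
    exact ⟨q, h2, h4⟩
  exact key ρ (by field_simp)

end

end Crest.Agent.R281.Qt_922
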