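import Crest.Agent.R281.GTi3_989
import Crest.Agent.R281.QF5_871

/-!
# R281 (S0424), RAY-ALG part 1 (helper989): the code along the end of a line

`K : Code k₀ n N`, `M : Fmt k₀ (Fin K.k)` nice, all points good, `E` an end of the plane curve over
the line `a + u d`:

* `cE E : Fin K.k → MgR`    : the coefficient functions, `ev z (cE E i) = M.pt (a + U(z) d) (V z) i`
* `qE E z : QM M`           : the point
* `exists_gen`              : for countable `k₀` there is `z₀` with `RelOk k₀ (c(z₀)) (c(z))` for all `z`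
* `glue_end`                : 867/639's algebraic data of the code over the end
-/

set_option autoImplicit false
set_option linter.unusedSectionVars false

open Polynomial Set Filter Topology Complex

noncomputable section

namespace Crest.Agent.R281.Ra_989

open Crest.Agent.R281.Esc1_989 Crest.Agent.R281.Ends1_989 Crest.Agent.R281.Ends2_989
open Crest.Agent.R281.Ends3_989 Crest.Agent.R281.Ends4_989 Crest.Agent.R281.GTi_989
open Crest.Agent.R281.Sl_957 Crest.Agent.R281.Am_957 Crest.Agent.R281.CA_867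
open Crest.Agent.R281.AF_867 Crest.Agent.R281.Kr_488

/-! ### generic points of the end -/

theorem dense_ne {g : MgR} (hg : g ≠ 0) : Dense {z : Hp | ev z g ≠ 0} := by
  obtain ⟨G, hG, hgG⟩ := g.2
  rw [dense_iff_inter_open]
  rintro W hW ⟨w, hw⟩
  by_contra hcon
  rw [not_nonempty_iff_eq_empty, eq_empty_iff_forall_notMem] at hcon
  apply hg
  refine ext_ev fun z => ?_
  rw [map_zero, ev_apply, hgG]
  have h1 : AnalyticOnNhd ℂ G Hp := hG.1.analyticOnNhd isOpen_Hp
  have h2 : G =ᶠ[𝓝 w.1] 0 := by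
    obtain ⟨W', hW', hWW⟩ := isOpen_induced_iff.1 hW
    have h3 : W' ∩ Hp ∈ 𝓝 w.1 :=
      (hW'.inter isOpen_Hp).mem_nhds ⟨by rw [← hWW] at hw; exact hw, w.2⟩
    filter_upwards [h3] with y hy
    by_contra hne
    refine hcon ⟨y, hy.2⟩ ⟨by rw [← hWW]; exact hy.1, ?_⟩
    show ev ⟨y, hy.2⟩ g ≠ 0
    rw [ev_apply, hgG]
    exact hne
  exact h1.eqOn_zero_of_preconnected_of_eventuallyEq_zero convex_Hp.isPreconnected w.2 h2 z.2

theorem isOpen_ne (g : MgR) : IsOpen {z : Hp | ev z g ≠ 0} := by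
  obtain ⟨G, hG, hgG⟩ := g.2
  have h1 : Continuous fun z : Hp => G z := hG.1.continuousOn.domRestrict
  have h2 : {z : Hp | ev z g ≠ 0} = {z : Hp | G z ≠ 0} := by
    ext z
    show ev z g ≠ 0 ↔ G z ≠ 0
    rw [ev_apply, hgG]
  rw [h2]
  exact isOpen_ne_fun h1 continuous_const

instance : LocallyCompactSpace Hp := isOpen_Hp.locallyCompactSpace

/-- a point of the end where countably many nonzero functions do not vanish -/
theorem exists_pt {ι : Type*} [Countable ι] (g : ι → MgR) (hg : ∀ i, g i ≠ 0) :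
    Dense {z : Hp | ∀ i, ev z (g i) ≠ 0} := by
  have h := dense_iInter_of_isOpen (fun i => isOpen_ne (g i)) fun i => dense_ne (hg i)
  have h2 : (⋂ i, {z : Hp | ev z (g i) ≠ 0}) = {z : Hp | ∀ i, ev z (g i) ≠ 0} := by
    ext z
    simp
  rwa [h2] at h

/-- **generic points**: all values of the vector `c'` are specialisations of the value at `z₀` -/
theorem exists_gen {k₀ : Type} [CommRing k₀] [Algebra k₀ ℂ] [Countable k₀] {k : ℕ}
    (c' : Fin k → MgR) : Dense {z₀ : Hp | ∀ z : Hp,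
      RelOk k₀ (fun i => ev z₀ (c' i)) fun i => ev z (c' i)} := by
  have : Countable (MvPolynomial (Fin k) k₀) := countable_mvPolynomial _ _
  refine (exists_pt (fun r : {r : MvPolynomial (Fin k) k₀ // psi c' r ≠ 0} => psi c' r.1)
    fun r => r.2).mono fun z₀ h z r hr => ?_
  rw [← ev_psi] at hr ⊢
  by_cases h0 : psi c' r = 0
  · rw [h0, map_zero]
  · exact absurd hr (h ⟨r, h0⟩)

/-! ### the point of the model over an end of a line -/

section line

variable {k₀ : Type*} [Field k₀] [Algebra k₀ ℂ] {R : Type*} {M : Fmt k₀ R} {a d : Fin M.m → ℂ}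

/-- the coefficient functions -/
def cE (E : EndC (M.lf a d) (M.lδ a d)) (i : R) : MgR := mk _ (E.mg (M.lP a d i) 1)

theorem ev_cE (E : EndC (M.lf a d) (M.lδ a d)) (z : Hp) (i : R) :
    ev z (cE E i) = M.pt (fun j => a j + E.U z * d j) (E.V z) i := by
  rw [Fmt.pt_line, cE, ev_mk, pow_one]

/-- the point of the model -/
def qE (E : EndC (M.lf a d) (M.lδ a d)) (z : Hp) : QM M :=
  ⟨(fun j => a j + E.U z * d j, E.V z), (M.on_iff a d _ _).2 (E.mem z z.2)⟩

theorem ev_cE' (E : EndC (M.lf a d) (M.lδ a d)) (z : Hp) :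
    (fun i => ev z (cE E i)) = M.pt (qE E z).1.1 (qE E z).1.2 :=
  funext fun i => ev_cE E z i

end line

section code

variable {k₀ : Type} [Field k₀] [Algebra k₀ ℂ] {n N : ℕ} {K : Code k₀ n N}
  {M : Fmt k₀ (Fin K.k)} {a d : Fin M.m → ℂ}

theorem good_cE (hM : ∀ (z : Fin M.m → ℂ) (w : ℂ), M.On z w → K.Good (M.pt z w))
    (E : EndC (M.lf a d) (M.lδ a d)) (z : Hp) : K.Good fun i => ev z (cE E i) := by
  rw [ev_cE']
  exact hM _ _ (qE E z).2

/-- the certificate over the ring of the end -/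
theorem ok_cE [Countable k₀] (hM : ∀ (z : Fin M.m → ℂ) (w : ℂ), M.On z w → K.Good (M.pt z w))
    (E : EndC (M.lf a d) (M.lδ a d)) : (K.Y.map (psi (cE E))).Ok := by
  obtain ⟨z₀, h0⟩ := (exists_gen (k₀ := k₀) (cE E)).nonempty
  exact psi_ok (good_cE hM E z₀) (cE E) h0

/-- **the algebraic data of a code over an end** -/
theorem glue_end [Countable k₀] (hM : ∀ (z : Fin M.m → ℂ) (w : ℂ), M.On z w → K.Good (M.pt z w))
    (E : EndC (M.lf a d) (M.lδ a d)) (b : Fin K.Y.q) {l : Filter Hp} [l.NeBot] (hl : l ≤ lEnd)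
    (hC : ∀ᶠ z in l, ConnM (K.mem (M.pt (qE E z).1.1 (qE E z).1.2))) :
    ∃ j, EndAlg (K.Y.map (psi (cE E))) b j := by
  obtain ⟨z₀, h0⟩ := (exists_gen (k₀ := k₀) (cE E)).nonempty
  refine glue_code (good_cE hM E z₀) (cE E) h0 ⟨z₀, (good_cE hM E z₀).ne⟩ b hl ?_
  filter_upwards [hC] with z hz
  rw [ev_cE']
  exact hz

end code

end Crest.Agent.R281.Ra_989
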