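import Crest.Agent.R281.Qe_975
import Crest.Agent.R281.Qt9_922
import Crest.Agent.R281.Tp5_836
import Crest.Agent.R281.Bt3_156

/-!
# Row 281, QTUBE (helper998): `RealData` from `toriR` (156), `real_tube` (922)
-/

set_option autoImplicit false
set_option linter.unusedSectionVars false
set_option maxSynthPendingDepth 3

open Set Metric Filter Topology
open scoped ContDiff

namespace Crest.Agent.R281.Rd_998

open Crest.Agent.R275.Geo Crest.Agent.R275.Core144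
open Crest.Agent.R281.HkR_835
open Crest.Agent.R281.Mc673 (V W Fo tube ClF Tori isOpen_tube)
open Crest.Agent.R281.T5D_808 (TubeD)
open Crest.Agent.R281.Per_368 (pull)
open Crest.Agent.R281.Tub_57 (Geo IT)
open Crest.Agent.R281.Qt_922 (TFam RTube real_tube)
open Crest.Agent.R281.Bt_156 (Hyp toriR)
open Crest.Agent.R281.Tp_836 (hyp_tubeD)

noncomputable section

variable {N : ℕ}

theorem tfam_of_tori {r R ε : ℝ} {x y : Fo N} {a : V N → V N → V N} (h : Tori N r R ε x y a) :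
    TFam r R ε x y a where
  leaf c hc := ⟨h.c1 c hc.le, h.per c hc.le, fun θ => h.lt c hc.le θ, fun θ u v => h.x0 c hc.le θ u v,
    fun θ u v => h.y0 c hc.le θ u v⟩
  near c hc θ := h.near c hc.le θ
  dnear c hc θ := h.dnear c hc.le θ
  lip c hc c' hc' θ := h.lip c c' hc.le hc'.le θ
  dlip c hc c' hc' θ := h.dlip c c' hc.le hc'.le θ

theorem tfam_mono {r R ε ε' : ℝ} {x y : Fo N} {a : V N → V N → V N} (h : TFam r R ε x y a)
    (he : ε ≤ ε') : TFam r R ε' x y a where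
  leaf := h.leaf
  near c hc θ := (h.near c hc θ).trans he
  dnear c hc θ := (h.dnear c hc θ).trans he
  lip c hc c' hc' θ := (h.lip c hc c' hc' θ).trans (by gcongr)
  dlip c hc c' hc' θ := (h.dlip c hc c' hc' θ).trans (by gcongr)

theorem hyp_mono {r Λ δ δ' : ℝ} {x y : Fo N} (h : Hyp r Λ δ x y) (hd : δ ≤ δ') :
    Hyp r Λ δ' x y where
  cx := h.cx
  cy := h.cy
  bx := h.bx
  byy := h.byy
  nd := h.nd
  dx p hp := (h.dx p hp).trans hd
  ddx p hp := (h.ddx p hp).trans hd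
  dy p hp := (h.dy p hp).trans hd
  ddy p hp := (h.ddy p hp).trans hd
  I := h.I
  mx := h.mx
  my := h.my

/-- mean value on the tube -/
theorem mv_tube {r δ : ℝ} (hr : 0 < r) {x : Fo N} (hx : ContDiffOn ℝ ∞ x (tube N r))
    (hd : ∀ p ∈ tube N r, ‖fderiv ℝ x p‖ ≤ δ) (hδ : 0 ≤ δ) {p : W N} (hp : p ∈ tube N r)
    (hp1 : ‖p.1‖ ≤ 1) : ‖x p - x 0‖ ≤ δ * (1 + r) := by
  have hc : Convex ℝ (tube N r) := Crest.Agent.R281.Tub_57.convex_tub
  have h0 : (0 : W N) ∈ tube N r := by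
    show ‖(0 : V N)‖ < r
    rwa [norm_zero]
  have h1 := hc.norm_image_sub_le_of_norm_fderiv_le (𝕜 := ℝ) (f := x) (C := δ)
    (fun q hq => ((hx.contDiffAt ((isOpen_tube r).mem_nhds hq)).differentiableAt (by simp)))
    hd h0 hp
  refine h1.trans (mul_le_mul_of_nonneg_left ?_ hδ)
  rw [sub_zero, Prod.norm_def]
  have hp2 : ‖p.2‖ < r := hp
  exact max_le (by linarith) (by linarith)

/-- non-degeneracy of the second form -/
theorem nd_snd {Λ : ℝ} (hΛ : 0 < Λ) {x y : Fo N} {p : W N}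
    (hnd : ∀ u, ‖u‖ ≤ Λ * ‖x p u‖) (hy : ‖y p‖ ≤ Λ) {I : W N → W N} (hI : ∀ u, I (I u) = -u)
    (hxy : ∀ u w, x p (I u) w = - y p u w) (u : W N) : ‖u‖ ≤ Λ ^ 3 * ‖y p u‖ := by
  have e1 : ∀ u, x p (I u) = - y p u := fun u => ContinuousLinearMap.ext fun w => hxy u w
  have e2 : x p u = y p (I u) := by
    have h1 := e1 (I u)
    rw [hI, map_neg] at h1
    exact neg_inj.1 h1
  have h1 : ‖I u‖ ≤ Λ * ‖y p u‖ := by
    have := hnd (I u)
    rwa [e1, norm_neg] at this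
  have h2 : ‖y p (I u)‖ ≤ Λ * ‖I u‖ := (y p).le_of_opNorm_le hy (I u)
  calc ‖u‖ ≤ Λ * ‖x p u‖ := hnd u
    _ = Λ * ‖y p (I u)‖ := by rw [e2]
    _ ≤ Λ * (Λ * ‖I u‖) := by gcongr
    _ ≤ Λ * (Λ * (Λ * ‖y p u‖)) := by gcongr
    _ = Λ ^ 3 * ‖y p u‖ := by ring

/-- **`RealData`** -/
theorem realData : Crest.Agent.R281.Qb_975.RealData := by
  intro n Λ hΛ
  set Λ1 : ℝ := max 1 (Λ + Λ ^ 3) with hΛ1
  obtain ⟨ε1, hε1, C, hC, hRT⟩ := real_tube (N := 2 * n) (n := n) rfl (Λ := Λ1) (le_max_left _ _)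
  refine ⟨C, hC, fun R hR => ?_⟩
  set ε : ℝ := min ε1 1 with hε
  have hε0 : 0 < ε := lt_min hε1 one_pos
  obtain ⟨del, hdel, hT⟩ := toriR (2 * n) Λ ε R hΛ hε0 hR
  have hR2 : 0 < 1 + 2 * R := by linarith
  refine ⟨min del (min ε1 (ε1 / (1 + 2 * R))), lt_min hdel (lt_min hε1 (by positivity)), ?_⟩
  intro X _ A w w' Θ tD G
  set δ := min del (min ε1 (ε1 / (1 + 2 * R))) with hδ
  have hδ0 : 0 < δ := lt_min hdel (lt_min hε1 (by positivity))
  have hδ1 : δ ≤ ε1 := (min_le_right _ _).trans (min_le_left _ _)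
  have hδ2 : δ * (1 + 2 * R) ≤ ε1 := by
    have h1 : δ ≤ ε1 / (1 + 2 * R) := (min_le_right _ _).trans (min_le_right _ _)
    calc δ * (1 + 2 * R) ≤ ε1 / (1 + 2 * R) * (1 + 2 * R) := by gcongr
      _ = ε1 := by field_simp
  obtain ⟨a, ha⟩ := hT _ _ (hyp_mono (hyp_tubeD tD) (min_le_left _ _))
  have hF := tfam_of_tori ha
  have h0 : (0 : W (2 * n)) ∈ tube (2 * n) (2 * R) := by
    show ‖(0 : V (2 * n))‖ < 2 * R
    rw [norm_zero]
    linarith
  have hΛa : Λ ≤ Λ1 := le_trans (by have := pow_pos hΛ 3; linarith) (le_max_right _ _)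
  obtain ⟨I, hI, hxy⟩ := tD.cpx 0 h0
  obtain ⟨g, G', hg⟩ := hRT (2 * R) R (pull w Θ) (pull w' Θ) (IT A Θ) a hR G
    ((tD.bd 0 h0).1.trans hΛa) ((tD.bd 0 h0).2.trans hΛa)
    (fun u => (nd_snd hΛ (tD.nd 0 h0) (tD.bd 0 h0).2 hI hxy u).trans (by
      gcongr
      exact le_trans (by linarith) (le_max_right _ _)))
    (fun u v => ((tD.hh 0 h0 u v).2).trans (by gcongr))
    (fun p hp hp1 => (mv_tube (by linarith) tD.cx.sm (fun q hq => (tD.dd q hq).1) hδ0.le hp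
      hp1).trans hδ2)
    (fun p hp hp1 => (mv_tube (by linarith) tD.cy.sm (fun q hq => (tD.dd q hq).2.2.1) hδ0.le hp
      hp1).trans hδ2)
    (tfam_mono hF (min_le_left _ _))
  exact ⟨ε, a, g, G', hε0, min_le_right _ _, hF, hg⟩

end

end Crest.Agent.R281.Rd_998
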