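import Crest.Agent.R281.Qe_975
import Crest.Agent.R281.QtF_273
import Crest.Agent.R281.Bt3_156
import Crest.Agent.R281.Tp5_836

/-!
# Row 281, QTubP: `RealData` from 922's `real_tube` and 156's `toriR` (helper548, safety copy)
-/

set_option autoImplicit false
set_option linter.unusedSectionVars false
set_option maxSynthPendingDepth 3

open Set Filter Topology Metric
open scoped ContDiff

namespace Crest.Agent.R281.Rd_548

open Crest.Agent.R275.Geo Crest.Agent.R275.Core144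
open Crest.Agent.R281.HkR_835
open Crest.Agent.R281.Mc673 (V W Fo tube ClF kv Tori isOpen_tube)
open Crest.Agent.R281.T5D_808 (TubeD)
open Crest.Agent.R281.Per_368 (SmI pull)
open Crest.Agent.R281.Tub_57 (Geo IT LagFib)
open Crest.Agent.R281.Qt_922 (TFam RTube real_tube)
open Crest.Agent.R281.Bt_156 (Hyp toriR)

theorem tfam_mono {N : ℕ} {r R e e' : ℝ} {x y : Fo N} {a : V N → V N → V N} (h : e ≤ e')
    (t : TFam r R e x y a) : TFam r R e' x y a where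
  leaf := t.leaf
  near c hc θ := (t.near c hc θ).trans h
  dnear c hc θ := (t.dnear c hc θ).trans h
  lip c hc c' hc' θ := (t.lip c hc c' hc' θ).trans (by gcongr)
  dlip c hc c' hc' θ := (t.dlip c hc c' hc' θ).trans (by gcongr)

theorem hyp_mono {N : ℕ} {r Λ δ δ' : ℝ} {x y : Fo N} (h : δ ≤ δ') (t : Hyp r Λ δ x y) :
    Hyp r Λ δ' x y where
  cx := t.cx
  cy := t.cy
  bx := t.bx
  byy := t.byy
  nd := t.nd
  dx p hp := (t.dx p hp).trans h
  ddx p hp := (t.ddx p hp).trans h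
  dy p hp := (t.dy p hp).trans h
  ddy p hp := (t.ddy p hp).trans h
  I := t.I
  mx := t.mx
  my := t.my

theorem convex_tube {N : ℕ} (r : ℝ) : Convex ℝ (tube N r) := by
  intro p hp q hq s t hs ht hst
  have h1 : ‖p.2‖ < r := hp
  have h2 : ‖q.2‖ < r := hq
  show ‖s • p.2 + t • q.2‖ < r
  have : s • p.2 + t • q.2 ∈ ball (0 : V N) r :=
    (convex_ball (0 : V N) r) (mem_ball_zero_iff.2 h1) (mem_ball_zero_iff.2 h2) hs ht hst
  exact mem_ball_zero_iff.1 this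

theorem osc {N : ℕ} {r δ : ℝ} (hr : 0 < r) (hδ : 0 ≤ δ) {x : Fo N} (hx : ClF r x)
    (hd : ∀ p ∈ tube N r, ‖fderiv ℝ x p‖ ≤ δ) {p : W N} (hp : p ∈ tube N r) (h1 : ‖p.1‖ ≤ 1) :
    ‖x p - x 0‖ ≤ δ * (1 + r) := by
  have h0 : (0 : W N) ∈ tube N r := by
    show ‖(0 : W N).2‖ < r
    simpa using hr
  have h2 := (convex_tube (N := N) r).norm_image_sub_le_of_norm_fderiv_le (𝕜 := ℝ) (f := x)
    (fun q hq => hx.da hq) hd h0 hp
  refine h2.trans ?_
  refine mul_le_mul_of_nonneg_left ?_ hδ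
  rw [sub_zero, Prod.norm_def]
  have h3 : ‖p.2‖ < r := hp
  exact max_le (by linarith) (by linarith)

theorem real_data : Qb_975.RealData := by
  intro n Λ hΛ
  have hΛ1 : 1 ≤ 1 + Λ + Λ ^ 3 := by nlinarith [pow_pos hΛ 3]
  obtain ⟨ε1, hε1, C, hC, hreal⟩ := real_tube (N := 2 * n) (n := n) rfl hΛ1
  refine ⟨C, hC, fun R hR => ?_⟩
  have hR2 : 0 < 2 * R := by linarith
  obtain ⟨δ0, hδ0, hT⟩ := toriR (2 * n) Λ (min ε1 1) R hΛ (lt_min hε1 one_pos) hR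
  have hpos : 0 < ε1 / (1 + 2 * R) := div_pos hε1 (by linarith)
  refine ⟨min δ0 (min ε1 (ε1 / (1 + 2 * R))), lt_min hδ0 (lt_min hε1 hpos), ?_⟩
  intro X _ A w w' Θ t G
  set x := pull w Θ with hx
  set y := pull w' Θ with hy
  set δ := min δ0 (min ε1 (ε1 / (1 + 2 * R))) with hδdef
  have hδpos : 0 < δ := lt_min hδ0 (lt_min hε1 hpos)
  have hyp : Hyp (2 * R) Λ δ x y := Tp_836.hyp_tubeD t
  obtain ⟨a, ha⟩ := hT x y (hyp_mono (min_le_left _ _) hyp)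
  have hfam : TFam (2 * R) R (min ε1 1) x y a := QtF_273.tfam_of_tori ha
  have h0 : (0 : W (2 * n)) ∈ tube (2 * n) (2 * R) := by
    show ‖(0 : W (2 * n)).2‖ < 2 * R
    simpa using hR2
  have hΛle : Λ ≤ 1 + Λ + Λ ^ 3 := by nlinarith [pow_pos hΛ 3]
  have hnd : ∀ u, ‖u‖ ≤ (1 + Λ + Λ ^ 3) * ‖y 0 u‖ := by
    intro u
    obtain ⟨I, hI2, hI⟩ := t.cpx 0 h0
    have e1 : ‖x 0 (I u)‖ = ‖y 0 u‖ := by
      have : x 0 (I u) = -(y 0 u) := ContinuousLinearMap.ext fun v => hI u v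
      rw [this, norm_neg]
    have e2 : ‖x 0 u‖ = ‖y 0 (I u)‖ := by
      have : y 0 (I u) = x 0 u := by
        refine ContinuousLinearMap.ext fun v => ?_
        have h := hI (I u) v
        rw [hI2, map_neg] at h
        have h' : -(x 0 u v) = -(y 0 (I u) v) := h
        linarith
      rw [this]
    have n1 : ‖u‖ ≤ Λ * ‖x 0 u‖ := t.nd 0 h0 u
    have n2 : ‖y 0 (I u)‖ ≤ Λ * ‖I u‖ :=
      ((y 0).le_opNorm _).trans (mul_le_mul_of_nonneg_right (t.bd 0 h0).2 (norm_nonneg _))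
    have n3 : ‖I u‖ ≤ Λ * ‖x 0 (I u)‖ := t.nd 0 h0 (I u)
    have n4 : ‖u‖ ≤ Λ ^ 3 * ‖y 0 u‖ := by
      calc ‖u‖ ≤ Λ * ‖x 0 u‖ := n1
        _ = Λ * ‖y 0 (I u)‖ := by rw [e2]
        _ ≤ Λ * (Λ * ‖I u‖) := by gcongr
        _ ≤ Λ * (Λ * (Λ * ‖x 0 (I u)‖)) := by gcongr
        _ = Λ ^ 3 * ‖y 0 u‖ := by rw [e1]; ring
    refine n4.trans (mul_le_mul_of_nonneg_right ?_ (norm_nonneg _))
    linarith
  have hδ1 : δ ≤ ε1 := (min_le_right _ _).trans (min_le_left _ _)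
  have hδ2 : δ * (1 + 2 * R) ≤ ε1 := by
    have : δ ≤ ε1 / (1 + 2 * R) := (min_le_right _ _).trans (min_le_right _ _)
    rwa [le_div_iff₀ (by linarith)] at this
  obtain ⟨g, G', hg⟩ := hreal (2 * R) R x y (IT A Θ) a hR G
    ((t.bd 0 h0).1.trans hΛle) ((t.bd 0 h0).2.trans hΛle) hnd
    (fun u v => ((t.hh 0 h0 u v).2).trans (by gcongr))
    (fun p hp h1 => (osc hR2 hδpos.le t.cx (fun q hq => (t.dd q hq).1) hp h1).trans hδ2)
    (fun p hp h1 => (osc hR2 hδpos.le t.cy (fun q hq => (t.dd q hq).2.2.1) hp h1).trans hδ2)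
    (tfam_mono (min_le_left _ _) hfam)
  exact ⟨min ε1 1, a, g, G', lt_min hε1 one_pos, min_le_right _ _, hfam, hg⟩

end Crest.Agent.R281.Rd_548
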