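import Crest.Agent.R281.Rich2_710
import Crest.Agent.R257.Glue1_101
import Crest.Agent.R273.SerD_945
import Crest.Agent.R273.Vm_333

/-!
# R281 (S0424), DIV 6, S6-RICH (helper710), file 3: matrices, change of charts

* `lev_eq_lvE`, `qf_hess` : `lev = 4 lvE`, `hess u z` as a quadratic form;
* `psd_tr` : positivity of `∂∂̄(wt + F) + c K` does not depend on the chart;
* `exists_kah_lower` : lower bound of a Kaehler metric on a compact subset of a chart.
-/

set_option autoImplicit false
set_option linter.unusedSectionVars false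

open Set Filter Topology Metric
open scoped ContDiff Matrix ComplexConjugate ComplexOrder

noncomputable section

namespace Crest.Agent.R281.Rich_710

open Crest.Agent.R257.HoB_843 Crest.Agent.R257.Glue2_101 Crest.Agent.R257.Glue1_101
open Crest.Agent.R275.Geo Crest.Agent.R275.Core144 Crest.Agent.R275.EDR890
open Crest.Agent.R273.Defs_333 Crest.Agent.R273.Hess_333 Crest.Agent.R273.HessB_333
open Crest.Agent.R273.HM_333 Crest.Agent.R273.Kah_333 Crest.Agent.R273.SerD_945

variable {n : ℕ}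

theorem lev_eq_lvE (u : Cn n → ℝ) (z v : Cn n) : lev u z v = 4 * lvE u z v := by
  unfold lev lvE
  rw [iteratedFDeriv_two_apply, iteratedFDeriv_two_apply]
  simp

/-- the conjugate vector -/
def cj (x : Fin n → ℂ) : Cn n := WithLp.toLp 2 fun a => conj (x a)

/-- the conjugate vector, back -/
def jc (v : Cn n) : Fin n → ℂ := fun a => conj (v a)

theorem cj_jc (v : Cn n) : cj (jc v) = v := by
  ext a; simp [cj, jc]

theorem jc_cj (x : Fin n → ℂ) : jc (cj x) = x := by
  funext a; simp [cj, jc]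

theorem qf_hess {u : Cn n → ℝ} {z : Cn n} (hu : ContDiffAt ℝ ∞ u z) (x : Fin n → ℂ) :
    qf (hess u z) x = lvE u z (cj x) := by
  unfold qf
  rw [hq_eq_dot, hq_re hu, lev_eq_lvE]
  unfold cj
  ring

theorem psd_of_qf {C : Matrix (Fin n) (Fin n) ℂ} (hC : C.IsHermitian) (h : ∀ x, 0 ≤ qf C x) :
    C.PosSemidef := by
  refine Matrix.PosSemidef.of_dotProduct_mulVec_nonneg hC fun x => ?_
  rw [qf_eq hC]
  exact_mod_cast h x

theorem qf_nonneg {C : Matrix (Fin n) (Fin n) ℂ} (hC : C.PosSemidef) (x : Fin n → ℂ) :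
    0 ≤ qf C x := by
  have h := hC.dotProduct_mulVec_nonneg x
  rw [qf_eq hC.1] at h
  exact_mod_cast h

theorem herm_smul {C : Matrix (Fin n) (Fin n) ℂ} (hC : C.IsHermitian) (c : ℝ) :
    ((c : ℂ) • C).IsHermitian := by
  unfold Matrix.IsHermitian at hC ⊢
  rw [Matrix.conjTranspose_smul, hC]
  simp

theorem qf_sub (C D : Matrix (Fin n) (Fin n) ℂ) (v : Fin n → ℂ) :
    qf (C - D) v = qf C v - qf D v := by
  unfold qf
  rw [Matrix.sub_mulVec, dotProduct_sub, Complex.sub_re]

variable {M : Type} [TopologicalSpace M] {A : Atl n M} {L : LB A}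

/-- smoothness of a germ does not depend on the chart -/
theorem sm_tr {F : M → ℝ} {i j : A.ι} {p : M} (hp : p ∈ (A.e i).source ∩ (A.e j).source)
    (hF : ContDiffAt ℝ ∞ (fun z => F ((A.e j).symm z)) (A.e j p)) :
    ContDiffAt ℝ ∞ (fun z => F ((A.e i).symm z)) (A.e i p) := by
  set T : Cn n → Cn n := fun w => A.e j ((A.e i).symm w) with hT
  have hTx : T (A.e i p) = A.e j p := by rw [hT]; simp only [(A.e i).left_inv hp.1]
  have ho : IsOpen (A.ov i j) := isOpen_ov i j
  have hm : A.e i p ∈ A.ov i j := mem_ov hp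
  have hTc : ContDiffAt ℝ ∞ T (A.e i p) :=
    (((Crest.Agent.R266.SCV.contDiffOn_omega_of_differentiableOn ho (A.holo i j)).restrict_scalars
      ℝ).of_le le_top).contDiffAt (ho.mem_nhds hm)
  have h1 : ContDiffAt ℝ ∞ (fun w => F ((A.e j).symm (T w))) (A.e i p) := by
    have h2 : ContDiffAt ℝ ∞ (fun z => F ((A.e j).symm z)) (T (A.e i p)) := by rwa [hTx]
    exact h2.comp (A.e i p) hTc
  refine h1.congr_of_eventuallyEq ?_
  filter_upwards [ho.mem_nhds hm] with w hw
  simp only [hT]
  rw [(A.e j).left_inv hw.2]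

/-- positivity of `∂∂̄ (wt + F) + c K` does not depend on the chart -/
theorem psd_tr (K : Kah A) (h : HM L) {F : M → ℝ} {i j : A.ι} {p : M}
    (hp : p ∈ (A.e i).source ∩ (A.e j).source)
    (hF : ContDiffAt ℝ ∞ (fun z => F ((A.e j).symm z)) (A.e j p)) (c : ℝ)
    (hpos : (hess (fun z => h.wt j z + F ((A.e j).symm z)) (A.e j p) +
      (c : ℂ) • K.g j p).PosSemidef) :
    (hess (fun z => h.wt i z + F ((A.e i).symm z)) (A.e i p) + (c : ℂ) • K.g i p).PosSemidef := by
  have ho : IsOpen (A.ov i j) := isOpen_ov i j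
  have hm : A.e i p ∈ A.ov i j := mem_ov hp
  have hF' := sm_tr hp hF
  have h1 : hess (fun z => h.wt i z + F ((A.e i).symm z)) (A.e i p) =
      (Jm A i j p)ᵀ * hess (fun z => h.wt j z + F ((A.e j).symm z)) (A.e j p) *
        (Jm A i j p).map conj := by
    refine hess_tr (f := fun w => L.g i j ((A.e i).symm w)) hp
      ((wt_contDiffAt h i ((A.e i).map_source hp.1)).add hF')
      ((wt_contDiffAt h j ((A.e j).map_source hp.2)).add hF) ?_ ?_ ?_
    · filter_upwards [ho.mem_nhds hm] with w hw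
      exact (L.hol i j).differentiableAt (ho.mem_nhds hw)
    · exact L.ne_zero i j _
    · filter_upwards [ho.mem_nhds hm] with w hw
      rw [wt_tr h hw, (A.e j).left_inv hw.2]
      ring
  have h3 : hess (fun z => h.wt i z + F ((A.e i).symm z)) (A.e i p) + (c : ℂ) • K.g i p =
      ((Jm A i j p).map conj)ᴴ *
      (hess (fun z => h.wt j z + F ((A.e j).symm z)) (A.e j p) + (c : ℂ) • K.g j p) *
        (Jm A i j p).map conj := by
    have h4 : ((Jm A i j p).map conj)ᴴ = (Jm A i j p)ᵀ := by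
      ext a b
      simp [Matrix.conjTranspose_apply]
    rw [h4, Matrix.mul_add, Matrix.add_mul, h1, K.tr i j p hp, Matrix.mul_smul,
      Matrix.smul_mul]
  rw [h3]
  exact hpos.conjTranspose_mul_mul_same _

/-- the Kaehler metric is continuous in the chart -/
theorem kah_cont (K : Kah A) (j : A.ι) (a b : Fin n) :
    ContinuousOn (fun z => K.g j ((A.e j).symm z) a b) (A.e j).target := (K.sm j a b).continuousOn

/-- lower bound on compact subsets of a chart -/
theorem exists_kah_lower (K : Kah A) (j : A.ι) {T : Set (Cn n)} (hT : IsCompact T)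
    (hTt : T ⊆ (A.e j).target) :
    ∃ c : ℝ, 0 < c ∧ ∀ z ∈ T, ∀ v : Cn n, c * ‖v‖ ^ 2 ≤ qf (K.g j ((A.e j).symm z)) (jc v) := by
  set S : Set (Cn n) := sphere 0 1 with hS
  have hSc : IsCompact S := isCompact_sphere 0 1
  have hcont : ContinuousOn (fun y : Cn n × Cn n => qf (K.g j ((A.e j).symm y.1)) (jc y.2))
      (T ×ˢ S) := by
    have h1 : (fun y : Cn n × Cn n => qf (K.g j ((A.e j).symm y.1)) (jc y.2)) =
        fun y => (∑ a, ∑ b, y.2 a * (K.g j ((A.e j).symm y.1) a b * conj (y.2 b))).re := by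
      funext y
      rw [qf_expand]
      simp [jc]
    rw [h1]
    refine Complex.continuous_re.comp_continuousOn ?_
    refine continuousOn_finsetSum _ fun a _ => continuousOn_finsetSum _ fun b _ => ?_
    have h2 : ContinuousOn (fun y : Cn n × Cn n => K.g j ((A.e j).symm y.1) a b) (T ×ˢ S) :=
      ((kah_cont K j a b).mono hTt).comp continuousOn_fst fun y hy => hy.1
    have h3 : ∀ a, ContinuousOn (fun y : Cn n × Cn n => y.2 a) (T ×ˢ S) := fun a => by
      fun_prop
    exact (h3 a).mul (h2.mul (Complex.continuous_conj.comp_continuousOn (h3 b)))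
  obtain ⟨c, hc1, hc2⟩ : ∃ c : ℝ, 0 < c ∧ ∀ y ∈ T ×ˢ S,
      c ≤ qf (K.g j ((A.e j).symm y.1)) (jc y.2) := by
    rcases (T ×ˢ S).eq_empty_or_nonempty with h | h
    · exact ⟨1, one_pos, fun y hy => by rw [h] at hy; exact hy.elim⟩
    · obtain ⟨y, hy, hmin⟩ := (hT.prod hSc).exists_isMinOn h hcont
      refine ⟨_, qf_pos (K.pos j _ ((A.e j).map_target (hTt hy.1))) ?_, fun z hz => hmin hz⟩
      intro h0
      have h1 := congrArg cj h0
      rw [cj_jc] at h1
      have h2 : y.2 = 0 := by rw [h1]; ext a; simp [cj]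
      have := hy.2
      rw [h2] at this
      simp [S] at this
  refine ⟨c, hc1, fun z hz v => ?_⟩
  rcases eq_or_ne v 0 with rfl | hv
  · have : jc (0 : Cn n) = 0 := by funext a; simp [jc]
    rw [this]
    simp [qf]
  · have hn : 0 < ‖v‖ := norm_pos_iff.2 hv
    have h1 := hc2 (z, ‖v‖⁻¹ • v) ⟨hz, by simp [S, norm_smul, hn.ne']⟩
    have h2 : jc (‖v‖⁻¹ • v) = ‖v‖⁻¹ • jc v := by
      funext a; simp [jc]
    simp only [h2, qf_smul_vec] at h1
    have h3 : ‖v‖ ^ 2 * (‖v‖⁻¹ ^ 2 * qf (K.g j ((A.e j).symm z)) (jc v)) =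
        qf (K.g j ((A.e j).symm z)) (jc v) := by field_simp
    have h4 := mul_le_mul_of_nonneg_left h1 (sq_nonneg ‖v‖)
    rw [h3] at h4
    linarith

end Crest.Agent.R281.Rich_710
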