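import Crest.Agent.R281.Rich3_710

/-!
# R281 (S0424), DIV 6, S6-RICH (helper710), file 4: Richberg's theorem on a compact manifold

* `Loc`       : the data of the gluing (local approximations `G j` in the charts);
* `rich_core` : `h · e^{-u}` with local weights having the sub-mean value property ⟹ smooth `v` close
  to `u` with curvature `≥ -δ K` everywhere and `≥ ∂∂̄ρ - δ K` on a compact set.
-/

set_option autoImplicit false
set_option linter.unusedSectionVars false

open Set Filter Topology Metric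
open scoped ContDiff Matrix ComplexConjugate ComplexOrder

noncomputable section

namespace Crest.Agent.R281.Rich_710

open Crest.Agent.R257.HoB_843 Crest.Agent.R257.Glue2_101 Crest.Agent.R257.Glue1_101
open Crest.Agent.R275.Geo Crest.Agent.R275.Core144 Crest.Agent.R275.EDR890
open Crest.Agent.R273.Defs_333 Crest.Agent.R273.Hess_333 Crest.Agent.R273.HessB_333
open Crest.Agent.R273.HM_333 Crest.Agent.R273.Kah_333 Crest.Agent.R273.SerD_945

variable {n : ℕ} {M : Type} [TopologicalSpace M] {A : Atl n M} {L : LB A}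

theorem cont_sm {f : M → ℝ} (hf : A.Sm f) : Continuous f := by
  rw [continuous_iff_continuousAt]
  intro x
  obtain ⟨i, hi⟩ := A.cover x
  have h1 : ContinuousAt (fun z => f ((A.e i).symm z)) (A.e i x) :=
    (sm_contDiffAt hf i ((A.e i).map_source hi)).continuousAt
  have h2 : ContinuousAt (fun y => f ((A.e i).symm (A.e i y))) x :=
    ContinuousAt.comp (g := fun z => f ((A.e i).symm z)) h1 ((A.e i).continuousAt hi)
  refine h2.congr ?_
  filter_upwards [(A.e i).open_source.mem_nhds hi] with y hy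
  rw [(A.e i).left_inv hy]

theorem ne_of_quarter {t : ℝ} (h : 1 / 4 < t) : t ≠ 0 := (lt_trans (by norm_num) h).ne'

/-- the local candidate `G j - wt j - κ (1 - χ j)` -/
def aj (P : Part A) (h : HM L) (κ : ℝ) (G : A.ι → Cn n → ℝ) (j : A.ι) (x : M) : ℝ :=
  G j (A.e j x) - h.wt j (A.e j x) - κ * (1 - P.χ j x)

theorem tsup_psi (P : Part A) {j : A.ι} {x : M} (hx : P.ψ j x ≠ 0) : ∀ᶠ y in 𝓝 x, P.χ j y = 1 :=
  P.χ_one j x (subset_tsupport _ hx)

theorem exists_psi (P : Part A) (x : M) : ∃ j, P.ψ j x ≠ 0 := by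
  by_contra h
  push Not at h
  have h1 := P.sum_one x
  simp only [h] at h1
  simp at h1

theorem mem_source (P : Part A) {j : A.ι} {x : M} (hx : x ∈ tsupport (P.χ j)) :
    x ∈ (A.e j).source := P.χ_sub j hx

theorem mem_tsup {P : Part A} {j : A.ι} {x : M} (hx : P.χ j x ≠ 0) : x ∈ tsupport (P.χ j) :=
  subset_tsupport _ hx

theorem aj_read (P : Part A) (h : HM L) (κ : ℝ) (G : A.ι → Cn n → ℝ) (j : A.ι) {z : Cn n}
    (hz : z ∈ (A.e j).target) : aj P h κ G j ((A.e j).symm z) =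
      G j z - h.wt j z - κ * (1 - P.χ j ((A.e j).symm z)) := by
  unfold aj
  rw [(A.e j).right_inv hz]

theorem aj_sm (P : Part A) (h : HM L) (κ : ℝ) {G : A.ι → Cn n → ℝ}
    (hG : ∀ j, ContDiff ℝ ∞ (G j)) (j : A.ι) {z : Cn n} (hz : z ∈ (A.e j).target) :
    ContDiffAt ℝ ∞ (fun z => aj P h κ G j ((A.e j).symm z)) z := by
  have h1 : ContDiffAt ℝ ∞ (fun z => G j z - h.wt j z - κ * (1 - P.χ j ((A.e j).symm z))) z :=
    (((hG j).contDiffAt).sub (wt_contDiffAt h j hz)).sub
      (contDiffAt_const.mul (contDiffAt_const.sub (sm_contDiffAt (P.χ_sm j) j hz)))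
  refine h1.congr_of_eventuallyEq ?_
  filter_upwards [(A.e j).open_target.mem_nhds hz] with w hw
  exact aj_read P h κ G j hw

/-- the germ of the weight of `h e^{-a_j}` in the chart `j` -/
theorem aj_germ (P : Part A) (h : HM L) (κ : ℝ) (G : A.ι → Cn n → ℝ) (j : A.ι) {z : Cn n}
    (hz : z ∈ (A.e j).target) :
    (fun z => h.wt j z + aj P h κ G j ((A.e j).symm z)) =ᶠ[𝓝 z]
      fun z => (G j z + κ * P.χ j ((A.e j).symm z)) + (-κ) := by
  filter_upwards [(A.e j).open_target.mem_nhds hz] with w hw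
  rw [aj_read P h κ G j hw]
  ring

theorem hess_const' (c : ℝ) (z : Cn n) : hess (fun _ : Cn n => c) z = 0 := by
  ext a b
  have h := hess_apply (fun _ : Cn n => c) z a b
  rw [h]
  have h4 : wd (true, b) (cu fun _ : Cn n => c) = fun _ => 0 := by
    funext w
    exact wd_const _ _ _
  rw [h4, wd_const]
  rfl

theorem hess_aj (P : Part A) (h : HM L) (κ : ℝ) {G : A.ι → Cn n → ℝ}
    (hG : ∀ j, ContDiff ℝ ∞ (G j)) (j : A.ι) {z : Cn n} (hz : z ∈ (A.e j).target) :
    hess (fun z => h.wt j z + aj P h κ G j ((A.e j).symm z)) z =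
      hess (G j) z + (κ : ℂ) • hess (fun z => P.χ j ((A.e j).symm z)) z := by
  rw [hess_congr (aj_germ P h κ G j hz)]
  have h1 : ContDiffAt ℝ ∞ (fun z => P.χ j ((A.e j).symm z)) z := sm_contDiffAt (P.χ_sm j) j hz
  have h2 : ContDiffAt ℝ ∞ (fun z => κ * P.χ j ((A.e j).symm z)) z := contDiffAt_const.mul h1
  rw [hess_add ((hG j).contDiffAt.add h2) contDiffAt_const, hess_const', add_zero,
    hess_add (hG j).contDiffAt h2, hess_const_mul κ h1]

/-! ### bounds -/

theorem smAt_cont {i : A.ι} {f : M → ℂ} (hf : A.SmAt i f) : ContinuousOn f (A.e i).source := by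
  have h1 := hf.continuousOn
  have h2 := h1.comp (A.e i).continuousOn fun x hx => (A.e i).map_source hx
  refine h2.congr fun x hx => ?_
  show f x = f ((A.e i).symm (A.e i x))
  rw [(A.e i).left_inv hx]

theorem hsf_smAt {f : M → ℝ} (hf : A.Sm f) (i : A.ι) (a b : Fin n) :
    A.SmAt i (fun x => hsf A f i x a b) := by
  refine (contDiffOn_hess (A.e i).open_target (hf i) a b).congr fun z hz => ?_
  simp only [hsf_read f i hz]

theorem exists_chi_bound [CompactSpace M] [Finite A.ι] (P : Part A) (K : Kah A) :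
    ∃ T : ℝ, 0 ≤ T ∧ ∀ j i, ∀ x ∈ (A.e i).source, ∀ t : ℝ, T ≤ t →
      (hsf A (P.χ j) i x + (t : ℂ) • K.g i x).PosSemidef := by
  classical
  have : Fintype A.ι := Fintype.ofFinite _
  have h1 : ∀ j, ∃ t0 : ℝ, ∀ t : ℝ, t0 ≤ t → ∀ i, ∀ x ∈ (A.e i).source,
      (hsf A (P.χ j) i x + (t : ℂ) • K.g i x).PosDef := fun j =>
    exists_pos_add K.g (hsf A (P.χ j)) (fun i a b => smAt_cont (K.sm i a b))
      (fun i a b => smAt_cont (hsf_smAt (P.χ_sm j) i a b)) K.pos
      (fun i x hx => hess_herm (sm_contDiffAt (P.χ_sm j) i ((A.e i).map_source hx))) K.tr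
      (fun i k x hx => hsf_tr (P.χ_sm j) hx)
  choose t0 ht0 using h1
  refine ⟨∑ j, |t0 j|, Finset.sum_nonneg fun _ _ => abs_nonneg _, fun j i x hx t ht => ?_⟩
  refine (ht0 j t (((le_abs_self _).trans ?_).trans ht) i x hx).posSemidef
  exact Finset.single_le_sum (f := fun j => |t0 j|) (fun _ _ => abs_nonneg _) (Finset.mem_univ j)

theorem exists_chi_abs [CompactSpace M] [Finite A.ι] (P : Part A) :
    ∃ B : ℝ, 0 ≤ B ∧ ∀ j x, |1 - P.χ j x| ≤ B := by
  classical
  have : Fintype A.ι := Fintype.ofFinite _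
  have h1 : ∀ j, ∃ b : ℝ, ∀ x, |1 - P.χ j x| ≤ b := by
    intro j
    obtain ⟨b, hb⟩ := isCompact_univ.exists_bound_of_continuousOn
      (f := fun x => 1 - P.χ j x) (continuous_const.sub (cont_sm (P.χ_sm j))).continuousOn
    exact ⟨b, fun x => by simpa using hb x (mem_univ x)⟩
  choose b hb using h1
  refine ⟨∑ j, |b j|, Finset.sum_nonneg fun _ _ => abs_nonneg _, fun j x => ?_⟩
  refine ((hb j x).trans (le_abs_self _)).trans ?_
  exact Finset.single_le_sum (f := fun j => |b j|) (fun _ _ => abs_nonneg _) (Finset.mem_univ j)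

/-! ### the gluing -/

section gluing

variable [Fintype A.ι]

/-- the domains of the gluing -/
def Oj (P : Part A) (j : A.ι) : Set M := {x | 1 / 4 < P.χ j x}

/-- the glued function -/
def vg (P : Part A) (h : HM L) (κ : ℝ) (G : A.ι → Cn n → ℝ) (x : M) : ℝ :=
  κ / (4 * thr A.ι) * gl (Oj P) (fun j x => aj P h κ G j x / (κ / (4 * thr A.ι))) x

variable {P : Part A} {h : HM L} {κ : ℝ} {G : A.ι → Cn n → ℝ} {u : M → ℝ}

theorem adm_of (hκ : 0 < κ) (hG : ∀ j, ContDiff ℝ ∞ (G j))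
    (hap : ∀ j, ∀ x ∈ tsupport (P.χ j), |aj P h κ G j x - (u x - κ * (1 - P.χ j x))| ≤ κ / 8)
    (i : A.ι) {z : Cn n} (hz : z ∈ (A.e i).target) :
    Adm (Oj P) (fun j x => aj P h κ G j x / (κ / (4 * thr A.ι))) (A.e i).symm z
      (fun j => 1 / 4 < P.χ j ((A.e i).symm z)) := by
  have ht : 0 < thr A.ι := thr_pos A.ι
  have hc : ContinuousAt (A.e i).symm z :=
    (A.e i).continuousOn_symm.continuousAt ((A.e i).open_target.mem_nhds hz)
  have hχ : ∀ j, ContinuousAt (fun w => P.χ j ((A.e i).symm w)) z := fun j =>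
    ContinuousAt.comp (f := (A.e i).symm) (cont_sm (P.χ_sm j)).continuousAt hc
  obtain ⟨j₀, hj₀⟩ := exists_psi P ((A.e i).symm z)
  have h0 := tsup_psi P hj₀
  have h0' : P.χ j₀ ((A.e i).symm z) = 1 := h0.self_of_nhds
  refine ⟨⟨j₀, by rw [h0']; norm_num⟩, fun j hj => ?_, fun j hj => ?_, fun j hj => ?_⟩
  · exact (hχ j).eventually (lt_mem_nhds hj)
  · have hs : (A.e i).symm z ∈ (A.e j).source := mem_source P (mem_tsup (ne_of_quarter hj))
    have h2 := sm_tr (F := aj P h κ G j) (i := i) (j := j) (p := (A.e i).symm z)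
      ⟨(A.e i).map_target hz, hs⟩ (aj_sm P h κ hG j ((A.e j).map_source hs))
    rw [(A.e i).right_inv hz] at h2
    exact h2.div_const _
  · have hj' : P.χ j ((A.e i).symm z) < 1 / 2 := by
      have := not_lt.1 hj
      linarith
    have h1 := (hχ j).eventually (gt_mem_nhds hj')
    have h2 := hc.eventually h0
    filter_upwards [h1, h2] with w hw1 hw2
    by_cases hO : (A.e i).symm w ∈ Oj P j
    · right
      refine ⟨j₀, by rw [h0']; norm_num, ?_⟩
      set y := (A.e i).symm w with hy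
      have hO' : 1 / 4 < P.χ j y := hO
      have a1 := (abs_le.1 (hap j y (mem_tsup (ne_of_quarter hO')))).2
      have a2 := (abs_le.1 (hap j₀ y (mem_tsup (by rw [hw2]; norm_num)))).1
      rw [hw2] at a2
      have a3 : aj P h κ G j y + κ / 4 ≤ aj P h κ G j₀ y := by
        have : κ * P.χ j y ≤ κ * (1 / 2) := mul_le_mul_of_nonneg_left hw1.le hκ.le
        linarith
      have a5 : 0 < κ / (4 * thr A.ι) := by positivity
      have a4 : thr A.ι * (κ / (4 * thr A.ι)) = κ / 4 := by field_simp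
      show aj P h κ G j y / (κ / (4 * thr A.ι)) + thr A.ι ≤ aj P h κ G j₀ y / (κ / (4 * thr A.ι))
      rw [le_div_iff₀ a5, add_mul, a4, div_mul_cancel₀ _ a5.ne']
      exact a3
    · exact Or.inl hO

theorem vg_sm (hκ : 0 < κ) (hG : ∀ j, ContDiff ℝ ∞ (G j))
    (hap : ∀ j, ∀ x ∈ tsupport (P.χ j), |aj P h κ G j x - (u x - κ * (1 - P.χ j x))| ≤ κ / 8) :
    A.Sm (vg P h κ G) := by
  intro i z hz
  have h1 := gl_smooth (adm_of hκ hG hap i hz)
  exact (contDiffAt_const.mul h1).contDiffWithinAt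

theorem vg_lev (hκ : 0 < κ) (hG : ∀ j, ContDiff ℝ ∞ (G j))
    (hap : ∀ j, ∀ x ∈ tsupport (P.χ j), |aj P h κ G j x - (u x - κ * (1 - P.χ j x))| ≤ κ / 8)
    (i : A.ι) {z : Cn n} (hz : z ∈ (A.e i).target) {s : ℝ} {v : Cn n}
    (hs : ∀ j, 1 / 4 < P.χ j ((A.e i).symm z) →
      s ≤ lvE (fun z => aj P h κ G j ((A.e i).symm z)) z v) :
    s ≤ lvE (fun z => vg P h κ G ((A.e i).symm z)) z v := by
  have ht : 0 < thr A.ι := thr_pos A.ι
  have hadm := adm_of hκ hG hap i hz
  set c : ℝ := κ / (4 * thr A.ι) with hc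
  have hc0 : 0 < c := by positivity
  have h1 := gl_lev hadm (w := v) (K := s / c) (fun j hj => by
    have hsr : (A.e i).symm z ∈ (A.e j).source := mem_source P (mem_tsup (ne_of_quarter hj))
    have h2 := sm_tr (F := aj P h κ G j) (i := i) (j := j) (p := (A.e i).symm z)
      ⟨(A.e i).map_target hz, hsr⟩ (aj_sm P h κ hG j ((A.e j).map_source hsr))
    rw [(A.e i).right_inv hz] at h2
    have e : ((fun x => aj P h κ G j x / c) ∘ (A.e i).symm) =
        fun z => c⁻¹ * aj P h κ G j ((A.e i).symm z) := by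
      funext w
      simp only [Function.comp_apply]
      rw [div_eq_inv_mul]
    rw [e, lvE_const_mul h2, div_eq_inv_mul]
    exact mul_le_mul_of_nonneg_left (hs j hj) (by positivity))
  have e : (fun z => vg P h κ G ((A.e i).symm z)) = fun z => c *
      (gl (Oj P) (fun j x => aj P h κ G j x / c) ∘ (A.e i).symm) z := rfl
  rw [e, lvE_const_mul (gl_smooth hadm)]
  rw [div_le_iff₀ hc0] at h1
  linarith

theorem vg_ge (hκ : 0 < κ)
    (hap : ∀ j, ∀ x ∈ tsupport (P.χ j), |aj P h κ G j x - (u x - κ * (1 - P.χ j x))| ≤ κ / 8)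
    (x : M) : u x - κ / 8 ≤ vg P h κ G x := by
  have ht : 0 < thr A.ι := thr_pos A.ι
  set c : ℝ := κ / (4 * thr A.ι) with hc
  have hc0 : 0 < c := by positivity
  obtain ⟨j₀, hj₀⟩ := exists_psi P x
  have h0 : P.χ j₀ x = 1 := (tsup_psi P hj₀).self_of_nhds
  have h1 := le_gl (Oj P) (fun j x => aj P h κ G j x / c) (x := x) (i := j₀)
    (show 1 / 4 < P.χ j₀ x by rw [h0]; norm_num)
  have h2 := (abs_le.1 (hap j₀ x (mem_tsup (by rw [h0]; norm_num)))).1
  rw [h0] at h2
  have h3 : aj P h κ G j₀ x ≤ vg P h κ G x := by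
    rw [div_le_iff₀ hc0] at h1
    have e : vg P h κ G x = c * gl (Oj P) (fun j x => aj P h κ G j x / c) x := rfl
    rw [e]
    linarith
  linarith

theorem vg_le (hκ : 0 < κ)
    (hap : ∀ j, ∀ x ∈ tsupport (P.χ j), |aj P h κ G j x - (u x - κ * (1 - P.χ j x))| ≤ κ / 8)
    {B : ℝ} (hB : ∀ j x, |1 - P.χ j x| ≤ B) (x : M) :
    vg P h κ G x ≤ u x + κ * (B + 3 / 8) := by
  have ht : 0 < thr A.ι := thr_pos A.ι
  set c : ℝ := κ / (4 * thr A.ι) with hc
  have hc0 : 0 < c := by positivity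
  obtain ⟨j₀, hj₀⟩ := exists_psi P x
  have h0 : P.χ j₀ x = 1 := (tsup_psi P hj₀).self_of_nhds
  obtain ⟨j, hj, h1⟩ := gl_le (Oj P) (fun j x => aj P h κ G j x / c) (x := x)
    ⟨j₀, (show 1 / 4 < P.χ j₀ x by rw [h0]; norm_num)⟩
  have hj' : 1 / 4 < P.χ j x := hj
  have h2 := (abs_le.1 (hap j x (mem_tsup (ne_of_quarter hj')))).2
  have h3 := (abs_le.1 (hB j x)).1
  have e : vg P h κ G x = c * gl (Oj P) (fun j x => aj P h κ G j x / c) x := rfl
  have h4 : c * gl (Oj P) (fun j x => aj P h κ G j x / c) x ≤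
      aj P h κ G j x + c * Fintype.card A.ι := by
    calc c * gl (Oj P) (fun j x => aj P h κ G j x / c) x
        ≤ c * (aj P h κ G j x / c + Fintype.card A.ι) := mul_le_mul_of_nonneg_left h1 hc0.le
      _ = _ := by field_simp
  have h5 : c * Fintype.card A.ι ≤ κ / 4 := by
    have h6 : (Fintype.card A.ι : ℝ) ≤ thr A.ι := by
      unfold thr; linarith [Nat.cast_nonneg (α := ℝ) (Fintype.card A.ι)]
    calc c * Fintype.card A.ι ≤ c * thr A.ι := mul_le_mul_of_nonneg_left h6 hc0.le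
      _ = κ / 4 := by rw [hc]; field_simp
  have h7 : κ * -B ≤ κ * (1 - P.χ j x) := mul_le_mul_of_nonneg_left h3 hκ.le
  rw [e]
  linarith

end gluing

/-! ### Richberg's theorem -/

/-- **Richberg's theorem**, sub-mean value form -/
theorem rich_core [CompactSpace M] [T2Space M] [Finite A.ι] (P : Part A) (K : Kah A) (h : HM L)
    {u : M → ℝ} (hu : Continuous u)
    (hpsh : ∀ i, PshL (A.e i).target (fun z => h.wt i z + u ((A.e i).symm z)))
    {U C : Set M} (hU : IsOpen U) (hC : IsCompact C) (hCU : C ⊆ U) {ρ : M → ℝ}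
    (hρ : ∀ i, ∀ x ∈ (A.e i).source, x ∈ U →
      ContDiffAt ℝ ∞ (fun z => ρ ((A.e i).symm z)) (A.e i x))
    (hpU : ∀ i, PshL ((A.e i).target ∩ (A.e i).symm ⁻¹' U)
      (fun z => h.wt i z + u ((A.e i).symm z) - ρ ((A.e i).symm z)))
    {δ : ℝ} (hδ : 0 < δ) :
    ∃ (v : M → ℝ) (hv : A.Sm v), (∀ x, |v x - u x| ≤ δ) ∧
      (∀ i, ∀ x ∈ (A.e i).source, (cur (tw h v hv) i x + (δ : ℂ) • K.g i x).PosSemidef) ∧
      ∀ i, ∀ x ∈ (A.e i).source, x ∈ C →
        (cur (tw h v hv) i x - hsf A ρ i x + (δ : ℂ) • K.g i x).PosSemidef := by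
  classical
  have : Fintype A.ι := Fintype.ofFinite _
  obtain ⟨T, hT0, hT⟩ := exists_chi_bound P K
  obtain ⟨B, hB0, hB⟩ := exists_chi_abs P
  obtain ⟨κ, hκ, hκT, hκB⟩ : ∃ κ : ℝ, 0 < κ ∧ κ * T ≤ δ / 2 ∧ κ * (B + 1) ≤ δ := by
    refine ⟨min (δ / (2 * (T + 1))) (δ / (B + 1)), by positivity, ?_, ?_⟩
    · calc min (δ / (2 * (T + 1))) (δ / (B + 1)) * T ≤ (δ / (2 * (T + 1))) * (T + 1) := by
            gcongr
            · exact min_le_left _ _
            · linarith
        _ = δ / 2 := by field_simp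
    · calc min (δ / (2 * (T + 1))) (δ / (B + 1)) * (B + 1) ≤ (δ / (B + 1)) * (B + 1) := by
            gcongr
            exact min_le_right _ _
        _ = δ := by field_simp
  -- compact pieces
  have hKc : ∀ j, IsCompact (A.e j '' tsupport (P.χ j)) := fun j =>
    (P.χ_cpt j).image_of_continuousOn ((A.e j).continuousOn.mono (P.χ_sub j))
  have hKt : ∀ j, A.e j '' tsupport (P.χ j) ⊆ (A.e j).target := by
    rintro j _ ⟨x, hx, rfl⟩
    exact (A.e j).map_source (P.χ_sub j hx)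
  have hCc : ∀ j, IsCompact (A.e j '' (tsupport (P.χ j) ∩ C)) := fun j =>
    ((P.χ_cpt j).inter_right hC.isClosed).image_of_continuousOn
      ((A.e j).continuousOn.mono (inter_subset_left.trans (P.χ_sub j)))
  -- lower bounds
  have hlow : ∀ j, ∃ c : ℝ, 0 < c ∧ ∀ z ∈ A.e j '' tsupport (P.χ j), ∀ v : Cn n,
      c * ‖v‖ ^ 2 ≤ qf (K.g j ((A.e j).symm z)) (jc v) := fun j =>
    exists_kah_lower K j (hKc j) (hKt j)
  choose c hc0 hcl using hlow
  -- local approximations
  have hmoll : ∀ j, ∃ g : Cn n → ℝ, ContDiff ℝ (⊤ : ℕ∞) g ∧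
      (∀ x ∈ A.e j '' tsupport (P.χ j),
        |g x - (h.wt j x + u ((A.e j).symm x))| ≤ min (κ / 8) (δ / 2 * c j)) ∧
      (∀ x ∈ A.e j '' tsupport (P.χ j), ∀ v, 0 ≤ lvE g x v) ∧
      ∀ x ∈ A.e j '' (tsupport (P.χ j) ∩ C), ∀ v,
        lvE (fun z => ρ ((A.e j).symm z)) x v - min (κ / 8) (δ / 2 * c j) * ‖v‖ ^ 2 ≤
          lvE g x v := by
    intro j
    refine exists_moll (A.e j).open_target (f := fun z => h.wt j z + u ((A.e j).symm z)) ?_
      (hpsh j) (hKc j) (hKt j) ((A.e j).isOpen_inter_preimage_symm hU) inter_subset_left ?_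
      (hpU j) (hCc j) ?_ (by have := hc0 j; positivity)
    · exact (wt_smooth h j).continuousOn.add (hu.comp_continuousOn (A.e j).continuousOn_symm)
    · rintro z ⟨hz, hzU⟩
      have := hρ j ((A.e j).symm z) ((A.e j).map_target hz) hzU
      rw [(A.e j).right_inv hz] at this
      exact this.of_le two_le_top
    · rintro _ ⟨x, ⟨hx, hxC⟩, rfl⟩
      refine ⟨(A.e j).map_source (P.χ_sub j hx), ?_⟩
      rw [mem_preimage, (A.e j).left_inv (P.χ_sub j hx)]
      exact hCU hxC
  choose G hG hGa hGp hGρ using hmoll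
  have hap : ∀ j, ∀ x ∈ tsupport (P.χ j),
      |aj P h κ G j x - (u x - κ * (1 - P.χ j x))| ≤ κ / 8 := by
    intro j x hx
    have h1 := (hGa j _ (mem_image_of_mem _ hx)).trans (min_le_left _ _)
    rw [(A.e j).left_inv (P.χ_sub j hx)] at h1
    have e : aj P h κ G j x - (u x - κ * (1 - P.χ j x)) =
        G j (A.e j x) - (h.wt j (A.e j x) + u x) := by unfold aj; ring
    rw [e]
    exact h1
  -- positivity of the pieces in their own chart
  have hP1 : ∀ j, ∀ x ∈ tsupport (P.χ j),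
      (hess (fun z => h.wt j z + aj P h κ G j ((A.e j).symm z)) (A.e j x) +
        (δ : ℂ) • K.g j x).PosSemidef := by
    intro j x hx
    have hxs := P.χ_sub j hx
    have hxt := (A.e j).map_source hxs
    rw [hess_aj P h κ hG j hxt]
    have h1 : (hess (G j) (A.e j x)).PosSemidef := psd_of_qf (hess_herm (hG j).contDiffAt) fun ξ => by
      rw [qf_hess (hG j).contDiffAt]
      exact hGp j _ (mem_image_of_mem _ hx) _
    have h2 := hT j j x hxs (δ / κ) (by
      rw [le_div_iff₀ hκ]; linarith)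
    have h3 : ((κ : ℂ) • (hsf A (P.χ j) j x + ((δ / κ : ℝ) : ℂ) • K.g j x)).PosSemidef :=
      h2.smul (by exact_mod_cast hκ.le)
    have e : hess (G j) (A.e j x) + (κ : ℂ) • hess (fun z => P.χ j ((A.e j).symm z)) (A.e j x) +
        (δ : ℂ) • K.g j x = hess (G j) (A.e j x) +
        (κ : ℂ) • (hsf A (P.χ j) j x + ((δ / κ : ℝ) : ℂ) • K.g j x) := by
      have hκ' : (κ : ℂ) ≠ 0 := by exact_mod_cast hκ.ne'
      rw [smul_add, smul_smul, add_assoc]
      congr 2
      push_cast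
      rw [mul_div_cancel₀ _ hκ']
    rw [e]
    exact h1.add h3
  have hρj : ∀ j, ∀ x ∈ (A.e j).source, x ∈ C →
      ContDiffAt ℝ ∞ (fun z => ρ ((A.e j).symm z)) (A.e j x) := fun j x hx hxC =>
    hρ j x hx (hCU hxC)
  have hP2 : ∀ j, ∀ x ∈ tsupport (P.χ j), x ∈ C →
      (hess (fun z => h.wt j z + (aj P h κ G j ((A.e j).symm z) - ρ ((A.e j).symm z))) (A.e j x) +
        (δ : ℂ) • K.g j x).PosSemidef := by
    intro j x hx hxC
    have hxs := P.χ_sub j hx
    have hxt := (A.e j).map_source hxs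
    have hs1 : ContDiffAt ℝ ∞ (fun z => h.wt j z + aj P h κ G j ((A.e j).symm z)) (A.e j x) :=
      (wt_contDiffAt h j hxt).add (aj_sm P h κ hG j hxt)
    have hs2 := hρj j x hxs hxC
    have e0 : (fun z => h.wt j z + (aj P h κ G j ((A.e j).symm z) - ρ ((A.e j).symm z))) =
        fun z => (h.wt j z + aj P h κ G j ((A.e j).symm z)) - ρ ((A.e j).symm z) := by
      funext z; ring
    rw [e0, hess_sub hs1 hs2, hess_aj P h κ hG j hxt]
    have hs3 : ContDiffAt ℝ ∞ (fun z => P.χ j ((A.e j).symm z)) (A.e j x) :=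
      sm_contDiffAt (P.χ_sm j) j hxt
    refine psd_of_qf ?_ fun ξ => ?_
    · exact (((hess_herm (hG j).contDiffAt).add (herm_smul (hess_herm hs3) κ)).sub
        (hess_herm hs2)).add (herm_smul (K.pos j x hxs).1 δ)
    · rw [qf_add, qf_sub, qf_add, qf_smul, qf_smul, qf_hess (hG j).contDiffAt, qf_hess hs2]
      have h1 := hGρ j _ (mem_image_of_mem _ ⟨hx, hxC⟩) (cj ξ)
      have h2 := hcl j _ (mem_image_of_mem _ hx) (cj ξ)
      rw [jc_cj, (A.e j).left_inv hxs] at h2
      have h3 := hT j j x hxs (δ / 2 / κ) (by rw [le_div_iff₀ hκ]; linarith)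
      have h4 := qf_nonneg h3 ξ
      rw [qf_add, qf_smul] at h4
      have h5 : κ * (δ / 2 / κ) = δ / 2 := by field_simp
      have h6 : 0 ≤ κ * qf (hsf A (P.χ j) j x) ξ + δ / 2 * qf (K.g j x) ξ := by
        have := mul_nonneg hκ.le h4
        rw [mul_add, ← mul_assoc, h5] at this
        exact this
      have h7 : min (κ / 8) (δ / 2 * c j) * ‖cj ξ‖ ^ 2 ≤ δ / 2 * c j * ‖cj ξ‖ ^ 2 :=
        mul_le_mul_of_nonneg_right (min_le_right _ _) (sq_nonneg _)
      have h8 : δ / 2 * (c j * ‖cj ξ‖ ^ 2) ≤ δ / 2 * qf (K.g j x) ξ :=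
        mul_le_mul_of_nonneg_left h2 (by positivity)
      have h9 : qf (hess (fun z => P.χ j ((A.e j).symm z)) (A.e j x)) ξ =
          qf (hsf A (P.χ j) j x) ξ := rfl
      rw [h9]
      linarith
  -- the glued function
  have hv : A.Sm (vg P h κ G) := vg_sm hκ hG hap
  refine ⟨vg P h κ G, hv, fun x => ?_, fun i x hx => ?_, fun i x hx hxC => ?_⟩
  · rw [abs_le]
    have h1 := vg_ge hκ hap x
    have h2 := vg_le hκ hap hB x
    have h3 : κ * (B + 1) = κ * (B + 3 / 8) + κ * (5 / 8) := by ring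
    have h4 : κ ≤ κ * (B + 1) := by nlinarith
    constructor
    · linarith
    · linarith
  · have hz := (A.e i).map_source hx
    have hvz := sm_contDiffAt hv i hz
    rw [cur_tw h hv i hx]
    refine psd_of_qf (((cur_herm h i hx).add (hess_herm hvz)).add
      (herm_smul (K.pos i x hx).1 δ)) fun ξ => ?_
    rw [qf_add, qf_add, qf_smul]
    have e1 : qf (cur h i x) ξ = lvE (h.wt i) (A.e i x) (cj ξ) := qf_hess (wt_contDiffAt h i hz) ξ
    have e2 : qf (hsf A (vg P h κ G) i x) ξ =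
        lvE (fun z => vg P h κ G ((A.e i).symm z)) (A.e i x) (cj ξ) := qf_hess hvz ξ
    have h1 := vg_lev hκ hG hap i hz (v := cj ξ)
      (s := -(lvE (h.wt i) (A.e i x) (cj ξ) + δ * qf (K.g i x) ξ)) (fun j hj => by
        rw [(A.e i).left_inv hx] at hj
        have hxj := mem_tsup (ne_of_quarter hj)
        have hp : x ∈ (A.e i).source ∩ (A.e j).source := ⟨hx, P.χ_sub j hxj⟩
        have hsm := aj_sm P h κ hG j ((A.e j).map_source hp.2)
        have h2 := psd_tr K h hp hsm δ (hP1 j x hxj)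
        have h3 := qf_nonneg h2 ξ
        have hsm' := sm_tr (F := aj P h κ G j) hp hsm
        rw [qf_add, qf_smul, qf_hess ((wt_contDiffAt h i hz).add hsm'),
          lvE_add (wt_contDiffAt h i hz) hsm'] at h3
        linarith)
    rw [e1, e2]
    linarith
  · have hz := (A.e i).map_source hx
    have hvz := sm_contDiffAt hv i hz
    have hρz := hρj i x hx hxC
    rw [cur_tw h hv i hx]
    refine psd_of_qf ((((cur_herm h i hx).add (hess_herm hvz)).sub (hess_herm hρz)).add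
      (herm_smul (K.pos i x hx).1 δ)) fun ξ => ?_
    rw [qf_add, qf_sub, qf_add, qf_smul]
    have e1 : qf (cur h i x) ξ = lvE (h.wt i) (A.e i x) (cj ξ) := qf_hess (wt_contDiffAt h i hz) ξ
    have e2 : qf (hsf A (vg P h κ G) i x) ξ =
        lvE (fun z => vg P h κ G ((A.e i).symm z)) (A.e i x) (cj ξ) := qf_hess hvz ξ
    have e3 : qf (hsf A ρ i x) ξ =
        lvE (fun z => ρ ((A.e i).symm z)) (A.e i x) (cj ξ) := qf_hess hρz ξ
    have h1 := vg_lev hκ hG hap i hz (v := cj ξ)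
      (s := lvE (fun z => ρ ((A.e i).symm z)) (A.e i x) (cj ξ) -
        (lvE (h.wt i) (A.e i x) (cj ξ) + δ * qf (K.g i x) ξ)) (fun j hj => by
        rw [(A.e i).left_inv hx] at hj
        have hxj := mem_tsup (ne_of_quarter hj)
        have hp : x ∈ (A.e i).source ∩ (A.e j).source := ⟨hx, P.χ_sub j hxj⟩
        have hsm := aj_sm P h κ hG j ((A.e j).map_source hp.2)
        have hρsm := hρj j x hp.2 hxC
        have h2 := psd_tr K h (F := fun y => aj P h κ G j y - ρ y) hp (hsm.sub hρsm) δ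
          (hP2 j x hxj hxC)
        have h3 := qf_nonneg h2 ξ
        have hsm' := sm_tr (F := aj P h κ G j) hp hsm
        rw [qf_add, qf_smul, qf_hess ((wt_contDiffAt h i hz).add (hsm'.sub hρz)),
          lvE_add (wt_contDiffAt h i hz) (hsm'.sub hρz)] at h3
        have e4 : lvE (fun z => aj P h κ G j ((A.e i).symm z) - ρ ((A.e i).symm z)) (A.e i x)
            (cj ξ) = lvE (fun z => aj P h κ G j ((A.e i).symm z)) (A.e i x) (cj ξ) -
              lvE (fun z => ρ ((A.e i).symm z)) (A.e i x) (cj ξ) := by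
          have e5 : (fun z => aj P h κ G j ((A.e i).symm z) - ρ ((A.e i).symm z)) =
              fun z => aj P h κ G j ((A.e i).symm z) + (-ρ ((A.e i).symm z)) := by
            funext z; ring
          rw [e5, lvE_add hsm' hρz.neg, lvE_neg']
          ring
        have h4 : 0 ≤ lvE (h.wt i) (A.e i x) (cj ξ) +
            lvE (fun z => aj P h κ G j ((A.e i).symm z) - ρ ((A.e i).symm z)) (A.e i x) (cj ξ) +
              δ * qf (K.g i x) ξ := h3
        rw [e4] at h4
        linarith)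
    rw [e1, e2, e3]
    linarith

end Crest.Agent.R281.Rich_710
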