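import Crest.Agent.R281.Rich4_710

/-!
# R281 (S0424), DIV 6, S6-RICH (helper710), file 5: gluing local approximations of a bounded potential

* `glue_core` : the gluing step of `rich_core` (no continuity);
* `rich_glue` : local smooth psh functions `G j` with `G j - wt j` close to each other on overlaps
  and bounded by `B + τ`, for every `τ > 0` ⟹ the conclusion of `D6_986.RichStmt`.
-/

set_option autoImplicit false
set_option linter.unusedSectionVars false

open Set Filter Topology Metric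
open scoped ContDiff Matrix ComplexConjugate ComplexOrder

noncomputable section

namespace Crest.Agent.R281.Rich_710

open Crest.Agent.R257.HoB_843 Crest.Agent.R257.Glue2_101 Crest.Agent.R257.Glue1_101
open Crest.Agent.R275.Geo Crest.Agent.R275.Core144 Crest.Agent.R275.EDR890
open Crest.Agent.R273.Defs_333 Crest.Agent.R273.Hess_333 Crest.Agent.R273.HessB_333
open Crest.Agent.R273.HM_333 Crest.Agent.R273.Kah_333 Crest.Agent.R273.SerD_945

variable {n : ℕ} {M : Type} [TopologicalSpace M] {A : Atl n M} {L : LB A}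

/-- the gluing step -/
theorem glue_core [Fintype A.ι] (P : Part A) (K : Kah A) (h : HM L)
    {u : M → ℝ} {C : Set M} {ρ : M → ℝ}
    (hρj : ∀ j, ∀ x ∈ (A.e j).source, x ∈ C →
      ContDiffAt ℝ ∞ (fun z => ρ ((A.e j).symm z)) (A.e j x))
    {δ T B κ : ℝ} (hδ : 0 < δ) (hκ : 0 < κ)
    (hT : ∀ j i, ∀ x ∈ (A.e i).source, ∀ t : ℝ, T ≤ t →
      (hsf A (P.χ j) i x + (t : ℂ) • K.g i x).PosSemidef)
    (hB : ∀ j x, |1 - P.χ j x| ≤ B) (hκT : κ * T ≤ δ / 2)
    {c : A.ι → ℝ}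
    (hcl : ∀ j, ∀ z ∈ A.e j '' tsupport (P.χ j), ∀ v : Cn n,
      c j * ‖v‖ ^ 2 ≤ qf (K.g j ((A.e j).symm z)) (jc v))
    {G : A.ι → Cn n → ℝ} (hG : ∀ j, ContDiff ℝ ∞ (G j))
    (hap : ∀ j, ∀ x ∈ tsupport (P.χ j), |aj P h κ G j x - (u x - κ * (1 - P.χ j x))| ≤ κ / 8)
    (hGp : ∀ j, ∀ x ∈ A.e j '' tsupport (P.χ j), ∀ v, 0 ≤ lvE (G j) x v)
    (hGρ : ∀ j, ∀ x ∈ A.e j '' (tsupport (P.χ j) ∩ C), ∀ v,
        lvE (fun z => ρ ((A.e j).symm z)) x v - min (κ / 8) (δ / 2 * c j) * ‖v‖ ^ 2 ≤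
          lvE (G j) x v) :
    ∃ (v : M → ℝ) (hv : A.Sm v), (∀ x, u x - κ / 8 ≤ v x ∧ v x ≤ u x + κ * (B + 3 / 8)) ∧
      (∀ i, ∀ x ∈ (A.e i).source, (cur (tw h v hv) i x + (δ : ℂ) • K.g i x).PosSemidef) ∧
      ∀ i, ∀ x ∈ (A.e i).source, x ∈ C →
        (cur (tw h v hv) i x - hsf A ρ i x + (δ : ℂ) • K.g i x).PosSemidef := by
  -- positivity of the pieces in their own chart
  have hP1 : ∀ j, ∀ x ∈ tsupport (P.χ j),
      (hess (fun z => h.wt j z + aj P h κ G j ((A.e j).symm z)) (A.e j x) +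
        (δ : ℂ) • K.g j x).PosSemidef := by
    intro j x hx
    have hxs := P.χ_sub j hx
    have hxt := (A.e j).map_source hxs
    rw [hess_aj P h κ hG j hxt]
    have h1 : (hess (G j) (A.e j x)).PosSemidef := psd_of_qf (hess_herm (hG j).contDiffAt) fun ξ => by
      rw [qf_hess (hG j).contDiffAt]
      exact hGp j _ (mem_image_of_mem _ hx) _
    have h2 := hT j j x hxs (δ / κ) (by
      rw [le_div_iff₀ hκ]; linarith)
    have h3 : ((κ : ℂ) • (hsf A (P.χ j) j x + ((δ / κ : ℝ) : ℂ) • K.g j x)).PosSemidef :=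
      h2.smul (by exact_mod_cast hκ.le)
    have e : hess (G j) (A.e j x) + (κ : ℂ) • hess (fun z => P.χ j ((A.e j).symm z)) (A.e j x) +
        (δ : ℂ) • K.g j x = hess (G j) (A.e j x) +
        (κ : ℂ) • (hsf A (P.χ j) j x + ((δ / κ : ℝ) : ℂ) • K.g j x) := by
      have hκ' : (κ : ℂ) ≠ 0 := by exact_mod_cast hκ.ne'
      rw [smul_add, smul_smul, add_assoc]
      congr 2
      push_cast
      rw [mul_div_cancel₀ _ hκ']
    rw [e]
    exact h1.add h3
  have hP2 : ∀ j, ∀ x ∈ tsupport (P.χ j), x ∈ C →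
      (hess (fun z => h.wt j z + (aj P h κ G j ((A.e j).symm z) - ρ ((A.e j).symm z))) (A.e j x) +
        (δ : ℂ) • K.g j x).PosSemidef := by
    intro j x hx hxC
    have hxs := P.χ_sub j hx
    have hxt := (A.e j).map_source hxs
    have hs1 : ContDiffAt ℝ ∞ (fun z => h.wt j z + aj P h κ G j ((A.e j).symm z)) (A.e j x) :=
      (wt_contDiffAt h j hxt).add (aj_sm P h κ hG j hxt)
    have hs2 := hρj j x hxs hxC
    have e0 : (fun z => h.wt j z + (aj P h κ G j ((A.e j).symm z) - ρ ((A.e j).symm z))) =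
        fun z => (h.wt j z + aj P h κ G j ((A.e j).symm z)) - ρ ((A.e j).symm z) := by
      funext z; ring
    rw [e0, hess_sub hs1 hs2, hess_aj P h κ hG j hxt]
    have hs3 : ContDiffAt ℝ ∞ (fun z => P.χ j ((A.e j).symm z)) (A.e j x) :=
      sm_contDiffAt (P.χ_sm j) j hxt
    refine psd_of_qf ?_ fun ξ => ?_
    · exact (((hess_herm (hG j).contDiffAt).add (herm_smul (hess_herm hs3) κ)).sub
        (hess_herm hs2)).add (herm_smul (K.pos j x hxs).1 δ)
    · rw [qf_add, qf_sub, qf_add, qf_smul, qf_smul, qf_hess (hG j).contDiffAt, qf_hess hs2]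
      have h1 := hGρ j _ (mem_image_of_mem _ ⟨hx, hxC⟩) (cj ξ)
      have h2 := hcl j _ (mem_image_of_mem _ hx) (cj ξ)
      rw [jc_cj, (A.e j).left_inv hxs] at h2
      have h3 := hT j j x hxs (δ / 2 / κ) (by rw [le_div_iff₀ hκ]; linarith)
      have h4 := qf_nonneg h3 ξ
      rw [qf_add, qf_smul] at h4
      have h5 : κ * (δ / 2 / κ) = δ / 2 := by field_simp
      have h6 : 0 ≤ κ * qf (hsf A (P.χ j) j x) ξ + δ / 2 * qf (K.g j x) ξ := by
        have := mul_nonneg hκ.le h4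
        rw [mul_add, ← mul_assoc, h5] at this
        exact this
      have h7 : min (κ / 8) (δ / 2 * c j) * ‖cj ξ‖ ^ 2 ≤ δ / 2 * c j * ‖cj ξ‖ ^ 2 :=
        mul_le_mul_of_nonneg_right (min_le_right _ _) (sq_nonneg _)
      have h8 : δ / 2 * (c j * ‖cj ξ‖ ^ 2) ≤ δ / 2 * qf (K.g j x) ξ :=
        mul_le_mul_of_nonneg_left h2 (by positivity)
      have h9 : qf (hess (fun z => P.χ j ((A.e j).symm z)) (A.e j x)) ξ =
          qf (hsf A (P.χ j) j x) ξ := rfl
      rw [h9]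
      linarith
  -- the glued function
  have hv : A.Sm (vg P h κ G) := vg_sm hκ hG hap
  refine ⟨vg P h κ G, hv, fun x => ?_, fun i x hx => ?_, fun i x hx hxC => ?_⟩
  · exact ⟨vg_ge hκ hap x, vg_le hκ hap hB x⟩
  · have hz := (A.e i).map_source hx
    have hvz := sm_contDiffAt hv i hz
    rw [cur_tw h hv i hx]
    refine psd_of_qf (((cur_herm h i hx).add (hess_herm hvz)).add
      (herm_smul (K.pos i x hx).1 δ)) fun ξ => ?_
    rw [qf_add, qf_add, qf_smul]
    have e1 : qf (cur h i x) ξ = lvE (h.wt i) (A.e i x) (cj ξ) := qf_hess (wt_contDiffAt h i hz) ξ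
    have e2 : qf (hsf A (vg P h κ G) i x) ξ =
        lvE (fun z => vg P h κ G ((A.e i).symm z)) (A.e i x) (cj ξ) := qf_hess hvz ξ
    have h1 := vg_lev hκ hG hap i hz (v := cj ξ)
      (s := -(lvE (h.wt i) (A.e i x) (cj ξ) + δ * qf (K.g i x) ξ)) (fun j hj => by
        rw [(A.e i).left_inv hx] at hj
        have hxj := mem_tsup (ne_of_quarter hj)
        have hp : x ∈ (A.e i).source ∩ (A.e j).source := ⟨hx, P.χ_sub j hxj⟩
        have hsm := aj_sm P h κ hG j ((A.e j).map_source hp.2)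
        have h2 := psd_tr K h hp hsm δ (hP1 j x hxj)
        have h3 := qf_nonneg h2 ξ
        have hsm' := sm_tr (F := aj P h κ G j) hp hsm
        rw [qf_add, qf_smul, qf_hess ((wt_contDiffAt h i hz).add hsm'),
          lvE_add (wt_contDiffAt h i hz) hsm'] at h3
        linarith)
    rw [e1, e2]
    linarith
  · have hz := (A.e i).map_source hx
    have hvz := sm_contDiffAt hv i hz
    have hρz := hρj i x hx hxC
    rw [cur_tw h hv i hx]
    refine psd_of_qf ((((cur_herm h i hx).add (hess_herm hvz)).sub (hess_herm hρz)).add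
      (herm_smul (K.pos i x hx).1 δ)) fun ξ => ?_
    rw [qf_add, qf_sub, qf_add, qf_smul]
    have e1 : qf (cur h i x) ξ = lvE (h.wt i) (A.e i x) (cj ξ) := qf_hess (wt_contDiffAt h i hz) ξ
    have e2 : qf (hsf A (vg P h κ G) i x) ξ =
        lvE (fun z => vg P h κ G ((A.e i).symm z)) (A.e i x) (cj ξ) := qf_hess hvz ξ
    have e3 : qf (hsf A ρ i x) ξ =
        lvE (fun z => ρ ((A.e i).symm z)) (A.e i x) (cj ξ) := qf_hess hρz ξ
    have h1 := vg_lev hκ hG hap i hz (v := cj ξ)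
      (s := lvE (fun z => ρ ((A.e i).symm z)) (A.e i x) (cj ξ) -
        (lvE (h.wt i) (A.e i x) (cj ξ) + δ * qf (K.g i x) ξ)) (fun j hj => by
        rw [(A.e i).left_inv hx] at hj
        have hxj := mem_tsup (ne_of_quarter hj)
        have hp : x ∈ (A.e i).source ∩ (A.e j).source := ⟨hx, P.χ_sub j hxj⟩
        have hsm := aj_sm P h κ hG j ((A.e j).map_source hp.2)
        have hρsm := hρj j x hp.2 hxC
        have h2 := psd_tr K h (F := fun y => aj P h κ G j y - ρ y) hp (hsm.sub hρsm) δ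
          (hP2 j x hxj hxC)
        have h3 := qf_nonneg h2 ξ
        have hsm' := sm_tr (F := aj P h κ G j) hp hsm
        rw [qf_add, qf_smul, qf_hess ((wt_contDiffAt h i hz).add (hsm'.sub hρz)),
          lvE_add (wt_contDiffAt h i hz) (hsm'.sub hρz)] at h3
        have e4 : lvE (fun z => aj P h κ G j ((A.e i).symm z) - ρ ((A.e i).symm z)) (A.e i x)
            (cj ξ) = lvE (fun z => aj P h κ G j ((A.e i).symm z)) (A.e i x) (cj ξ) -
              lvE (fun z => ρ ((A.e i).symm z)) (A.e i x) (cj ξ) := by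
          have e5 : (fun z => aj P h κ G j ((A.e i).symm z) - ρ ((A.e i).symm z)) =
              fun z => aj P h κ G j ((A.e i).symm z) + (-ρ ((A.e i).symm z)) := by
            funext z; ring
          rw [e5, lvE_add hsm' hρz.neg, lvE_neg']
          ring
        have h4 : 0 ≤ lvE (h.wt i) (A.e i x) (cj ξ) +
            lvE (fun z => aj P h κ G j ((A.e i).symm z) - ρ ((A.e i).symm z)) (A.e i x) (cj ξ) +
              δ * qf (K.g i x) ξ := h3
        rw [e4] at h4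
        linarith)
    rw [e1, e2, e3]
    linarith

/-- a positive number below finitely many positive numbers -/
theorem exists_pos_le {κ : Type*} [Finite κ] {c : κ → ℝ} (h : ∀ k, 0 < c k) :
    ∃ e > 0, ∀ k, e ≤ c k := by
  have h1 : ∀ᶠ t in 𝓝[>] (0 : ℝ), ∀ k, t ≤ c k := by
    rw [Filter.eventually_all]
    intro k
    exact nhdsWithin_le_nhds ((gt_mem_nhds (h k)).mono fun t ht => ht.le)
  obtain ⟨t, h2, h3⟩ := (h1.and self_mem_nhdsWithin).exists
  exact ⟨t, h3, h2⟩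

/-- **gluing of local approximations of a bounded potential** -/
theorem rich_glue [CompactSpace M] [Finite A.ι] (P : Part A) (K : Kah A) (h : HM L)
    {C : Set M} {ρ : M → ℝ}
    (hρj : ∀ j, ∀ x ∈ (A.e j).source, x ∈ C →
      ContDiffAt ℝ ∞ (fun z => ρ ((A.e j).symm z)) (A.e j x))
    {δ : ℝ} (hδ : 0 < δ) {B : ℝ}
    (hloc : ∀ τ : ℝ, 0 < τ → ∃ G : A.ι → Cn n → ℝ, (∀ j, ContDiff ℝ ∞ (G j)) ∧
      (∀ j k, ∀ x ∈ tsupport (P.χ j), x ∈ tsupport (P.χ k) →
        |(G j (A.e j x) - h.wt j (A.e j x)) - (G k (A.e k x) - h.wt k (A.e k x))| ≤ τ) ∧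
      (∀ j, ∀ x ∈ tsupport (P.χ j), |G j (A.e j x) - h.wt j (A.e j x)| ≤ B + τ) ∧
      (∀ j, ∀ x ∈ A.e j '' tsupport (P.χ j), ∀ v, 0 ≤ lvE (G j) x v) ∧
      ∀ j, ∀ x ∈ A.e j '' (tsupport (P.χ j) ∩ C), ∀ v,
        lvE (fun z => ρ ((A.e j).symm z)) x v - τ * ‖v‖ ^ 2 ≤ lvE (G j) x v) :
    ∃ (v : M → ℝ) (hv : A.Sm v), (∀ x, |v x| ≤ B + 1) ∧
      (∀ i, ∀ x ∈ (A.e i).source, (cur (tw h v hv) i x + (δ : ℂ) • K.g i x).PosSemidef) ∧
      ∀ i, ∀ x ∈ (A.e i).source, x ∈ C →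
        (cur (tw h v hv) i x - hsf A ρ i x + (δ : ℂ) • K.g i x).PosSemidef := by
  classical
  have : Fintype A.ι := Fintype.ofFinite _
  obtain ⟨T, hT0, hT⟩ := exists_chi_bound P K
  obtain ⟨B', hB0, hB⟩ := exists_chi_abs P
  obtain ⟨κ, hκ, hκT, hκB⟩ : ∃ κ : ℝ, 0 < κ ∧ κ * T ≤ δ / 2 ∧ κ * (B' + 1) ≤ 1 / 2 := by
    refine ⟨min (δ / (2 * (T + 1))) ((1 / 2) / (B' + 1)), by positivity, ?_, ?_⟩
    · calc min (δ / (2 * (T + 1))) ((1 / 2) / (B' + 1)) * T ≤ (δ / (2 * (T + 1))) * (T + 1) := by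
            gcongr
            · exact min_le_left _ _
            · linarith
        _ = δ / 2 := by field_simp
    · calc min (δ / (2 * (T + 1))) ((1 / 2) / (B' + 1)) * (B' + 1)
          ≤ ((1 / 2) / (B' + 1)) * (B' + 1) := by
            gcongr
            exact min_le_right _ _
        _ = 1 / 2 := by field_simp
  have hKc : ∀ j, IsCompact (A.e j '' tsupport (P.χ j)) := fun j =>
    (P.χ_cpt j).image_of_continuousOn ((A.e j).continuousOn.mono (P.χ_sub j))
  have hKt : ∀ j, A.e j '' tsupport (P.χ j) ⊆ (A.e j).target := by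
    rintro j _ ⟨x, hx, rfl⟩
    exact (A.e j).map_source (P.χ_sub j hx)
  have hlow : ∀ j, ∃ c : ℝ, 0 < c ∧ ∀ z ∈ A.e j '' tsupport (P.χ j), ∀ v : Cn n,
      c * ‖v‖ ^ 2 ≤ qf (K.g j ((A.e j).symm z)) (jc v) := fun j =>
    exists_kah_lower K j (hKc j) (hKt j)
  choose c hc0 hcl using hlow
  obtain ⟨τ₀, hτ₀, hτc⟩ := exists_pos_le (c := fun j => min (κ / 8) (δ / 2 * c j)) fun j => by
    have := hc0 j
    positivity
  obtain ⟨G, hG, hGG, hGB, hGp, hGρ⟩ := hloc (min τ₀ (min (κ / 8) (1 / 2))) (by positivity)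
  have hτ1 : min τ₀ (min (κ / 8) (1 / 2)) ≤ κ / 8 := (min_le_right _ _).trans (min_le_left _ _)
  have hτ2 : min τ₀ (min (κ / 8) (1 / 2)) ≤ 1 / 2 := (min_le_right _ _).trans (min_le_right _ _)
  -- the selected local function
  set j₀ : M → A.ι := fun x => (exists_psi P x).choose with hj₀
  have hj₀s : ∀ x, x ∈ tsupport (P.χ (j₀ x)) := fun x => mem_tsup (by
    rw [(tsup_psi P (exists_psi P x).choose_spec).self_of_nhds]; exact one_ne_zero)
  set u : M → ℝ := fun x => G (j₀ x) (A.e (j₀ x) x) - h.wt (j₀ x) (A.e (j₀ x) x) with hu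
  have hap : ∀ j, ∀ x ∈ tsupport (P.χ j),
      |aj P h κ G j x - (u x - κ * (1 - P.χ j x))| ≤ κ / 8 := by
    intro j x hx
    have h1 := (hGG j (j₀ x) x hx (hj₀s x)).trans hτ1
    have e : aj P h κ G j x - (u x - κ * (1 - P.χ j x)) =
        (G j (A.e j x) - h.wt j (A.e j x)) -
          (G (j₀ x) (A.e (j₀ x) x) - h.wt (j₀ x) (A.e (j₀ x) x)) := by
      unfold aj; simp only [hu]; ring
    rw [e]
    exact h1
  obtain ⟨v, hv, hv1, hv2, hv3⟩ := glue_core P K h hρj hδ hκ hT hB hκT hcl hG hap hGp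
    (fun j x hx v => by
      have h1 := hGρ j x hx v
      have h2 : min τ₀ (min (κ / 8) (1 / 2)) * ‖v‖ ^ 2 ≤ min (κ / 8) (δ / 2 * c j) * ‖v‖ ^ 2 :=
        mul_le_mul_of_nonneg_right ((min_le_left _ _).trans (hτc j)) (sq_nonneg _)
      linarith)
  refine ⟨v, hv, fun x => ?_, hv2, hv3⟩
  obtain ⟨h1, h2⟩ := hv1 x
  have h3 := abs_le.1 ((hGB (j₀ x) x (hj₀s x)).trans (add_le_add_right hτ2 B))
  have h4 : κ * (B' + 1) = κ * (B' + 3 / 8) + κ * (5 / 8) := by ring
  have h5 : κ ≤ κ * (B' + 1) := by nlinarith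
  rw [abs_le]
  constructor
  · linarith [h3.1]
  · linarith [h3.2]

end Crest.Agent.R281.Rich_710
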