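import Crest.Agent.R281.Rich5_710

/-!
# R281 (S0424), DIV 6, S6-RICH (helper710), file 6: families of local approximations

* `rich_fam`   : local families `F j η`, `η → 0`, psh near the cut-off supports, bounded, compatible on
  the overlaps ⟹ the conclusion of Richberg's theorem (bounded potentials);
* `lvE_of_psd`, `lvE_of_psd_sub` : from the matrices to the Levi forms;
* `exists_rel` : relatively compact pieces of the charts around the supports of the cut-offs.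
-/

set_option autoImplicit false
set_option linter.unusedSectionVars false

open Set Filter Topology Metric
open scoped ContDiff Matrix ComplexConjugate ComplexOrder

noncomputable section

namespace Crest.Agent.R281.Rich_710

open Crest.Agent.R257.HoB_843 Crest.Agent.R257.Glue2_101 Crest.Agent.R257.Glue1_101
open Crest.Agent.R275.Geo Crest.Agent.R275.Core144 Crest.Agent.R275.EDR890
open Crest.Agent.R273.Defs_333 Crest.Agent.R273.Hess_333 Crest.Agent.R273.HessB_333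
open Crest.Agent.R273.HM_333 Crest.Agent.R273.Kah_333 Crest.Agent.R273.SerD_945

variable {n : ℕ} {M : Type} [TopologicalSpace M] {A : Atl n M} {L : LB A}

/-- **Richberg's theorem for bounded potentials, from local families** -/
theorem rich_fam [CompactSpace M] [Finite A.ι] (P : Part A) (K : Kah A) (h : HM L)
    {C : Set M} {ρ : M → ℝ}
    (hρj : ∀ j, ∀ x ∈ (A.e j).source, x ∈ C →
      ContDiffAt ℝ ∞ (fun z => ρ ((A.e j).symm z)) (A.e j x))
    {δ : ℝ} (hδ : 0 < δ) {B : ℝ} (F : A.ι → ℝ → Cn n → ℝ)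
    (h1 : ∀ j, ∀ η : ℝ, 0 < η → ContDiff ℝ ∞ (F j η))
    (h2 : ∀ j, ∀ᶠ η in 𝓝[>] (0 : ℝ), ∀ x ∈ A.e j '' tsupport (P.χ j), ∀ v, 0 ≤ lvE (F j η) x v)
    (h3 : ∀ j, ∀ τ : ℝ, 0 < τ → ∀ᶠ η in 𝓝[>] (0 : ℝ), ∀ x ∈ A.e j '' (tsupport (P.χ j) ∩ C), ∀ v,
      lvE (fun z => ρ ((A.e j).symm z)) x v - τ * ‖v‖ ^ 2 ≤ lvE (F j η) x v)
    (h4 : ∀ j, ∀ τ : ℝ, 0 < τ → ∀ᶠ η in 𝓝[>] (0 : ℝ), ∀ x ∈ A.e j '' tsupport (P.χ j),
      |F j η x - h.wt j x| ≤ B + τ)
    (h5 : ∀ j k, ∀ τ : ℝ, 0 < τ → ∀ᶠ η in 𝓝[>] (0 : ℝ),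
      ∀ x ∈ A.e j '' (tsupport (P.χ j) ∩ tsupport (P.χ k)),
      |F k η (A.e k ((A.e j).symm x)) - F j η x -
        (h.wt k (A.e k ((A.e j).symm x)) - h.wt j x)| ≤ τ) :
    ∃ (v : M → ℝ) (hv : A.Sm v), (∀ x, |v x| ≤ B + 1) ∧
      (∀ i, ∀ x ∈ (A.e i).source, (cur (tw h v hv) i x + (δ : ℂ) • K.g i x).PosSemidef) ∧
      ∀ i, ∀ x ∈ (A.e i).source, x ∈ C →
        (cur (tw h v hv) i x - hsf A ρ i x + (δ : ℂ) • K.g i x).PosSemidef := by
  classical
  have : Fintype A.ι := Fintype.ofFinite _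
  refine rich_glue P K h hρj hδ fun τ hτ => ?_
  have e2 := Filter.eventually_all.2 h2
  have e3 := Filter.eventually_all.2 fun j => h3 j τ hτ
  have e4 := Filter.eventually_all.2 fun j => h4 j τ hτ
  have e5 := Filter.eventually_all.2 fun j => Filter.eventually_all.2 fun k => h5 j k τ hτ
  obtain ⟨η, ⟨⟨⟨a2, a3⟩, a4⟩, a5⟩, hη⟩ := ((((e2.and e3).and e4).and e5).and
    self_mem_nhdsWithin).exists
  have hη0 : 0 < η := hη
  refine ⟨fun j => F j η, fun j => h1 j η hη0, fun j k x hxj hxk => ?_, fun j x hx =>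
    a4 j _ (mem_image_of_mem _ hx), a2, a3⟩
  have h6 := a5 j k _ (mem_image_of_mem _ ⟨hxj, hxk⟩)
  rw [(A.e j).left_inv (P.χ_sub j hxj)] at h6
  rw [abs_sub_comm]
  have e : F k η (A.e k x) - h.wt k (A.e k x) - (F j η (A.e j x) - h.wt j (A.e j x)) =
      F k η (A.e k x) - F j η (A.e j x) - (h.wt k (A.e k x) - h.wt j (A.e j x)) := by ring
  rw [e]
  exact h6

/-! ### from matrices to Levi forms -/

theorem lvE_of_psd (h : HM L) {u : M → ℝ} {i : A.ι} {z : Cn n} (hz : z ∈ (A.e i).target)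
    (hu : ContDiffAt ℝ ∞ (fun w => u ((A.e i).symm w)) z)
    (hp : (cur h i ((A.e i).symm z) + hsf A u i ((A.e i).symm z)).PosSemidef) (v : Cn n) :
    0 ≤ lvE (fun w => h.wt i w + u ((A.e i).symm w)) z v := by
  have h1 := qf_nonneg hp (jc v)
  rw [cur_read h i hz, hsf_read u i hz, qf_add, qf_hess (wt_contDiffAt h i hz), qf_hess hu,
    cj_jc] at h1
  rw [lvE_add (wt_contDiffAt h i hz) hu]
  exact h1

theorem lvE_of_psd_sub (h : HM L) {u ρ : M → ℝ} {i : A.ι} {z : Cn n} (hz : z ∈ (A.e i).target)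
    (hu : ContDiffAt ℝ ∞ (fun w => u ((A.e i).symm w)) z)
    (hρ : ContDiffAt ℝ ∞ (fun w => ρ ((A.e i).symm w)) z)
    (hp : (cur h i ((A.e i).symm z) + hsf A u i ((A.e i).symm z) -
      hsf A ρ i ((A.e i).symm z)).PosSemidef) (v : Cn n) :
    0 ≤ lvE (fun w => h.wt i w + u ((A.e i).symm w) - ρ ((A.e i).symm w)) z v := by
  have h1 := qf_nonneg hp (jc v)
  rw [cur_read h i hz, hsf_read u i hz, hsf_read ρ i hz, qf_sub, qf_add,
    qf_hess (wt_contDiffAt h i hz), qf_hess hu, qf_hess hρ, cj_jc] at h1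
  have e : (fun w => h.wt i w + u ((A.e i).symm w) - ρ ((A.e i).symm w)) =
      fun w => (h.wt i w + u ((A.e i).symm w)) + (-ρ ((A.e i).symm w)) := by
    funext w; ring
  rw [e, lvE_add ((wt_contDiffAt h i hz).add hu) hρ.neg, lvE_add (wt_contDiffAt h i hz) hu,
    lvE_neg']
  linarith

/-! ### relatively compact pieces -/

theorem exists_rel (P : Part A) (j : A.ι) : ∃ D : Set (Cn n), IsOpen D ∧
    A.e j '' tsupport (P.χ j) ⊆ D ∧ IsCompact (closure D) ∧ closure D ⊆ (A.e j).target := by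
  have hK : IsCompact (A.e j '' tsupport (P.χ j)) :=
    (P.χ_cpt j).image_of_continuousOn ((A.e j).continuousOn.mono (P.χ_sub j))
  have hKt : A.e j '' tsupport (P.χ j) ⊆ (A.e j).target := by
    rintro _ ⟨x, hx, rfl⟩
    exact (A.e j).map_source (P.χ_sub j hx)
  obtain ⟨D, hD, h1, h2, h3⟩ := exists_open_between_and_isCompact_closure hK (A.e j).open_target hKt
  exact ⟨D, hD, h1, h3, h2⟩

end Crest.Agent.R281.Rich_710
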