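import Crest.Agent.R281.Rich6_710
import Crest.Agent.R281.RichL_710
import Crest.Agent.R281.Bdd6_791

/-!
# R281 (S0424), DIV 6, S6-RICH (helper710 + helper791), last file

* `rich_bdd` : **Richberg's theorem for bounded potentials**: `u` bounded, smooth with
  `cur h + ∂∂̄u ≥ 0` off a closed `σ`-thin set `S`, `≥ ∂∂̄ρ` on `U \ S` ⟹ smooth `v`, `|v| ≤ B + 1`,
  `cur h + ∂∂̄v + δ K ≥ 0` on `M`, `≥ ∂∂̄ρ` on the compact `C ⊆ U`.
-/

set_option autoImplicit false
set_option linter.unusedSectionVars false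

open Set Filter Topology Metric MeasureTheory
open scoped ContDiff Matrix ComplexConjugate ComplexOrder

noncomputable section

namespace Crest.Agent.R281.Rich_710

open Crest.Agent.R257.HoB_843 Crest.Agent.R257.Glue2_101 Crest.Agent.R257.Glue1_101
open Crest.Agent.R275.Geo Crest.Agent.R275.Core144 Crest.Agent.R275.EDR890
open Crest.Agent.R273.Defs_333 Crest.Agent.R273.Hess_333 Crest.Agent.R273.HessB_333
open Crest.Agent.R273.HM_333 Crest.Agent.R273.Kah_333 Crest.Agent.R273.SerD_945
open Crest.Agent.R281.ThnM_280 Crest.Agent.R281.Thn_280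
open Crest.Agent.R281.Bdd5_791 Crest.Agent.R281.Bdd6_791

variable {n : ℕ} {M : Type} [TopologicalSpace M] {A : Atl n M} {L : LB A}

/-- from `∃ η₀` to `∀ᶠ` -/
theorem ev_of_exists {p : ℝ → Prop} (h : ∃ η₀ > 0, ∀ η : ℝ, 0 < η → η < η₀ → p η) :
    ∀ᶠ η in 𝓝[>] (0 : ℝ), p η := by
  obtain ⟨η₀, h0, h1⟩ := h
  have h2 : ∀ᶠ η in 𝓝[>] (0 : ℝ), η < η₀ := nhdsWithin_le_nhds (gt_mem_nhds h0)
  filter_upwards [h2, self_mem_nhdsWithin] with η h3 h4
  exact h1 η h4 h3

/-- the good part of the piece `D` of the chart `j` -/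
def Om (A : Atl n M) (S : Set M) (j : A.ι) (D : Set (Cn n)) : Set (Cn n) :=
  D ∩ (A.e j).symm ⁻¹' Sᶜ

/-- the local potential -/
def fj (h : HM L) (u : M → ℝ) (S : Set M) (j : A.ι) (D : Set (Cn n)) : Cn n → ℝ :=
  (Om A S j D).indicator fun z => h.wt j z + u ((A.e j).symm z)

theorem isOpen_Om {S : Set M} (hS : IsClosed S) (j : A.ι) {D : Set (Cn n)} (hD : IsOpen D)
    (hDt : D ⊆ (A.e j).target) : IsOpen (Om A S j D) := by
  have h1 := (A.e j).isOpen_inter_preimage_symm hS.isOpen_compl
  have h2 : Om A S j D = D ∩ ((A.e j).target ∩ (A.e j).symm ⁻¹' Sᶜ) := by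
    ext z
    constructor
    · rintro ⟨h3, h4⟩; exact ⟨h3, hDt h3, h4⟩
    · rintro ⟨h3, -, h4⟩; exact ⟨h3, h4⟩
  rw [h2]
  exact hD.inter h1

section

variable {h : HM L} {u : M → ℝ} {S : Set M} {B : ℝ} (hS : IsClosed S) (hth : SThM A S)
  (hB : ∀ x, |u x| ≤ B)
  (hu : ∀ i, ∀ z ∈ (A.e i).target, (A.e i).symm z ∉ S →
    ContDiffAt ℝ ∞ (fun w => u ((A.e i).symm w)) z)
  (hp : ∀ i, ∀ x ∈ (A.e i).source, x ∉ S → (cur h i x + hsf A u i x).PosSemidef)

include hS hu in
theorem fj_germ (j : A.ι) {D : Set (Cn n)} (hD : IsOpen D) (hDt : D ⊆ (A.e j).target) {z : Cn n}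
    (hz : z ∈ Om A S j D) :
    fj h u S j D =ᶠ[𝓝 z] fun z => h.wt j z + u ((A.e j).symm z) := by
  filter_upwards [(isOpen_Om hS j hD hDt).mem_nhds hz] with w hw
  exact indicator_of_mem hw _

include hS hth hB hu hp in
theorem exists_PB (μ : Measure (Cn n)) [μ.IsAddHaarMeasure] (j : A.ι) {D : Set (Cn n)}
    (hD : IsOpen D) (hDc : IsCompact (closure D)) (hDt : closure D ⊆ (A.e j).target) :
    ∃ B' : ℝ, PB μ D (Om A S j D) (fj h u S j D) B' := by
  classical
  have hDt' : D ⊆ (A.e j).target := subset_closure.trans hDt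
  obtain ⟨b, hb⟩ := hDc.exists_bound_of_continuousOn ((wt_smooth h j).continuousOn.mono hDt)
  have hB0 : 0 ≤ |b| + |B| := by positivity
  have hbad : D \ Om A S j D ⊆ {z | z ∈ (A.e j).target ∧ (A.e j).symm z ∈ S} := by
    rintro z ⟨hz, hz2⟩
    refine ⟨hDt' hz, ?_⟩
    by_contra h3
    exact hz2 ⟨hz, h3⟩
  refine ⟨|b| + |B|, hD, isOpen_Om hS j hD hDt', inter_subset_left, ?_, fun z => ?_,
    fun z hz => ?_, ?_, fun v => ?_⟩
  · have h1 : ContinuousOn (fun z => h.wt j z + u ((A.e j).symm z)) (Om A S j D) := fun z hz =>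
      ((wt_contDiffAt h j (hDt' hz.1)).continuousAt.add
        (hu j z (hDt' hz.1) hz.2).continuousAt).continuousWithinAt
    have h2 := h1.measurable_piecewise (g := fun _ => (0 : ℝ)) continuousOn_const
      (isOpen_Om hS j hD hDt').measurableSet
    have e : fj h u S j D = (Om A S j D).piecewise (fun z => h.wt j z + u ((A.e j).symm z))
        fun _ => (0 : ℝ) := by
      unfold fj
      funext z
      by_cases hz : z ∈ Om A S j D
      · rw [indicator_of_mem hz, piecewise_eq_of_mem _ _ _ hz]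
      · rw [indicator_of_notMem hz, piecewise_eq_of_notMem _ _ _ hz]
    rw [e]
    exact h2
  · unfold fj
    by_cases hz : z ∈ Om A S j D
    · rw [indicator_of_mem hz]
      have h1 : |h.wt j z| ≤ b := by simpa using hb z (subset_closure hz.1)
      have h2 := hB ((A.e j).symm z)
      exact (abs_add_le _ _).trans (add_le_add (h1.trans (le_abs_self b)) (h2.trans (le_abs_self B)))
    · rw [indicator_of_notMem hz]
      simpa using hB0
  · have hzt := hDt' hz.1
    have h1 := fj_germ (h := h) hS hu j hD hDt' hz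
    have h2 := hu j z hzt hz.2
    refine ⟨(((wt_contDiffAt h j hzt).add h2).congr_of_eventuallyEq h1).of_le two_le_top,
      fun v => ?_⟩
    rw [lvE_congr h1]
    exact lvE_of_psd h hzt h2 (hp j _ ((A.e j).map_target hzt) hz.2) v
  · exact measure_mono_null hbad ((hth j).null μ)
  · filter_upwards [sth_ae_countable μ (hth j) v] with z hz
    exact hz.mono fun w hw => hbad hw

end

/-- **Richberg's theorem for bounded potentials** -/
theorem rich_bdd [CompactSpace M] [T2Space M] [Finite A.ι] (P : Part A) (K : Kah A) (h : HM L)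
    (u : M → ℝ) (B : ℝ) (hB : ∀ x, |u x| ≤ B) (S : Set M) (hS : IsClosed S) (hth : SThM A S)
    (hu : ∀ i, ∀ z ∈ (A.e i).target, (A.e i).symm z ∉ S →
      ContDiffAt ℝ ∞ (fun w => u ((A.e i).symm w)) z)
    (hp : ∀ i, ∀ x ∈ (A.e i).source, x ∉ S → (cur h i x + hsf A u i x).PosSemidef)
    (U : Set M) (hU : IsOpen U) (ρ : M → ℝ)
    (hρ : ∀ i, ∀ z ∈ (A.e i).target, (A.e i).symm z ∈ U →
      ContDiffAt ℝ ∞ (fun w => ρ ((A.e i).symm w)) z)
    (hpU : ∀ i, ∀ x ∈ (A.e i).source, x ∈ U → x ∉ S →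
      (cur h i x + hsf A u i x - hsf A ρ i x).PosSemidef)
    (C : Set M) (hC : IsCompact C) (hCU : C ⊆ U) (δ : ℝ) (hδ : 0 < δ) :
    ∃ v : M → ℝ, A.Sm v ∧ (∀ x, |v x| ≤ B + 1) ∧
      (∀ i, ∀ x ∈ (A.e i).source, (cur h i x + hsf A v i x + (δ : ℂ) • K.g i x).PosSemidef) ∧
      (∀ i, ∀ x ∈ (A.e i).source, x ∈ C →
        (cur h i x + hsf A v i x + (δ : ℂ) • K.g i x - hsf A ρ i x).PosSemidef) := by
  classical
  choose D hDo hDs hDc hDt using fun j => exists_rel P j
  have hDt' : ∀ j, D j ⊆ (A.e j).target := fun j => subset_closure.trans (hDt j)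
  set μ : Measure (Cn n) := Measure.addHaar with hμ
  choose B' hPB using fun j => exists_PB (h := h) hS hth hB hu hp μ j (hDo j) (hDc j) (hDt j)
  have hKc : ∀ j, IsCompact (A.e j '' tsupport (P.χ j)) := fun j =>
    (P.χ_cpt j).image_of_continuousOn ((A.e j).continuousOn.mono (P.χ_sub j))
  have hρj : ∀ j, ∀ x ∈ (A.e j).source, x ∈ C →
      ContDiffAt ℝ ∞ (fun z => ρ ((A.e j).symm z)) (A.e j x) := fun j x hx hxC =>
    hρ j _ ((A.e j).map_source hx) (by rw [(A.e j).left_inv hx]; exact hCU hxC)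
  obtain ⟨v, hv, h1, h2, h3⟩ := rich_fam P K h (C := C) hρj hδ (B := B)
    (fun j η => mo μ (fj h u S j (D j)) η)
    (fun j η _ => mo_smooth (hPB j).meas (hPB j).bd η)
    (fun j => ev_of_exists (mo_psh (hPB j) (hKc j) (hDs j)))
    (fun j τ hτ => ev_of_exists (by
      have hUo : IsOpen (D j ∩ ((A.e j).target ∩ (A.e j).symm ⁻¹' U)) :=
        (hDo j).inter ((A.e j).isOpen_inter_preimage_symm hU)
      refine mo_ge (hPB j) hUo inter_subset_left (ρ := fun z => ρ ((A.e j).symm z))
        (fun z hz => (hρ j z hz.2.1 hz.2.2).of_le two_le_top) (fun z hz v => ?_) ?_ ?_ hτ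
      · obtain ⟨⟨hz1, hz2, hz3⟩, hz4⟩ := hz
        rw [lvE_congr (fj_germ (h := h) hS hu j (hDo j) (hDt' j) hz4)]
        have hsu := hu j z hz2 hz4.2
        have hsρ := hρ j z hz2 hz3
        have h4 := lvE_of_psd_sub h hz2 hsu hsρ
          (hpU j _ ((A.e j).map_target hz2) hz3 hz4.2) v
        have e : (fun w => h.wt j w + u ((A.e j).symm w) - ρ ((A.e j).symm w)) =
            fun w => (h.wt j w + u ((A.e j).symm w)) + (-ρ ((A.e j).symm w)) := by
          funext w; ring
        rw [e, lvE_add ((wt_contDiffAt h j hz2).add hsu) hsρ.neg, lvE_neg'] at h4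
        linarith
      · exact ((P.χ_cpt j).inter_right hC.isClosed).image_of_continuousOn
          ((A.e j).continuousOn.mono (inter_subset_left.trans (P.χ_sub j)))
      · rintro _ ⟨x, ⟨hx, hxC⟩, rfl⟩
        have hxs := P.χ_sub j hx
        refine ⟨hDs j (mem_image_of_mem _ hx), (A.e j).map_source hxs, ?_⟩
        rw [mem_preimage, (A.e j).left_inv hxs]
        exact hCU hxC))
    (fun j τ hτ => ev_of_exists (mo_near (hPB j).meas (hPB j).bd (hDo j) (hPB j).null
      ((wt_smooth h j).continuousOn.mono (hDt' j)) (fun z hz _ => by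
        unfold fj
        rw [indicator_of_mem hz, add_sub_cancel_left]
        exact hB _) (hKc j) (hDs j) hτ))
    (fun j k τ hτ => ev_of_exists (by
      -- the transition map, restricted
      let T₀ : OpenPartialHomeomorph (Cn n) (Cn n) := (A.e j).symm.trans (A.e k)
      have hs₀ : IsOpen (D j ∩ (T₀.source ∩ T₀ ⁻¹' D k)) :=
        (hDo j).inter (T₀.isOpen_inter_preimage (hDo k))
      let T : OpenPartialHomeomorph (Cn n) (Cn n) := T₀.restrOpen _ hs₀
      have hTsrc : T.source = T₀.source ∩ (D j ∩ (T₀.source ∩ T₀ ⁻¹' D k)) :=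
        T₀.restrOpen_source _ hs₀
      have hT₀s : T₀.source ⊆ A.ov j k := by
        intro z hz
        have hz' : z ∈ ((A.e j).symm.trans (A.e k)).source := hz
        rw [OpenPartialHomeomorph.trans_source] at hz'
        exact ⟨hz'.1, hz'.2⟩
      have hT₀t : T₀.target ⊆ A.ov k j := by
        intro z hz
        have hz' : z ∈ ((A.e j).symm.trans (A.e k)).target := hz
        rw [OpenPartialHomeomorph.trans_target] at hz'
        exact ⟨hz'.1, hz'.2⟩
      have hTt : T.target ⊆ T₀.target := by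
        intro y hy
        have h5 := T.map_target hy
        rw [hTsrc] at h5
        have h6 := T₀.map_source h5.1
        have h7 : T₀ (T.symm y) = y := T.right_inv hy
        rwa [h7] at h6
      have hsm : ∀ i l : A.ι, ContDiffOn ℝ 1 (fun z => A.e l ((A.e i).symm z)) (A.ov i l) :=
        fun i l => ((Crest.Agent.R266.SCV.contDiffOn_omega_of_differentiableOn (isOpen_ov i l)
          (A.holo i l)).restrict_scalars ℝ).of_le le_top
      refine mo_cmp (hPB j) (hPB k).meas (hPB k).bd (T := T)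
        (θ := fun z => h.wt k (A.e k ((A.e j).symm z)) - h.wt j z) ?_ ?_ ?_ ?_ ?_ ?_ ?_ hτ
      · exact (hsm j k).mono fun z hz => hT₀s (by rw [hTsrc] at hz; exact hz.1)
      · exact (hsm k j).mono fun z hz => hT₀t (hTt hz)
      · intro z hz
        rw [hTsrc] at hz
        exact hz.2.1
      · intro z hz
        rw [hTsrc] at hz
        have h5 := hT₀s hz.1
        have h6 : ContinuousAt (fun z => A.e k ((A.e j).symm z)) z :=
          ((A.holo j k).differentiableAt ((isOpen_ov j k).mem_nhds h5)).continuousAt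
        have h7 : ContinuousAt (h.wt k) (A.e k ((A.e j).symm z)) :=
          (wt_contDiffAt h k ((A.e k).map_source h5.2)).continuousAt
        exact ((ContinuousAt.comp (f := fun z => A.e k ((A.e j).symm z)) h7 h6).sub
          (wt_contDiffAt h j h5.1).continuousAt).continuousWithinAt
      · rintro z ⟨hz, hzΩ⟩
        rw [hTsrc] at hz
        have h5 := hT₀s hz.1
        have h8 : (A.e k).symm (A.e k ((A.e j).symm z)) = (A.e j).symm z := (A.e k).left_inv h5.2
        have h6 : A.e k ((A.e j).symm z) ∈ Om A S k (D k) := by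
          refine ⟨hz.2.2.2, ?_⟩
          rw [mem_preimage, h8]
          exact hzΩ.2
        have h7 : fj h u S k (D k) (A.e k ((A.e j).symm z)) =
            h.wt k (A.e k ((A.e j).symm z)) + u ((A.e k).symm (A.e k ((A.e j).symm z))) :=
          indicator_of_mem h6 _
        have h9 : fj h u S j (D j) z = h.wt j z + u ((A.e j).symm z) := indicator_of_mem hzΩ _
        show fj h u S k (D k) (A.e k ((A.e j).symm z)) = _
        rw [h7, h8, h9]
        ring
      · exact ((P.χ_cpt j).inter (P.χ_cpt k)).image_of_continuousOn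
          ((A.e j).continuousOn.mono (inter_subset_left.trans (P.χ_sub j)))
      · rintro _ ⟨x, ⟨hxj, hxk⟩, rfl⟩
        have hj := P.χ_sub j hxj
        have hk := P.χ_sub k hxk
        have h5 : A.e j x ∈ T₀.source := by
          show A.e j x ∈ ((A.e j).symm.trans (A.e k)).source
          rw [OpenPartialHomeomorph.trans_source]
          refine ⟨(A.e j).map_source hj, ?_⟩
          rw [mem_preimage, (A.e j).left_inv hj]
          exact hk
        rw [hTsrc]
        refine ⟨h5, hDs j (mem_image_of_mem _ hxj), h5, ?_⟩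
        show A.e k ((A.e j).symm (A.e j x)) ∈ D k
        rw [(A.e j).left_inv hj]
        exact hDs k (mem_image_of_mem _ hxk)))
  refine ⟨v, hv, h1, fun i x hx => ?_, fun i x hx hxC => ?_⟩
  · have := h2 i x hx
    rwa [cur_tw h hv i hx] at this
  · have := h3 i x hx hxC
    rw [cur_tw h hv i hx] at this
    rwa [sub_add_eq_add_sub] at this

end Crest.Agent.R281.Rich_710
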