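import Crest.Agent.R281.Un1_360
import Crest.Agent.R273.Fam_835

/-!
# R281 (S0424), UNIQ / SBM-TOR (helper222)

* `exists_par`, `exists_eps` : a lattice of full rank in `Cn d`: every point is congruent to a point
                               of the compact parallelepiped; the lattice is discrete
* `TorMap F l`    : `F : Cn d → Y` continuous, surjective, `F c = F c' ↔ c - c' ∈ lattice`
* `TorMap.fam`    : the holomorphic charts of `Y` (local inverses of `F`)
* `sbm_tor`       : the range of a holomorphic immersion `Φ : Cn d → M` whose fibres are the classes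
                    of a lattice of full rank is a compact submanifold (`Un_360.Sbm`)
-/

set_option autoImplicit false
set_option linter.unusedSectionVars false

open Set Filter Topology Complex
open scoped ContDiff ComplexConjugate

namespace Crest.Agent.R281.Sbt_222

open Crest.Agent.R275.Geo Crest.Agent.R275.Core144 Crest.Agent.R275.GC293
open Crest.Agent.R273.Defs_333 Crest.Agent.R273.Map_835 Crest.Agent.R273.PB_835
open Crest.Agent.R273.Fam_835

noncomputable section

/-! ### lattices of full rank -/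

section lat

variable {d : ℕ} {l : Fin (2 * d) → Cn d}

/-- the lattice vector -/
def lv (l : Fin (2 * d) → Cn d) (m : Fin (2 * d) → ℤ) : Cn d := ∑ k, (m k : ℝ) • l k

theorem lv_zero : lv l 0 = 0 := by simp [lv]

theorem lv_add (m m' : Fin (2 * d) → ℤ) : lv l (m + m') = lv l m + lv l m' := by
  simp [lv, add_smul, Finset.sum_add_distrib]

theorem lv_neg (m : Fin (2 * d) → ℤ) : lv l (-m) = -lv l m := by
  simp [lv, neg_smul, Finset.sum_neg_distrib]

theorem finrank_Cn' : Module.finrank ℝ (Cn d) = 2 * d := by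
  rw [finrank_real_of_complex, finrank_euclideanSpace, Fintype.card_fin]

/-- the basis -/
def bs (hl : LinearIndependent ℝ l) : Module.Basis (Fin (2 * d)) ℝ (Cn d) :=
  basisOfLinearIndependentOfCardEqFinrank' l hl (by rw [Fintype.card_fin, finrank_Cn'])

theorem bs_apply (hl : LinearIndependent ℝ l) (k : Fin (2 * d)) : bs hl k = l k := by
  simp [bs]

theorem sum_bs (hl : LinearIndependent ℝ l) (c : Cn d) :
    ∑ k, (bs hl).equivFun c k • l k = c := by
  have h := (bs hl).sum_equivFun c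
  simpa only [bs_apply] using h

theorem equivFun_lv (hl : LinearIndependent ℝ l) (m : Fin (2 * d) → ℤ) :
    (bs hl).equivFun (lv l m) = fun k => (m k : ℝ) := by
  have h : lv l m = (bs hl).equivFun.symm (fun k => (m k : ℝ)) := by
    rw [Module.Basis.equivFun_symm_apply]
    simp only [bs_apply]
    rfl
  rw [h, LinearEquiv.apply_symm_apply]

/-- the lattice is discrete -/
theorem exists_eps (hl : LinearIndependent ℝ l) :
    ∃ ε > 0, ∀ m : Fin (2 * d) → ℤ, ‖lv l m‖ < ε → m = 0 := by
  let T := (bs hl).equivFunL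
  have hT : ∀ c, ‖T c‖ ≤ ‖(T : Cn d →L[ℝ] (Fin (2 * d) → ℝ))‖ * ‖c‖ := fun c =>
    (T : Cn d →L[ℝ] (Fin (2 * d) → ℝ)).le_opNorm c
  set K := ‖(T : Cn d →L[ℝ] (Fin (2 * d) → ℝ))‖ with hK
  have hK0 : 0 ≤ K := norm_nonneg _
  refine ⟨1 / (K + 1), by positivity, fun m hm => ?_⟩
  funext k
  have h1 : T (lv l m) = fun k => (m k : ℝ) := equivFun_lv hl m
  have h2 : ‖(m k : ℝ)‖ ≤ ‖T (lv l m)‖ := by
    rw [h1]
    exact norm_le_pi_norm (fun k => (m k : ℝ)) k
  have h3 : ‖(m k : ℝ)‖ < 1 := by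
    refine lt_of_le_of_lt (h2.trans (hT _)) ?_
    have h4 : K * ‖lv l m‖ ≤ K * (1 / (K + 1)) := mul_le_mul_of_nonneg_left hm.le hK0
    refine lt_of_le_of_lt h4 ?_
    rw [mul_one_div, div_lt_one (by positivity)]
    linarith
  rw [Real.norm_eq_abs] at h3
  have h5 : |m k| < 1 := by exact_mod_cast h3
  exact Int.abs_lt_one_iff.1 h5

/-- the closed parallelepiped -/
def par (l : Fin (2 * d) → Cn d) : Set (Cn d) :=
  (fun t : Fin (2 * d) → ℝ => ∑ k, t k • l k) '' (Set.pi univ fun _ => Icc (0 : ℝ) 1)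

theorem isCompact_par : IsCompact (par l) := by
  refine (isCompact_univ_pi fun _ => isCompact_Icc).image ?_
  fun_prop

theorem exists_par (hl : LinearIndependent ℝ l) (c : Cn d) :
    ∃ m : Fin (2 * d) → ℤ, c - lv l m ∈ par l := by
  refine ⟨fun k => ⌊(bs hl).equivFun c k⌋, fun k => Int.fract ((bs hl).equivFun c k), ?_, ?_⟩
  · intro k _
    exact ⟨Int.fract_nonneg _, (Int.fract_lt_one _).le⟩
  · show ∑ k, Int.fract ((bs hl).equivFun c k) • l k = _
    conv_rhs => rw [← sum_bs hl c]
    rw [lv, ← Finset.sum_sub_distrib]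
    refine Finset.sum_congr rfl fun k _ => ?_
    rw [← sub_smul]
    rw [sum_bs hl c]
    rfl

end lat

/-! ### the quotient map -/

section tor

variable {d : ℕ} {Y : Type} [TopologicalSpace Y]

/-- the quotient map of a torus -/
structure TorMap (F : Cn d → Y) (l : Fin (2 * d) → Cn d) : Prop where
  li : LinearIndependent ℝ l
  cont : Continuous F
  surj : Function.Surjective F
  eq_iff : ∀ c c', F c = F c' ↔ ∃ m : Fin (2 * d) → ℤ, c - c' = lv l m

variable {F : Cn d → Y} {l : Fin (2 * d) → Cn d}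

namespace TorMap

theorem image_par (h : TorMap F l) : F '' par l = univ := by
  refine eq_univ_of_forall fun y => ?_
  obtain ⟨c, rfl⟩ := h.surj y
  obtain ⟨m, hm⟩ := exists_par h.li c
  refine ⟨_, hm, ((h.eq_iff _ _).2 ⟨-m, ?_⟩)⟩
  rw [lv_neg]
  abel

theorem compact (h : TorMap F l) : CompactSpace Y :=
  ⟨by rw [← h.image_par]; exact isCompact_par.image h.cont⟩

theorem preimage_image (h : TorMap F l) (U : Set (Cn d)) :
    F ⁻¹' (F '' U) = ⋃ m : Fin (2 * d) → ℤ, (fun c => c + lv l m) ⁻¹' U := by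
  ext c
  simp only [mem_preimage, mem_image, mem_iUnion]
  constructor
  · rintro ⟨u, hu, he⟩
    obtain ⟨m, hm⟩ := (h.eq_iff _ _).1 he
    refine ⟨m, ?_⟩
    rw [← hm]
    simpa using hu
  · rintro ⟨m, hm⟩
    exact ⟨_, hm, (h.eq_iff _ _).2 ⟨m, by abel⟩⟩

theorem isOpenMap [T2Space Y] (h : TorMap F l) : IsOpenMap F := by
  intro U hU
  have h1 : IsOpen (F ⁻¹' (F '' U)) := by
    rw [h.preimage_image]
    exact isOpen_iUnion fun m => hU.preimage (by fun_prop)
  have h2 : (F '' U)ᶜ = F '' (par l ∩ (F ⁻¹' (F '' U))ᶜ) := by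
    ext y
    constructor
    · intro hy
      obtain ⟨c, hc, rfl⟩ : y ∈ F '' par l := by rw [h.image_par]; trivial
      exact ⟨c, ⟨hc, hy⟩, rfl⟩
    · rintro ⟨c, ⟨_, hc⟩, rfl⟩
      exact hc
  have h3 : IsClosed (F '' U)ᶜ := by
    rw [h2]
    exact ((isCompact_par.inter_right h1.isClosed_compl).image h.cont).isClosed
  exact isClosed_compl_iff.1 h3

theorem exists_inj (h : TorMap F l) : ∃ r > 0, ∀ c, InjOn F (Metric.ball c r) := by
  obtain ⟨ε, hε, h1⟩ := exists_eps h.li
  refine ⟨ε / 2, by positivity, fun c a ha b hb hab => ?_⟩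
  obtain ⟨m, hm⟩ := (h.eq_iff _ _).1 hab
  have h2 : ‖lv l m‖ < ε := by
    rw [← hm, ← dist_eq_norm]
    calc dist a b ≤ dist a c + dist b c := dist_triangle_right _ _ _
      _ < ε / 2 + ε / 2 := add_lt_add ha hb
      _ = ε := by ring
  rw [h1 m h2, lv_zero] at hm
  exact sub_eq_zero.1 hm

/-- the local inverse of `F` on the ball -/
def ch [T2Space Y] (h : TorMap F l) {r : ℝ} (hr : ∀ c, InjOn F (Metric.ball c r)) (c : Cn d) :
    OpenPartialHomeomorph Y (Cn d) :=
  (OpenPartialHomeomorph.ofContinuousOpen ((hr c).toPartialEquiv F (Metric.ball c r))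
    h.cont.continuousOn h.isOpenMap Metric.isOpen_ball).symm

theorem ch_target [T2Space Y] (h : TorMap F l) {r : ℝ} (hr : ∀ c, InjOn F (Metric.ball c r))
    (c : Cn d) : (h.ch hr c).target = Metric.ball c r := rfl

theorem ch_source [T2Space Y] (h : TorMap F l) {r : ℝ} (hr : ∀ c, InjOn F (Metric.ball c r))
    (c : Cn d) : (h.ch hr c).source = F '' Metric.ball c r := rfl

theorem ch_symm [T2Space Y] (h : TorMap F l) {r : ℝ} (hr : ∀ c, InjOn F (Metric.ball c r))
    (c z : Cn d) : (h.ch hr c).symm z = F z := rfl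

theorem ch_F [T2Space Y] (h : TorMap F l) {r : ℝ} (hr : ∀ c, InjOn F (Metric.ball c r))
    {c z : Cn d} (hz : z ∈ Metric.ball c r) : h.ch hr c (F z) = z :=
  (h.ch hr c).right_inv (x := z) hz

/-- near every point the transition is a translation -/
theorem ch_near [T2Space Y] (h : TorMap F l) {r : ℝ} (hr : ∀ c, InjOn F (Metric.ball c r))
    {c z : Cn d} (hz : F z ∈ (h.ch hr c).source) :
    ∃ v : Cn d, ∀ᶠ w in 𝓝 z, h.ch hr c (F w) = w + v := by
  obtain ⟨u, hu, he⟩ := hz
  obtain ⟨m, hm⟩ := (h.eq_iff _ _).1 he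
  refine ⟨lv l m, ?_⟩
  have h1 : ∀ᶠ w in 𝓝 z, w + lv l m ∈ Metric.ball c r := by
    have h2 : Tendsto (fun w => w + lv l m) (𝓝 z) (𝓝 (z + lv l m)) := by
      exact Continuous.tendsto (by fun_prop) z
    have h3 : z + lv l m = u := by rw [← hm]; abel
    rw [h3] at h2
    exact h2 (Metric.isOpen_ball.mem_nhds hu)
  filter_upwards [h1] with w hw
  have h4 : F w = F (w + lv l m) := ((h.eq_iff _ _).2 ⟨m, by abel⟩).symm
  rw [h4, h.ch_F hr hw]

/-- the charts -/
def fam [T2Space Y] (h : TorMap F l) {r : ℝ} (hr0 : 0 < r)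
    (hr : ∀ c, InjOn F (Metric.ball c r)) : Fam d Y where
  ι := Cn d
  e := h.ch hr
  cover y := by
    obtain ⟨c, rfl⟩ := h.surj y
    exact ⟨c, c, Metric.mem_ball_self hr0, rfl⟩
  holo i j := by
    rintro z ⟨_, hz⟩
    obtain ⟨v, hv⟩ := h.ch_near hr (c := j) (z := z) hz
    have h1 : DifferentiableAt ℂ (fun w : Cn d => w + v) z := by fun_prop
    exact (h1.congr_of_eventuallyEq hv).differentiableWithinAt

end TorMap

end tor

/-! ### the submanifold -/

section sbm

variable {d N : ℕ} {M : Type} [TopologicalSpace M]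

theorem sbm_tor [T2Space M] [CompactSpace M] {A : Atl N M} [Finite A.ι] {Φ : Cn d → M}
    (hc : Continuous Φ)
    (hol : ∀ c i, Φ c ∈ (A.e i).source → DifferentiableAt ℂ (fun z => A.e i (Φ z)) c ∧
      Function.Injective (fderiv ℂ (fun z => A.e i (Φ z)) c))
    {l : Fin (2 * d) → Cn d} (hl : LinearIndependent ℝ l)
    (hΦ : ∀ c c', Φ c = Φ c' ↔ ∃ m : Fin (2 * d) → ℤ, c - c' = ∑ k, (m k : ℝ) • l k) :
    ∃ (Y : Type) (_ : TopologicalSpace Y) (_ : T2Space Y) (_ : CompactSpace Y)
      (_ : ConnectedSpace Y) (B : Atl d Y) (_ : Finite B.ι) (j : Y → M)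
      (_ : Un_360.Sbm B A j), Set.range j = Set.range Φ := by
  classical
  let F : Cn d → range Φ := rangeFactorization Φ
  have hF : TorMap F l :=
    { li := hl
      cont := hc.rangeFactorization
      surj := rangeFactorization_surjective
      eq_iff := fun c c' => Subtype.ext_iff.trans (hΦ c c') }
  have hcY : CompactSpace (range Φ) := hF.compact
  have hcon : ConnectedSpace (range Φ) := by
    rw [← isConnected_iff_connectedSpace]
    exact isConnected_range hc
  obtain ⟨r, hr0, hr⟩ := hF.exists_inj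
  obtain ⟨B, hfin, -, ⟨P⟩, hsub, hBC, hCB⟩ := (hF.fam hr0 hr).exists_atl
    (fun i : A.ι => (Subtype.val ⁻¹' (A.e i).source : Set (range Φ)))
    (fun i => (A.e i).open_source.preimage continuous_subtype_val)
    (fun x => A.cover x.1)
  choose q hq using hsub
  have hCA : HolC (hF.fam hr0 hr) (Crest.Agent.R273.Fam_835.fam A) (Subtype.val : range Φ → M) := by
    refine ⟨continuous_subtype_val, fun i k => ?_⟩
    rintro z ⟨_, hz⟩
    exact (hol z k hz).1.differentiableWithinAt
  have hBA : HolMap B A (Subtype.val : range Φ → M) := holC_iff.1 (hCA.comp hBC)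
  refine ⟨range Φ, inferInstance, inferInstance, hcY, hcon, B, hfin, Subtype.val,
    ⟨hBA, ⟨q, fun i x hx => hq i hx⟩, Subtype.val_injective, fun i i' z hz => ?_, P⟩,
    Subtype.range_val⟩
  obtain ⟨c, hcz⟩ := hF.surj ((B.e i).symm z)
  have hzs : (B.e i).symm z ∈ ((hF.fam hr0 hr).e c).source := by
    rw [← hcz]
    exact ⟨c, Metric.mem_ball_self hr0, rfl⟩
  have e1 : (hF.fam hr0 hr).e c ((B.e i).symm z) = c := by
    rw [← hcz]
    exact hF.ch_F hr (Metric.mem_ball_self hr0)
  have d1 : DifferentiableAt ℂ (fun w => (hF.fam hr0 hr).e c ((B.e i).symm w)) z :=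
    hBC.diffAt (i := i) (j := c) hz.1 hzs
  have d2 : DifferentiableAt ℂ (fun w => B.e i (((hF.fam hr0 hr).e c).symm w)) c :=
    hCB.diffAt (i := c) (j := i) (Metric.mem_ball_self hr0)
      (by
        show F c ∈ (B.e i).source
        rw [hcz]
        exact (B.e i).map_target hz.1)
  have hmem : Φ c ∈ (A.e i').source := by
    have : ((F c : range Φ) : M) ∈ (A.e i').source := by rw [hcz]; exact hz.2
    exact this
  obtain ⟨d3, hinj⟩ := hol c i' hmem
  have hcont : ContinuousAt (B.e i).symm z := (B.e i).continuousAt_symm hz.1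
  have hev : ∀ᶠ w in 𝓝 z, (B.e i).symm w ∈ ((hF.fam hr0 hr).e c).source :=
    hcont.preimage_mem_nhds (((hF.fam hr0 hr).e c).open_source.mem_nhds hzs)
  -- the composition with the inverse
  have e2 : (fun w => (fun w => B.e i (((hF.fam hr0 hr).e c).symm w))
      ((hF.fam hr0 hr).e c ((B.e i).symm w))) =ᶠ[𝓝 z] fun w => w := by
    filter_upwards [hev, (B.e i).open_target.mem_nhds hz.1] with w hw hw2
    show B.e i (((hF.fam hr0 hr).e c).symm ((hF.fam hr0 hr).e c ((B.e i).symm w))) = w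
    rw [((hF.fam hr0 hr).e c).left_inv hw, (B.e i).right_inv hw2]
  have e3 : rd B A (Subtype.val : range Φ → M) i i' =ᶠ[𝓝 z]
      fun w => (fun z => A.e i' (Φ z)) ((hF.fam hr0 hr).e c ((B.e i).symm w)) := by
    filter_upwards [hev] with w hw
    have h1 : F ((hF.fam hr0 hr).e c ((B.e i).symm w)) = (B.e i).symm w :=
      ((hF.fam hr0 hr).e c).left_inv hw
    show A.e i' (((B.e i).symm w : range Φ) : M) = A.e i' (Φ _)
    congr 1
    exact (congrArg Subtype.val h1).symm
  have d1' : HasFDerivAt (fun w => (hF.fam hr0 hr).e c ((B.e i).symm w))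
      (fderiv ℂ (fun w => (hF.fam hr0 hr).e c ((B.e i).symm w)) z) z := d1.hasFDerivAt
  have d2' : HasFDerivAt (fun w => B.e i (((hF.fam hr0 hr).e c).symm w))
      (fderiv ℂ (fun w => B.e i (((hF.fam hr0 hr).e c).symm w)) c)
      ((fun w => (hF.fam hr0 hr).e c ((B.e i).symm w)) z) := by
    show HasFDerivAt _ _ ((hF.fam hr0 hr).e c ((B.e i).symm z))
    rw [e1]
    exact d2.hasFDerivAt
  have d3' : HasFDerivAt (fun z => A.e i' (Φ z)) (fderiv ℂ (fun z => A.e i' (Φ z)) c)
      ((fun w => (hF.fam hr0 hr).e c ((B.e i).symm w)) z) := by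
    show HasFDerivAt _ _ ((hF.fam hr0 hr).e c ((B.e i).symm z))
    rw [e1]
    exact d3.hasFDerivAt
  have c1 : HasFDerivAt (fun w : Cn d => w) _ z :=
    (HasFDerivAt.comp (g := fun w => B.e i (((hF.fam hr0 hr).e c).symm w)) z d2' d1').congr_of_eventuallyEq
      e2.symm
  have c2 := (HasFDerivAt.comp (g := fun z => A.e i' (Φ z)) z d3' d1').congr_of_eventuallyEq e3
  have c3 := c1.unique (hasFDerivAt_id z)
  rw [c2.fderiv]
  intro u v huv
  have h1 := hinj huv
  have h2 := congrArg (fderiv ℂ (fun w => B.e i (((hF.fam hr0 hr).e c).symm w)) c) h1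
  have h3 : ∀ u, fderiv ℂ (fun w => B.e i (((hF.fam hr0 hr).e c).symm w)) c
      (fderiv ℂ (fun w => (hF.fam hr0 hr).e c ((B.e i).symm w)) z u) = u := fun u => by
    have := congrArg (fun T : Cn d →L[ℂ] Cn d => T u) c3
    exact this
  exact (h3 u).symm.trans (h2.trans (h3 v))

end sbm

end

end Crest.Agent.R281.Sbt_222
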