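import Crest.Agent.R281.Un1_360
import Crest.Agent.R275.GAtl_293

/-!
# R281 (S0424), UNIQ, SBM-TOR (helper530): an immersed complex torus is a submanifold

`Φ : Cⁿ → M` continuous, holomorphic with injective derivative, whose fibres are exactly the cosets
of a lattice ==> `range Φ` is the image of a compact connected complex manifold `Y` with a finite
atlas and an injective holomorphic immersion `Y → M` (`Sbm`).

* `exists_eps`, `exists_cpt`: the lattice is discrete and cocompact;
* `TDat`      : the data `Φ`, `Y = range Φ`;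
* `TDat.open` : `Cⁿ → range Φ` is open;
* `TDat.ch`   : its local inverses; `TDat.charted`, `TDat.manifold`;
* `sbm_tor`   : the statement of helper360 (#8771).
-/

set_option autoImplicit false
set_option linter.unusedSectionVars false

open Set Filter Topology Complex Metric
open scoped ContDiff Manifold

namespace Crest.Agent.R281.Sbt_530

open Crest.Agent.R275.Geo Crest.Agent.R275.GC293
open Crest.Agent.R273.Map_835 Crest.Agent.R273.PB_835

noncomputable section

variable {d : ℕ}

/-! ### lattices -/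

/-- integral combinations -/
def InL (l : Fin (2 * d) → Cn d) (c : Cn d) : Prop :=
  ∃ m : Fin (2 * d) → ℤ, c = ∑ k, (m k : ℝ) • l k

variable {l : Fin (2 * d) → Cn d}

theorem InL.zero : InL l 0 := ⟨0, by simp⟩

theorem InL.neg {c : Cn d} (h : InL l c) : InL l (-c) := by
  obtain ⟨m, rfl⟩ := h
  exact ⟨-m, by simp⟩

theorem InL.add {c c' : Cn d} (h : InL l c) (h' : InL l c') : InL l (c + c') := by
  obtain ⟨m, rfl⟩ := h
  obtain ⟨m', rfl⟩ := h'
  exact ⟨m + m', by simp [add_smul, Finset.sum_add_distrib]⟩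

theorem InL.sub {c c' : Cn d} (h : InL l c) (h' : InL l c') : InL l (c - c') := by
  rw [sub_eq_add_neg]
  exact h.add h'.neg

theorem card_eq : Fintype.card (Fin (2 * d)) = Module.finrank ℝ (Cn d) := by
  rw [Fintype.card_fin, ← Module.finrank_mul_finrank ℝ ℂ (Cn d), Complex.finrank_real_complex,
    finrank_euclideanSpace_fin]

/-- the basis of a lattice -/
def bas (hl : LinearIndependent ℝ l) : Module.Basis (Fin (2 * d)) ℝ (Cn d) :=
  basisOfLinearIndependentOfCardEqFinrank' l hl card_eq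

theorem bas_apply (hl : LinearIndependent ℝ l) (k : Fin (2 * d)) : bas hl k = l k := by
  simp [bas]

theorem repr_inL (hl : LinearIndependent ℝ l) {m : Fin (2 * d) → ℤ} (k : Fin (2 * d)) :
    (bas hl).repr (∑ k, (m k : ℝ) • l k) k = m k := by
  have h : ∑ k, (m k : ℝ) • l k = ∑ k, (m k : ℝ) • bas hl k := by
    simp only [bas_apply]
  rw [h, Module.Basis.repr_sum_self]

theorem exists_eps (hl : LinearIndependent ℝ l) :
    ∃ ε : ℝ, 0 < ε ∧ ∀ c, InL l c → ‖c‖ < ε → c = 0 := by
  let T : Cn d →L[ℝ] (Fin (2 * d) → ℝ) :=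
    ((bas hl).equivFun : Cn d →ₗ[ℝ] (Fin (2 * d) → ℝ)).toContinuousLinearMap
  have hT : ∀ᶠ c in 𝓝 (0 : Cn d), ‖T c‖ < 1 := by
    have h1 : Tendsto (fun c => ‖T c‖) (𝓝 0) (𝓝 ‖T 0‖) := (T.continuous.norm).tendsto 0
    rw [map_zero, norm_zero] at h1
    exact h1.eventually (gt_mem_nhds one_pos)
  obtain ⟨ε, hε, h⟩ := Metric.eventually_nhds_iff.1 hT
  refine ⟨ε, hε, ?_⟩
  rintro c ⟨m, rfl⟩ hc
  have h1 := h (y := ∑ k, (m k : ℝ) • l k) (by rwa [dist_zero_right])
  have h2 : ∀ k, m k = 0 := by
    intro k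
    have h3 : |((m k : ℤ) : ℝ)| < 1 := by
      have h4 : T (∑ k, (m k : ℝ) • l k) k = m k := repr_inL hl k
      have h5 := norm_le_pi_norm (T (∑ k, (m k : ℝ) • l k)) k
      rw [h4, Real.norm_eq_abs] at h5
      exact h5.trans_lt h1
    have h6 : |m k| < 1 := by exact_mod_cast h3
    exact Int.abs_lt_one_iff.1 h6
  simp [h2]

theorem exists_cpt (hl : LinearIndependent ℝ l) :
    ∃ K : Set (Cn d), IsCompact K ∧ ∀ c, ∃ c' ∈ K, InL l (c - c') := by
  have hcont : Continuous fun t : Fin (2 * d) → ℝ => ∑ k, t k • l k := by fun_prop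
  refine ⟨_, (isCompact_univ_pi fun _ => isCompact_Icc (a := (0 : ℝ)) (b := 1)).image hcont, ?_⟩
  intro c
  refine ⟨_, ⟨fun k => Int.fract ((bas hl).repr c k), fun k _ =>
    ⟨Int.fract_nonneg _, (Int.fract_lt_one _).le⟩, rfl⟩, fun k => ⌊(bas hl).repr c k⌋, ?_⟩
  have h1 : c = ∑ k, (bas hl).repr c k • l k := by
    conv_lhs => rw [← (bas hl).sum_repr c]
    simp only [bas_apply]
  have h2 : c - ∑ k, Int.fract ((bas hl).repr c k) • l k =
      ∑ k, (bas hl).repr c k • l k - ∑ k, Int.fract ((bas hl).repr c k) • l k := by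
    rw [← h1]
  refine h2.trans ?_
  rw [← Finset.sum_sub_distrib]
  refine Finset.sum_congr rfl fun k _ => ?_
  rw [← sub_smul]
  congr 1
  have := Int.floor_add_fract ((bas hl).repr c k)
  linarith

/-! ### the torus -/

section Tor

variable {M : Type} [TopologicalSpace M]

/-- a continuous map whose fibres are the cosets of a lattice -/
structure TDat (l : Fin (2 * d) → Cn d) (Φ : Cn d → M) : Prop where
  li : LinearIndependent ℝ l
  cont : Continuous Φ
  eq : ∀ c c', Φ c = Φ c' ↔ InL l (c - c')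

variable {Φ : Cn d → M}

/-- the map onto the image -/
def q (Φ : Cn d → M) : Cn d → range Φ := rangeFactorization Φ

theorem q_val (c : Cn d) : (q Φ c : M) = Φ c := rfl

theorem q_surj : Function.Surjective (q Φ) := rangeFactorization_surjective

namespace TDat

variable (D : TDat l Φ)
include D

theorem qcont : Continuous (q Φ) := D.cont.subtype_mk _

theorem q_eq {c c' : Cn d} : q Φ c = q Φ c' ↔ InL l (c - c') := by
  rw [← D.eq c c', Subtype.ext_iff]
  rfl

theorem cpt : CompactSpace (range Φ) := by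
  obtain ⟨K, hK, h⟩ := exists_cpt D.li
  refine isCompact_iff_compactSpace.1 ?_
  have : range Φ = Φ '' K := by
    refine (range_subset_iff.2 fun c => ?_).antisymm (image_subset_range _ _)
    obtain ⟨c', hc', h1⟩ := h c
    exact ⟨c', hc', ((D.eq c c').2 h1).symm⟩
  rw [this]
  exact hK.image D.cont

theorem conn : ConnectedSpace (range Φ) :=
  isConnected_iff_connectedSpace.1 (isConnected_range D.cont)

theorem isOpenMap [T2Space M] : IsOpenMap (q Φ) := by
  intro U hU
  obtain ⟨K, hK, h⟩ := exists_cpt D.li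
  have h1 : IsOpen (q Φ ⁻¹' (q Φ '' U)) := by
    rw [isOpen_iff_mem_nhds]
    rintro c ⟨u, hu, huc⟩
    have h2 : InL l (u - c) := D.q_eq.1 huc
    have h3 : (fun c' => c' + (u - c)) ⁻¹' U ∈ 𝓝 c := by
      refine (continuous_add_const (u - c)).continuousAt.preimage_mem_nhds ?_
      rw [add_sub_cancel]
      exact hU.mem_nhds hu
    filter_upwards [h3] with c' hc'
    refine ⟨c' + (u - c), hc', D.q_eq.2 ?_⟩
    rwa [add_sub_cancel_left]
  have h2 : (q Φ '' U)ᶜ = q Φ '' (K ∩ (q Φ ⁻¹' (q Φ '' U))ᶜ) := by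
    ext y
    constructor
    · intro hy
      obtain ⟨c, rfl⟩ := q_surj y
      obtain ⟨c', hc', h3⟩ := h c
      have h4 : q Φ c = q Φ c' := D.q_eq.2 h3
      exact ⟨c', ⟨hc', fun h5 => hy (by rw [h4]; exact h5)⟩, h4.symm⟩
    · rintro ⟨c, hc, rfl⟩
      exact hc.2
  rw [← isClosed_compl_iff, h2]
  exact ((hK.inter_right h1.isClosed_compl).image D.qcont).isClosed

/-- half of the minimal norm -/
def ep : ℝ := (exists_eps D.li).choose / 2

theorem ep_pos : 0 < D.ep := half_pos (exists_eps D.li).choose_spec.1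

theorem injOn (c0 : Cn d) : InjOn (q Φ) (ball c0 D.ep) := by
  intro c hc c' hc' h
  have h1 : c - c' = 0 := by
    refine (exists_eps D.li).choose_spec.2 _ (D.q_eq.1 h) ?_
    rw [← dist_eq_norm]
    calc dist c c' ≤ dist c c0 + dist c' c0 := dist_triangle_right _ _ _
      _ < D.ep + D.ep := add_lt_add hc hc'
      _ = _ := by rw [ep]; ring
  exact sub_eq_zero.1 h1

/-- the parametrization around `c0` -/
def pr [T2Space M] (c0 : Cn d) : OpenPartialHomeomorph (Cn d) (range Φ) :=
  OpenPartialHomeomorph.ofContinuousOpen ((D.injOn c0).toPartialEquiv (q Φ) (ball c0 D.ep))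
    D.qcont.continuousOn D.isOpenMap isOpen_ball

variable [T2Space M]

theorem pr_apply (c0 c : Cn d) : D.pr c0 c = q Φ c := rfl

theorem pr_source (c0 : Cn d) : (D.pr c0).source = ball c0 D.ep := rfl

/-- the charts -/
@[reducible] def charted : ChartedSpace (Cn d) (range Φ) where
  atlas := range fun c0 : Cn d => (D.pr c0).symm
  chartAt y := (D.pr (q_surj y).choose).symm
  mem_chart_source y := by
    have h := (q_surj y).choose_spec
    set c := (q_surj y).choose
    rw [OpenPartialHomeomorph.symm_source, ← h]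
    exact (D.pr c).map_source (mem_ball_self D.ep_pos)
  chart_mem_atlas y := ⟨_, rfl⟩

/-- the transition maps are locally translations -/
theorem trans (c1 : Cn d) {z : Cn d} (h : q Φ z ∈ (D.pr c1).target) :
    (fun w => (D.pr c1).symm (q Φ w)) =ᶠ[𝓝 z] fun w => w + ((D.pr c1).symm (q Φ z) - z) := by
  set v := (D.pr c1).symm (q Φ z) with hv
  have h1 : v ∈ ball c1 D.ep := (D.pr c1).map_target h
  have h2 : q Φ v = q Φ z := (D.pr c1).right_inv h
  have h3 : (fun w => w + (v - z)) ⁻¹' (ball c1 D.ep) ∈ 𝓝 z := by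
    refine (continuous_add_const (v - z)).continuousAt.preimage_mem_nhds ?_
    rw [add_sub_cancel]
    exact isOpen_ball.mem_nhds h1
  filter_upwards [h3] with w hw
  have h4 : q Φ w = q Φ (w + (v - z)) := by
    rw [D.q_eq]
    have h5 := (D.q_eq.1 h2).neg
    have : w - (w + (v - z)) = -(v - z) := by abel
    rwa [this]
  rw [h4]
  exact (D.pr c1).left_inv hw

theorem manifold : let _ := D.charted; IsManifold 𝓘(ℂ, Cn d) 1 (range Φ) := by
  let _ := D.charted
  apply isManifold_of_contDiffOn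
  rintro _ _ ⟨c0, rfl⟩ ⟨c1, rfl⟩
  intro z hz
  have hz1 : z ∈ ((D.pr c0).symm.symm ≫ₕ (D.pr c1).symm).source := hz.1
  rw [OpenPartialHomeomorph.symm_symm, OpenPartialHomeomorph.trans_source,
    OpenPartialHomeomorph.symm_source] at hz1
  have h1 := D.trans c1 (z := z) hz1.2
  have h2 : ContDiffAt ℂ 1 (fun w : Cn d => w + ((D.pr c1).symm (q Φ z) - z)) z :=
    contDiffAt_id.add contDiffAt_const
  exact (h2.congr_of_eventuallyEq h1).contDiffWithinAt

end TDat

/-- **SBM-TOR**: an immersed complex torus in `M` is a submanifold -/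
theorem sbm_tor {N : ℕ} [T2Space M] [CompactSpace M] {A : Atl N M} [Finite A.ι] {Φ : Cn d → M}
    (hc : Continuous Φ)
    (hol : ∀ c i, Φ c ∈ (A.e i).source → DifferentiableAt ℂ (fun z => A.e i (Φ z)) c ∧
      Function.Injective (fderiv ℂ (fun z => A.e i (Φ z)) c))
    {l : Fin (2 * d) → Cn d} (hl : LinearIndependent ℝ l)
    (hΦ : ∀ c c', Φ c = Φ c' ↔ ∃ m : Fin (2 * d) → ℤ, c - c' = ∑ k, (m k : ℝ) • l k) :
    ∃ (Y : Type) (_ : TopologicalSpace Y) (_ : T2Space Y) (_ : CompactSpace Y)
      (_ : ConnectedSpace Y) (B : Atl d Y) (_ : Finite B.ι) (j : Y → M) (_ : Un_360.Sbm B A j),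
      Set.range j = Set.range Φ := by
  have D : TDat l Φ := ⟨hl, hc, hΦ⟩
  let _ := D.charted
  have _ : CompactSpace (range Φ) := D.cpt
  have _ : IsManifold 𝓘(ℂ, Cn d) 1 (range Φ) := D.manifold
  obtain ⟨G, -, ⟨PB⟩, hF, hs⟩ := exists_goodAtl (m := d) (M := range Φ)
    (fun i : A.ι => Subtype.val ⁻¹' (A.e i).source)
    (fun i => (A.e i).open_source.preimage continuous_subtype_val) (fun x => A.cover x.1)
  choose r hr using hs
  -- the charts of `goodAtl G` are affine reparametrizations of `Φ`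
  have key : ∀ i : (goodAtl G).ι, ∃ (a : ℂ) (b : Cn d), a ≠ 0 ∧
      ∀ z ∈ ((goodAtl G).e i).target, (((goodAtl G).e i).symm z : M) = Φ (a • z + b) := by
    intro i
    obtain ⟨c0, h0⟩ := G.e_mem i
    refine ⟨((2 * G.r : ℝ) : ℂ), G.e i (G.c i) - ((2 * G.r : ℝ) : ℂ) • ctr d, ?_, fun z _ => ?_⟩
    · have := G.r_pos
      exact_mod_cast (by positivity : (2 * G.r : ℝ) ≠ 0)
    · have h1 : ((goodAtl G).e i).symm z =
          (G.e i).symm ((aff (G.e i (G.c i)) G.r G.r_pos).symm z) := G.ch_symm_apply i z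
      have h2 : ∀ w, (G.e i).symm w = q Φ w := by
        intro w
        rw [← h0]
        rfl
      rw [h1, h2, q_val, aff_symm_apply]
      congr 1
      rw [smul_sub]
      abel
  have hrd : ∀ (i : (goodAtl G).ι) (k : A.ι), ∀ z ∈ dm (goodAtl G) A Subtype.val i k,
      DifferentiableAt ℂ (rd (goodAtl G) A Subtype.val i k) z ∧
      Function.Injective (fderiv ℂ (rd (goodAtl G) A Subtype.val i k) z) := by
    intro i k z hz
    obtain ⟨a, b, ha, h⟩ := key i
    have h1 : Φ (a • z + b) ∈ (A.e k).source := by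
      rw [← h z hz.1]
      exact hz.2
    obtain ⟨h2, h3⟩ := hol _ k h1
    have h4 : HasFDerivAt (fun z : Cn d => a • z + b) (a • ContinuousLinearMap.id ℂ (Cn d)) z :=
      ((hasFDerivAt_id z).const_smul a).add_const b
    have h5 : rd (goodAtl G) A Subtype.val i k =ᶠ[𝓝 z]
        (fun z => A.e k (Φ z)) ∘ fun z : Cn d => a • z + b := by
      filter_upwards [((goodAtl G).e i).open_target.mem_nhds hz.1] with w hw
      show A.e k ((((goodAtl G).e i).symm w : range Φ) : M) = A.e k (Φ (a • w + b))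
      rw [h w hw]
    have h6 := (h2.hasFDerivAt.comp z h4).congr_of_eventuallyEq h5
    refine ⟨h6.differentiableAt, ?_⟩
    rw [h6.fderiv]
    intro u v huv
    have h7 : a • u = a • v := h3 huv
    exact smul_right_injective _ ha h7
  have hol' : HolMap (goodAtl G) A Subtype.val :=
    ⟨continuous_subtype_val, fun i k z hz => (hrd i k z hz).1.differentiableWithinAt⟩
  exact ⟨range Φ, inferInstance, inferInstance, D.cpt, D.conn, goodAtl G, hF, Subtype.val,
    ⟨hol', ⟨r, fun i x hx => hr i hx⟩, Subtype.val_injective, fun i k z hz => (hrd i k z hz).2,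
      PB⟩, Subtype.range_val⟩

end Tor

end

end Crest.Agent.R281.Sbt_530
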