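import Crest.Agent.R281.Sbt1_530
import Crest.Agent.R281.OpT1_330

/-!
# R281 (S0424), UNIQ, SBM-TOR (helper530), part 2: real coordinates, `HTor`

* `trv hl`    : the real coordinates of a lattice, `x ↦ ∑ k, x k • l k`;
* `htor_of`   : `Φ ∘ trv hl` is a holomorphic immersed torus in the sense of helper330;
* `inj_of`    : it is injective modulo `ℤ^(2d)`;
* `sbm_htor`  : SBM-TOR for an `HTor` injective modulo `ℤ^δ`;
* `sbm_both`  : both outputs of the data of `sbm_tor`.
-/

set_option autoImplicit false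
set_option linter.unusedSectionVars false

open Set Filter Topology Complex Metric
open scoped ContDiff Manifold

namespace Crest.Agent.R281.Sbt_530

open Crest.Agent.R275.Geo Crest.Agent.R275.GC293
open Crest.Agent.R273.Map_835 Crest.Agent.R273.PB_835
open Crest.Agent.R281.OpT_330 (HTor)
open Crest.Agent.R281.Op3_569 (Per)

noncomputable section

variable {d N : ℕ} {l : Fin (2 * d) → Cn d} {M : Type} [TopologicalSpace M] {A : Atl N M}

/-- real coordinates of a lattice -/
def trv (hl : LinearIndependent ℝ l) : (Fin (2 * d) → ℝ) ≃L[ℝ] Cn d :=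
  ((bas hl).equivFun.symm).toContinuousLinearEquiv

theorem trv_apply (hl : LinearIndependent ℝ l) (x : Fin (2 * d) → ℝ) :
    trv hl x = ∑ k, x k • l k := by
  show (bas hl).equivFun.symm x = _
  rw [Module.Basis.equivFun_symm_apply]
  simp only [bas_apply]

/-- the immersed torus in real coordinates -/
theorem htor_of {Φ : Cn d → M} (hc : Continuous Φ)
    (hol : ∀ c i, Φ c ∈ (A.e i).source → DifferentiableAt ℂ (fun z => A.e i (Φ z)) c ∧
      Function.Injective (fderiv ℂ (fun z => A.e i (Φ z)) c))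
    (hl : LinearIndependent ℝ l)
    (hΦ : ∀ c (m : Fin (2 * d) → ℤ), Φ (c + ∑ k, (m k : ℝ) • l k) = Φ c) :
    HTor A (trv hl) fun x => Φ (trv hl x) := by
  refine ⟨hc.comp (trv hl).continuous, ?_, ?_, ?_⟩
  · intro m x
    show Φ (trv hl (x + fun i => (m i : ℝ))) = Φ (trv hl x)
    rw [map_add, trv_apply hl (fun i => (m i : ℝ))]
    exact hΦ _ m
  · intro i z hz
    simp only [ContinuousLinearEquiv.apply_symm_apply] at hz ⊢
    exact (hol z i hz).1
  · intro i z hz
    simp only [ContinuousLinearEquiv.apply_symm_apply] at hz ⊢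
    exact (hol z i hz).2

theorem inj_of {Φ : Cn d → M} (hl : LinearIndependent ℝ l)
    (hΦ : ∀ c c', Φ c = Φ c' ↔ ∃ m : Fin (2 * d) → ℤ, c - c' = ∑ k, (m k : ℝ) • l k)
    {x y : Fin (2 * d) → ℝ} (h : Φ (trv hl x) = Φ (trv hl y)) :
    ∃ m : Fin (2 * d) → ℤ, y = x + fun i => (m i : ℝ) := by
  obtain ⟨m, hm⟩ := (hΦ _ _).1 h
  have h1 : trv hl (x - y) = trv hl (fun i => (m i : ℝ)) := by
    rw [map_sub, hm, trv_apply]
  have h2 := (trv hl).injective h1
  refine ⟨-m, ?_⟩
  funext i
  have h3 := congrFun h2 i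
  simp only [Pi.sub_apply] at h3
  simp only [Pi.add_apply, Pi.neg_apply, Int.cast_neg]
  linarith

theorem range_trv {Φ : Cn d → M} (hl : LinearIndependent ℝ l) :
    range (fun x => Φ (trv hl x)) = range Φ :=
  (trv hl).surjective.range_comp Φ

/-- **SBM-TOR**, both outputs: the submanifold and its real coordinates -/
theorem sbm_both [T2Space M] [CompactSpace M] [Finite A.ι] {Φ : Cn d → M}
    (hc : Continuous Φ)
    (hol : ∀ c i, Φ c ∈ (A.e i).source → DifferentiableAt ℂ (fun z => A.e i (Φ z)) c ∧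
      Function.Injective (fderiv ℂ (fun z => A.e i (Φ z)) c))
    (hl : LinearIndependent ℝ l)
    (hΦ : ∀ c c', Φ c = Φ c' ↔ ∃ m : Fin (2 * d) → ℤ, c - c' = ∑ k, (m k : ℝ) • l k) :
    ∃ (Y : Type) (_ : TopologicalSpace Y) (_ : T2Space Y) (_ : CompactSpace Y)
      (_ : ConnectedSpace Y) (B : Atl d Y) (_ : Finite B.ι) (j : Y → M) (_ : Un_360.Sbm B A j),
      range j = range Φ ∧ range (fun x => Φ (trv hl x)) = range j ∧
      HTor A (trv hl) (fun x => Φ (trv hl x)) ∧
      ∀ x y, Φ (trv hl x) = Φ (trv hl y) → ∃ m : Fin (2 * d) → ℤ, y = x + fun i => (m i : ℝ) := by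
  obtain ⟨Y, h1, h2, h3, h4, B, h5, j, I, h6⟩ := sbm_tor hc hol hl hΦ
  refine ⟨Y, h1, h2, h3, h4, B, h5, j, I, h6, ?_, ?_, fun x y h => inj_of hl hΦ h⟩
  · rw [h6]
    exact range_trv hl
  · refine htor_of hc hol hl fun c m => (hΦ _ _).2 ⟨m, ?_⟩
    rw [add_sub_cancel_left]

/-- **SBM-TOR** for a torus in real coordinates -/
theorem sbm_htor [T2Space M] [CompactSpace M] [Finite A.ι]
    {T : (Fin (2 * d) → ℝ) ≃L[ℝ] Cn d} {F : (Fin (2 * d) → ℝ) → M} (hF : HTor A T F)
    (hi : ∀ x y, F x = F y → ∃ m : Fin (2 * d) → ℤ, y = x + fun i => (m i : ℝ)) :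
    ∃ (Y : Type) (_ : TopologicalSpace Y) (_ : T2Space Y) (_ : CompactSpace Y)
      (_ : ConnectedSpace Y) (B : Atl d Y) (_ : Finite B.ι) (j : Y → M) (_ : Un_360.Sbm B A j),
      range j = range F := by
  classical
  have hT : ∀ x : Fin (2 * d) → ℝ, T x = ∑ k, x k • T (Pi.single k 1) := by
    intro x
    conv_lhs => rw [← Finset.univ_sum_single x]
    rw [map_sum]
    refine Finset.sum_congr rfl fun k _ => ?_
    rw [← map_smul]
    congr 1
    ext i
    by_cases h : i = k
    · subst h; simp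
    · simp [h]
  have hl : LinearIndependent ℝ fun k : Fin (2 * d) => T (Pi.single k (1 : ℝ)) := by
    rw [Fintype.linearIndependent_iff]
    intro g hg k
    have h1 : T g = 0 := by rw [hT, hg]
    have h2 : g = 0 := T.injective (by rw [h1, map_zero])
    rw [h2]; rfl
  obtain ⟨Y, h1, h2, h3, h4, B, h5, j, I, h6⟩ := sbm_tor (A := A) (Φ := fun z => F (T.symm z))
    (hF.cont.comp T.symm.continuous)
    (fun c i hc => ⟨hF.hol i c hc, hF.inj i c hc⟩) hl (fun c c' => by
      constructor
      · intro h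
        obtain ⟨m, hm⟩ := hi _ _ h
        refine ⟨-m, ?_⟩
        have e : c - c' = T (T.symm c - T.symm c') := by
          rw [map_sub, T.apply_symm_apply, T.apply_symm_apply]
        rw [e, hm, hT]
        refine Finset.sum_congr rfl fun k _ => ?_
        simp
      · rintro ⟨m, hm⟩
        show F (T.symm c) = F (T.symm c')
        have e : T.symm c = T.symm c' + fun i => (m i : ℝ) := by
          apply T.injective
          rw [map_add, T.apply_symm_apply, T.apply_symm_apply, hT fun i => (m i : ℝ), ← hm]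
          abel
        rw [e]
        exact hF.per m _)
  refine ⟨Y, h1, h2, h3, h4, B, h5, j, I, h6.trans ?_⟩
  exact T.symm.surjective.range_comp F

end

end Crest.Agent.R281.Sbt_530
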