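import Crest.Agent.R281.Sk0_474
import Crest.Agent.R281.Rank281_902
import Crest.Agent.R281.SkM6_474
import Crest.Agent.R281.Rkd4_386
import Crest.Agent.R281.NefRay6_326

/-!
# R281 (S0424), SKEL281 (helper474): the top of the proof

`main281_of_nodes` : `Main281` from the nodes which are not landed yet. Proved nodes are plugged
in here as they land: `SetupP`, `MemHypP` (474), `PresP` (386), `NefRayP` (326).
-/

set_option autoImplicit false
set_option linter.unusedSectionVars false

namespace Crest.Agent.R281.Sk_474

open Crest.Agent.R281.Defs_273 Crest.Agent.R281.RkD_902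

/-- **`Main281` from the open nodes** -/
theorem main281_of_nodes {Alg : AlgTT} {Tub : TubTT} (box : BoxP) (road : RoadP Alg)
    (chartEnd : ChartEndP Alg) (tori : ToriP Alg Tub) (kappa : KappaP Alg Tub) (end6 : END6)
    (op : OpenP Tub) (semi : SemiP) : Main281 :=
  main281_of end6 (Rank281_902.rank281_of SkM_474.setupP box road chartEnd
    (NefRay_326.nefRayP Alg) tori Rkd_386.presP SkM_474.memHypP kappa end6 op semi)

end Crest.Agent.R281.Sk_474
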