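import Crest.Agent.R281.Sk1_474
import Crest.Agent.R281.D6z_986

/-!
# R281 (S0424), SKEL281 (helper474): the top of the proof with `END6` unfolded

`main281_of_leaves` : `Main281` from the open nodes of `RkD_902` and of `D6y_986`.
-/

set_option autoImplicit false
set_option linter.unusedSectionVars false

namespace Crest.Agent.R281.Sk_474

open Crest.Agent.R281.Defs_273 Crest.Agent.R281.RkD_902 Crest.Agent.R281.D6_986

/-- **`Main281` from the open nodes** -/
theorem main281_of_leaves {Alg : AlgTT} {Tub : TubTT} (box : BoxP) (road : RoadP Alg)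
    (chartEnd : ChartEndP Alg) (tori : ToriP Alg Tub) (kappa : KappaP Alg Tub)
    (op : OpenP Tub) (semi : SemiP) (rich : RichStmt) (low : LowStmt) (om : OmStmt)
    (sk : SKStmt) (up : UPreStmt) (ct : ContStmt) (sl : SliceStmt) : Main281 :=
  main281_of_nodes box road chartEnd tori kappa (end6_of_nodes rich low om sk up ct sl) op semi

end Crest.Agent.R281.Sk_474
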