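import Crest.Agent.R281.Sk1_474
import Crest.Agent.R281.E6b_52
import Crest.Agent.R281.Up4_425
import Crest.Agent.R281.Rd4_326
import Crest.Agent.R281.BoxB_327
import Crest.Agent.R281.Alg1_867
import Crest.Agent.R281.TubT_831

/-!
# R281 (S0424), SKEL281 (helper474): division 6 is closed

* `end6` : `END6`, without hypothesis;
* `main281_of7` : `Main281` from the seven open nodes;
* `AlgM`, `TubM` : the predicates of 867 and 831 in the types of `RkD_902`;
* `main281_of_end` : `Main281` from `BoxFamP`, `Div2P`, `ChartEndP`, `ToriP`, `KappaP`, `OpenP`,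
  `SemiP` for these predicates.
-/

set_option autoImplicit false
set_option linter.unusedSectionVars false

namespace Crest.Agent.R281.Sk_474

open Crest.Agent.R281.Defs_273 Crest.Agent.R281.RkD_902

/-- the node `UPreP` -/
theorem uPreP : E6_373.UPreP := fun X o ⟨s⟩ H =>
  Up_425.uPreStmt X.n X.M X.A X.hn X.P X.K X.σ X.L X.h o s H

/-- **division 6** -/
theorem end6 : END6 := E6a_52.end6_of_upre uPreP

/-- **`Main281` from the seven open nodes** -/
theorem main281_of7 {Alg : AlgTT} {Tub : TubTT} (box : BoxP) (road : RoadP Alg)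
    (chartEnd : ChartEndP Alg) (tori : ToriP Alg Tub) (kappa : KappaP Alg Tub)
    (op : OpenP Tub) (semi : SemiP) : Main281 :=
  main281_of_nodes box road chartEnd tori kappa end6 op semi

/-- the algebraic data of the end (867) -/
abbrev AlgM : AlgTT := Alg_867.Alg

/-- the tube of tori (831) -/
abbrev TubM : TubTT := fun n _ _ _ _ _ C Q e H => Tub_831.Tub n C Q e H

/-- **`Main281` from the open nodes, for the predicates of 867 and 831** -/
theorem main281_of_end (box : BoxB_327.BoxFamP) (div2 : Rd_326.Div2P AlgM)
    (chartEnd : ChartEndP AlgM) (tori : ToriP AlgM TubM) (kappa : KappaP AlgM TubM)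
    (op : OpenP TubM) (semi : SemiP) : Main281 :=
  main281_of7 (BoxB_327.boxP_of box) (Rd_326.roadP AlgM div2) chartEnd tori kappa op semi

end Crest.Agent.R281.Sk_474
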