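import Crest.Agent.R281.Sk3_474
import Crest.Agent.R281.Ch9_151

/-!
# R281 (S0424), SKEL281 (helper474): the current top

Closed here: `ChartEndP` (151, 551; 139, 835, 457).
-/

set_option autoImplicit false
set_option linter.unusedSectionVars false

namespace Crest.Agent.R281.Sk_474

open Crest.Agent.R281.Defs_273 Crest.Agent.R281.RkD_902

/-- the node `ChartEndP` -/
theorem chartEndM : ChartEndP AlgM := Ch_151.chartEndP AlgM

/-- **`Main281` from the open nodes** -/
theorem main281_now (box : BoxB_327.BoxFamP) (div2 : Rd_326.Div2P AlgM)
    (tori : ToriP AlgM TubM) (kappa : KappaP AlgM TubM)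
    (op : OpenP TubM) (semi : SemiP) : Main281 :=
  main281_of_end box div2 chartEndM tori kappa op semi

end Crest.Agent.R281.Sk_474
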