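import Crest.Agent.R281.Sk4_474
import Crest.Agent.R281.Bx9_557
import Crest.Agent.R281.Dvp1_326
import Crest.Agent.R281.Lf3_830

/-!
# R281 (S0424), SKEL281 (helper474): the current top

Closed here: `BoxP` (557, 327, 835, 900), `LiftP` (830).
-/

set_option autoImplicit false
set_option linter.unusedSectionVars false

namespace Crest.Agent.R281.Sk_474

open Crest.Agent.R281.Defs_273 Crest.Agent.R281.RkD_902
open Crest.Agent.R275.Geo Crest.Agent.R275.Core144

/-- the node `BoxP` -/
theorem boxM : BoxP := Bx_557.boxP_of_yau fun n _ _ _ _ _ C =>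
  ⟨_, Module.finBasis ℝ (Cn (2 * n)), Al_830.yauVar_of_V0 (Module.finBasis ℝ (Cn (2 * n)))
    (Ly4_457.v0 (C := C) (Module.finBasis ℝ (Cn (2 * n))))⟩

/-- LIFT (830) -/
theorem liftM : Dvp_326.LiftP := fun _ _ _ _ _ _ _ _ hC F => Lf_830.liftAll hC _ F _

/-- **`Main281` from the open nodes** -/
theorem main281_now5 (alg : Dvp_326.AlgP liftM AlgM)
    (tori : ToriP AlgM TubM) (kappa : KappaP AlgM TubM)
    (op : OpenP TubM) (semi : SemiP) : Main281 :=
  main281_of7 boxM (Dvp_326.roadP_of liftM alg) chartEndM tori kappa op semi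

end Crest.Agent.R281.Sk_474
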