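import Crest.Agent.R281.Sk5_474
import Crest.Agent.R281.Dvp2_326
import Crest.Agent.R281.OpG5_941

/-!
# R281 (S0424), SKEL281 (helper474): the current top, with `RoadP` and `OpenP` unfolded
-/

set_option autoImplicit false
set_option linter.unusedSectionVars false

namespace Crest.Agent.R281.Sk_474

open Crest.Agent.R281.Defs_273 Crest.Agent.R281.RkD_902

/-- **`Main281` from the open leaves** -/
theorem main281_now6 (memF : Dvp_326.MemFP) (tori : ToriP AlgM TubM)
    (kappa : KappaP AlgM TubM) (centre : OpG_941.CentreP) (tor : OpG_941.TorP TubM)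
    (semi : SemiP) : Main281 :=
  main281_of7 boxM (Dvp_326.roadP_of_memF memF) chartEndM tori kappa
    (OpG_941.openP_of centre tor) semi

end Crest.Agent.R281.Sk_474
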