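import Crest.Agent.R281.Tp5_836
import Crest.Agent.R281.Tub11_57
import Crest.Agent.R281.Cr2_808

/-!
# R281 (S0424), node ToriP, END 1 (helper836), file 6: the composition

* `holTube_of_tubeD` : `TubeD` of the scaled triple `(om 0, om 2)` with small constants ⟹ `HolTube`
  for `J 1`, `om 2 + i om 0` inside the tube
* `tub_of_mtub`      : member tube (808) + isomorphism (identity on classes) ⟹ `Tub`
* `toriP_of`         : the node `ToriP`
-/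

set_option autoImplicit false
set_option linter.unusedSectionVars false
set_option maxSynthPendingDepth 3
set_option synthInstance.maxHeartbeats 200000

open Set Metric Filter Topology Complex Function
open scoped NNReal ContDiff

namespace Crest.Agent.R281.Tp_836

open Crest.Agent.R275.Geo Crest.Agent.R275.Core144
open Crest.Agent.R275.EDR890
open Crest.Agent.R260.ACM_580 Crest.Agent.R260.NNB_580
open Crest.Agent.R281.HkR_835 Crest.Agent.R281.Ti_846 Crest.Agent.R281.Dif_268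
open Crest.Agent.R281.NefO_476 Crest.Agent.R281.Nef_252
open Crest.Agent.R281.Mc673 Crest.Agent.R281.T5D_808 Crest.Agent.R281.Ab_729
open Crest.Agent.R281.Bt_156 Crest.Agent.R281.Tub_836 Crest.Agent.R281.Tub_831
open Crest.Agent.R281.Alg_998 Crest.Agent.R281.RkD_902 Crest.Agent.R281.Cr_808
open Crest.Agent.R281.Per_368 (SmI pull pl)
open Crest.Agent.R281.Exo_368 (ExOn TubeO pvt_of_exOn)
open Crest.Agent.R238.Sch (ee)

noncomputable section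

theorem finrank_cn (n : ℕ) : Module.finrank ℝ (Cn n) = 2 * n := by
  have h : Module.finrank ℝ (Cn n) = 2 * Module.finrank ℂ (Cn n) := finrank_real_of_complex (Cn n)
  rw [h, finrank_euclideanSpace_fin]

section hol

variable {n : ℕ} {X : Type} [TopologicalSpace X] [CompactSpace X] [T2Space X]
  {C : RCh (Cn (2 * n)) X} {H : HkT C}

/-- holomorphic atlas of `J k` -/
theorem exists_atlK (H : HkT C) (k : Fin 3) : ∃ A : Atl (2 * n) X, Cp (H.acm k) A := by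
  obtain ⟨A, -, -, -, -, -, h4⟩ := exists_atl
    (Crest.Agent.R260.NN6_900.nnat (2 * n) (Cn (2 * n)) (finrank_cn _)) (H.acm_int k) (κ := Unit)
    (fun _ => (univ : Set X)) (fun _ => isOpen_univ) (fun x => ⟨(), mem_univ x⟩)
  exact ⟨A, h4⟩

theorem hJ1 {A : Atl (2 * n) X} (hA : Cp (H.acm 1) A) {i : A.ι} {z : Cn (2 * n)}
    (hz : z ∈ (A.e i).target) (u v : Cn (2 * n)) :
    ((cmp_of_cp hA).F (H.om 0)).w i z (I • u) v = ((cmp_of_cp hA).F (H.om 2)).w i z u v := by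
  have h1 := (((cmp_of_cp hA).hk H).om_J (k := 1) (l := 2) (m := 0)
    (Or.inr (Or.inl rfl)) (i := i) hz u v).2
  rw [hk_J_I hA i hz u] at h1
  exact h1

theorem pull_smul' {V₁ : Type} [NormedAddCommGroup V₁] [NormedSpace ℝ V₁] {C : RCh V₁ X}
    {E : Type} [NormedAddCommGroup E] [NormedSpace ℝ E]
    (c : ℝ) (a : F2 C) (Φ : E → X) (ζ : E) : pull (c • a) Φ ζ = c • pull a Φ ζ := by
  ext u v
  exact Per_368.pull_smul_w c a Φ ζ u v

/-- `TubeD` in the charts of `C` -/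
theorem tubeD_C {A : Atl (2 * n) X} {hp : Cp (H.acm 0) A} {L Λ δ R : ℝ} (hR : 0 < R)
    {Θ : W (2 * n) → X}
    (t : TubeD (ofAtl A) (L • (cmp_of_cp hp).F (H.om 0)) (L • (cmp_of_cp hp).F (H.om 2))
      (2 * n) R Λ δ Θ) : TubeD C (L • H.om 0) (L • H.om 2) (2 * n) R Λ δ Θ := by
  have hs0 : SmI C (tube (2 * n) R) Θ := smI_cmp (cmp_of_cp hp) t.sm
  have ep : ∀ (k : Fin 3), ∀ p ∈ tube (2 * n) R, pull (L • H.om k) Θ p =
      pull (L • (cmp_of_cp hp).F (H.om k)) Θ p := by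
    intro k p hpp
    rw [pull_smul', pull_smul', pull_cmp' (cmp_of_cp hp) hs0 _ hpp]
  exact tubeD_tr (cmp_of_cp hp).symm hR t (ep 0) (ep 2)

/-- **HolTube from the tube coordinates** -/
theorem holTube_of_tubeD {A : Atl (2 * n) X} {hp : Cp (H.acm 0) A} {L Λ δ R0 : ℝ} (hL : 0 < L)
    (hR0 : 0 < R0) {Θ : W (2 * n) → X}
    (hδ : ∀ x y : Mc673.Fo (2 * n), Hyp (2 * R0) Λ δ x y →
      ∃ a, Tori (2 * n) (2 * R0) R0 (1 / 2) x y a)
    (t : TubeD (ofAtl A) (L • (cmp_of_cp hp).F (H.om 0)) (L • (cmp_of_cp hp).F (H.om 2))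
      (2 * n) (2 * R0) Λ δ Θ) :
    ∃ (D : Set (Cn n)) (Φ : Cn n × Cn n → X) (lt : Fin (2 * n) → Cn n → Cn n)
      (τ : Cn n → Cn n → Cn n → ℂ), HolTube C (H.J 1) (H.om 2) (H.om 0) n D Φ lt τ ∧
      ∀ y ∈ D, ∀ x, Φ (y, x) ∈ Θ '' tube (2 * n) (2 * R0) := by
  have hR : 0 < 2 * R0 := by linarith
  obtain ⟨A1, hA1⟩ := exists_atlK H 1
  have hs0 : SmI C (tube (2 * n) (2 * R0)) Θ := smI_cmp (cmp_of_cp hp) t.sm
  have t0 : TubeD C (L • H.om 0) (L • H.om 2) (2 * n) (2 * R0) Λ δ Θ := tubeD_C (hp := hp) hR t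
  have t1 : TubeD (ofAtl A1) (L • (cmp_of_cp hA1).F (H.om 0)) (L • (cmp_of_cp hA1).F (H.om 2))
      (2 * n) (2 * R0) Λ δ Θ := by
    refine tubeD_tr (cmp_of_cp hA1) hR t0 (fun p hpp => ?_) (fun p hpp => ?_)
    · rw [pull_smul', pull_smul', pull_cmp' (cmp_of_cp hA1) hs0 _ hpp]
    · rw [pull_smul', pull_smul', pull_cmp' (cmp_of_cp hA1) hs0 _ hpp]
  have t2 := tubeD_neg t1
  obtain ⟨a, ha⟩ := hδ _ _ (hyp_tubeD t2)
  obtain ⟨ρ, U, f, hf, hf0, hUs, -⟩ := Tub_57.tube_hol t2 (fun i z hz u v => by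
    show L * _ = - - (L * _)
    rw [neg_neg]
    congr 1
    exact hJ1 hA1 hz u v) ha le_rfl rfl (c0 := 0) (by simpa using hR0)
  have hUt : U ⊆ Θ '' tube (2 * n) (2 * R0) := by
    refine hUs.trans (image_mono ?_)
    rintro p ⟨c, hc, hcp⟩
    have hc' : ‖c‖ ≤ R0 := (mem_ball_zero_iff.1 hc).le
    show ‖p.2‖ < 2 * R0
    rw [← hcp]
    exact ha.lt c hc' p.1
  obtain ⟨x0, hx0U, hx0⟩ := hf.ne 0 (by simpa using hf.pos)
  let U' : TopologicalSpace.Opens X := ⟨U, hf.op⟩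
  have hlag : ∀ i, ∀ x ∈ (A1.e i).source, x ∈ U' → ∀ u v,
      fderiv ℂ (fun z => f ((A1.e i).symm z)) (A1.e i x) u = 0 →
      fderiv ℂ (fun z => f ((A1.e i).symm z)) (A1.e i x) v = 0 →
      ((cmp_of_cp hA1).F (H.om 2)).w i (A1.e i x) u v = 0 ∧
      ((cmp_of_cp hA1).F (H.om 0)).w i (A1.e i x) u v = 0 := by
    intro i x hx hxU u v hu hv
    obtain ⟨h1, h2⟩ := hf.lag i x hx hxU u v hu hv
    have h1' : L * ((cmp_of_cp hA1).F (H.om 0)).w i (A1.e i x) u v = 0 := h1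
    have h2' : -(L * ((cmp_of_cp hA1).F (H.om 2)).w i (A1.e i x) u v) = 0 := h2
    rw [neg_eq_zero] at h2'
    exact ⟨(mul_eq_zero.1 h2').resolve_left hL.ne', (mul_eq_zero.1 h1').resolve_left hL.ne'⟩
  have hlf := lagF_of (H := H) (k := 1) (l := 2) (m := 0) (Or.inr (Or.inl rfl)) hA1
    (U := U') (f := f) hf.hol hf.surj hlag
  obtain ⟨D, Φ, lt, τ, h1, h2, -, -⟩ := exists_holTube (H := H) (k := 1) (l := 2) (m := 0)
    (Or.inr (Or.inl rfl)) hA1 hlf (x0 := x0) (T := {x | x ∈ U ∧ f x = 0}) ⟨hx0U, hx0⟩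
    (hf.cpt 0 (by simpa using hf.pos)) (hf.con 0 (by simpa using hf.pos)) (fun x hx => hx.1)
    (fun x hx => by rw [hx.2, hx0]) (O := univ) isOpen_univ (subset_univ _)
    (fun x _ hxU hx => ⟨hxU, by rw [hx, hx0]⟩)
  exact ⟨D, Φ, lt, τ, h1, fun y hy x => hUt (h2 y hy x).1⟩

/-- periods read in other charts -/
theorem per_cmp {A : Atl (2 * n) X} (h : Cmp C (ofAtl A)) {R : ℝ} {Θ : W (2 * n) → X}
    (hs : SmI C (tube (2 * n) R) Θ) (v : F2 C) {p : W (2 * n)} (hpp : p ∈ tube (2 * n) R)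
    (j k : Fin (2 * n)) :
    Per_368.per (pull v Θ) p ((ee j, 0) : W (2 * n)) ((ee k, 0) : W (2 * n)) =
      Per_368.per (pull (h.F v) Θ) p ((ee j, 0) : W (2 * n)) ((ee k, 0) : W (2 * n)) := by
  unfold Per_368.per
  refine intervalIntegral.integral_congr fun s _ => intervalIntegral.integral_congr fun r _ => ?_
  have hm : Per_368.pt p ((ee j, 0) : W (2 * n)) ((ee k, 0) : W (2 * n)) s r ∈
      tube (2 * n) R := by
    show ‖(Per_368.pt p ((ee j, 0) : W (2 * n)) ((ee k, 0) : W (2 * n)) s r).2‖ < R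
    have : (Per_368.pt p ((ee j, 0) : W (2 * n)) ((ee k, 0) : W (2 * n)) s r).2 = p.2 := by
      simp [Per_368.pt]
    rw [this]
    exact hpp
  exact congrArg (fun T : W (2 * n) →L[ℝ] W (2 * n) →L[ℝ] ℝ => T (ee j, 0) (ee k, 0))
    (pull_cmp' h hs v hm).symm

/-- **HolTube and zero periods from the tube of a member** -/
theorem holTube_of_mtub {Q : F2 C →ₗ[ℝ] F2 C →ₗ[ℝ] ℝ} {e : F2 C} {A : Atl (2 * n) X}
    {hp : Cp (H.acm 0) A} {L Λ δ R0 : ℝ} {hL : 0 < L} (hR0 : 0 < R0) {Θ : W (2 * n) → X}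
    (hδ : ∀ x y : Mc673.Fo (2 * n), Hyp (2 * R0) Λ δ x y →
      ∃ a, Tori (2 * n) (2 * R0) R0 (1 / 2) x y a)
    (t : Mtub H {v | Q v e = 0} (2 * R0) Λ δ A hp L hL Θ) :
    ∃ (D : Set (Cn n)) (Φ : Cn n × Cn n → X) (lt : Fin (2 * n) → Cn n → Cn n)
      (τ : Cn n → Cn n → Cn n → ℂ), HolTube C (H.J 1) (H.om 2) (H.om 0) n D Φ lt τ ∧
      PVT Q e D Φ lt ∧ ∀ y ∈ D, ∀ x, Φ (y, x) ∈ Θ '' tube (2 * n) (2 * R0) := by
  have hR : 0 < 2 * R0 := by linarith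
  have t0 := tubeD_C (hp := hp) hR t.tub
  obtain ⟨D, Φ, lt, τ, h1, h2⟩ := holTube_of_tubeD (hp := hp) hL hR0 hδ t.tub
  refine ⟨D, Φ, lt, τ, h1, ?_, h2⟩
  refine pvt_of_exOn h1 t0.toO.isOpen h2 fun v hv => ?_
  refine t0.toO.exOn_per hR fun j k θ => ?_
  have hm : ((θ, 0) : W (2 * n)) ∈ tube (2 * n) (2 * R0) := by
    show ‖(0 : Mc673.V (2 * n))‖ < _
    rw [norm_zero]
    exact hR
  rw [per_cmp (cmp_of_cp hp) t0.sm v hm]
  exact t.per v hv _ hm j k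

/-- **Tub from the tube of a member and an isomorphism** -/
theorem tub_of_mtub {Q : F2 C →ₗ[ℝ] F2 C →ₗ[ℝ] ℝ} (hX : Ctx n C Q) {e : F2 C} {H' : HkT C}
    (hpos : 0 < Q (H'.om 0) (H'.om 0)) (hiso : IsoId (ofHk H' 0) (ofHk H 1)) {A : Atl (2 * n) X}
    {hp : Cp (H.acm 0) A} {L Λ δ R0 : ℝ} {hL : 0 < L} (hR0 : 0 < R0) {Θ : W (2 * n) → X}
    (hδ : ∀ x y : Mc673.Fo (2 * n), Hyp (2 * R0) Λ δ x y →
      ∃ a, Tori (2 * n) (2 * R0) R0 (1 / 2) x y a)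
    (t : Mtub H {v | Q v e = 0} (2 * R0) Λ δ A hp L hL Θ) : Tub_831.Tub n C Q e H' := by
  obtain ⟨D, Φ, lt, τ, h1, h2, -⟩ := holTube_of_mtub hR0 hδ t
  obtain ⟨g, k, hb, hg, hid⟩ := hiso
  exact tub_of_iso hX.ex (hX.uniq H' hpos) hX.n1 hb hg hid
    (fun i z hz u v => (H.om_J (k := 1) (l := 2) (m := 0) (Or.inr (Or.inl rfl)) hz u v).1) h1 h2

end hol

/-! ### the node -/

/-- value of the parameter `Tub` of the nodes -/
def TubV : TubTT := fun n _ _ _ _ _ C Q e H => Tub_831.Tub n C Q e H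

/-- output of SDAT-RAY for the predicate `Alg` (273) -/
def SdatP (Alg : AlgTT) : Prop :=
  ∀ (n : ℕ) (X : Type) [TopologicalSpace X] [CompactSpace X] [T2Space X]
    [SimplyConnectedSpace X] (C : RCh (Cn (2 * n)) X) (Q : F2 C →ₗ[ℝ] F2 C →ₗ[ℝ] ℝ), Ctx n C Q →
    ∀ (F : Frm C Q) (A : F2 C) (K : Cusp F A), Alg n X C Q F A K →
    ∀ [MeasurableSpace X] [BorelSpace X], (∃ τ H, MemN K τ H) → SdatEnd K

/-- **the node `ToriP`** -/
theorem toriP_of (Alg : AlgTT) (hS : SdatP Alg) : ToriP Alg TubV := by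
  intro n X _ _ _ _ C Q hX H0 L0 e hG B R x hx hE
  let _ : MeasurableSpace X := borel X
  have : BorelSpace X := ⟨rfl⟩
  have hAe : Q R.A R.F.e = 0 := R.Ae
  obtain ⟨Λ, hΛ, hcore⟩ := core_ray_of hX R.K hAe (hS n X C Q hX R.F R.A R.K R.alg) |x|
  obtain ⟨δ, hδ, hT⟩ := toriR (2 * n) Λ (1 / 2) 1 hΛ (by norm_num) one_pos
  obtain ⟨Y1, hY⟩ := hcore (2 * 1) δ (by norm_num) hδ
  obtain ⟨K, -, hK⟩ := hE
  obtain ⟨t, ht⟩ : ∃ t : ℝ, Y1 < R.K.Y + Real.exp t := by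
    obtain ⟨t, ht⟩ := (Real.tendsto_exp_atTop.eventually_gt_atTop (Y1 - R.K.Y)).exists
    exact ⟨t, by linarith⟩
  obtain ⟨hm, hiso⟩ := hK t
  obtain ⟨A', -, -, -, hp, L, hL, Θ, hMt⟩ := hY ⟨x, R.K.Y + Real.exp t⟩ le_rfl ht (K t) hm
  rw [R.Fe] at hMt
  exact tub_of_mtub hX (B.pos2 R.a R.aB (R.c x) hx) hiso one_pos hT hMt

end

end Crest.Agent.R281.Tp_836
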