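import Crest.Agent.R281.Sk6_474
import Crest.Agent.R281.Centre_474
import Crest.Agent.R281.Mvs6_713
import Crest.Agent.R281.Tp6_836
import Crest.Agent.R281.Cr4_808

/-!
# R281 (S0424), SKEL281 (helper474): the current top

Closed here: `ToriP` (836, 808, 273, ...), `SemiP` (713, 323, 676, ...), `CentreP`.
-/

set_option autoImplicit false
set_option linter.unusedSectionVars false

namespace Crest.Agent.R281.Sk_474

open Crest.Agent.R281.Defs_273 Crest.Agent.R281.RkD_902

/-- SDAT-RAY (273, 808) -/
theorem sdatM : Tp_836.SdatP AlgM := by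
  intro n X _ _ _ _ C Q hX F A K hA _ _ h
  obtain ⟨a⟩ := hA
  exact Cr_808.sdatEnd hX K a h

/-- the node `ToriP` -/
theorem toriM : ToriP AlgM TubM := Tp_836.toriP_of AlgM sdatM

/-- **`Main281` from the open leaves** -/
theorem main281_now7 (memF : Dvp_326.MemFP) (kappa : KappaP AlgM TubM)
    (tor : OpG_941.TorP TubM) : Main281 :=
  main281_now6 memF toriM kappa centreP tor Mvs_713.semiP

end Crest.Agent.R281.Sk_474
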