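import Crest.Agent.R281.Sk8_474
import Crest.Agent.R281.Rd_548

/-!
# R281 (S0424), SKEL281 (helper474): **`Main281`**
-/

set_option autoImplicit false
set_option linter.unusedSectionVars false

namespace Crest.Agent.R281.Sk_474

open Crest.Agent.R281.Defs_273 Crest.Agent.R281.RkD_902

/-- the node `KappaP` -/
theorem kappaM : KappaP AlgM TubM :=
  Kap_975.kappaP_of AlgM TubM (Qb_975.qtubP_of_mq (Qb_975.mq_of Rd_548.real_data))

/-- **the theorem of row 281 in the language of atlases** -/
theorem main281 : Main281 := main281_of_kappa kappaM

end Crest.Agent.R281.Sk_474
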