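import Crest.Agent.R281.SkM2_474
import Crest.Agent.R281.Al5_830
import Crest.Agent.R281.Ti9_846

/-!
# R281 (S0424), SIG-MEM (helper474), part 3: the topological form

* `topI_of`  : **`TopI` exists** for the manifold of the statement
* `q_hk_all`, `q_om_all`, `polar_om_all` : values of `q` on every hyperkaehler triple (no sign)
* `neg_mem`  : negative definite modulo exact forms on the complement of a positive triple
-/

set_option autoImplicit false
set_option linter.unusedSectionVars false
set_option maxSynthPendingDepth 3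

open Set Filter Topology Function MeasureTheory Complex
open scoped ContDiff Matrix ComplexConjugate ComplexOrder

namespace Crest.Agent.R281.SkM_474

open Crest.Agent.R275.Geo Crest.Agent.R275.Core144 Crest.Agent.R275.EDR890
open Crest.Agent.R275.GC293
open Crest.Agent.R273.Defs_333 Crest.Agent.R273.Kah_333
open Crest.Agent.R260.ACM_580 Crest.Agent.R260.NNB_580
open Crest.Agent.R281.Defs_273
open Crest.Agent.R281.FujP_513 (Symm mixv)
open Crest.Agent.R281.FujSig_358
open Crest.Agent.R281.HkR_835 hiding pb pb_apply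
open Crest.Agent.R281.HkR_835.Cmp
open Crest.Agent.R281.Ti_846 hiding pb pb_apply
open Crest.Agent.R281.Dif_268
open Crest.Agent.R281.NefO_476
open Crest.Agent.R281.Nef_252 (T11 T11_hk Pos_hk eqv_ex_sub jA)
open Crest.Agent.R281.Al_830
open Crest.Agent.R281.Fuj7_207 (bn Tn fujiki_Tn)
open Crest.Agent.R281.Fuj5_207 (E11 reS imS)
open Crest.Agent.R281.Fuj1_207 (qf)

noncomputable section

/-! ### existence -/

section exist

variable {d : ℕ} {X : Type} [TopologicalSpace X] [T2Space X] [CompactSpace X] [ConnectedSpace X]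
  {n : ℕ}

/-- **`TopI` for the given manifold** -/
theorem topI_of (hd : d = n + n) (hn : 1 ≤ n) (hn2 : 2 ≤ n + n) {A : Atl d X} [Finite A.ι]
    (PA : Part A) (K : Kah A) (σ : HSymp A) (hu : σ.Uniq) (hc : ClH σ.toH2) :
    ∃ P : RPart (ofAtl A), TopI (lc d) (bn hd) P (qf (Tn hd PA) hn2 n (reS σ.toH2 hc)) := by
  obtain ⟨P, hP, -⟩ := exists_RPart (ofAtl A) (fun _ => univ) (fun _ => univ_mem)
  have S := Crest.Agent.R281.Fuj8_207.sig hd PA hn K σ hu hc hn2
  refine ⟨P, hn, ori_ofAtl A, hP, fun x => ?_, reS σ.toH2 hc, imS σ.toH2 hc, (ofKah K).f2,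
    fun x h1 h2 h3 => (S.neg h1 h2 h3).1⟩
  rw [← S.fuj x]
  exact II_part (lc d) (bn hd) P (ori_ofAtl A) (RPart.ofPart PA) fun _ => x

end exist

/-! ### values on the triples -/

section values

variable {V X : Type} [NormedAddCommGroup V] [NormedSpace ℝ V] [FiniteDimensional ℝ V]
  [MeasurableSpace V] [BorelSpace V] {μ : Measure V} [μ.IsAddHaarMeasure]
  [TopologicalSpace X] [CompactSpace X] [T2Space X] {C : RCh V X} {n : ℕ}
  {b : Module.Basis (Fin (n + n) × Fin 2) ℝ V} {P : RPart C} {q : QuadraticForm ℝ (F2 C)}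

/-- the values of `q` on a hyperkaehler triple -/
theorem q_hk_all (T : TopI μ b P q) (H : HkT C) (a c d : ℝ) :
    q (a • H.om 0 + c • H.om 1 + d • H.om 2) = (a ^ 2 + c ^ 2 + d ^ 2) * q (H.om 0) := by
  have hn := T.npos
  by_cases h0 : q (H.om 0) = 0
  · have h1 := T.q_hk_pow H a c d
    rw [h0, mul_zero, zero_pow hn.ne'] at h1
    rw [h0, mul_zero]
    exact (pow_eq_zero_iff hn.ne').1 h1
  · set y : F2 C := a • H.om 0 + c • H.om 1 + d • H.om 2 with hy
    set f : QuadraticForm ℝ (F2 C) := (q (H.om 0))⁻¹ • q with hf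
    have hf0 : f (H.om 0) = 1 := by
      rw [hf, QuadraticMap.smul_apply, smul_eq_mul, inv_mul_cancel₀ h0]
    have h1 : ∀ t : ℝ, f (H.om 0 + t • y) ^ n =
        ((1 + t * a) ^ 2 + (t * c) ^ 2 + (t * d) ^ 2) ^ n := by
      intro t
      have e1 : H.om 0 + t • y =
          (1 + t * a) • H.om 0 + (t * c) • H.om 1 + (t * d) • H.om 2 := by
        rw [hy, smul_add, smul_add, smul_smul, smul_smul, smul_smul, add_smul, one_smul]
        abel
      rw [e1, hf, QuadraticMap.smul_apply, smul_eq_mul, mul_pow, T.q_hk_pow, ← mul_pow]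
      congr 1
      field_simp
    have h2 : ∀ᶠ t : ℝ in 𝓝 0, 1 + t * QuadraticMap.polar f (H.om 0) y + t ^ 2 * f y =
        1 + t * (2 * a) + t ^ 2 * (a ^ 2 + c ^ 2 + d ^ 2) := by
      have h3 : ∀ᶠ t : ℝ in 𝓝 0, 0 < (1 + t * a) ^ 2 + (t * c) ^ 2 + (t * d) ^ 2 := by
        have h4 : Continuous fun t : ℝ => (1 + t * a) ^ 2 + (t * c) ^ 2 + (t * d) ^ 2 := by
          fun_prop
        have h5 := h4.tendsto 0
        simp only [zero_mul, add_zero] at h5
        exact h5.eventually (lt_mem_nhds (by norm_num))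
      filter_upwards [ev_pos_line f y (by rw [hf0]; norm_num), h3] with t ht1 ht2
      have h6 := (pow_left_inj₀ ht1.le ht2.le hn.ne').1 (h1 t)
      rw [q_line, hf0] at h6
      rw [h6]
      ring
    have h3 := (quad_eq h2).2.2
    rw [hf, QuadraticMap.smul_apply, smul_eq_mul] at h3
    rw [← h3]
    field_simp

theorem q_om_all (T : TopI μ b P q) (H : HkT C) (k : Fin 3) : q (H.om k) = q (H.om 0) := by
  fin_cases k
  · rfl
  · simpa using q_hk_all T H 0 1 0
  · simpa using q_hk_all T H 0 0 1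

theorem polar_om_all (T : TopI μ b P q) (H : HkT C) {k l : Fin 3} (hkl : k ≠ l) :
    QuadraticMap.polar q (H.om k) (H.om l) = 0 := by
  have h01 := q_hk_all T H 1 1 0
  have h02 := q_hk_all T H 1 0 1
  have h12 := q_hk_all T H 0 1 1
  have e1 := q_om_all T H 1
  have e2 := q_om_all T H 2
  simp only [one_smul, zero_smul, add_zero, zero_add, one_pow] at h01 h02 h12
  have p01 : QuadraticMap.polar q (H.om 0) (H.om 1) = 0 := by
    rw [polar_eq, h01, e1]; ring
  have p02 : QuadraticMap.polar q (H.om 0) (H.om 2) = 0 := by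
    rw [polar_eq, h02, e2]; ring
  have p12 : QuadraticMap.polar q (H.om 1) (H.om 2) = 0 := by
    rw [polar_eq, h12, e1, e2]; ring
  fin_cases k <;> fin_cases l
  · exact absurd rfl hkl
  · exact p01
  · exact p02
  · rw [QuadraticMap.polar_comm]; exact p01
  · exact absurd rfl hkl
  · exact p12
  · rw [QuadraticMap.polar_comm]; exact p02
  · rw [QuadraticMap.polar_comm]; exact p12
  · exact absurd rfl hkl

end values

section neg

variable {d : ℕ} {X : Type} [TopologicalSpace X] [T2Space X] [CompactSpace X] [ConnectedSpace X]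
  {C : RCh (Cn d) X} {n : ℕ} {hd : d = n + n} {P : RPart C} {q : QuadraticForm ℝ (F2 C)}

/-- negative definite modulo exact forms on the complement of a positive triple -/
theorem neg_mem (T : TopI (lc d) (bn hd) P q) (H : HkT C) (hq : 0 < q (H.om 0)) {x : F2 C}
    (h : ∀ k, QuadraticMap.polar q x (H.om k) = 0) : q x ≤ 0 ∧ (q x = 0 → Ex x) :=
  (sig_mem T H hq).neg (h 1) (h 2) (h 0)

end neg

end

end Crest.Agent.R281.SkM_474
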