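import Crest.Agent.R281.SkM4_474
import Crest.Agent.R281.RkD_902
import Crest.Agent.R281.Cdr10_234
import Crest.Agent.R281.Qg5_770

/-!
# R281 (S0424), SETUP (helper474), part 5: the nodes `Ctx` and `Given` of `RkD_902`

* `ctx_of`    : `Ctx` from `TopI`, rationality, a rational basis
* `exists_ctx` : **`Ctx` and the numerical part of `Given` for the given manifold**
-/

set_option autoImplicit false
set_option linter.unusedSectionVars false
set_option maxSynthPendingDepth 3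

open Set Filter Topology Function MeasureTheory Complex
open scoped ContDiff Matrix ComplexConjugate ComplexOrder

namespace Crest.Agent.R281.SkM_474

open Crest.Agent.R275.Geo Crest.Agent.R275.Core144 Crest.Agent.R275.EDR890
open Crest.Agent.R275.GC293
open Crest.Agent.R273.Defs_333 Crest.Agent.R273.Kah_333
open Crest.Agent.R260.ACM_580 Crest.Agent.R260.NNB_580
open Crest.Agent.R281.Defs_273
open Crest.Agent.R281.HkP1_508 Crest.Agent.R281.HkP2_508 Crest.Agent.R281.HkP3_508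
open Crest.Agent.R281.FujP_513 (Symm mixv)
open Crest.Agent.R281.FujSig_358
open Crest.Agent.R281.HkR_835 hiding pb pb_apply
open Crest.Agent.R281.HkR_835.Cmp
open Crest.Agent.R281.Ti_846 hiding pb pb_apply
open Crest.Agent.R281.Dif_268 Crest.Agent.R281.PL_713
open Crest.Agent.R281.NefO_476
open Crest.Agent.R281.Nef_252 (T11 T11_hk Pos_hk eqv_ex_sub jA curK)
open Crest.Agent.R281.Al_830
open Crest.Agent.R281.Alg_998
open Crest.Agent.R281.Cdr_234 (RatF IntF HBas c1F intF_c1F exists_hbas)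
open Crest.Agent.R281.Fuj7_207 (bn Tn Tn_symm Tn_pos fujiki_Tn)
open Crest.Agent.R281.Fuj5_207 (E11 reS imS f2_mem)
open Crest.Agent.R281.Fuj1_207 (qf Qf polar_qf qf_apply)
open Crest.Agent.R281.RkD_902

noncomputable section

variable {n : ℕ} {X : Type} [TopologicalSpace X] [T2Space X] [CompactSpace X] [ConnectedSpace X]

section ctx

variable {C : RCh (Cn (2 * n)) X} {Q : F2 C →ₗ[ℝ] F2 C →ₗ[ℝ] ℝ} {P : RPart C}
  {q : QuadraticForm ℝ (F2 C)} {κ : ℝ}

theorem Q_self (hQ : ∀ x y, Q x y = κ * QuadraticMap.polar q x y) (x : F2 C) :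
    Q x x = 2 * κ * q x := by
  rw [hQ, QuadraticMap.polar_self, nsmul_eq_mul]
  push_cast
  ring

/-- **the topological context** -/
theorem ctx_of (n1 : 1 ≤ n) (T : TopI (lc (2 * n)) (bn (two_mul n)) P q) (hκ : 0 < κ)
    (hQ : ∀ x y, Q x y = κ * QuadraticMap.polar q x y)
    (rat : ∀ x y : F2 C, RatF x → RatF y → ∃ r : ℚ, Q x y = r)
    (int : ∀ x y : F2 C, IntF x → IntF y → ∃ k : ℤ, Q x y = k) (B : HBas C) : Ctx n C Q := by
  have hs := Q_self hQ
  have h0 : ∀ x y, Q x y = 0 → QuadraticMap.polar q x y = 0 := fun x y h => by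
    rw [hQ] at h
    exact (mul_eq_zero.1 h).resolve_left hκ.ne'
  have hp : ∀ H : HkT C, 0 < Q (H.om 0) (H.om 0) → 0 < q (H.om 0) := fun H h => by
    rw [hs] at h
    exact (mul_pos_iff_of_pos_left (by positivity)).1 h
  refine ⟨n1, ⟨P, q, κ, hκ, T, hQ⟩, fun x y => ?_, fun x y hx => ?_, fun H k => ?_,
    fun H k l hkl => ?_, fun H hH x hx => ?_, fun H hH x h1 h2 => ?_, fun H hH => ?_, rat, int, ?_⟩
  · rw [hQ, hQ, QuadraticMap.polar_comm]
  · rw [hQ, QuadraticMap.polar_comm, T.polar_ex hx, mul_zero]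
  · rw [hs, hs, q_om_all T H k]
  · rw [hQ, polar_om_all T H hkl, mul_zero]
  · have h1 := neg_mem T H (hp H hH) fun k => h0 _ _ (hx k)
    rw [hs]
    refine ⟨mul_nonpos_of_nonneg_of_nonpos (by positivity) h1.1, fun h => h1.2 ?_⟩
    exact (mul_eq_zero.1 h).resolve_left (by positivity)
  · obtain ⟨y, h3, h4⟩ := t11 T H (hp H hH) (h0 _ _ h1) (h0 _ _ h2)
    exact ⟨y, h3, h4⟩
  · exact uniqT T H (hp H hH)
  · refine ⟨B.N, B.b, fun j => (B.int j).rat, fun x => ⟨B.co x, B.ex_co x, fun t ht => ?_⟩⟩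
    exact B.uniq ht (B.ex_co x)

end ctx

section given

variable {A : Atl (2 * n) X} [Finite A.ι]

theorem c1F_eq {L : LB A} (h : HM L) : c1F h = (Real.pi⁻¹ : ℝ) • (curK h).f2 := rfl

/-- **the context and the numerical data of the given manifold** -/
theorem exists_ctx (hn : 1 ≤ n) (PA : Part A) (K : Kah A) (σ : HSymp A) (hu : σ.Uniq) {L : LB A}
    (hN : NefW K L) (hF : NonFlat L) (hI : Isotropic PA σ L) (h : HM L) :
    ∃ (Q : F2 (ofAtl A) →ₗ[ℝ] F2 (ofAtl A) →ₗ[ℝ] ℝ) (H0 : HkT (ofAtl A)),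
      Ctx n (ofAtl A) Q ∧ (∀ i z v, H0.J 0 i z v = I • v) ∧ 0 < Q (H0.om 0) (H0.om 0) ∧
      IntF (c1F h) ∧ Q (c1F h) (c1F h) = 0 ∧ Q (c1F h) (H0.om 1) = 0 ∧
      Q (c1F h) (H0.om 2) = 0 ∧ 0 < Q (c1F h) (H0.om 0) := by
  have hn2 : 2 ≤ n + n := by omega
  have hd : 2 * n = n + n := two_mul n
  have hc : ClH σ.toH2 := Fuj8_207.closedH PA K σ hu σ.toH2
  obtain ⟨B⟩ := exists_hbas A
  obtain ⟨c, hc0, -, hrat, hint⟩ := Qg_770.rat PA σ hu hc hd hn hn2 K
  obtain ⟨P, T⟩ := topI_of hd hn hn2 PA K σ hu hc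
  obtain ⟨K', H, ρ, h0, h1, h2, h3, h4, h5, h6, h7, h8, h9⟩ :=
    given_data hd hn hn2 PA K σ hu hc hN hF hI h
  set q := qf (Tn hd PA) hn2 n (reS σ.toH2 hc) with hq
  set Q : F2 (ofAtl A) →ₗ[ℝ] F2 (ofAtl A) →ₗ[ℝ] ℝ :=
    c⁻¹ • Qf (Tn hd PA) hn2 n (reS σ.toH2 hc) with hQd
  have hQ : ∀ x y, Q x y = (c⁻¹ / 2) * QuadraticMap.polar q x y := by
    intro x y
    rw [hq, polar_qf (Tn_symm hd PA), hQd]
    show c⁻¹ * _ = _
    ring
  have hκ : 0 < c⁻¹ / 2 := by positivity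
  have hctx : Ctx n (ofAtl A) Q := ctx_of hn T hκ hQ (fun x y hx hy => by
    obtain ⟨r, hr⟩ := hrat x y hx hy
    refine ⟨r, ?_⟩
    show c⁻¹ * Qf (Tn hd PA) hn2 n (reS σ.toH2 hc) x y = r
    rw [hr, ← mul_assoc, inv_mul_cancel₀ hc0.ne', one_mul]) (fun x y hx hy => by
    obtain ⟨r, hr⟩ := hint x y hx hy
    refine ⟨r, ?_⟩
    show c⁻¹ * Qf (Tn hd PA) hn2 n (reS σ.toH2 hc) x y = r
    rw [hr, ← mul_assoc, inv_mul_cancel₀ hc0.ne', one_mul]) B
  have hπ := Real.pi_pos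
  refine ⟨Q, H, hctx, h1, ?_, intF_c1F h, ?_, ?_, ?_, ?_⟩
  · rw [Q_self hQ]; positivity
  · rw [Q_self hQ, c1F_eq, QuadraticMap.map_smul, h6]; simp
  · rw [hQ, c1F_eq, QuadraticMap.polar_smul_left, h7]; simp
  · rw [hQ, c1F_eq, QuadraticMap.polar_smul_left, h8]; simp
  · rw [hQ, c1F_eq, QuadraticMap.polar_smul_left, smul_eq_mul]
    positivity

end given

end

end Crest.Agent.R281.SkM_474
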