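import Crest.Agent.R281.Sm3_871
import Crest.Agent.R281.Dv2_957

/-!
# R281 (S0424), START MATCHING (helper871), part 4: 957's `StartS`
-/

set_option autoImplicit false
set_option linter.unusedSectionVars false
set_option maxSynthPendingDepth 5

open Set Filter Topology

namespace Crest.Agent.R281.Sm_871

open Crest.Agent.R275.Geo
open Crest.Agent.R281.HkR_835 Crest.Agent.R281.Ehr6_268 Crest.Agent.R281.Ehr7_268
open Crest.Agent.R281.Alg_998 Crest.Agent.R281.Sta2_684 Crest.Agent.R281.RkD_902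
open Crest.Agent.R281.Dv_957 Crest.Agent.R281.Cus_581

variable {n : ℕ} {X : Type} [TopologicalSpace X] [CompactSpace X] [T2Space X]
  [ConnectedSpace X] {C : RCh (Cn (2 * n)) X} {Q : F2 C →ₗ[ℝ] F2 C →ₗ[ℝ] ℝ}

/-- **START in the form of 957's composition** -/
theorem startS (h : Ctx n C Q) (hQ : QS Q) (F : Frm C Q)
    (O : ∀ T : Ty (2 * n) C, T.Ok F hQ → HmOut T F hQ) : StartS F hQ O := by
  intro A hA H0 τ0 h0
  obtain ⟨T, x0, m0, ok, rel, rfl, hcx, hcls, hre, him, htau⟩ :=
    start_ty h hQ F hA.int hA.e hA.v hA.es h0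
  refine ⟨T, ok, rel, m0, hcx, fun i => ?_, ?_, h0.im_pos⟩
  · rw [(O T ok).cls, (O T ok).cl]
    exact hcls i
  · rw [(O T ok).re, (O T ok).im]
    exact htau

end Crest.Agent.R281.Sm_871
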