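import Crest.Agent.R281.ThU1_360

/-!
# R281 (S0424), THETA (helper360), composition 2: `ThetaP` from the weak inequality on a tube

* `Th5P`   : the weak inequality on the tube for the limit `φ0` of `class_half`
* `thetaP_of` : `Th5P → ThetaP`
-/

set_option autoImplicit false
set_option linter.unusedSectionVars false
set_option maxSynthPendingDepth 3

open Set Filter Topology Complex MeasureTheory
open scoped ContDiff Matrix ComplexConjugate ComplexOrder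

namespace Crest.Agent.R281.ThU_360

open Crest.Agent.R275.Geo Crest.Agent.R275.Core144 Crest.Agent.R275.EDR890
open Crest.Agent.R275.GC293
open Crest.Agent.R273.Kah_333 Crest.Agent.R273.Defs_333 Crest.Agent.R273.Hess_333
open Crest.Agent.R281.Defs_273 (H2 HSymp NefW NonFlat Isotropic)
open Crest.Agent.R281.HkR_835 Crest.Agent.R281.Ti_846
open Crest.Agent.R281.HkP1_508 Crest.Agent.R281.HkP2_508 Crest.Agent.R281.HkP3_508
open Crest.Agent.R281.Nef_252 (curK)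
open Crest.Agent.R281.Lc_196 (ChL1)
open Crest.Agent.R281.Kd_22 (HTube)
open Crest.Agent.R281.Per_368 (pull per)
open Crest.Agent.R281.Qp5_911 (LPsh)
open Crest.Agent.R281.Qp8_911 (Weak)
open Crest.Agent.R281.KpU_360 (ThetaP)

noncomputable section

/-- **THETA, the instance** (Th4 / Th5 of 799) -/
def Th5P : Prop :=
  ∀ (n : ℕ) (M : Type) [TopologicalSpace M] [T2Space M] [CompactSpace M] [ConnectedSpace M]
    (A : Atl (2 * n) M) [Finite A.ι], 1 ≤ n → ∀ (K : Kah A) (σ : HSymp A) (L : LB A) (h : HM L)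
    (t : ℕ → ℝ) (φ : ℕ → M → ℝ) (α : ℕ → Kah A) (r : ℕ → ℝ) (hr : ∀ k, (r k : ℂ) ≠ 0)
    (φ0 : M → ℝ) (c₁ : ℝ), 0 < c₁ → (∀ k, 1 ≤ t k) → Tendsto t atTop atTop →
    (∀ k, A.Sm (φ k)) →
    (∀ k i, ∀ x ∈ (A.e i).source,
      (α k).g i x = K.g i x + ((t k : ℝ) : ℂ) • (cur h i x + hsf A (φ k) i x)) →
    (∀ k, HK (α k) (smulHS ((r k : ℝ) : ℂ) (hr k) σ)) → (∀ k, c₁ * t k ≤ r k ^ 2) →
    ChL1 volume A φ φ0 → LPsh h φ0 →
    ∀ (T : HTube A (Cn n) (Cn n)) (l : Fin (2 * n) → Cn n → Cn n),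
    (∀ k, ContinuousOn (l k) T.Om) → (∀ b ∈ T.Om, LinearIndependent ℝ fun k => l k b) →
    (∀ b ∈ T.Om, ∀ b' ∈ T.Om, ∀ c c', T.P (c, b) = T.P (c', b') ↔
      b = b' ∧ ∃ m : Fin (2 * n) → ℤ, c - c' = ∑ k, (m k : ℝ) • l k b) →
    (∀ b ∈ T.Om, ∀ c i, T.P (c, b) ∈ (A.e i).source → ∀ u v : Cn n,
      sb (σ.s i (T.P (c, b))) (fderiv ℂ (fun q => A.e i (T.P q)) (c, b) (u, 0))
        (fderiv ℂ (fun q => A.e i (T.P q)) (c, b) (v, 0)) = 0) →
    (∀ b ∈ T.Om, ∀ c j k, per (pull (curK h).f2 T.P) (c, b) (l j b, 0) (l k b, 0) = 0) →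
    ∀ z : Cn n × Cn n, z.1 ∈ T.Om → ∃ i, T.P (z.2, z.1) ∈ (A.e i).source ∧
      ∃ O, IsOpen O ∧ z ∈ O ∧ ∃ c : ℝ, 0 < c ∧
        (∀ K ⊆ O, IsCompact K → IntegrableOn
          (fun p : Cn n × Cn n => φ0 (T.P (p.2, p.1)) + h.wt i (A.e i (T.P (p.2, p.1)))) K volume) ∧
        Weak volume O (fun p => φ0 (T.P (p.2, p.1)) + h.wt i (A.e i (T.P (p.2, p.1))))
          (fun v => c * ‖v.1‖ ^ 2)

theorem thetaP_of (H : Th5P) : ThetaP := by
  intro n M _ _ _ _ A _ hn _ P K σ hu L h hN hF hI T l hlc hli heq hlag hper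
  obtain ⟨t, φ, α, r, hr, φ0, c₁, hc₁, ht1, ht, hs, hg, hHK, hr1, hφ0, hL1, hLP⟩ :=
    class_half P K σ hu hn hN hF hI h
  have hC : ∀ i, ∀ᵐ z : Cn (2 * n), z ∈ (A.e i).target → φ0 ((A.e i).symm z) ≤ 0 := fun i =>
    Eventually.of_forall fun z _ => hφ0 _
  obtain ⟨Z, hZ, hgood⟩ := Crest.Agent.R281.Qp9_911.theta_good hLP hC (two_mul n).symm T
    (fun b hb b' hb' c c' hcc => ((heq b hb b' hb' c c').1 hcc).1)
    (H n M A hn K σ L h t φ α r hr φ0 c₁ hc₁ ht1 ht hs hg hHK hr1 hL1 hLP T l hlc hli heq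
      hlag hper)
  exact ⟨_, Z, hZ, hgood⟩

end

end Crest.Agent.R281.ThU_360
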