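import Crest.Agent.R281.Th8_799
import Crest.Agent.R281.Qp9_911
import Crest.Agent.R281.ThU2_360

/-!
# Row 281, THETA (helper799), part 9: a `HTube` of Lagrangian tori is a `TubA`
-/

set_option autoImplicit false
set_option linter.unusedSectionVars false
set_option linter.style.longLine false
set_option maxSynthPendingDepth 3

open MeasureTheory Set Filter Metric Topology Complex
open scoped ContDiff Manifold ComplexConjugate Matrix NNReal ENNReal ComplexOrder

namespace Crest.Agent.R281.Th_799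

open Crest.Agent.R275 Crest.Agent.R275.Geo Crest.Agent.R275.Core144
open Crest.Agent.R275.GC293
open Crest.Agent.R273.Defs_333 Crest.Agent.R273.HM_333 Crest.Agent.R273.Hess_333
open Crest.Agent.R273.Kah_333
open Crest.Agent.R281.HkR_835 Crest.Agent.R281.Ti_846
open Crest.Agent.R281.Nef_252 (curK)
open Crest.Agent.R281.HkP1_508 Crest.Agent.R281.HkP2_508 Crest.Agent.R281.HkP3_508
open Crest.Agent.R281.Defs_273 (H2 HSymp NefW Isotropic qd)
open Crest.Agent.R281.Per_368
open Crest.Agent.R281.Kd_22 (HTube)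
open Crest.Agent.R281.Qp9_911 (htube_an htube_inj)

noncomputable section

variable {n : ℕ} {M : Type} [TopologicalSpace M] {A : Atl (2 * n) M} {L : LB A}
  {K : Kah A} {σ : HSymp A} {h : HM L}

/-- the swap -/
def sw (n : ℕ) : (Cn n × Cn n) →L[ℂ] (Cn n × Cn n) :=
  (ContinuousLinearMap.snd ℂ (Cn n) (Cn n)).prod (ContinuousLinearMap.fst ℂ (Cn n) (Cn n))

@[simp] theorem sw_apply (p : Cn n × Cn n) : sw n p = (p.2, p.1) := rfl

theorem htube_smI (T : HTube A (Cn n) (Cn n)) :
    SmI (ofAtl A) ((univ : Set (Cn n)) ×ˢ T.Om) T.P where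
  op := isOpen_univ.prod T.isOpen
  cont := fun p hp => (T.cont p hp.2).continuousWithinAt
  sm i := fun p hp => by
    have h1 : ContDiffAt ℂ ∞ (fun q => A.e i (T.P q)) p :=
      (htube_an T hp.1.2 hp.2).contDiffAt
    exact (h1.restrict_scalars ℝ).contDiffWithinAt

/-- the derivative of the swapped tube -/
theorem sw_fderiv (T : HTube A (Cn n) (Cn n)) {p : Cn n × Cn n} (hp : p.1 ∈ T.Om) {i : A.ι}
    (hi : T.P (p.2, p.1) ∈ (A.e i).source) :
    HasFDerivAt (fun q : Cn n × Cn n => A.e i (T.P (q.2, q.1)))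
      ((fderiv ℂ (fun q => A.e i (T.P q)) (p.2, p.1)).comp (sw n)) p := by
  have h1 : DifferentiableAt ℂ (fun q => A.e i (T.P q)) (sw n p) :=
    (htube_an T (p := (p.2, p.1)) hp hi).differentiableAt
  exact h1.hasFDerivAt.comp p (sw n).hasFDerivAt

theorem sw_fd (T : HTube A (Cn n) (Cn n)) {p : Cn n × Cn n} (hp : p.1 ∈ T.Om) {i : A.ι}
    (hi : T.P (p.2, p.1) ∈ (A.e i).source) (v : Cn n × Cn n) :
    fderiv ℝ (fun q : Cn n × Cn n => A.e i (T.P (q.2, q.1))) p v =
      fderiv ℂ (fun q => A.e i (T.P q)) (p.2, p.1) (v.2, v.1) := by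
  have h1 := (sw_fderiv T hp hi).restrictScalars ℝ
  rw [h1.fderiv]
  rfl

theorem e_sw (T : HTube A (Cn n) (Cn n)) :
    (fun p : Cn n × Cn n => T.P (0 + ((sw n).restrictScalars ℝ) p)) = fun p => T.P (p.2, p.1) := by
  funext p
  rw [zero_add]
  rfl

/-- **a tube of Lagrangian tori** -/
theorem tubA_of (T : HTube A (Cn n) (Cn n)) {l : Fin (2 * n) → Cn n → Cn n}
    (lc : ∀ k, ContinuousOn (l k) T.Om) (lli : ∀ b ∈ T.Om, LinearIndependent ℝ fun k => l k b)
    (eqv : ∀ b ∈ T.Om, ∀ b' ∈ T.Om, ∀ c c', T.P (c, b) = T.P (c', b') ↔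
      b = b' ∧ ∃ m : Fin (2 * n) → ℤ, c - c' = ∑ k, (m k : ℝ) • l k b)
    (lag : ∀ b ∈ T.Om, ∀ c i, T.P (c, b) ∈ (A.e i).source → ∀ u v : Cn n,
      sb (σ.s i (T.P (c, b))) (fderiv ℂ (fun q => A.e i (T.P q)) (c, b) (u, 0))
        (fderiv ℂ (fun q => A.e i (T.P q)) (c, b) (v, 0)) = 0) :
    TubA A σ T.Om (fun p : Cn n × Cn n => T.P (p.2, p.1)) l where
  op := T.isOpen
  sm := by
    have h1 := (htube_smI T).comp_affine ((sw n).restrictScalars ℝ) 0
    rw [e_sw] at h1
    refine h1.mono ?_ (T.isOpen.prod isOpen_univ)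
    intro p hp
    show (0 : Cn n × Cn n) + ((sw n).restrictScalars ℝ) p ∈ (univ : Set (Cn n)) ×ˢ T.Om
    rw [zero_add]
    exact ⟨mem_univ _, hp.1⟩
  hol p hp i hi := (sw_fderiv T hp hi).differentiableAt
  inj p hp i hi := by
    have hdim : Module.finrank ℂ (Cn n × Cn n) = 2 * n := by
      rw [Module.finrank_prod, finrank_euclideanSpace_fin]; omega
    have h1 := htube_inj T hdim (p := (p.2, p.1)) hp hi
    intro u v huv
    rw [sw_fd T hp hi, sw_fd T hp hi] at huv
    have h2 := h1 huv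
    exact Prod.ext (congrArg Prod.snd h2) (congrArg Prod.fst h2)
  lc := lc
  lli := lli
  per y hy x k := by
    refine (eqv y hy y hy (x + l k y) x).2 ⟨rfl, fun j => if j = k then 1 else 0, ?_⟩
    rw [add_sub_cancel_left, Finset.sum_eq_single k]
    · simp
    · intro j _ hj
      simp [hj]
    · intro h; exact absurd (Finset.mem_univ _) h
  lag p hp i hi u v := by
    rw [sw_fd T hp hi, sw_fd T hp hi]
    exact lag p.1 hp p.2 i hi u v

/-- the zero periods -/
theorem per_of (T : HTube A (Cn n) (Cn n)) {l : Fin (2 * n) → Cn n → Cn n} (w : F2 (ofAtl A))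
    (hz : ∀ b ∈ T.Om, ∀ c j k, per (pull w T.P) (c, b) (l j b, 0) (l k b, 0) = 0) :
    ∀ y ∈ T.Om, ∀ x j k, per (pull w (fun p : Cn n × Cn n => T.P (p.2, p.1))) (y, x)
      (0, l j y) (0, l k y) = 0 := by
  intro y hy x j k
  have h1 := (htube_smI T).per_pull_affine ((sw n).restrictScalars ℝ) 0 w (z := (y, x))
    (v := (0, l j y)) (v' := (0, l k y)) (fun s _ t _ => by
      refine ⟨mem_univ _, ?_⟩
      show (0 + ((sw n).restrictScalars ℝ) (pt (y, x) (0, l j y) (0, l k y) s t)).2 ∈ T.Om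
      have e : (0 + ((sw n).restrictScalars ℝ) (pt ((y, x) : Cn n × Cn n) (0, l j y) (0, l k y) s t)).2 = y := by
        simp [pt]
      rw [e]; exact hy)
  rw [e_sw] at h1
  rw [h1]
  have e2 : (0 : Cn n × Cn n) + ((sw n).restrictScalars ℝ) (y, x) = (x, y) := by
    rw [zero_add]; rfl
  rw [e2]
  exact hz y hy x j k

end

end Crest.Agent.R281.Th_799
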