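import Crest.Agent.R281.KpU3_360
import Crest.Agent.R281.Lc5_196
import Crest.Agent.R281.Qp9_911
import Crest.Agent.R281.Fuj8_207
import Crest.Agent.R281.NefNum2_137

/-!
# R281 (S0424), THETA (helper360), composition 1: the class half

* `hq_pos`     : `q (K, L) > 0` for nef, isotropic, not flat `L`
* `class_half` : metrics `α_k = K + t_k (c(L, h) + ∂∂̄ φ_k)` which are hyper-Kaehler for `r_k σ`,
  `c₁ t_k ≤ r_k²`, with `φ_k → φ₀` in `L¹` of the charts and `φ₀ + h.wt` plurisubharmonic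
-/

set_option autoImplicit false
set_option linter.unusedSectionVars false
set_option maxSynthPendingDepth 3

open Set Filter Topology Complex MeasureTheory
open scoped ContDiff Matrix ComplexConjugate ComplexOrder

namespace Crest.Agent.R281.ThU_360

open Crest.Agent.R275.Geo Crest.Agent.R275.Core144 Crest.Agent.R275.EDR890
open Crest.Agent.R275.GC293
open Crest.Agent.R273.Kah_333 Crest.Agent.R273.Defs_333 Crest.Agent.R273.Hess_333
open Crest.Agent.R281.Defs_273 (H2 HSymp NefW NonFlat Isotropic)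
open Crest.Agent.R281.HkR_835 Crest.Agent.R281.Ti_846
open Crest.Agent.R281.HkP1_508 Crest.Agent.R281.HkP2_508 Crest.Agent.R281.HkP3_508
open Crest.Agent.R281.Nef_252 (jA DDb curK)
open Crest.Agent.R281.Fuj1_207 (Qf)
open Crest.Agent.R281.Fuj5_207 (reS)
open Crest.Agent.R281.Vol_847
open Crest.Agent.R281.NefNum_137 (Qf_bcr nef_num)
open Crest.Agent.R281.ThC_137
open Crest.Agent.R281.Lc_196 (Psd ChL1 pshC_limPsh)

noncomputable section

variable {n : ℕ} {M : Type} [TopologicalSpace M] [T2Space M] [CompactSpace M] [ConnectedSpace M]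
  {A : Atl (2 * n) M} [Finite A.ι] {L : LB A}

theorem hq_pos (P : Part A) (K : Kah A) (σ : HSymp A) (hu : σ.Uniq) (hn : 1 ≤ n)
    (hn2 : 2 ≤ 2 * n) (hc : ClH σ.toH2) (hN : NefW K L) (hF : NonFlat L)
    (hI : Isotropic P σ L) (h : HM L) :
    0 < BB P hn2 hc (ofKah K).f2 (curK h).f2 := by
  have hn2' : 2 ≤ n + n := by omega
  have hd : 2 * n = n + n := two_mul n
  have hddb : DDb (jA A) := Nef_252.ddb_jA hn2 P K
  have hiso := isoQ P hn hn2 hu hc K hI h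
  have e : ∀ x y, Qf (IM (lc (2 * n)) (bcr (finCongr hd)) (RPart.ofPart P)) hn2' n
      (reS σ.toH2 hc) x y = BB P hn2 hc x y := fun x y =>
    Qf_bcr (RPart.ofPart P) hd.symm (finCongr hd) hn2' hn2 n (reS σ.toH2 hc) x y
  have h1 := (nef_num P σ hu hc hn hn2' (finCongr hd) (RPart.ofPart P)
    (fun K => Fuj8_207.hodge_Tn hd P hn K) hddb hN hF h ((e _ _).trans hiso)).2.2.2 K
  rw [e] at h1
  exact h1

/-- **THETA, class half** -/
theorem class_half (P : Part A) (K : Kah A) (σ : HSymp A) (hu : σ.Uniq) (hn : 1 ≤ n)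
    (hN : NefW K L) (hF : NonFlat L) (hI : Isotropic P σ L) (h : HM L) :
    ∃ (t : ℕ → ℝ) (φ : ℕ → M → ℝ) (α : ℕ → Kah A) (r : ℕ → ℝ) (hr : ∀ k, (r k : ℂ) ≠ 0)
      (φ0 : M → ℝ) (c₁ : ℝ), 0 < c₁ ∧ (∀ k, 1 ≤ t k) ∧ Tendsto t atTop atTop ∧
      (∀ k, A.Sm (φ k)) ∧
      (∀ k i, ∀ x ∈ (A.e i).source,
        (α k).g i x = K.g i x + ((t k : ℝ) : ℂ) • (cur h i x + hsf A (φ k) i x)) ∧
      (∀ k, HK (α k) (smulHS ((r k : ℝ) : ℂ) (hr k) σ)) ∧ (∀ k, c₁ * t k ≤ r k ^ 2) ∧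
      (∀ x, φ0 x ≤ 0) ∧ ChL1 volume A φ φ0 ∧ Crest.Agent.R281.Qp5_911.LPsh h φ0 := by
  have hn2 : 2 ≤ 2 * n := by omega
  have hc : ClH σ.toH2 := Fuj8_207.closedH P K σ hu σ.toH2
  obtain ⟨c₁, c₂, hc₁, -, H⟩ := ThC_847.exists_alpha P K σ hu hn hn2 hc hN hI h
    (hq_pos P K σ hu hn hn2 hc hN hF hI h)
  have ht1 : ∀ k : ℕ, (1 : ℝ) ≤ (k : ℝ) + 1 := fun k => by
    have : (0 : ℝ) ≤ (k : ℝ) := Nat.cast_nonneg k
    linarith
  choose φ α r hr hs hg hle h0 hrp hHK hr1 hr2 using fun k : ℕ => H ((k : ℝ) + 1) (ht1 k)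
  let _ : MeasurableSpace M := borel M
  have _ : BorelSpace M := ⟨rfl⟩
  have hPC : ∀ k, PshC h K (φ k) := fun k => pshC_of_alpha (ht1 k) (hs k) (hg k) (hle k) (h0 k)
  have hε : Tendsto (fun k : ℕ => ((k : ℝ) + 1)⁻¹) atTop (𝓝 0) :=
    tendsto_inv_atTop_zero.comp (tendsto_atTop_add_const_right _ _ tendsto_natCast_atTop_atTop)
  obtain ⟨s, hsm, φ0, -, hφ0, hL1, hLP⟩ := pshC_limPsh (h := h) (K := K) volume hPC
    (ε := fun k => ((k : ℝ) + 1)⁻¹) (fun k => by positivity) hε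
    (fun k i x hx => (psd_of_alpha (by positivity) (hg k) i hx).posSemidef)
  refine ⟨fun k => (s k : ℝ) + 1, fun k => φ (s k), fun k => α (s k), fun k => r (s k),
    fun k => hr (s k), φ0, c₁, hc₁, fun k => ht1 _, ?_, fun k => hs _, fun k => hg _,
    fun k => hHK _, fun k => hr1 _, hφ0, hL1, hLP⟩
  exact tendsto_atTop_add_const_right _ _
    (tendsto_natCast_atTop_atTop.comp hsm.tendsto_atTop)

end

end Crest.Agent.R281.ThU_360
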