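import Crest.Agent.R281.Tt5_476
import Crest.Agent.R281.Al4_830
import Crest.Agent.R281.Yv3_900

/-!
# Row 281, YAU-VAR (helper476), part 6: Ricci flatness of the solutions

* `ricFlat_of_detB` : `det om = k det s1` in the real charts ⇒ `RicFlat (HD.K ..)`
* `SolMA.ricFlat`   : solutions of `SolMA` for `Dat.of b J om s1` are Ricci-flat
-/

set_option autoImplicit false
set_option maxSynthPendingDepth 3
set_option linter.unusedSectionVars false

open Set Filter Topology Metric Complex
open scoped ContDiff ComplexConjugate Matrix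

namespace Crest.Agent.R281.Tt_476

open Crest.Agent.R260.ACM_580 Crest.Agent.R281.HkR_835 Crest.Agent.R281.NefO_476
open Crest.Agent.R281.Nef_252
open Crest.Agent.R281.Dif_268
open Crest.Agent.R281.Ti_846 hiding pb pb_apply symm2

noncomputable section

variable {V X : Type} [NormedAddCommGroup V] [NormedSpace ℝ V] [TopologicalSpace X]
  {C : RCh V X} {κ : Type} [Fintype κ] [DecidableEq κ] [FiniteDimensional ℝ V]
  (b : Module.Basis κ ℝ V)

/-! ### Ricci flatness -/

section ric

open Crest.Agent.R275.Geo Crest.Agent.R275.Core144 Crest.Agent.R281.Al_830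
open Crest.Agent.R273.Vol_333 Crest.Agent.R273
open Crest.Agent.R273.Kah_333 Crest.Agent.R281.HkP1_508 Crest.Agent.R281.HkP2_508
open Crest.Agent.R281.Defs_273 (H2 HSymp)
open Crest.Agent.R281.HkR_835.Cmp
open Crest.Agent.R281.Yv_900

variable {d : ℕ} {A : Atl d X} {J : AJ C} {om s1 s2 : F2 C}

/-- complex conjugation on `ℂ^d` -/
def conjL (d : ℕ) : Cn d →L[ℝ] Cn d :=
  LinearMap.toContinuousLinearMap
    { toFun := fun v => WithLp.toLp 2 fun a => conj (v a)
      map_add' := fun u v => by ext a; simp
      map_smul' := fun c v => by ext a; simp }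

theorem conjL_apply (v : Cn d) (a : Fin d) : conjL d v a = conj (v a) := rfl

theorem conjL_conjL (v : Cn d) : conjL d (conjL d v) = v := by
  ext a
  simp [conjL_apply]

theorem conjL_det_ne : (conjL d).det ≠ 0 := by
  intro h0
  have h1 : (conjL d) ∘L (conjL d) = (1 : ℝ) • ContinuousLinearMap.id ℝ (Cn d) := by
    ext1 v
    simp [conjL_conjL]
  have h2 := congrArg ContinuousLinearMap.det h1
  rw [det_comp', h0, zero_mul, clm_det_smul_id, one_pow] at h2
  exact zero_ne_one h2

theorem sb_hb (S : Matrix (Fin d) (Fin d) ℂ) (u v : Cn d) : sb S u v = hb S u (conjL d v) := by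
  simp [sb, hb, conjL_apply]

/-- the real bilinear form `Re hb G` -/
def reHb (G : Matrix (Fin d) (Fin d) ℂ) : Bil (Cn d) :=
  LinearMap.toContinuousLinearMap
    { toFun := fun u => LinearMap.toContinuousLinearMap
        { toFun := fun v => (hb G u v).re
          map_add' := fun v w => by
            rw [← Complex.add_re]
            congr 1
            simp only [hb, PiLp.add_apply, map_add, mul_add, Finset.sum_add_distrib]
          map_smul' := fun c v => by
            simp only [hb, PiLp.smul_apply, Complex.real_smul, map_mul, Complex.conj_ofReal,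
              RingHom.id_apply, smul_eq_mul, Complex.re_sum, Finset.mul_sum]
            refine Finset.sum_congr rfl fun a _ => Finset.sum_congr rfl fun b _ => ?_
            rw [← Complex.re_ofReal_mul]
            congr 1
            ring }
      map_add' := fun u w => by
        ext v
        show (hb G (u + w) v).re = (hb G u v).re + (hb G w v).re
        rw [← Complex.add_re]
        congr 1
        simp only [hb, PiLp.add_apply, mul_add, add_mul, Finset.sum_add_distrib]
      map_smul' := fun c u => by
        ext v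
        show (hb G (c • u) v).re = c * (hb G u v).re
        simp only [hb, PiLp.smul_apply, Complex.real_smul, Complex.re_sum, Finset.mul_sum]
        refine Finset.sum_congr rfl fun a _ => Finset.sum_congr rfl fun b _ => ?_
        rw [← Complex.re_ofReal_mul]
        congr 1
        ring }

theorem reHb_apply (G : Matrix (Fin d) (Fin d) ℂ) (u v : Cn d) : reHb G u v = (hb G u v).re := rfl

/-- the constant `det (Re ⟨b_k, b_l⟩)` -/
theorem detB_reHb (b' : Module.Basis κ ℝ (Cn d)) (G : Matrix (Fin d) (Fin d) ℂ) :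
    detB b' (fun x y => (hb G x y).re) = Complex.normSq G.det * (RM b' 1).det :=
  det_RM b' G

theorem detB_reSb (b' : Module.Basis κ ℝ (Cn d)) (S : Matrix (Fin d) (Fin d) ℂ) :
    detB b' (fun x y => (sb S x y).re) =
      Complex.normSq S.det * (RM b' 1).det * (conjL d).det := by
  rw [← detB_reHb]
  refine Eq.trans ?_ (detB_comp b' (reHb S) (conjL d))
  exact detB_congr b' fun x y => by rw [sb_hb, reHb_apply]

/-- the metric of `HD.K` in terms of the form -/
theorem K_hb (hI : IsI J A) (h : Cmp C (ofAtl A)) (D : HD J om s1 s2) {j : A.ι} {z : Cn d}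
    (hz : z ∈ (A.e j).target) (u v : Cn d) :
    (h.F om).w j z u (I • v) = (hb ((D.K hI h).g j ((A.e j).symm z)) u v).re := by
  have h1 := (ofKah (D.K hI h)).f2_w hz u (I • v)
  rw [D.K_f2 hI h hz] at h1
  rw [h1, hb_I_right]
  have : I * (-I * hb ((ofKah (D.K hI h)).g j ((A.e j).symm z)) u v) =
      hb ((D.K hI h).g j ((A.e j).symm z)) u v := by
    have e : (ofKah (D.K hI h)).g j ((A.e j).symm z) = (D.K hI h).g j ((A.e j).symm z) := rfl
    rw [e]
    linear_combination (-hb ((D.K hI h).g j ((A.e j).symm z)) u v) * I_mul_I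
  rw [this]

/-- **the equation of real determinants implies Ricci flatness** -/
theorem ricFlat_of_detB (hI : IsI J A) (h : Cmp C (ofAtl A)) (D : HD J om s1 s2) {k : ℝ}
    (hk : ∀ i, ∀ z ∈ (C.e i).target, detB b (fun x y => om.w i z x (J.J i z y)) =
      k * detB b (fun x y => s1.w i z x y)) : RicFlat (D.K hI h) := by
  by_cases hX : Nonempty X
  swap
  · intro i x hx
    exact absurd ⟨x⟩ hX
  -- a basis of the complex model
  obtain ⟨b'⟩ : Nonempty (Module.Basis κ ℝ (Cn d)) := by
    obtain ⟨x⟩ := hX
    obtain ⟨j, hj⟩ := A.cover x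
    have hz := (A.e j).map_source hj
    obtain ⟨i, hi⟩ := exists_mov (C' := ofAtl A) C (j := j) hz
    obtain ⟨e, -⟩ := (LD.ofCmp h).inv i j _ hi
    exact ⟨b.map e.toLinearEquiv.symm⟩
  have key : ∀ j, ∀ x ∈ (A.e j).source,
      Complex.normSq ((D.K hI h).g j x).det =
        k * (conjL d).det * Complex.normSq ((D.S hI h).s j x).det := by
    intro j x hx
    have hz := (A.e j).map_source hx
    have hx' := (A.e j).left_inv hx
    obtain ⟨i, hi⟩ := exists_mov (C' := ofAtl A) C (j := j) hz
    set z := A.e j x with hzdef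
    have hinv : (fderiv ℝ (mt C (ofAtl A) i j) z).IsInvertible := (LD.ofCmp h).inv i j _ hi
    have hm : mdet b' b (fderiv ℝ (mt C (ofAtl A) i j) z) ^ 2 ≠ 0 :=
      pow_ne_zero 2 (mdet_ne_zero b' b hinv)
    have e1 : detB b' (fun x y => (h.F om).w j z x (I • y)) =
        detB b (fun x y => om.w i (mt C (ofAtl A) i j z) x
          (J.J i (mt C (ofAtl A) i j z) y)) *
          mdet b' b (fderiv ℝ (mt C (ofAtl A) i j) z) ^ 2 := by
      refine Eq.trans ?_ (detB_pullB b' b ((om.w i (mt C (ofAtl A) i j z)).bilinearComp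
        (ContinuousLinearMap.id ℝ V) (J.J i (mt C (ofAtl A) i j z))) _)
      refine detB_congr b' fun x y => ?_
      rw [h.F_w om hi, ← hI i j z hi]
      rfl
    have e2 : detB b' (fun x y => (h.F s1).w j z x y) =
        detB b (fun x y => s1.w i (mt C (ofAtl A) i j z) x y) *
          mdet b' b (fderiv ℝ (mt C (ofAtl A) i j) z) ^ 2 := by
      refine Eq.trans ?_ (detB_pullB b' b (s1.w i (mt C (ofAtl A) i j z)) _)
      exact detB_congr b' fun x y => h.F_w s1 hi x y
    have e3 : detB b' (fun x y => (h.F om).w j z x (I • y)) =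
        Complex.normSq ((D.K hI h).g j x).det * (RM b' 1).det := by
      rw [← detB_reHb]
      refine detB_congr b' fun u v => ?_
      rw [K_hb hI h D hz, hx']
    have e4 : detB b' (fun x y => (h.F s1).w j z x y) =
        Complex.normSq ((D.S hI h).s j x).det * (RM b' 1).det * (conjL d).det := by
      rw [← detB_reSb]
      refine detB_congr b' fun u v => ?_
      have h5 := congrArg Complex.re (D.S0_sb hI h hz u v)
      have h6 : sl (D.S0 hI h) j z = (D.S hI h).s j x := by
        show (D.S0 hI h).s j ((A.e j).symm z) = _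
        rw [hx']
        rfl
      rw [h6] at h5
      rw [h5]
      simp
    have h7 := hk i _ (mt_mem hi).1
    have h8 : detB b' (fun x y => (h.F om).w j z x (I • y)) =
        k * detB b' (fun x y => (h.F s1).w j z x y) := by
      rw [e1, e2, h7]
      ring
    rw [e3, e4] at h8
    refine mul_right_cancel₀ (det_RM_one_ne b') ?_
    rw [h8]
    ring
  have hdet : ∀ j, ∀ x ∈ (A.e j).source, 0 < ((D.K hI h).g j x).det.re ∧
      Complex.normSq ((D.K hI h).g j x).det = ((D.K hI h).g j x).det.re ^ 2 := by
    intro j x hx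
    have h1 := ((D.K hI h).pos j x hx).det_pos
    obtain ⟨h2, h3⟩ := Complex.lt_def.1 h1
    refine ⟨h2, ?_⟩
    have h3' : ((D.K hI h).g j x).det.im = 0 := h3.symm
    rw [Complex.normSq_apply, h3']
    ring
  have hkd : 0 < k * (conjL d).det := by
    obtain ⟨x⟩ := hX
    obtain ⟨j, hj⟩ := A.cover x
    have h1 := key j x hj
    obtain ⟨h2, h3⟩ := hdet j x hj
    rw [h3] at h1
    have h4 : 0 < Complex.normSq ((D.S hI h).s j x).det :=
      Complex.normSq_pos.2 ((D.S hI h).nd j x hj)
    by_contra hneg
    push Not at hneg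
    have h5 : 0 < ((D.K hI h).g j x).det.re ^ 2 := by positivity
    nlinarith [mul_nonneg (neg_nonneg.2 hneg) h4.le]
  refine ricFlat_of_det (D.S hI h) (c := Real.sqrt (k * (conjL d).det)) (Real.sqrt_pos.2 hkd) ?_
  intro j x hx
  obtain ⟨h2, h3⟩ := hdet j x hx
  have h1 := key j x hx
  rw [h3, Complex.normSq_eq_norm_sq] at h1
  have h4 : ((D.K hI h).g j x).det.re ^ 2 =
      (Real.sqrt (k * (conjL d).det) * ‖((D.S hI h).s j x).det‖) ^ 2 := by
    rw [mul_pow, Real.sq_sqrt hkd.le]
    exact h1
  exact (pow_left_inj₀ h2.le (by positivity) two_ne_zero).1 h4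

variable [MeasurableSpace V] [BorelSpace V]

/-- adding `dd^c u` -/
theorem HD.add (D : HD J om s1 s2) {u : X → ℝ} (hu : Sm C u)
    (hp : Pos J (om + ddc J u hu)) : HD J (om + ddc J u hu) s1 s2 where
  sq := D.sq
  t11 := D.t11.add (ddc_T11 D.cx u hu)
  pos := hp
  typ := D.typ
  nd := D.nd

/-- **solutions are Ricci flat** -/
theorem SolMA.ricFlat {b : Module.Basis κ ℝ V} (hI : IsI J A) (h : Cmp C (ofAtl A))
    (D : HD J om s1 s2) {u : X → ℝ} (hs : SolMA b (Dat.of b J om s1) u) :
    RicFlat ((HD.add D hs.sm hs.pos).K hI h) := by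
  obtain ⟨k, hk⟩ := hs.eq
  exact ricFlat_of_detB b hI h _ hk

/-- the hypotheses of `SolMA` other than the equation -/
theorem HD.r_ne (D : HD J om s1 s2) (i : C.ι) (z : V) (hz : z ∈ (C.e i).target) :
    (Dat.of b J om s1).r.r i z ≠ 0 := Dens.ofF2_ne b D.nd i z hz

end ric

end

end Crest.Agent.R281.Tt_476
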