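import Crest.Agent.R281.Tt6_476
import Crest.Agent.R281.Tt7_476
import Crest.Agent.R281.CFam_830
import Crest.Agent.R281.Al5_830
import Crest.Agent.R281.YVMa2_449

/-!
# Row 281, HK-ALONG (helper476): smooth families of hyperkaehler triples

* `jsh_of_om`  : a family of triples is jointly smooth if the forms and `J 0` are
* `exists_hk`  : `CFam` + Fujiki relation + `V0` (YAU-VAR) ⇒ jointly smooth `H : E → HkT C`
-/

set_option autoImplicit false
set_option maxSynthPendingDepth 3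
set_option linter.unusedSectionVars false

open Set Filter Topology Metric MeasureTheory
open scoped ContDiff

namespace Crest.Agent.R281.Tt_476

open Crest.Agent.R260.ACM_580 Crest.Agent.R281.HkR_835 Crest.Agent.R281.NefO_476
open Crest.Agent.R281.Nef_252
open Crest.Agent.R281.Al_830
open Crest.Agent.R281.Ti_846 hiding pb pb_apply symm2

noncomputable section

variable {V X : Type} [NormedAddCommGroup V] [NormedSpace ℝ V] [TopologicalSpace X]
  {C : RCh V X} {E : Type} [NormedAddCommGroup E] [NormedSpace ℝ E] {T : Set E}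

section jsh

variable [FiniteDimensional ℝ V]

/-- joint smoothness of a family of triples -/
theorem jsh_of_om (H : E → HkT C)
    (hom : ∀ k i, ContDiffOn ℝ ∞ (fun p : E × V => ((H p.1).om k).w i p.2) (T ×ˢ (C.e i).target))
    (hJ : ∀ i, ContDiffOn ℝ ∞ (fun p : E × V => (H p.1).J 0 i p.2) (T ×ˢ (C.e i).target)) :
    JSH T H := by
  have : CompleteSpace V := FiniteDimensional.complete ℝ V
  have hg : ∀ i, ContDiffOn ℝ ∞ (fun p : E × V => (H p.1).g i p.2) (T ×ˢ (C.e i).target) := by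
    intro i
    have h1 := ((hom 0 i).clm_comp (hJ i)).neg
    refine h1.congr ?_
    rintro ⟨p, z⟩ ⟨hp, hz⟩
    ext u v
    show (H p).g i z u v = -(((H p).om 0).w i z ((H p).J 0 i z u) v)
    rw [(H p).om_eq 0 i z hz, (H p).J_sq 0 i z hz, map_neg, neg_apply, neg_neg]
  have hinv : ∀ i, ∀ q ∈ T ×ˢ (C.e i).target, ((H q.1).g i q.2).IsInvertible := by
    rintro i ⟨p, z⟩ ⟨hp, hz⟩
    refine bil_inv fun u hu => ?_
    by_contra h0
    exact ((H p).g_pos i z hz u h0).ne' (hu u)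
  refine ⟨hom, fun k i => ?_, hg⟩
  have h2 := (contDiffOn_inverse (hg i) (hinv i)).clm_comp (hom k i)
  refine h2.congr ?_
  rintro ⟨p, z⟩ hq
  ext v
  show (H p).J k i z v = ((H p).g i z).inverse (((H p).om k).w i z v)
  have h3 : ((H p).om k).w i z v = (H p).g i z ((H p).J k i z v) := by
    ext w
    exact (H p).om_eq k i z hq.2 v w
  rw [h3, (hinv i (p, z) hq).inverse_apply_self]

end jsh

variable [FiniteDimensional ℝ E] [FiniteDimensional ℝ V] [MeasurableSpace V] [BorelSpace V]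
  {μ : Measure V} [μ.IsAddHaarMeasure] [CompactSpace X] [T2Space X] [ConnectedSpace X] {n : ℕ}
  {b : Module.Basis (Fin (n + n) × Fin 2) ℝ V} {P : RPart C} {q : QuadraticForm ℝ (F2 C)}

/-- **smooth families of hyperkaehler triples** -/
theorem exists_hk (TI : TopI μ b P q) (D : CFam C T) (hT : IsOpen T) (hTne : T.Nonempty)
    (hq : ∀ t ∈ T, 0 < q (D.om t))
    (hV : V0 C (SolMA (C := C) b)) (x1 : X) :
    ∃ (H : E → HkT C) (r : E → ℝ) (u : E → X → ℝ) (hs : ∀ t, Sm C (u t)),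
      JSH T H ∧ ContDiffOn ℝ ∞ r T ∧ JS0 C T u ∧
      ∀ t ∈ T, 0 < r t ∧ u t x1 = 0 ∧ ofHk (H t) 0 = D.J t ∧
        (H t).om 0 = D.om t + ddc (D.J t) (u t) (hs t) ∧
        (H t).om 1 = r t • D.s1 t ∧ (H t).om 2 = r t • D.s2 t ∧
        Ex ((H t).om 0 - D.om t) := by
  have : CompleteSpace V := FiniteDimensional.complete ℝ V
  have hex : ∀ t, ∃ u : X → ℝ, Sm C u ∧ (t ∈ T → SolMA b (Dat.of b (D.J t) (D.om t) (D.s1 t)) u ∧
      u x1 = 0) := by
    intro t
    by_cases ht : t ∈ T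
    · have hd := D.hd t ht
      obtain ⟨u, h1, h2⟩ := Crest.Agent.R281.YVMa_449.exists_solMA_norm b
        (Dat.of b (D.J t) (D.om t) (D.s1 t)) hd.cx hd.t11 hd.pos (HD.r_ne b hd) x1
      exact ⟨u, h1.sm, fun _ => ⟨h1, h2⟩⟩
    · exact ⟨fun _ => 0, fun _ => contDiffOn_const, fun h => absurd h ht⟩
  choose u hs hu using hex
  have hju : JS0 C T u := joint_MA hV hT (x1 := x1)
    (JSDat.of b hT D.jsJ D.jsom D.js1) (fun t ht => (hu t ht).1) (fun t ht => (hu t ht).2)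
  have hjom : JS2 T fun t => D.om t + ddc (D.J t) (u t) (hs t) :=
    D.jsom.add (JS2.ofDdc hT D.jsJ hs hju)
  -- the triples
  have hexH : ∀ t, ∃ (H : HkT C) (r : ℝ), t ∈ T → 0 < r ∧ ofHk H 0 = D.J t ∧
      H.om 0 = D.om t + ddc (D.J t) (u t) (hs t) ∧ H.om 1 = r • D.s1 t ∧ H.om 2 = r • D.s2 t ∧
      Ex (H.om 0 - D.om t) := by
    have key : ∀ t ∈ T, ∃ (H : HkT C) (r : ℝ), 0 < r ∧ ofHk H 0 = D.J t ∧
        H.om 0 = D.om t + ddc (D.J t) (u t) (hs t) ∧ H.om 1 = r • D.s1 t ∧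
        H.om 2 = r • D.s2 t ∧ Ex (H.om 0 - D.om t) := by
      intro t ht
      have hd := D.hd t ht
      obtain ⟨A, hfin, -, ⟨PA⟩, h, hI⟩ := exists_atlas (fin_V b) hd.cx
      have h1 := (hu t ht).1
      have hric := SolMA.ricFlat hI h hd h1
      have hexd : Ex ((D.om t + ddc (D.J t) (u t) (hs t)) - D.om t) := by
        rw [add_sub_cancel_left]
        exact ⟨dc (D.J t) (u t) (hs t), fun i z hz a b => rfl⟩
      have hq' : 0 < q (D.om t + ddc (D.J t) (u t) (hs t)) := by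
        rw [TI.q_coh hexd]
        exact hq t ht
      obtain ⟨H, r, hr, h2, h3, h4, h5⟩ := TI.hk_of_ric PA hI h (HD.add hd h1.sm h1.pos) hq' hric
      have h3' : H.om 0 = D.om t + ddc (D.J t) (u t) (hs t) := h3
      exact ⟨H, r, hr, h2, h3', h4, h5, by rw [h3']; exact hexd⟩
    obtain ⟨t0, ht0⟩ := hTne
    obtain ⟨H0, -⟩ := key t0 ht0
    intro t
    by_cases ht : t ∈ T
    · obtain ⟨H, r, h⟩ := key t ht
      exact ⟨H, r, fun _ => h⟩
    · exact ⟨H0, 1, fun h => absurd h ht⟩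
  choose H r hH using hexH
  -- the constants are smooth
  have hcard : (Fintype.card (Fin (n + n) × Fin 2)) ≠ 0 := by
    have := TI.npos
    simp
    omega
  obtain ⟨i0, hi0⟩ := C.cover x1
  set z0 := C.e i0 x1 with hz0
  have hz0t : z0 ∈ (C.e i0).target := (C.e i0).map_source hi0
  let k : E → ℝ := fun t => detB b (fun x y => (D.om t + ddc (D.J t) (u t) (hs t)).w i0 z0 x y) /
    detB b (fun x y => (D.s1 t).w i0 z0 x y)
  have hslice : ContDiffOn ℝ ∞ (fun t : E => (t, z0)) T :=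
    contDiffOn_id.prodMk contDiffOn_const
  have hsm : MapsTo (fun t : E => (t, z0)) T (T ×ˢ (C.e i0).target) := fun t ht => ⟨ht, hz0t⟩
  have hs1ne : ∀ t ∈ T, detB b (fun x y => (D.s1 t).w i0 z0 x y) ≠ 0 := fun t ht =>
    detB_ne_zero b ((D.hd t ht).nd i0 z0 hz0t)
  have hk : ContDiffOn ℝ ∞ k T :=
    (contDiffOn_detB' b ((hjom i0).comp hslice hsm)).div
      (contDiffOn_detB' b ((D.js1 i0).comp hslice hsm)) hs1ne
  have hkr : ∀ t ∈ T, k t = r t ^ (Fintype.card (Fin (n + n) × Fin 2)) := by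
    intro t ht
    obtain ⟨-, -, h3, h4, -, -⟩ := hH t ht
    have e1 := HkT.detB_om b (H t) 0 hz0t
    have e2 := HkT.detB_om b (H t) 1 hz0t
    rw [h3] at e1
    rw [h4] at e2
    have e3 : detB b (fun x y => (r t • D.s1 t).w i0 z0 x y) =
        r t ^ (Fintype.card (Fin (n + n) × Fin 2)) * detB b (fun x y => (D.s1 t).w i0 z0 x y) := by
      rw [← detB_smul]
      rfl
    show detB b _ / detB b _ = _
    rw [e1, ← e2, e3, mul_div_cancel_right₀ _ (hs1ne t ht)]
  have hkpos : ∀ t ∈ T, 0 < k t := fun t ht => by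
    rw [hkr t ht]
    exact pow_pos (hH t ht).1 _
  have hr : ContDiffOn ℝ ∞ r T := by
    have h1 : ContDiffOn ℝ ∞ (fun t => k t ^ ((Fintype.card (Fin (n + n) × Fin 2) : ℝ)⁻¹)) T :=
      hk.rpow_const_of_ne fun t ht => (hkpos t ht).ne'
    refine h1.congr fun t ht => ?_
    rw [hkr t ht, Real.pow_rpow_inv_natCast (hH t ht).1.le hcard]
  refine ⟨H, r, u, hs, jsh_of_om H ?_ ?_, hr, hju, fun t ht => ?_⟩
  · intro l i
    fin_cases l
    · refine (hjom i).congr ?_
      rintro ⟨t, z⟩ ⟨ht, hz⟩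
      show ((H t).om 0).w i z = _
      rw [(hH t ht).2.2.1]
    · refine ((JS2.smul D.js1 hr) i).congr ?_
      rintro ⟨t, z⟩ ⟨ht, hz⟩
      show ((H t).om 1).w i z = _
      rw [(hH t ht).2.2.2.1]
    · refine ((JS2.smul D.js2 hr) i).congr ?_
      rintro ⟨t, z⟩ ⟨ht, hz⟩
      show ((H t).om 2).w i z = _
      rw [(hH t ht).2.2.2.2.1]
  · intro i
    refine (D.jsJ i).congr ?_
    rintro ⟨t, z⟩ ⟨ht, hz⟩
    show (ofHk (H t) 0).J i z = _
    rw [(hH t ht).2.1]
  · obtain ⟨h1, h2, h3, h4, h5, h6⟩ := hH t ht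
    exact ⟨h1, (hu t ht).2, h2, h3, h4, h5, h6⟩

end

end Crest.Agent.R281.Tt_476
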