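import Crest.Agent.R281.AF4_867
import Crest.Agent.R260.Ga2_323
import Crest.Agent.R260.Br5_592
import Crest.Agent.R273.PB_835

/-!
# R281 (S0424), UNIQ (helper360), part 1: the polynomial witness

* `LDat P L`      : a line bundle `L` on a projective manifold in algebraic form: sections `w j` of
                    `L ⊗ O(a)`, `v l` of `L⁻¹ ⊗ O(b)` without common zeros, `w j * v l = W j l (z)`;
* `Sbm A B j`     : an injective holomorphic immersion `j : T → M` of a compact manifold;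
* `Sbm.exists_wit`: if `L|_T` is flat, then for every `k` there is a section `u` of
                    `(O(1) ⊗ L⁻ᵏ)ᵐ` on `T`, not vanishing at a given point, such that the sections
                    `u * ∏ w (β l)` are polynomials in the homogeneous coordinates.
-/

set_option autoImplicit false
set_option linter.unusedSectionVars false

open Set Filter Topology Complex
open scoped ContDiff Matrix ComplexConjugate

namespace Crest.Agent.R281.Un_360

open Crest.Agent.R275 Crest.Agent.R275.Geo Crest.Agent.R275.Core144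
open Crest.Agent.R273.SerA_945 Crest.Agent.R273.SerB_945 Crest.Agent.R273.SerC_945
open Crest.Agent.R273.SerE_945 Crest.Agent.R273.TD3_733 Crest.Agent.R273.FS_333
open Crest.Agent.R273.Defs_333 Crest.Agent.R273.SteinC_794 Crest.Agent.R273.HM_333
open Crest.Agent.R273.Kah_333
open Crest.Agent.R273.Map_835 Crest.Agent.R273.PB_835 Crest.Agent.R273.Chow_313
open Crest.Agent.R281.AF_867

noncomputable section

/-! ### a line bundle in algebraic form -/

section M

variable {N : ℕ} {M : Type} [TopologicalSpace M] {A : Atl N M}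

/-- a line bundle on a projective manifold in algebraic form -/
structure LDat (P : ProjD A) (L : LB A) where
  a : ℕ
  b : ℕ
  r : ℕ
  s : ℕ
  w : Fin r → Fn A
  v : Fin s → Fn A
  hw : ∀ j, IsHS (L * lb P ^ a) univ (w j)
  hv : ∀ j, IsHS (L⁻¹ * lb P ^ b) univ (v j)
  wne : ∀ i, ∀ x ∈ (A.e i).source, ∃ j, w j i x ≠ 0
  vne : ∀ i, ∀ x ∈ (A.e i).source, ∃ j, v j i x ≠ 0
  W : Fin r → Fin s → MvPolynomial (Fin (P.N + 1)) ℂ
  hom : ∀ j l, (W j l).IsHomogeneous (a + b)
  eq : ∀ j l i, ∀ x ∈ (A.e i).source, w j i x * v l i x = MvPolynomial.eval (P.F i x) (W j l)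

variable [T2Space M] [CompactSpace M] [ConnectedSpace M] [Finite A.ι]

theorem exists_ldat (PA : Part A) (P : ProjD A) (L : LB A) : Nonempty (LDat P L) := by
  classical
  have hD := Crest.Agent.R260.Br5_592.d2_proj PA P
  obtain ⟨m1, h1⟩ := ggen_proj PA hD P L
  obtain ⟨m2, h2⟩ := ggen_proj PA hD P L⁻¹
  obtain ⟨m3, h3⟩ := surj_proj PA hD P
  obtain ⟨r, w, hw, wne⟩ := h1 (m1 + m3) (by omega)
  obtain ⟨s, v, hv, vne⟩ := h2 m2 le_rfl
  have h4 : ∀ j l, ∃ p : MvPolynomial (Fin (P.N + 1)) ℂ, p.IsHomogeneous (m1 + m3 + m2) ∧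
      ∀ i, ∀ x ∈ (A.e i).source, (w j * v l) i x =
        MvPolynomial.eval (fun k => sec P k i x) p := by
    intro j l
    refine h3 (m1 + m3 + m2) (by omega) (w j * v l) ?_
    have h5 := (hw j).mul (hv l)
    have e : L * lb P ^ (m1 + m3) * (L⁻¹ * lb P ^ m2) = lb P ^ (m1 + m3 + m2) := by
      rw [pow_add (lb P) (m1 + m3) m2]
      rw [mul_mul_mul_comm, mul_inv_cancel, one_mul]
    rwa [e] at h5
  choose W hW hWe using h4
  refine ⟨⟨m1 + m3, m2, r, s, w, v, hw, hv, wne, vne, W, hW, fun j l i x hx => ?_⟩⟩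
  have h6 := hWe j l i x hx
  have e : (fun k => sec P k i x) = P.F i x := funext fun k => sec_eq P hx k
  rw [e] at h6
  exact h6

end M

/-! ### submanifolds -/

section T

variable {d N : ℕ} {T M : Type} [TopologicalSpace T] [TopologicalSpace M]

/-- an injective holomorphic immersion of a compact manifold, with charts adapted to `A` -/
structure Sbm (B : Atl d T) (A : Atl N M) (j : T → M) where
  hol : HolMap B A j
  R : Ref B A j
  inj : Function.Injective j
  imm : ∀ i i', ∀ z ∈ dm B A j i i', Function.Injective (fderiv ℂ (rd B A j i i') z)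
  part : Part B

variable {B : Atl d T} {A : Atl N M} {j : T → M} (I : Sbm B A j)

namespace Sbm

/-- the homogeneous coordinates -/
def P (P : ProjD A) : ProjD B := pullProjD I.hol I.R I.inj I.imm P

/-- the restriction of a line bundle -/
def L (L : LB A) : LB B := pullLB I.hol I.R L

theorem P_F (P : ProjD A) (i : B.ι) (x : T) : (I.P P).F i x = P.F (I.R.r i) (j x) := rfl

open Classical in
/-- pull-back of a family of functions -/
def pb (s : Fn A) : Fn B := fun i x => if x ∈ (B.e i).source then s (I.R.r i) (j x) else 0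

theorem pb_eq (s : Fn A) {i : B.ι} {x : T} (hx : x ∈ (B.e i).source) :
    I.pb s i x = s (I.R.r i) (j x) := if_pos hx

theorem isHS_pb {L' : LB A} {s : Fn A} (hs : IsHS L' univ s) : IsHS (I.L L') univ (I.pb s) where
  hol i := by
    have h1 := I.hol.comp_holAt (i := i) (hs.hol (I.R.r i))
    have h2 : HolAt B i univ (fun x => s (I.R.r i) (j x)) :=
      DifferentiableOn.mono h1 fun z hz =>
        ⟨hz.1, mem_univ _, I.R.sub i _ ((B.e i).map_target hz.1)⟩
    exact h2.congr fun x hx _ => (I.pb_eq s hx).symm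
  off i x hx := if_neg hx
  tr i k x hx _ := by
    rw [I.pb_eq s hx.1, I.pb_eq s hx.2]
    have h1 := hs.tr (I.R.r i) (I.R.r k) (j x) ⟨I.R.sub i x hx.1, I.R.sub k x hx.2⟩ (mem_univ _)
    rw [h1]
    congr 1
    exact (pullLB_g I.hol I.R L' hx).symm

theorem L_g (L₁ : LB A) {i k : B.ι} {x : T} (hx : x ∈ (B.e i).source ∩ (B.e k).source) :
    (I.L L₁).g i k x = L₁.g (I.R.r i) (I.R.r k) (j x) := pullLB_g I.hol I.R L₁ hx

theorem L_off (L₁ : LB A) {i k : B.ι} {x : T} (hx : x ∉ (B.e i).source ∩ (B.e k).source) :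
    (I.L L₁).g i k x = 1 := (I.L L₁).off i k x hx

theorem L_mul (L₁ L₂ : LB A) : I.L (L₁ * L₂) = I.L L₁ * I.L L₂ := by
  ext i k x
  by_cases hx : x ∈ (B.e i).source ∩ (B.e k).source
  · rw [L_g I _ hx, LB.mul_g, LB.mul_g, L_g I _ hx, L_g I _ hx]
  · rw [L_off I _ hx, LB.mul_g, L_off I _ hx, L_off I _ hx, one_mul]

theorem L_one : I.L 1 = 1 := by
  ext i k x
  by_cases hx : x ∈ (B.e i).source ∩ (B.e k).source
  · rw [L_g I _ hx, LB.one_g, LB.one_g]
  · rw [L_off I _ hx, LB.one_g]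

theorem L_inv (L₁ : LB A) : I.L L₁⁻¹ = (I.L L₁)⁻¹ := by
  ext i k x
  by_cases hx : x ∈ (B.e i).source ∩ (B.e k).source
  · rw [L_g I _ hx, LB.inv_g, LB.inv_g, L_g I _ hx]
  · rw [L_off I _ hx, LB.inv_g, L_off I _ hx, inv_one]

theorem L_pow (L₁ : LB A) (m : ℕ) : I.L (L₁ ^ m) = I.L L₁ ^ m := by
  induction m with
  | zero => rw [pow_zero, pow_zero, L_one]
  | succ m ih => rw [pow_succ, pow_succ, L_mul, ih]

theorem L_lb (P : ProjD A) : I.L (lb P) = lb (I.P P) := by
  refine (lb_eq_of fun i k x hx => ?_).symm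
  rw [L_g I _ hx]
  exact gij_spec P ⟨I.R.sub i x hx.1, I.R.sub k x hx.2⟩

/-! ### the witness -/

/-- `L|_T` has a flat metric -/
def Flat (L : LB A) : Prop := ∃ h : HM (I.L L), ∀ i, ∀ x ∈ (B.e i).source, cur h i x = 0

theorem pos_twist {L : LB A} (hf : I.Flat L) (P : ProjD A) (k : ℕ) :
    ∃ h : HM (lb (I.P P) * ((I.L L)⁻¹) ^ k), h.Pos := by
  obtain ⟨h, hh⟩ := hf
  refine ⟨mul (fs (I.P P)) (pow (inv h) k), pos_of_cur fun i x hx => ?_⟩
  rw [cur_mul _ _ i hx, cur_pow _ k i hx, cur_inv _ i hx, hh i x hx, neg_zero, smul_zero, add_zero]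
  exact cur_posDef (fs_pos (I.P P)) i hx

variable [T2Space T] [CompactSpace T] [ConnectedSpace T] [Finite B.ι]

/-- **the witness** -/
theorem exists_wit {P : ProjD A} {L : LB A} (D : LDat P L) (hf : I.Flat L) {k : ℕ} (x0 : T) :
    ∃ m : ℕ, 1 ≤ m ∧ ∃ u : Fn B, IsHS ((lb (I.P P) * ((I.L L)⁻¹) ^ k) ^ m) univ u ∧
      (∀ i, x0 ∈ (B.e i).source → u i x0 ≠ 0) ∧
      ∃ p : (Fin (k * m) → Fin D.r) → MvPolynomial (Fin (P.N + 1)) ℂ,
        (∀ β, (p β).IsHomogeneous (m + D.a * (k * m))) ∧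
        ∀ β i, ∀ x ∈ (B.e i).source, u i x * ∏ l, D.w (β l) (I.R.r i) (j x) =
          MvPolynomial.eval (P.F (I.R.r i) (j x)) (p β) := by
  classical
  obtain ⟨h, hp⟩ := I.pos_twist hf P k
  obtain ⟨K, hK0, -, hK, -⟩ := Crest.Agent.R260.Ga_323.vv_gen I.part (I.P P) h hp
  have hD := Crest.Agent.R260.Br5_592.d2_proj I.part (I.P P)
  obtain ⟨m1, h1⟩ := surj_proj I.part hD (I.P P)
  obtain ⟨Q, hQ⟩ := hK (K + m1) (by omega)
  set m := K + m1 with hm
  obtain ⟨i0, hi0⟩ := B.cover x0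
  obtain ⟨κ, hκ⟩ := exists_sec_ne Q hi0
  have hu : IsHS ((lb (I.P P) * ((I.L L)⁻¹) ^ k) ^ m) univ (sec Q κ) := by
    rw [← hQ]
    exact isHS_sec Q κ
  refine ⟨m, by omega, sec Q κ, hu, fun i hi => ?_, ?_⟩
  · exact fun h0 => hκ ((hu.zero_iff ⟨hi, hi0⟩ (mem_univ _)).1 h0)
  have h2 : ∀ β : Fin (k * m) → Fin D.r, ∃ p : MvPolynomial (Fin (P.N + 1)) ℂ,
      p.IsHomogeneous (m + D.a * (k * m)) ∧ ∀ i, ∀ x ∈ (B.e i).source,
        (sec Q κ * ∏ l, I.pb (D.w (β l))) i x =
          MvPolynomial.eval (fun k => sec (I.P P) k i x) p := by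
    intro β
    refine h1 (m + D.a * (k * m)) (by omega) _ ?_
    have h3 : ∀ s : Finset (Fin (k * m)), IsHS ((lb (I.P P) * ((I.L L)⁻¹) ^ k) ^ m *
        I.L (L * lb P ^ D.a) ^ s.card) univ (sec Q κ * ∏ l ∈ s, I.pb (D.w (β l))) := by
      intro s
      induction s using Finset.induction_on with
      | empty => rwa [Finset.prod_empty, Finset.card_empty, pow_zero, mul_one, mul_one]
      | insert a s ha ih =>
        rw [Finset.prod_insert ha, Finset.card_insert_of_notMem ha, pow_succ, ← mul_assoc,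
          mul_comm (I.pb (D.w (β a))), ← mul_assoc]
        exact ih.mul (I.isHS_pb (D.hw (β a)))
    have h4 := h3 Finset.univ
    rw [Finset.card_univ, Fintype.card_fin, L_mul, L_pow, L_lb] at h4
    have e : (lb (I.P P) * (I.L L)⁻¹ ^ k) ^ m * (I.L L * lb (I.P P) ^ D.a) ^ (k * m) =
        lb (I.P P) ^ (m + D.a * (k * m)) := by
      rw [mul_pow, mul_pow, ← pow_mul, ← pow_mul, pow_add _ m, inv_pow]
      rw [mul_assoc, ← mul_assoc ((I.L L ^ (k * m))⁻¹), inv_mul_cancel, one_mul]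
    rwa [e] at h4
  choose p hp1 hp2 using h2
  refine ⟨p, hp1, fun β i x hx => ?_⟩
  have h3 := hp2 β i x hx
  have e : (fun k => sec (I.P P) k i x) = P.F (I.R.r i) (j x) := funext fun k => sec_eq _ hx k
  rw [e] at h3
  refine Eq.trans ?_ h3
  rw [Pi.mul_apply, Pi.mul_apply, Finset.prod_apply, Finset.prod_apply]
  congr 1
  exact Finset.prod_congr rfl fun l _ => (I.pb_eq _ hx).symm

end Sbm

end T

end

end Crest.Agent.R281.Un_360
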