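import Crest.Agent.R281.Un1_360

/-!
# R281 (S0424), UNIQ (helper360), part 2: conjugation by a field automorphism, definitions

* `Cj P σ x y`   : `y` is the conjugate point of `x`;
* `FixM P σ`     : `σ` fixes equations of `M`;  `LDat.Fix` : `σ` fixes the algebraic form of `L`;
* `Sbm.Conj`     : the conjugate `S = σ(T)` of a submanifold;
* `ChartAt S y`  : a holomorphic ball in `M`, contained in `S`, with centre `y`, neighbourhood of `y`;
* `ConjCh`, `ConjSub` : the shapes of KAP-CONJ (530).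
-/

set_option autoImplicit false
set_option linter.unusedSectionVars false

open Set Filter Topology Complex
open scoped ContDiff Matrix ComplexConjugate

namespace Crest.Agent.R281.Un_360

open Crest.Agent.R275 Crest.Agent.R275.Geo Crest.Agent.R275.Core144
open Crest.Agent.R273.SerA_945 Crest.Agent.R273.SerB_945 Crest.Agent.R273.SerC_945
open Crest.Agent.R273.SerE_945 Crest.Agent.R273.TD3_733 Crest.Agent.R273.FS_333
open Crest.Agent.R273.Defs_333 Crest.Agent.R273.SteinC_794 Crest.Agent.R273.HM_333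
open Crest.Agent.R273.Kah_333
open Crest.Agent.R273.Map_835 Crest.Agent.R273.PB_835 Crest.Agent.R273.Chow_313
open Crest.Agent.R281.AF_867

noncomputable section

variable {d N : ℕ} {T M : Type} [TopologicalSpace T] [TopologicalSpace M]
  {B : Atl d T} {A : Atl N M} {j : T → M}

/-- `y` is the conjugate of `x` under `σ` -/
def Cj (P : ProjD A) (σ : ℂ ≃+* ℂ) (x y : M) : Prop :=
  ∃ i i', x ∈ (A.e i).source ∧ y ∈ (A.e i').source ∧
    ∃ c : ℂ, c ≠ 0 ∧ P.F i' y = c • fun k => σ (P.F i x k)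

/-- `σ` fixes equations of `M` -/
def FixM (P : ProjD A) (σ : ℂ ≃+* ℂ) : Prop :=
  ∃ E : Set (MvPolynomial (Fin (P.N + 1)) ℂ), Eqs (fun k => sec P k) E ∧
    ∀ p ∈ E, MvPolynomial.map (σ : ℂ →+* ℂ) p = p

/-- `σ` fixes the algebraic form of `L` -/
def LDat.Fix {P : ProjD A} {L : LB A} (D : LDat P L) (σ : ℂ ≃+* ℂ) : Prop :=
  ∀ j l, MvPolynomial.map (σ : ℂ →+* ℂ) (D.W j l) = D.W j l

/-- the conjugate of a submanifold -/
def Sbm.Conj (_ : Sbm B A j) (P : ProjD A) (σ : ℂ ≃+* ℂ) : Set M := {y | ∃ x : T, Cj P σ (j x) y}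

/-- a holomorphic ball in `M` with centre `y`, contained in `S` and neighbourhood of `y` in `S` -/
structure ChAt (A : Atl N M) (d : ℕ) (S : Set M) (y : M) where
  i : A.ι
  R : ℝ
  ψ : Cn d → M
  pos : 0 < R
  ψ0 : ψ 0 = y
  src : ∀ z ∈ Metric.ball (0 : Cn d) R, ψ z ∈ (A.e i).source
  mem : ∀ z ∈ Metric.ball (0 : Cn d) R, ψ z ∈ S
  cont : ContinuousOn ψ (Metric.ball 0 R)
  hol : DifferentiableOn ℂ (fun z => A.e i (ψ z)) (Metric.ball 0 R)
  imm : Function.Injective (fderiv ℂ (fun z => A.e i (ψ z)) 0)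
  nhd : ∀ r, 0 < r → ψ '' Metric.ball 0 r ∈ 𝓝[S] y

/-- KAP-CONJ, charts -/
def ConjCh : Prop :=
  ∀ (d N : ℕ) (T M : Type) [TopologicalSpace T] [TopologicalSpace M] [T2Space T] [CompactSpace T]
    [ConnectedSpace T] [T2Space M] [CompactSpace M] [ConnectedSpace M] (B : Atl d T) (A : Atl N M)
    [Finite B.ι] [Finite A.ι] (j : T → M) (I : Sbm B A j) (P : ProjD A) (σ : ℂ ≃+* ℂ),
    FixM P σ → IsClosed (I.Conj P σ) ∧ ∀ y ∈ I.Conj P σ, Nonempty (ChAt A d (I.Conj P σ) y)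

/-- KAP-CONJ, last step -/
def ConjSub : Prop :=
  ∀ (d N : ℕ) (T T' M : Type) [TopologicalSpace T] [TopologicalSpace T'] [TopologicalSpace M]
    [T2Space T] [CompactSpace T] [ConnectedSpace T] [T2Space T'] [CompactSpace T']
    [ConnectedSpace T'] [T2Space M] [CompactSpace M] [ConnectedSpace M]
    (B : Atl d T) (B' : Atl d T') (A : Atl N M) [Finite B.ι] [Finite B'.ι] [Finite A.ι]
    (j : T → M) (j' : T' → M) (I : Sbm B A j) (_ : Sbm B' A j') (P : ProjD A) (σ : ℂ ≃+* ℂ),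
    FixM P σ → ∀ (y : M) (c : ChAt A d (I.Conj P σ) y),
      (∀ᶠ z in 𝓝 (0 : Cn d), c.ψ z ∈ range j') → range j' ⊆ I.Conj P σ

/-! ### first properties -/

/-- relations are transported -/
theorem conj_rel (I : Sbm B A j) {P : ProjD A} {σ : ℂ ≃+* ℂ} {p : MvPolynomial (Fin (P.N + 1)) ℂ}
    {e : ℕ} (hp : p.IsHomogeneous e)
    (h : ∀ i, ∀ x ∈ (B.e i).source, MvPolynomial.eval (P.F (I.R.r i) (j x)) p = 0) {y : M}
    (hy : y ∈ I.Conj P σ) {i : A.ι} (hi : y ∈ (A.e i).source) :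
    MvPolynomial.eval (P.F i y) (MvPolynomial.map (σ : ℂ →+* ℂ) p) = 0 := by
  obtain ⟨x, i1, i2, h1, h2, c, hc, hcy⟩ := hy
  obtain ⟨i0, hi0⟩ := B.cover x
  have hr := I.R.sub i0 x hi0
  obtain ⟨a, ha⟩ := P.tr i i2 y ⟨hi, h2⟩
  obtain ⟨b, hb⟩ := P.tr i1 (I.R.r i0) (j x) ⟨h1, hr⟩
  have e1 : P.F i y = (a * c * σ b) • fun k => σ (P.F (I.R.r i0) (j x) k) := by
    rw [ha, hcy]
    funext k
    have hbk := congrFun hb k
    simp only [Pi.smul_apply, smul_eq_mul] at hbk ⊢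
    rw [hbk, map_mul]
    ring
  have e2 : MvPolynomial.eval (fun k => σ (P.F (I.R.r i0) (j x) k))
      (MvPolynomial.map (σ : ℂ →+* ℂ) p) = σ (MvPolynomial.eval (P.F (I.R.r i0) (j x)) p) := by
    rw [MvPolynomial.eval_map]
    exact (MvPolynomial.eval₂_comp (σ : ℂ →+* ℂ) _ p).symm
  rw [e1, eval_smul (hp.map _), e2, h i0 x hi0, map_zero, mul_zero]

end

end Crest.Agent.R281.Un_360
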