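import Crest.Agent.R281.Un4_360

/-!
# R281 (S0424), UNIQ (helper360), part 5: the potentials on the conjugate submanifold

* `nP`, `nW`, `ratio_eq` : `nP / nW ^ (k m) = |u|² |1|²_FS^m h^(-k m)` on `S`;
* `Pot W h φ`            : `φ + (1 / k m) log (nP / nW ^ (k m))`;
* `pot_sub`              : its sub-mean property on holomorphic balls contained in `S`.
-/

set_option autoImplicit false
set_option linter.unusedSectionVars false

open Set Filter Topology Complex MeasureTheory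
open scoped ContDiff Matrix ComplexConjugate

namespace Crest.Agent.R281.Un_360

open Crest.Agent.R275 Crest.Agent.R275.Geo Crest.Agent.R275.Core144
open Crest.Agent.R273.SerA_945 Crest.Agent.R273.SerB_945 Crest.Agent.R273.SerC_945
open Crest.Agent.R273.SerE_945 Crest.Agent.R273.TD3_733 Crest.Agent.R273.FS_333
open Crest.Agent.R273.Defs_333 Crest.Agent.R273.SteinC_794 Crest.Agent.R273.HM_333
open Crest.Agent.R273.Kah_333
open Crest.Agent.R273.Map_835 Crest.Agent.R273.PB_835 Crest.Agent.R273.Chow_313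
open Crest.Agent.R281.AF_867

noncomputable section

variable {N : ℕ} {M : Type} [TopologicalSpace M] {A : Atl N M}

/-- `log |g|²` is subharmonic on balls (911) -/
def LogSm : Prop :=
  ∀ (d : ℕ) (g : Cn d → ℂ) (U : Set (Cn d)) (z : Cn d) (r : ℝ), IsOpen U →
    Metric.closedBall z r ⊆ U → DifferentiableOn ℂ g U → 0 < r → g z ≠ 0 →
    (∀ᵐ w ∂(volume.restrict (Metric.ball z r)), g w ≠ 0) ∧
      IntegrableOn (fun w => Real.log (‖g w‖ ^ 2)) (Metric.ball z r) ∧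
      Real.log (‖g z‖ ^ 2) ≤ ⨍ w in Metric.ball z r, Real.log (‖g w‖ ^ 2)

variable {P : ProjD A} {L : LB A} {D : LDat P L} {S : Set M} {y0 : M} {k : ℕ}

/-- the numerator -/
def nP (W : WS P D S y0 k) (i : A.ι) (y : M) : ℝ :=
  (∑ β, ‖MvPolynomial.eval (P.F i y) (W.q β)‖ ^ 2) * (fs P).w i y ^ (W.m + D.a * (k * W.m))

/-- the denominator -/
def nW (D : LDat P L) (h : HM L) (i : A.ι) (y : M) : ℝ :=
  (∑ j, ‖D.w j i y‖ ^ 2) * (h.w i y * (fs P).w i y ^ D.a)

theorem nW_pos (h : HM L) {i : A.ι} {y : M} (hi : y ∈ (A.e i).source) : 0 < nW D h i y := by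
  obtain ⟨j, hj⟩ := D.wne i y hi
  refine mul_pos (Finset.sum_pos' (fun j _ => by positivity) ⟨j, Finset.mem_univ _, ?_⟩)
    (mul_pos (h.pos i y hi) (pow_pos ((fs P).pos i y hi) _))
  positivity

theorem nP_nonneg (W : WS P D S y0 k) {i : A.ι} {y : M} (hi : y ∈ (A.e i).source) :
    0 ≤ nP W i y :=
  mul_nonneg (Finset.sum_nonneg fun _ _ => by positivity) (pow_nonneg ((fs P).pos i y hi).le _)

theorem fs_tr (P : ProjD A) {i i' : A.ι} {y : M} {c : ℂ} (hc : P.F i y = c • P.F i' y) :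
    (fs P).w i y = (‖c‖ ^ 2)⁻¹ * (fs P).w i' y := by
  show (∑ k, ‖P.F i y k‖ ^ 2)⁻¹ = (‖c‖ ^ 2)⁻¹ * (∑ k, ‖P.F i' y k‖ ^ 2)⁻¹
  rw [← mul_inv, Finset.mul_sum]
  congr 1
  refine Finset.sum_congr rfl fun k _ => ?_
  rw [hc, Pi.smul_apply, smul_eq_mul, norm_mul, mul_pow]

theorem nP_tr (W : WS P D S y0 k) {i i' : A.ι} {y : M} (hi : y ∈ (A.e i).source)
    (hi' : y ∈ (A.e i').source) : nP W i y = nP W i' y := by
  obtain ⟨c, hc0, hc⟩ := tr_ne P hi hi'
  unfold nP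
  rw [fs_tr P hc]
  have h1 : ∀ β, ‖MvPolynomial.eval (P.F i y) (W.q β)‖ ^ 2 =
      (‖c‖ ^ 2) ^ (W.m + D.a * (k * W.m)) * ‖MvPolynomial.eval (P.F i' y) (W.q β)‖ ^ 2 := by
    intro β
    rw [hc, eval_smul (W.hom β), norm_mul, norm_pow, mul_pow]
    ring
  rw [Finset.sum_congr rfl fun β _ => h1 β, ← Finset.mul_sum, mul_pow, inv_pow]
  have h2 : (‖c‖ ^ 2) ^ (W.m + D.a * (k * W.m)) ≠ 0 := by positivity
  field_simp

theorem nW_tr (h : HM L) {i i' : A.ι} {y : M} (hi : y ∈ (A.e i).source)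
    (hi' : y ∈ (A.e i').source) : nW D h i y = nW D h i' y := by
  have h1 : ∀ (i : A.ι) (y : M), nW D h i y =
      ∑ j, nsq (mul h (pow (fs P) D.a)) (D.w j) i y := by
    intro i y
    unfold nW nsq
    rw [Finset.sum_mul]
    refine Finset.sum_congr rfl fun j _ => ?_
    show _ = _ * (h.w i y * (pow (fs P) D.a).w i y)
    rw [pow_w]
  rw [h1, h1]
  exact Finset.sum_congr rfl fun j _ => nsq_indep _ (D.hw j) ⟨hi, hi'⟩ (mem_univ _)

/-- **the ratio on `S`** -/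
theorem ratio_eq (W : WS P D S y0 k) (h : HM L) {i : A.ι} {y : M} (hi : y ∈ (A.e i).source)
    (hy : y ∈ S) : nP W i y / nW D h i y ^ (k * W.m) =
      ‖W.u i y‖ ^ 2 * (fs P).w i y ^ W.m / h.w i y ^ (k * W.m) := by
  have h1 : ∑ β, ‖MvPolynomial.eval (P.F i y) (W.q β)‖ ^ 2 =
      ‖W.u i y‖ ^ 2 * (∑ j, ‖D.w j i y‖ ^ 2) ^ (k * W.m) := by
    rw [Fintype.sum_pow (fun j => ‖D.w j i y‖ ^ 2) (k * W.m), Finset.mul_sum]
    refine Finset.sum_congr rfl fun β _ => ?_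
    rw [W.eq i y hi hy β, norm_mul, mul_pow, norm_prod, Finset.prod_pow]
  have h2 : 0 < ∑ j, ‖D.w j i y‖ ^ 2 := by
    obtain ⟨j, hj⟩ := D.wne i y hi
    refine Finset.sum_pos' (fun j _ => by positivity) ⟨j, Finset.mem_univ _, ?_⟩
    positivity
  have h3 := h.pos i y hi
  have h4 := (fs P).pos i y hi
  unfold nP nW
  rw [h1, div_eq_div_iff (by positivity) (by positivity)]
  rw [mul_pow, mul_pow, ← pow_mul, pow_add]
  ring

/-! ### the potential -/

/-- the chart of a point -/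
def chx (A : Atl N M) (y : M) : A.ι := (A.cover y).choose

theorem chx_mem (A : Atl N M) (y : M) : y ∈ (A.e (chx A y)).source := (A.cover y).choose_spec

/-- `φ + (1 / k m) log (nP / nW ^ (k m))` -/
def Pot (W : WS P D S y0 k) (h : HM L) (φ : M → ℝ) (y : M) : ℝ :=
  φ y + ((k * W.m : ℕ) : ℝ)⁻¹ * Real.log (nP W (chx A y) y / nW D h (chx A y) y ^ (k * W.m))

/-- the good points -/
def PG (W : WS P D S y0 k) (G : Set M) : Set M := {y | y ∈ G ∧ nP W (chx A y) y ≠ 0}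

theorem pot_eq (W : WS P D S y0 k) (h : HM L) (φ : M → ℝ) {i : A.ι} {y : M}
    (hi : y ∈ (A.e i).source) : Pot W h φ y =
      φ y + ((k * W.m : ℕ) : ℝ)⁻¹ * Real.log (nP W i y / nW D h i y ^ (k * W.m)) := by
  unfold Pot
  rw [nP_tr W (chx_mem A y) hi, nW_tr h (chx_mem A y) hi]

theorem mem_PG (W : WS P D S y0 k) (G : Set M) {i : A.ι} {y : M} (hi : y ∈ (A.e i).source)
    (hy : y ∈ S) : y ∈ PG W G ↔ y ∈ G ∧ W.u i y ≠ 0 := by
  unfold PG
  rw [mem_ofPred_eq, nP_tr W (chx_mem A y) hi]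
  refine and_congr_right fun _ => not_congr ?_
  have h1 : ∑ β, ‖MvPolynomial.eval (P.F i y) (W.q β)‖ ^ 2 =
      ‖W.u i y‖ ^ 2 * (∑ j, ‖D.w j i y‖ ^ 2) ^ (k * W.m) := by
    rw [Fintype.sum_pow (fun j => ‖D.w j i y‖ ^ 2) (k * W.m), Finset.mul_sum]
    refine Finset.sum_congr rfl fun β _ => ?_
    rw [W.eq i y hi hy β, norm_mul, mul_pow, norm_prod, Finset.prod_pow]
  have h2 : 0 < ∑ j, ‖D.w j i y‖ ^ 2 := by
    obtain ⟨j, hj⟩ := D.wne i y hi
    refine Finset.sum_pos' (fun j _ => by positivity) ⟨j, Finset.mem_univ _, ?_⟩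
    positivity
  have h4 := (fs P).pos i y hi
  unfold nP
  rw [h1, mul_eq_zero, mul_eq_zero, or_iff_left (pow_pos h4 _).ne',
    or_iff_left (pow_pos h2 _).ne', sq_eq_zero_iff, norm_eq_zero]

/-- the potential on `S` -/
theorem pot_S (W : WS P D S y0 k) (hk : 1 ≤ k) (h : HM L) (φ : M → ℝ) {i : A.ι} {y : M}
    (hi : y ∈ (A.e i).source) (hy : y ∈ S) (hu : W.u i y ≠ 0) :
    Pot W h φ y + (k : ℝ)⁻¹ * (fs P).wt i (A.e i y) =
      φ y + h.wt i (A.e i y) + ((k * W.m : ℕ) : ℝ)⁻¹ * Real.log (‖W.u i y‖ ^ 2) := by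
  have h3 := h.pos i y hi
  have h4 := (fs P).pos i y hi
  have h5 : 0 < ‖W.u i y‖ ^ 2 := by positivity
  have hm := W.mpos
  have hkm : (k : ℝ) ≠ 0 := by positivity
  have hmm : (W.m : ℝ) ≠ 0 := by positivity
  rw [pot_eq W h φ hi, ratio_eq W h hi hy, Real.log_div (by positivity) (by positivity),
    Real.log_mul h5.ne' (by positivity), Real.log_pow ((fs P).w i y) (W.m),
    Real.log_pow (h.w i y) (k * W.m)]
  have e1 : (fs P).wt i (A.e i y) = - Real.log ((fs P).w i y) := by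
    simp only [HM.wt, (A.e i).left_inv hi]
  have e2 : h.wt i (A.e i y) = - Real.log (h.w i y) := by
    simp only [HM.wt, (A.e i).left_inv hi]
  rw [e1, e2]
  set a := Real.log (‖W.u i y‖ ^ 2)
  set b := Real.log ((fs P).w i y)
  set c := Real.log (h.w i y)
  rw [Nat.cast_mul]
  field_simp
  ring

end

end Crest.Agent.R281.Un_360
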