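import Crest.Agent.R281.Un5_360
import Crest.Agent.R281.MaxP_877

/-!
# R281 (S0424), UNIQ (helper360), part 6: sub-mean property of the potentials on `S`
-/

set_option autoImplicit false
set_option linter.unusedSectionVars false

open Set Filter Topology Complex MeasureTheory
open scoped ContDiff Matrix ComplexConjugate

namespace Crest.Agent.R281.Un_360

open Crest.Agent.R275 Crest.Agent.R275.Geo Crest.Agent.R275.Core144
open Crest.Agent.R273.SerA_945 Crest.Agent.R273.SerB_945 Crest.Agent.R273.SerC_945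
open Crest.Agent.R273.SerE_945 Crest.Agent.R273.TD3_733 Crest.Agent.R273.FS_333
open Crest.Agent.R273.Defs_333 Crest.Agent.R273.SteinC_794 Crest.Agent.R273.HM_333
open Crest.Agent.R273.Kah_333
open Crest.Agent.R273.Map_835 Crest.Agent.R273.PB_835 Crest.Agent.R273.Chow_313
open Crest.Agent.R281.AF_867

noncomputable section

variable {N d : ℕ} {M : Type} [TopologicalSpace M] {A : Atl N M}
variable {P : ProjD A} {L : LB A} {D : LDat P L} {S : Set M} {y0 y : M} {k : ℕ}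

/-! ### holomorphic functions on a chart of `S` -/

theorem ChAt.comp_hol (c : ChAt A d S y) {f : M → ℂ} (hf : HolAt A c.i univ f) :
    DifferentiableOn ℂ (fun z => f (c.ψ z)) (Metric.ball 0 c.R) := by
  have h1 : DifferentiableOn ℂ (fun z => f ((A.e c.i).symm (A.e c.i (c.ψ z))))
      (Metric.ball 0 c.R) := by
    refine DifferentiableOn.comp (t := (A.e c.i).target ∩ (A.e c.i).symm ⁻¹' univ)
      (g := fun z => f ((A.e c.i).symm z)) hf c.hol fun z hz => ?_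
    exact ⟨(A.e c.i).map_source (c.src z hz), mem_univ _⟩
  refine h1.congr fun z hz => ?_
  rw [(A.e c.i).left_inv (c.src z hz)]

theorem ChAt.comp_hol' (c : ChAt A d S y) {m : ℕ} {W : Set M} {f : M → Cn m}
    (hf : DifferentiableOn ℂ (fun z => f ((A.e c.i).symm z))
      ((A.e c.i).target ∩ (A.e c.i).symm ⁻¹' W)) {U : Set (Cn d)} (hU : U ⊆ Metric.ball 0 c.R)
    (hUW : ∀ z ∈ U, c.ψ z ∈ W) : DifferentiableOn ℂ (fun z => f (c.ψ z)) U := by
  have h1 : DifferentiableOn ℂ (fun z => f ((A.e c.i).symm (A.e c.i (c.ψ z)))) U := by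
    refine DifferentiableOn.comp (t := (A.e c.i).target ∩ (A.e c.i).symm ⁻¹' W)
      (g := fun z => f ((A.e c.i).symm z)) hf (c.hol.mono hU) fun z hz => ?_
    refine ⟨(A.e c.i).map_source (c.src z (hU hz)), ?_⟩
    rw [mem_preimage, (A.e c.i).left_inv (c.src z (hU hz))]
    exact hUW z hz
  refine h1.congr fun z hz => ?_
  rw [(A.e c.i).left_inv (c.src z (hU hz))]

theorem ChAt.eval_hol (c : ChAt A d S y) (p : MvPolynomial (Fin (P.N + 1)) ℂ) :
    DifferentiableOn ℂ (fun z => MvPolynomial.eval (P.F c.i (c.ψ z)) p) (Metric.ball 0 c.R) := by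
  intro z hz
  have h1 : ∀ l, DifferentiableAt ℂ (fun z => P.F c.i (c.ψ z) l) z := fun l =>
    (c.comp_hol (P.hol c.i l)).differentiableAt (Metric.isOpen_ball.mem_nhds hz)
  have h2 := hasFDerivAt_ev (f := fun l z => P.F c.i (c.ψ z) l) (z0 := z)
    (fun l => (h1 l).hasFDerivAt) p
  exact h2.differentiableAt.differentiableWithinAt

theorem ChAt.u_hol (c : ChAt A d S y) (W : WS P D S y0 k) :
    DifferentiableOn ℂ (fun z => W.u c.i (c.ψ z)) (Metric.ball 0 c.R) := by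
  intro z hz
  obtain ⟨j0, hj0⟩ := D.wne c.i (c.ψ z) (c.src z hz)
  have hwh : DifferentiableOn ℂ (fun z => D.w j0 c.i (c.ψ z)) (Metric.ball 0 c.R) :=
    c.comp_hol ((D.hw j0).hol c.i)
  have h1 : ∀ᶠ w in 𝓝 z, D.w j0 c.i (c.ψ w) ≠ 0 :=
    ((hwh.differentiableAt (Metric.isOpen_ball.mem_nhds hz)).continuousAt).eventually_ne hj0
  have h2 : (fun w => W.u c.i (c.ψ w)) =ᶠ[𝓝 z] fun w =>
      MvPolynomial.eval (P.F c.i (c.ψ w)) (W.q fun _ => j0) /
        (D.w j0 c.i (c.ψ w)) ^ (k * W.m) := by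
    filter_upwards [h1, Metric.isOpen_ball.mem_nhds hz] with w hw hwb
    rw [W.eq c.i _ (c.src w hwb) (c.mem w hwb), Finset.prod_const, Finset.card_univ,
      Fintype.card_fin, mul_div_assoc, div_self (pow_ne_zero _ hw), mul_one]
  have h4 : DifferentiableAt ℂ (fun w => MvPolynomial.eval (P.F c.i (c.ψ w)) (W.q fun _ => j0))
      z := (c.eval_hol _).differentiableAt (Metric.isOpen_ball.mem_nhds hz)
  have h5 : DifferentiableAt ℂ (fun w => D.w j0 c.i (c.ψ w)) z :=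
    hwh.differentiableAt (Metric.isOpen_ball.mem_nhds hz)
  have h6 : DifferentiableAt ℂ (fun w => (D.w j0 c.i (c.ψ w)) ^ (k * W.m)) z :=
    h5.fun_pow (k * W.m)
  have h3 : DifferentiableAt ℂ (fun w => MvPolynomial.eval (P.F c.i (c.ψ w)) (W.q fun _ => j0) /
      (D.w j0 c.i (c.ψ w)) ^ (k * W.m)) z := by
    simp only [div_eq_mul_inv]
    exact h4.fun_mul (h6.fun_inv (pow_ne_zero _ hj0))
  exact (h3.congr_of_eventuallyEq h2).differentiableWithinAt

theorem ChAt.holBall (c : ChAt A d S y) {z : Cn d} {r : ℝ} (hr : 0 < r)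
    (hz : Metric.closedBall z r ⊆ Metric.ball 0 c.R) : HolBall A c.i c.ψ z r :=
  ⟨hr, Metric.ball 0 c.R, Metric.isOpen_ball, hz, c.src, c.hol⟩

theorem ChAt.wt_cont (c : ChAt A d S y) {L' : LB A} (h : HM L') :
    ContinuousOn (fun z => h.wt c.i (A.e c.i (c.ψ z))) (Metric.ball 0 c.R) := by
  have h1 : ContinuousOn (h.wt c.i) (A.e c.i).target := (wt_smooth h c.i).continuousOn
  exact h1.comp c.hol.continuousOn fun z hz => (A.e c.i).map_source (c.src z hz)

/-! ### the sub-mean property -/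

theorem subAt_aux (hLog : LogSm) (W : WS P D S y0 k) (hk : 1 ≤ k) {h : HM L} (Q : QPsh h)
    (c : ChAt A d S y) {b : M → ℝ} {z : Cn d} {r : ℝ}
    (hb : ContinuousOn (fun z => b (c.ψ z)) (Metric.closedBall z r)) (hr : 0 < r)
    (hz : Metric.closedBall z r ⊆ Metric.ball 0 c.R) {Bd : ℝ}
    (hB : ∀ w ∈ Metric.closedBall z r, |(fs P).wt c.i (A.e c.i (c.ψ w))| ≤ Bd)
    (hG : c.ψ z ∈ PG W Q.G)
    (hQ : SubB Q.φ Q.G (fun x => h.wt c.i (A.e c.i x) - b x) c.ψ z r) :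
    (∀ᵐ w ∂(volume.restrict (Metric.ball z r)), c.ψ w ∈ PG W Q.G) ∧
      IntegrableOn (fun w => Pot W h Q.φ (c.ψ w)) (Metric.ball z r) ∧
      Pot W h Q.φ (c.ψ z) - b (c.ψ z) ≤
        (⨍ w in Metric.ball z r, (Pot W h Q.φ (c.ψ w) - b (c.ψ w))) + 2 * (k : ℝ)⁻¹ * Bd := by
  have hzb : z ∈ Metric.ball (0 : Cn d) c.R := hz (Metric.mem_closedBall_self hr.le)
  have hbb : Metric.ball z r ⊆ Metric.closedBall z r := Metric.ball_subset_closedBall
  have hu0 : W.u c.i (c.ψ z) ≠ 0 := ((mem_PG W Q.G (c.src z hzb) (c.mem z hzb)).1 hG).2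
  obtain ⟨hL1, hL2, hL3⟩ := hLog d (fun z => W.u c.i (c.ψ z)) (Metric.ball 0 c.R) z r
    Metric.isOpen_ball hz (c.u_hol W) hr hu0
  have hae : ∀ᵐ w ∂(volume.restrict (Metric.ball z r)), w ∈ Metric.ball z r :=
    ae_restrict_mem Metric.isOpen_ball.measurableSet
  -- continuous parts
  have hci : ∀ {g : Cn d → ℝ}, ContinuousOn g (Metric.closedBall z r) →
      IntegrableOn g (Metric.ball z r) := fun hg =>
    (hg.integrableOn_compact (isCompact_closedBall _ _)).mono_set hbb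
  have hw1 : ContinuousOn (fun w => h.wt c.i (A.e c.i (c.ψ w))) (Metric.closedBall z r) :=
    (c.wt_cont h).mono hz
  have hw2 : ContinuousOn (fun w => (fs P).wt c.i (A.e c.i (c.ψ w))) (Metric.closedBall z r) :=
    (c.wt_cont (fs P)).mono hz
  have i1 := hci hw1
  have i2 := hci hw2
  have i3 := hci hb
  have i4 := hQ.int
  set q : ℝ := ((k * W.m : ℕ) : ℝ)⁻¹ with hq
  have hq0 : 0 ≤ q := by positivity
  have i5 : IntegrableOn (fun w => q * Real.log (‖W.u c.i (c.ψ w)‖ ^ 2)) (Metric.ball z r) :=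
    hL2.const_mul q
  -- the potential a.e.
  have e1 : ∀ᵐ w ∂(volume.restrict (Metric.ball z r)), Pot W h Q.φ (c.ψ w) =
      (Q.φ (c.ψ w) + h.wt c.i (A.e c.i (c.ψ w))) + q * Real.log (‖W.u c.i (c.ψ w)‖ ^ 2) -
        (k : ℝ)⁻¹ * (fs P).wt c.i (A.e c.i (c.ψ w)) := by
    filter_upwards [hL1, hae] with w hw hwb
    have hwb' := hz (hbb hwb)
    have := pot_S W hk h Q.φ (c.src w hwb') (c.mem w hwb') hw
    linarith
  have i6 : IntegrableOn (fun w => Pot W h Q.φ (c.ψ w)) (Metric.ball z r) :=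
    (((i4.add i1).add i5).sub (i2.const_mul _)).congr (by
      filter_upwards [e1] with w hw
      rw [hw]
      rfl)
  refine ⟨?_, i6, ?_⟩
  · filter_upwards [hL1, hQ.ae, hae] with w hw hwG hwb
    have hwb' := hz (hbb hwb)
    exact (mem_PG W Q.G (c.src w hwb') (c.mem w hwb')).2 ⟨hwG, hw⟩
  have hV : 0 < volume.real (Metric.ball z r) :=
    ENNReal.toReal_pos (Metric.measure_ball_pos _ _ hr).ne' measure_ball_lt_top.ne
  have hs := hQ.sub
  rw [setAverage_eq, smul_eq_mul] at hs hL3 ⊢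
  set V := volume.real (Metric.ball z r) with hVd
  have e2 : Pot W h Q.φ (c.ψ z) = (Q.φ (c.ψ z) + h.wt c.i (A.e c.i (c.ψ z))) +
      q * Real.log (‖W.u c.i (c.ψ z)‖ ^ 2) - (k : ℝ)⁻¹ * (fs P).wt c.i (A.e c.i (c.ψ z)) := by
    have := pot_S W hk h Q.φ (c.src z hzb) (c.mem z hzb) hu0
    linarith
  have i7 : IntegrableOn (fun w => Q.φ (c.ψ w) + (h.wt c.i (A.e c.i (c.ψ w)) - b (c.ψ w)))
      (Metric.ball z r) := i4.add (i1.sub i3)
  have i8 : IntegrableOn (fun w => (Q.φ (c.ψ w) + (h.wt c.i (A.e c.i (c.ψ w)) - b (c.ψ w))) +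
      q * Real.log (‖W.u c.i (c.ψ w)‖ ^ 2)) (Metric.ball z r) := i7.add i5
  have i9 : IntegrableOn (fun w => (k : ℝ)⁻¹ * (fs P).wt c.i (A.e c.i (c.ψ w)))
      (Metric.ball z r) := i2.const_mul _
  have e3 : ∫ w in Metric.ball z r, (Pot W h Q.φ (c.ψ w) - b (c.ψ w)) =
      (∫ w in Metric.ball z r, (Q.φ (c.ψ w) + (h.wt c.i (A.e c.i (c.ψ w)) - b (c.ψ w)))) +
      q * (∫ w in Metric.ball z r, Real.log (‖W.u c.i (c.ψ w)‖ ^ 2)) -
      (k : ℝ)⁻¹ * ∫ w in Metric.ball z r, (fs P).wt c.i (A.e c.i (c.ψ w)) := by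
    rw [← integral_const_mul, ← integral_const_mul, ← integral_add i7 i5, ← integral_sub i8 i9]
    refine integral_congr_ae ?_
    filter_upwards [e1] with w hw
    rw [hw]
    ring
  have e4 : |∫ w in Metric.ball z r, (fs P).wt c.i (A.e c.i (c.ψ w))| ≤ V * Bd := by
    have h1 := norm_setIntegral_le_of_norm_le_const (μ := volume) (s := Metric.ball z r)
      (f := fun w => (fs P).wt c.i (A.e c.i (c.ψ w))) (C := Bd) measure_ball_lt_top
      fun w hw => hB w (hbb hw)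
    rw [Real.norm_eq_abs] at h1
    rw [mul_comm]
    exact h1
  have e5 := hB z (Metric.mem_closedBall_self hr.le)
  rw [e3, e2, mul_sub, mul_add]
  have hk0 : 0 ≤ (k : ℝ)⁻¹ := by positivity
  have h6 : V⁻¹ * (q * ∫ w in Metric.ball z r, Real.log (‖W.u c.i (c.ψ w)‖ ^ 2)) =
      q * (V⁻¹ * ∫ w in Metric.ball z r, Real.log (‖W.u c.i (c.ψ w)‖ ^ 2)) := by ring
  have h7 := mul_le_mul_of_nonneg_left hL3 hq0
  have h8 : V⁻¹ * ((k : ℝ)⁻¹ * ∫ w in Metric.ball z r, (fs P).wt c.i (A.e c.i (c.ψ w))) ≤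
      (k : ℝ)⁻¹ * Bd := by
    have h9 : V⁻¹ * ((k : ℝ)⁻¹ * ∫ w in Metric.ball z r, (fs P).wt c.i (A.e c.i (c.ψ w))) =
        (k : ℝ)⁻¹ * (V⁻¹ * ∫ w in Metric.ball z r, (fs P).wt c.i (A.e c.i (c.ψ w))) := by ring
    rw [h9]
    refine mul_le_mul_of_nonneg_left ?_ hk0
    rw [inv_mul_le_iff₀ hV]
    exact (le_abs_self _).trans e4
  have h10 : -((k : ℝ)⁻¹ * (fs P).wt c.i (A.e c.i (c.ψ z))) ≤ (k : ℝ)⁻¹ * Bd := by
    rw [← mul_neg]
    exact mul_le_mul_of_nonneg_left ((neg_le_abs _).trans e5) hk0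
  rw [h6]
  linarith

end

end Crest.Agent.R281.Un_360
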