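import Crest.Agent.R281.Un6_360

/-!
# R281 (S0424), UNIQ (helper360), part 7: `T'` is contained in the conjugate of `T`

* `sub_conj` : `L` flat on `T`, `Q` a potential of `h` on `L` with finite value and strictly positive
  curvature transversally to `T'` at `x' ∈ T'`, `x'` the conjugate of a point of `T`, `σ` fixes
  the equations of `M` and `L`: then `T' ⊆ σ (T)`.
-/

set_option autoImplicit false
set_option linter.unusedSectionVars false

open Set Filter Topology Complex MeasureTheory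
open scoped ContDiff Matrix ComplexConjugate

namespace Crest.Agent.R281.Un_360

open Crest.Agent.R275 Crest.Agent.R275.Geo Crest.Agent.R275.Core144
open Crest.Agent.R273.SerA_945 Crest.Agent.R273.SerB_945 Crest.Agent.R273.SerC_945
open Crest.Agent.R273.SerE_945 Crest.Agent.R273.TD3_733 Crest.Agent.R273.FS_333
open Crest.Agent.R273.Defs_333 Crest.Agent.R273.SteinC_794 Crest.Agent.R273.HM_333
open Crest.Agent.R273.Kah_333
open Crest.Agent.R273.Map_835 Crest.Agent.R273.PB_835 Crest.Agent.R273.Chow_313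
open Crest.Agent.R281.AF_867

noncomputable section

section Cont

variable {N : ℕ} {M : Type} [TopologicalSpace M] {A : Atl N M}
variable {P : ProjD A} {L : LB A} {D : LDat P L} {S : Set M} {y0 : M} {k : ℕ}

theorem contAt_symm {Y : Type} [TopologicalSpace Y] {i : A.ι} {x : M} (hx : x ∈ (A.e i).source)
    {f : M → Y} (h : ContinuousAt (fun z => f ((A.e i).symm z)) (A.e i x)) : ContinuousAt f x := by
  have h1 : ContinuousAt (fun y => f ((A.e i).symm (A.e i y))) x :=
    ContinuousAt.comp (g := fun z => f ((A.e i).symm z)) h ((A.e i).continuousAt hx)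
  refine h1.congr ?_
  filter_upwards [(A.e i).open_source.mem_nhds hx] with y hy
  rw [(A.e i).left_inv hy]

theorem hol_cont {f : M → ℂ} {i : A.ι} (hf : HolAt A i univ f) {x : M}
    (hx : x ∈ (A.e i).source) : ContinuousAt f x := by
  refine contAt_symm hx ?_
  have h1 : (A.e i).target ∩ (A.e i).symm ⁻¹' univ ∈ 𝓝 (A.e i x) := by
    rw [preimage_univ, inter_univ]
    exact (A.e i).open_target.mem_nhds ((A.e i).map_source hx)
  have h2 : DifferentiableOn ℂ (fun z => f ((A.e i).symm z))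
      ((A.e i).target ∩ (A.e i).symm ⁻¹' univ) := hf
  exact (h2.differentiableAt h1).continuousAt

theorem F_cont (P : ProjD A) {i : A.ι} {x : M} (hx : x ∈ (A.e i).source) :
    ContinuousAt (P.F i) x :=
  continuousAt_pi.2 fun l => hol_cont (P.hol i l) hx

theorem hw_cont (h : HM L) {i : A.ι} {x : M} (hx : x ∈ (A.e i).source) :
    ContinuousAt (h.w i) x := by
  refine contAt_symm hx ?_
  exact (h.sm i).continuousOn.continuousAt
    ((A.e i).open_target.mem_nhds ((A.e i).map_source hx))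

/-- the ratio as a function on `M` -/
def rat (W : WS P D S y0 k) (h : HM L) (y : M) : ℝ :=
  nP W (chx A y) y / nW D h (chx A y) y ^ (k * W.m)

theorem rat_cont (W : WS P D S y0 k) (h : HM L) : Continuous (rat W h) := by
  rw [continuous_iff_continuousAt]
  intro x
  set i := chx A x with hi
  have hx : x ∈ (A.e i).source := chx_mem A x
  have h1 : (fun y => nP W i y / nW D h i y ^ (k * W.m)) =ᶠ[𝓝 x] rat W h := by
    filter_upwards [(A.e i).open_source.mem_nhds hx] with y hy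
    unfold rat
    rw [nP_tr W (chx_mem A y) hy, nW_tr h (chx_mem A y) hy]
  refine ContinuousAt.congr ?_ h1
  have c1 := F_cont P hx
  have c2 := hw_cont (fs P) hx
  have c3 := hw_cont h hx
  have c4 : ContinuousAt (fun y => nP W i y) x := by
    unfold nP
    refine ContinuousAt.mul ?_ (c2.pow _)
    refine tendsto_finsetSum _ fun β _ => ?_
    have h5 : ContinuousAt (fun y => MvPolynomial.eval (P.F i y) (W.q β)) x :=
      ContinuousAt.comp (g := fun v => MvPolynomial.eval v (W.q β))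
        (MvPolynomial.continuous_eval _).continuousAt c1
    exact h5.norm.pow 2
  have c5 : ContinuousAt (fun y => nW D h i y) x := by
    unfold nW
    refine ContinuousAt.mul ?_ (c3.mul (c2.pow _))
    refine tendsto_finsetSum _ fun j _ => ?_
    exact (hol_cont ((D.hw j).hol i) hx).norm.pow 2
  exact c4.div (c5.pow _) (pow_pos (nW_pos h hx) _).ne'

theorem rat_bdd [CompactSpace M] (W : WS P D S y0 k) (h : HM L) : ∃ B, ∀ y, rat W h y ≤ B := by
  obtain ⟨B, hB⟩ := isCompact_univ.bddAbove_image (rat_cont W h).continuousOn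
  exact ⟨B, fun y => hB ⟨y, mem_univ _, rfl⟩⟩

theorem pot_bdd [CompactSpace M] (W : WS P D S y0 k) (h : HM L) (Q : QPsh h) :
    BddAbove (Pot W h Q.φ '' (S ∩ PG W Q.G)) := by
  obtain ⟨B, hB⟩ := rat_bdd W h
  refine ⟨Q.C + ((k * W.m : ℕ) : ℝ)⁻¹ * B, ?_⟩
  rintro _ ⟨y, ⟨hy, hG⟩, rfl⟩
  have h1 := Q.le y hG.1
  have h0 : 0 ≤ rat W h y :=
    div_nonneg (nP_nonneg W (chx_mem A y)) (pow_pos (nW_pos h (chx_mem A y)) _).le
  have h2 : Real.log (rat W h y) ≤ B := (Real.log_le_self h0).trans (hB y)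
  have h3 : Pot W h Q.φ y = Q.φ y + ((k * W.m : ℕ) : ℝ)⁻¹ * Real.log (rat W h y) := rfl
  rw [h3]
  exact add_le_add h1 (mul_le_mul_of_nonneg_left h2 (by positivity))

end Cont

section Main

variable {d N : ℕ} {T T' M : Type} [TopologicalSpace T] [TopologicalSpace T']
  [TopologicalSpace M] [T2Space T] [CompactSpace T] [ConnectedSpace T] [T2Space T']
  [CompactSpace T'] [ConnectedSpace T'] [T2Space M] [CompactSpace M] [ConnectedSpace M]
  {B : Atl d T} {B' : Atl d T'} {A : Atl N M} [Finite B.ι] [Finite B'.ι] [Finite A.ι]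
  {j : T → M} {j' : T' → M}

/-- **`T'` is contained in the conjugate of `T`** -/
theorem sub_conj (hCh : ConjCh) (hSub : ConjSub) (hLog : LogSm) (I : Sbm B A j)
    (I' : Sbm B' A j') {P : ProjD A} {L : LB A} (D : LDat P L) (hf : I.Flat L) {σ : ℂ ≃+* ℂ}
    (hσ : D.Fix σ) (hM : FixM P σ) {h : HM L} (Q : QPsh h) {x0 : T} {x' : M}
    (hx : Cj P σ (j x0) x') (g : Good Q (range j') x') : range j' ⊆ I.Conj P σ := by
  classical
  obtain ⟨hcl, hch⟩ := hCh d N T M B A j I P σ hM
  set S := I.Conj P σ with hS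
  have hxS : x' ∈ S := ⟨x0, hx⟩
  -- the witnesses
  let W : ∀ k : ℕ, WS P D S x' (k + 1) := fun k => (exists_ws I D hf hσ (k + 1) hx).some
  -- the charts
  have hcc : ∀ q : M, ∃ (ψ : Cn d → M) (R Bd : ℝ), q ∈ S → ∃ c : ChAt A d S q,
      c.ψ = ψ ∧ c.R / 2 = R ∧
        ∀ w ∈ Metric.closedBall 0 (c.R / 2), |(fs P).wt c.i (A.e c.i (c.ψ w))| ≤ Bd := by
    intro q
    by_cases hq : q ∈ S
    · obtain ⟨c⟩ := hch q hq
      have h1 : ContinuousOn (fun w => (fs P).wt c.i (A.e c.i (c.ψ w)))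
          (Metric.closedBall 0 (c.R / 2)) := (c.wt_cont (fs P)).mono
        (Metric.closedBall_subset_ball (by linarith [c.pos]))
      obtain ⟨Bd, hBd⟩ := (isCompact_closedBall (0 : Cn d) (c.R / 2)).exists_bound_of_continuousOn
        h1
      exact ⟨c.ψ, c.R / 2, Bd, fun _ => ⟨c, rfl, rfl, fun w hw => hBd w hw⟩⟩
    · exact ⟨fun _ => q, 0, 0, fun h => absurd h hq⟩
  choose ψ R Bd hcc using hcc
  set S' := connectedComponentIn S x' with hS'
  have hS'S : S' ⊆ S := connectedComponentIn_subset S x'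
  have hxS' : x' ∈ S' := mem_connectedComponentIn hxS
  have hS'c : IsCompact S' := by
    have h1 : IsClosed S' := by
      rw [hS', connectedComponentIn_eq_image hxS]
      exact hcl.isClosedEmbedding_subtypeVal.isClosedMap _ isClosed_connectedComponent
    exact h1.isCompact
  have hpre : IsPreconnected S' := isPreconnected_connectedComponentIn
  have hR : ∀ q ∈ S', 0 < R q := by
    intro q hq
    obtain ⟨c, e1, e2, e3⟩ := hcc q (hS'S hq)
    rw [← e2]
    linarith [c.pos]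
  have hψc : ∀ q ∈ S', ContinuousOn (ψ q) (Metric.ball 0 (R q)) := by
    intro q hq
    obtain ⟨c, e1, e2, e3⟩ := hcc q (hS'S hq)
    rw [← e1, ← e2]
    exact c.cont.mono (Metric.ball_subset_ball (by linarith [c.pos]))
  have hψS : ∀ q ∈ S', ∀ w ∈ Metric.ball (0 : Cn d) (R q), ψ q w ∈ S' := by
    intro q hq w hw
    obtain ⟨c, e1, e2, e3⟩ := hcc q (hS'S hq)
    rw [← e2] at hw
    rw [← e1]
    have h1 : IsPreconnected (c.ψ '' Metric.ball 0 c.R) :=
      ((convex_ball (0 : Cn d) c.R).isPreconnected).image _ c.cont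
    have h2 : q ∈ c.ψ '' Metric.ball 0 c.R := ⟨0, Metric.mem_ball_self c.pos, c.ψ0⟩
    have h3 : c.ψ '' Metric.ball 0 c.R ⊆ S := by
      rintro _ ⟨z, hz, rfl⟩
      exact c.mem z hz
    have h4 := h1.subset_connectedComponentIn h2 h3
    have h5 : connectedComponentIn S q = S' := (connectedComponentIn_eq hq).symm
    rw [h5] at h4
    exact h4 ⟨w, Metric.ball_subset_ball (by linarith [c.pos]) hw, rfl⟩
  have hψn : ∀ q ∈ S', ∀ r, 0 < r → ψ q '' Metric.ball 0 r ∈ 𝓝[S'] q := by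
    intro q hq r hr
    obtain ⟨c, e1, e2, e3⟩ := hcc q (hS'S hq)
    rw [← e1]
    exact nhdsWithin_mono q hS'S (c.nhd r hr)
  -- the potentials
  let Ψ : ℕ → M → ℝ := fun k => Pot (W k) h Q.φ
  let G : ℕ → Set M := fun k => PG (W k) Q.G
  let ε : M → ℕ → ℝ := fun q k => 2 * ((k + 1 : ℕ) : ℝ)⁻¹ * Bd q
  have hε : ∀ q, Tendsto (ε q) atTop (𝓝 0) := by
    intro q
    have h1 : Tendsto (fun k : ℕ => ((k + 1 : ℕ) : ℝ)⁻¹) atTop (𝓝 0) :=
      tendsto_inv_atTop_nhds_zero_nat.comp (tendsto_add_atTop_nat 1)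
    have h2 := (h1.const_mul 2).mul_const (Bd q)
    rw [mul_zero, zero_mul] at h2
    exact h2
  have hbd : ∀ᶠ k in atTop, BddAbove (Ψ k '' (S' ∩ G k)) := by
    refine Eventually.of_forall fun k => ?_
    exact (pot_bdd (W k) h Q).mono (image_mono (inter_subset_inter_left _ hS'S))
  have hne : ∀ᶠ k in atTop, (S' ∩ G k).Nonempty := by
    refine Eventually.of_forall fun k => ⟨x', hxS', ?_⟩
    exact (mem_PG (W k) Q.G (chx_mem A x') hxS).2 ⟨g.mem, (W k).ne _ (chx_mem A x')⟩
  have hball : ∀ {c z : Cn d} {r ρ R : ℝ}, ρ ≤ R / 2 → 0 < R →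
      Metric.closedBall z r ⊆ Metric.ball 0 ρ → Metric.closedBall z r ⊆ Metric.ball 0 R := by
    intro c z r ρ R h1 h2 h3
    exact h3.trans (Metric.ball_subset_ball (by linarith))
  have hsub : ∀ q ∈ S', ∀ᶠ k in atTop,
      Crest.Agent.R281.MaxP_877.SubAt volume (ψ q) (R q) (Ψ k) (G k) (ε q k) := by
    intro q hq
    obtain ⟨c, e1, e2, e3⟩ := hcc q (hS'S hq)
    refine Eventually.of_forall fun k => ?_
    have key : ∀ z r, 0 < r → Metric.closedBall z r ⊆ Metric.ball 0 (R q) → ψ q z ∈ G k →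
        (∀ᵐ w ∂(volume.restrict (Metric.ball z r)), c.ψ w ∈ PG (W k) Q.G) ∧
          IntegrableOn (fun w => Pot (W k) h Q.φ (c.ψ w)) (Metric.ball z r) ∧
          Pot (W k) h Q.φ (c.ψ z) - 0 ≤
            (⨍ w in Metric.ball z r, (Pot (W k) h Q.φ (c.ψ w) - 0)) +
              2 * ((k + 1 : ℕ) : ℝ)⁻¹ * Bd q := by
      intro z r hr hz hG
      rw [← e1] at hG
      rw [← e2] at hz
      have hz' := hball (c := 0) le_rfl c.pos hz
      have hQ := Q.sm d c.i c.ψ z r (c.holBall hr hz') hG.1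
      refine subAt_aux hLog (W k) (Nat.succ_le_succ (Nat.zero_le k)) Q c (b := fun _ => 0)
        continuousOn_const hr hz' (fun w hw => e3 w (Metric.ball_subset_closedBall (hz hw))) hG ?_
      simpa using hQ
    refine ⟨fun z r hr hz hG => ?_, fun z r hr hz hG => ?_, fun z r hr hz hG => ?_⟩
    · rw [← e1]
      exact (key z r hr hz hG).1
    · rw [← e1]
      exact (key z r hr hz hG).2.1
    · have h1 := (key z r hr hz hG).2.2
      simp only [sub_zero] at h1
      rw [← e1]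
      exact h1
  -- near `x'`
  obtain ⟨c, e1, e2, e3⟩ := hcc x' hxS
  have hcW : ∃ ρ, 0 < ρ ∧ ρ ≤ c.R / 2 ∧ ∀ z ∈ Metric.ball (0 : Cn d) ρ, c.ψ z ∈ g.W := by
    have h1 : ContinuousAt c.ψ 0 :=
      c.cont.continuousAt (Metric.ball_mem_nhds _ c.pos)
    have h2 : c.ψ ⁻¹' g.W ∈ 𝓝 (0 : Cn d) := h1 (by
      rw [c.ψ0]
      exact g.oW.mem_nhds g.xW)
    obtain ⟨ρ, hρ, hρW⟩ := Metric.mem_nhds_iff.1 h2
    refine ⟨min ρ (c.R / 2), lt_min hρ (by linarith [c.pos]), min_le_right _ _, fun z hz => ?_⟩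
    exact hρW (Metric.ball_subset_ball (min_le_left _ _) hz)
  obtain ⟨ρ, hρ0, hρ, hρW⟩ := hcW
  have hgd : DifferentiableOn ℂ (fun z => g.f (c.ψ z)) (Metric.ball 0 ρ) :=
    c.comp_hol' (W := g.W) (g.hol c.i)
      (Metric.ball_subset_ball (by linarith [c.pos])) hρW
  have hsub' : ∀ᶠ k in atTop, ∀ z r, 0 < r → Metric.closedBall z r ⊆ Metric.ball 0 ρ →
      ψ x' z ∈ G k → Ψ k (ψ x' z) - g.c * ‖g.f (c.ψ z)‖ ^ 2 ≤
        (⨍ w in Metric.ball z r, (Ψ k (ψ x' w) - g.c * ‖g.f (c.ψ w)‖ ^ 2)) + ε x' k := by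
    refine Eventually.of_forall fun k z r hr hz hG => ?_
    rw [← e1] at hG ⊢
    have hz' := hball (c := 0) hρ c.pos hz
    have hzW : ∀ w ∈ Metric.closedBall z r, c.ψ w ∈ g.W := fun w hw => hρW w (hz hw)
    have hQ := g.sm d c.i c.ψ z r (c.holBall hr hz') hzW hG.1
    have hbc : ContinuousOn (fun z => g.c * ‖g.f (c.ψ z)‖ ^ 2) (Metric.closedBall z r) :=
      ((hgd.continuousOn.mono hz).norm.pow 2).const_smul g.c
    exact (subAt_aux hLog (W k) (Nat.succ_le_succ (Nat.zero_le k)) Q c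
      (b := fun x => g.c * ‖g.f x‖ ^ 2) hbc hr hz' (fun w hw => e3 w
        (Metric.ball_subset_closedBall (Metric.ball_subset_ball hρ (hz hw)))) hG hQ).2.2
  have hfin := Crest.Agent.R281.MaxP_877.const_of_bdd (l := atTop) le_rfl (volume : Measure (Cn d))
    hS'c hpre hR hψc hψS hψn (fun q _ => hε q) hbd hne hsub hxS' (ρ := ρ) (by rw [← e2]; exact hρ)
    g.cpos hgd (hε x') hsub'
  refine hSub d N T T' M B B' A j j' I I' P σ hM x' c ?_
  have hm : 0 < min ρ (R x' / 4) := lt_min hρ0 (by linarith [hR x' hxS'])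
  filter_upwards [Metric.ball_mem_nhds (0 : Cn d) hm] with z hz
  have h1 := hfin z hz
  have h2 := hρW z (Metric.ball_subset_ball (min_le_left _ _) hz)
  rw [g.lvl _ h2, h1, c.ψ0]

end Main

end

end Crest.Agent.R281.Un_360
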