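import Crest.Agent.R281.Un8_360
import Crest.Agent.R281.Kc5_530
import Crest.Agent.R281.Kas2_975

/-!
# R281 (S0424), UNIQ (helper360), part 9: sections, on a holomorphic tube

`uniq_sections` : KAPPA-1 on a holomorphic tube, through 975's `exists_sections_tube`.
-/

set_option autoImplicit false
set_option linter.unusedSectionVars false

open Set Filter Topology Complex MeasureTheory
open scoped ContDiff Matrix ComplexConjugate

namespace Crest.Agent.R281.Un_360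

open Crest.Agent.R275 Crest.Agent.R275.Geo Crest.Agent.R275.Core144
open Crest.Agent.R273.SerA_945 Crest.Agent.R273.SerB_945 Crest.Agent.R273.SerC_945
open Crest.Agent.R273.SerE_945 Crest.Agent.R273.TD3_733 Crest.Agent.R273.FS_333
open Crest.Agent.R273.Defs_333 Crest.Agent.R273.SteinC_794 Crest.Agent.R273.HM_333
open Crest.Agent.R273.Kah_333
open Crest.Agent.R273.Map_835 Crest.Agent.R273.PB_835 Crest.Agent.R273.Chow_313
open Crest.Agent.R281.AF_867 Crest.Agent.R281.Kas_975 Crest.Agent.R281.Kd_22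
open Crest.Agent.R281.Rk_599
open Crest.Agent.R281.Gal2_257 Crest.Agent.R281.Gal4_257

noncomputable section

section Co

variable {N : ℕ} {M : Type} [TopologicalSpace M] {A : Atl N M}

theorem co_conj {P : ProjD A} {σ : ℂ ≃+* ℂ} {T T' : Set M}
    (h1 : ∀ y ∈ T, ∃ y' ∈ T', Cj P σ y y') (h2 : ∀ y' ∈ T', ∃ y ∈ T, Cj P σ y y')
    (v : Fin (P.N + 1) → ℂ) : v ∈ Co P T ↔ (fun l => σ (v l)) ∈ Co P T' := by
  constructor
  · rintro ⟨x, hx, i, hi, a, rfl⟩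
    obtain ⟨y, hy, hc⟩ := h1 x hx
    obtain ⟨c, hc0, hc⟩ := hc.all hi (chx_mem A y)
    refine ⟨y, hy, _, chx_mem A y, σ a / c, ?_⟩
    rw [hc, smul_smul, div_mul_cancel₀ _ hc0]
    funext l
    simp only [Pi.smul_apply, smul_eq_mul, map_mul]
  · rintro ⟨y, hy, i', hi', a, ha⟩
    obtain ⟨x, hx, hc⟩ := h2 y hy
    obtain ⟨c, hc0, hc⟩ := hc.all (chx_mem A x) hi'
    refine ⟨x, hx, _, chx_mem A x, σ.symm (a * c), ?_⟩
    funext l
    apply σ.injective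
    have h3 := congrFun ha l
    simp only [Pi.smul_apply, smul_eq_mul, map_mul, RingEquiv.apply_symm_apply] at h3 ⊢
    rw [h3, hc]
    simp only [Pi.smul_apply, smul_eq_mul]
    ring

end Co

section Chow

variable {d N : ℕ} {T M : Type} [TopologicalSpace T] [TopologicalSpace M]
  [T2Space T] [CompactSpace T] [ConnectedSpace T] {B : Atl d T} {A : Atl N M} [Finite B.ι]
  {j : T → M}

theorem chow_sb (I : Sbm B A j) (P : ProjD A) : ∃ E0, ChowEq P (range j) E0 := by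
  classical
  obtain ⟨E0, hE0, hE⟩ := exists_eqs_proj I.part (Crest.Agent.R260.Br5_592.d2_proj I.part (I.P P))
    (I.P P)
  have hEq := hE E0 Subset.rfl hE0
  refine ⟨E0, fun v hv => ⟨fun h => ?_, fun h p hp => ?_⟩⟩
  · obtain ⟨i, x, hx, c, hc, hvc⟩ := hEq.pt v hv h
    have h4 : (fun k => sec (I.P P) k i x) = P.F (I.R.r i) (j x) :=
      funext fun k => sec_eq (I.P P) hx k
    rw [h4] at hvc
    exact ⟨j x, mem_range_self x, I.R.r i, I.R.sub i x hx, c, hvc⟩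
  · obtain ⟨_, ⟨x, rfl⟩, i, hi, c, rfl⟩ := h
    obtain ⟨⟨e, he⟩, hpe⟩ := hE0 hp
    obtain ⟨i0, hi0⟩ := B.cover x
    have h3 := hpe i0 x hi0
    have h4 : (fun k => sec (I.P P) k i0 x) = P.F (I.R.r i0) (j x) :=
      funext fun k => sec_eq (I.P P) hi0 k
    rw [h4] at h3
    obtain ⟨a, ha⟩ := P.tr i (I.R.r i0) (j x) ⟨hi, I.R.sub i0 x hi0⟩
    have he' : MvPolynomial.IsHomogeneous (σ := Fin (P.N + 1)) (R := ℂ) p e := he
    have h6 : MvPolynomial.eval ((c * a) • P.F (I.R.r i0) (j x)) p =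
        (c * a) ^ e * MvPolynomial.eval (P.F (I.R.r i0) (j x)) p := eval_smul he' _ _
    have h7 : MvPolynomial.eval (P.F (I.R.r i0) (j x)) p = 0 := h3
    rw [ha, smul_smul, h6, h7, mul_zero]

end Chow

section Main

variable {d N : ℕ} {M : Type} [TopologicalSpace M] [T2Space M] [CompactSpace M] [ConnectedSpace M]
  {A : Atl N M} [Finite A.ι]
variable {F B : Type} [NormedAddCommGroup F] [NormedSpace ℂ F]
  [NormedAddCommGroup B] [NormedSpace ℂ B] [FiniteDimensional ℂ F] [FiniteDimensional ℂ B]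
  [MeasurableSpace (B × F)] [BorelSpace (B × F)]

/-- **KAPPA-1 on a holomorphic tube, road UNIQ** -/
theorem uniq_sections (hLog : LogSm) (PA : Part A) (P : ProjD A) {L : LB A} {h : HM L}
    (Q : QPsh h) (μ : Measure (B × F)) [μ.IsAddHaarMeasure] (T : HTube A F B)
    (hdis : ∀ b ∈ T.Om, ∀ b' ∈ T.Om, ∀ c c', T.P (c, b) = T.P (c', b') → b = b')
    (hsb : ∀ b ∈ T.Om, IsSb A d L (fib T b))
    {Z : Set (B × F)} (hZ : μ Z = 0)
    (hgood : ∀ z : B × F, z.1 ∈ T.Om → z ∉ Z → Nonempty (Good Q (fib T z.1) (T.P (z.2, z.1))))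
    {b₁ : B} (hb₁ : b₁ ∈ T.Om) :
    ∃ r : ℝ, 0 < r ∧ Metric.ball b₁ r ⊆ T.Om ∧ ∃ D : ℕ, 0 < D ∧
      ∃ s : Fin (Module.finrank ℂ B + 1) → A.ι → M → ℂ,
        (∀ a, IsHS ((lb P) ^ D) univ (s a)) ∧
        (∀ a, ∀ c c' : F, ∀ b ∈ Metric.ball b₁ r, ∀ i i', T.P (c, b) ∈ (A.e i).source →
          T.P (c', b) ∈ (A.e i').source → s a i (T.P (c, b)) * s 0 i' (T.P (c', b)) =
            s a i' (T.P (c', b)) * s 0 i (T.P (c, b))) ∧
        ∃ c, ∃ b ∈ Metric.ball b₁ r, ∀ i, T.P (c, b) ∈ (A.e i).source → Rk A s i (T.P (c, b)) := by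
  classical
  obtain ⟨D⟩ := exists_ldat PA P L
  obtain ⟨E0, hE0, hE⟩ := exists_eqs_proj PA (Crest.Agent.R260.Br5_592.d2_proj PA P) P
  have hEq := hE E0 Subset.rfl hE0
  let EE : (Fin D.r × Fin D.s) ⊕ E0 → MvPolynomial (Fin (P.N + 1)) ℂ :=
    Sum.elim (fun a => D.W a.1 a.2) fun e => e.1
  obtain ⟨k, hk, hkE⟩ := Crest.Agent.R281.Ja3_257.exists_field EE
  have hfix : ∀ σ : ℂ ≃ₐ[k] ℂ, ∀ e, MvPolynomial.map ((σ : ℂ ≃+* ℂ) : ℂ →+* ℂ) (EE e) = EE e := by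
    intro σ e
    obtain ⟨E', hE'⟩ := hkE e
    rw [← hE', MvPolynomial.map_map]
    have h1 : ((σ : ℂ ≃+* ℂ) : ℂ →+* ℂ).comp (algebraMap k ℂ) = algebraMap k ℂ := by
      ext x
      simp
    rw [h1]
  have hM : ∀ σ : ℂ ≃ₐ[k] ℂ, FixM P (σ : ℂ ≃+* ℂ) := fun σ =>
    ⟨E0, hEq, fun p hp => hfix σ (Sum.inr ⟨p, hp⟩)⟩
  have hD : ∀ σ : ℂ ≃ₐ[k] ℂ, D.Fix (σ : ℂ ≃+* ℂ) := fun σ a b => hfix σ (Sum.inl (a, b))
  refine exists_sections_tube (k := k) μ P T hdis hZ (fun z hz _ => ?_) ?_ hb₁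
  · obtain ⟨Y, _, _, _, _, B', _, j, I, hj, hf⟩ := hsb z.1 hz
    have := chow_sb I P
    rw [hj] at this
    exact this
  · intro z hz hzN z' hz' hzN' σ i i' hi hi' ⟨c, hc⟩
    obtain ⟨Y, _, _, _, _, B₁, _, j, I, hj, hf⟩ := hsb z.1 hz
    obtain ⟨Y', _, _, _, _, B₁', _, j', I', hj', hf'⟩ := hsb z'.1 hz'
    obtain ⟨g⟩ := hgood z hz hzN
    obtain ⟨g'⟩ := hgood z' hz' hzN'
    have hc0 : c ≠ 0 := by
      rintro rfl
      apply P.ne i _ hi
      funext l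
      have h1 := congrFun hc l
      simp only [zero_smul, Pi.zero_apply, map_eq_zero] at h1
      exact h1
    have hcj : Cj P (σ : ℂ ≃+* ℂ) (T.P (z.2, z.1)) (T.P (z'.2, z'.1)) := by
      refine ⟨i, i', hi, hi', c⁻¹, inv_ne_zero hc0, ?_⟩
      have h2 : (fun l => (σ : ℂ ≃+* ℂ) (P.F i (T.P (z.2, z.1)) l)) =
          c • P.F i' (T.P (z'.2, z'.1)) := hc
      rw [h2, smul_smul, inv_mul_cancel₀ hc0, one_smul]
    rw [← hj] at g
    rw [← hj'] at g'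
    have h8 := both_conj Crest.Agent.R281.Kc4_530.conjCh Crest.Agent.R281.Kc5_530.conjSub hLog
      I I' D hf hf' (hD σ) (hM σ) Q
      (by rw [hj]; exact ⟨z.2, rfl⟩) (by rw [hj']; exact ⟨z'.2, rfl⟩) hcj g g'
    rw [hj, hj'] at h8
    exact co_conj (σ := (σ : ℂ ≃+* ℂ)) h8.1 h8.2

end Main

end

end Crest.Agent.R281.Un_360
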