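import Crest.Agent.R281.Yv11_900
import Crest.Agent.R281.Al8_830
import Crest.Agent.R281.Lf2_830
import Crest.Agent.R281.Ly5_457
import Crest.Agent.R281.Mf2_835
import Crest.Agent.R281.Ch4_151
import Crest.Agent.R281.Iso5_139
import Crest.Agent.R260.NN6_900

/-!
# Row 281 (helper476): the consumers of YAU-VAR without hypotheses

`hY : YauVar C b'` and `hV : V0 C (SolMA b)` are discharged by 900's `yauVar`, `v0_MA`:

* `Al_830.TopI.hk`, `.path`, `.lift`, `.leg` : 830's `exists_hk`, `exists_path`, `exists_lift`,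
  `exists_leg`
* `liftMarks`, `liftS`         : 830's `lift_marks`, `liftS_of`
* `ddcVar`, `ddcv`, `isoHk`, `kclsHk`, `isoF`  : 139 / 151
* `moveFam`                    : 835
-/

set_option autoImplicit false
set_option linter.unusedSectionVars false
set_option maxSynthPendingDepth 3

open Set Filter Topology Function MeasureTheory
open scoped ContDiff

namespace Crest.Agent.R281.Yall_476

open Crest.Agent.R275.Geo Crest.Agent.R275.Core144 Crest.Agent.R275.EDR890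
open Crest.Agent.R260.ACM_580
open Crest.Agent.R281.HkR_835 hiding pb pb_apply
open Crest.Agent.R281.HkR_835.Cmp
open Crest.Agent.R281.Ti_846 hiding pb pb_apply
open Crest.Agent.R281.NefO_476
open Crest.Agent.R281.Nef_252
open Crest.Agent.R281.Tt_476 (JS0 JS2 JSJ JSDat V0 SolMA)
open Crest.Agent.R281.Al_830
open Crest.Agent.R281.Alg_998 (HEqv SmH Cl AtTau Frm Leg)

noncomputable section

variable {V X : Type} [NormedAddCommGroup V] [NormedSpace ℝ V] [TopologicalSpace X]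
  {C : RCh V X} [FiniteDimensional ℝ V] [MeasurableSpace V] [BorelSpace V] [CompactSpace X]
  [T2Space X] [ConnectedSpace X]

/-- 830's hypothesis, for the standard basis -/
theorem yau (C : RCh V X) : YauVar C (Module.finBasis ℝ V) := by
  have : CompleteSpace V := FiniteDimensional.complete ℝ V
  exact Yv_900.yauVar _

section top

variable {μ : Measure V} [μ.IsAddHaarMeasure] {n : ℕ}
  {b : Module.Basis (Fin (n + n) × Fin 2) ℝ V} {P : RPart C} {q : QuadraticForm ℝ (F2 C)}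
  {E : Type} [NormedAddCommGroup E] [NormedSpace ℝ E] [FiniteDimensional ℝ E]

/-- **HK-ALONG** -/
theorem hk (TI : TopI μ b P q) {T : Set E} (hT : IsOpen T) (hne : T.Nonempty) (D : CFam C T)
    (hq : ∀ t ∈ T, 0 < q (D.om t)) :
    ∃ (H : E → HkT C) (r : E → ℝ) (u : E → X → ℝ), JSH T H ∧ ContDiffOn ℝ ∞ r T ∧ JS0 C T u ∧
      ∀ t ∈ T, 0 < r t ∧ ofHk (H t) 0 = D.J t ∧
        (∃ hu : Sm C (u t), (H t).om 0 = D.om t + ddc (D.J t) (u t) hu) ∧
        (H t).om 1 = r t • D.s1 t ∧ (H t).om 2 = r t • D.s2 t :=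
  TI.exists_hk (yau C) hT hne D hq

/-- **HK-ALONG** through a given triple -/
theorem path (TI : TopI μ b P q) {T : Set E} (hT : IsOpen T)
    (D : CFam C T) (hq : ∀ t ∈ T, 0 < q (D.om t)) {t0 : E} (ht0 : t0 ∈ T) (H0 : HkT C)
    (hJ : ∀ i, ∀ z ∈ (C.e i).target, ∀ v, H0.J 0 i z v = (D.J t0).J i z v)
    (hcl : Ex (H0.om 0 - D.om t0)) :
    ∃ (H : E → HkT C) (c : E → ℂ), JSH T H ∧ ContDiffOn ℝ ∞ c T ∧ HEqv (H t0) H0 ∧
      ∀ t ∈ T, c t ≠ 0 ∧ ofHk (H t) 0 = D.J t ∧ Ex ((H t).om 0 - D.om t) ∧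
        (H t).om 1 = (c t).re • D.s1 t - (c t).im • D.s2 t ∧
        (H t).om 2 = (c t).im • D.s1 t + (c t).re • D.s2 t :=
  TI.exists_path (yau C) hT D hq ht0 H0 hJ hcl

variable {Q : F2 C →ₗ[ℝ] F2 C →ₗ[ℝ] ℝ}

/-- **HK-ALONG, path form** -/
theorem lift (TI : TopI μ b P q) {F : Frm C Q} {A : F2 C}
    (hA : 0 < q A) (D : CFam C (univ : Set ℝ)) (hom : ∀ t, Cl (D.om t) A) {τ : ℝ → ℂ}
    (him : ∀ t, 0 < (τ t).im) (hs : ∀ t, PerAt F (D.s1 t) (D.s2 t) (τ t)) (t0 : ℝ)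
    (H0 : HkT C) (hJ : ∀ i, ∀ z ∈ (C.e i).target, ∀ v, H0.J 0 i z v = (D.J t0).J i z v)
    (hcl : Cl (H0.om 0) A) :
    ∃ K : ℝ → HkT C, SmH K ∧ HEqv (K t0) H0 ∧
      ∀ t, ofHk (K t) 0 = D.J t ∧ AtTau F A (K t) (τ t) :=
  TI.exists_lift (yau C) hA D hom him hs t0 H0 hJ hcl

/-- **the leg of a `CFam`** -/
theorem leg (TI : TopI μ b P q) {F : Frm C Q} {A : F2 C}
    (hA : 0 < q A) (D : CFam C (univ : Set ℝ)) (hom : ∀ t, Cl (D.om t) A) {τ : ℝ → ℂ}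
    (hτ : ContDiff ℝ ∞ τ) {S : Set ℂ} (hS : ∀ t, τ t ∈ S)
    (him : ∀ t, 0 < (τ t).im) (hs : ∀ t, PerAt F (D.s1 t) (D.s2 t) (τ t))
    (H0 : HkT C) (hJ : ∀ i, ∀ z ∈ (C.e i).target, ∀ v, H0.J 0 i z v = (D.J 0).J i z v)
    (hcl : Cl (H0.om 0) A) :
    ∃ H1 : HkT C, Leg F A S H0 H1 ∧ ofHk H1 0 = D.J 1 ∧ AtTau F A H1 (τ 1) :=
  TI.exists_leg (yau C) hA D hom hτ hS him hs H0 hJ hcl

end top

section marks

open Crest.Agent.R281.Ehr2_268 Crest.Agent.R281.Dif_268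
open Crest.Agent.R281.Ehr4_268 Crest.Agent.R281.CL_473 Crest.Agent.R281.Ehr6_268
open Crest.Agent.R281.Cdr_234 Crest.Agent.R281.Ehr7_268 Crest.Agent.R281.Phl_655
open Crest.Agent.R281.Ehr8_268 Crest.Agent.R281.Ehp_461 Crest.Agent.R281.Ehj_461
open Crest.Agent.R281.Pe_313 (CxOf IRel)
open Crest.Agent.R281.Cus_581 Crest.Agent.R281.Lf_830

universe uq

variable {H : Type} [NormedAddCommGroup H] [NormedSpace ℂ H]
  [FiniteDimensional ℂ H] {Qs : Type uq} [TopologicalSpace Qs] {E : Type}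
  [NormedAddCommGroup E] [NormedSpace ℂ E] {F : QFam Qs E H}
  {μ : Measure V} [μ.IsAddHaarMeasure] {n : ℕ}
  {b : Module.Basis (Fin (n + n) × Fin 2) ℝ V} {P : RPart C} {q : QuadraticForm ℝ (F2 C)}
  {Qf : F2 C →ₗ[ℝ] F2 C →ₗ[ℝ] ℝ}

/-- 830's `lift_marks` -/
theorem liftMarks (TI : TopI μ b P q) {Fr : Frm C Qf} {A : F2 C}
    (hA : 0 < q A) (omF reF imF : QBF F) {c : ℝ → (ls F C).Tot} (hc : Continuous c)
    (hs : ContDiff ℝ ∞ fun t => F.u ((ls F C).pr (c t))) {τ : ℝ → ℂ} (him : ∀ t, 0 < (τ t).im)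
    (hHD : ∀ t, ∀ m : Mark F C, (MQ.mk m : MQ F C) = c t → ∃ hcx : m.P.Cx,
      HD (ajm m.cmp m.P hcx) (omF.form m) (reF.form m) (imF.form m))
    (hcl : ∀ t, ∀ m : Mark F C, (MQ.mk m : MQ F C) = c t →
      Cl (omF.form m) A ∧ PerAt Fr (reF.form m) (imF.form m) (τ t))
    (m0 : Mark F C) (hm0 : (MQ.mk m0 : MQ F C) = c 0) (H0 : HkT C) (hJ0 : CxOf m0.P H0)
    (hA0 : Cl (H0.om 0) A) :
    ∃ K : ℝ → HkT C, SmH K ∧ HEqv (K 0) H0 ∧ ∀ t, ∃ m : Mark F C, (MQ.mk m : MQ F C) = c t ∧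
      m.C' = m0.C' ∧ CxOf m.P (K t) ∧ AtTau Fr A (K t) (τ t) :=
  lift_marks TI (yau C) hA omF reF imF hc hs him hHD hcl m0 hm0 H0 hJ0 hA0

/-- 830's `liftS_of`: **LIFT** in the form of helper581 -/
theorem liftS (TI : TopI μ b P q) {Fr : Frm C Qf} {A : F2 C}
    (hA : 0 < q A) {omF reF imF : QBF F} {Pp : (ls F C).Tot → ℂ → Prop}
    (hp : PointAt omF reF imF Fr A Pp) : LiftS F Fr A Pp :=
  liftS_of TI (yau C) hA hp

end marks

section iso

open Crest.Agent.R281.Iso_139 Crest.Agent.R281.Dif_268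

/-- 139's `ddc_var`: the potentials of a jointly smooth family of forms are jointly smooth -/
theorem ddcVar {E : Type} [NormedAddCommGroup E]
    [NormedSpace ℝ E] [FiniteDimensional ℝ E] {T : Set E} (hT : IsOpen T) {J : E → AJ C}
    (hJ : JSJ T J) {om w : E → F2 C} (hom : JS2 T om) (hw : JS2 T w)
    (hcx : ∀ p ∈ T, Cx (J p)) (h11 : ∀ p ∈ T, T11 (J p) (om p)) (hpos : ∀ p ∈ T, Pos (J p) (om p))
    {u : E → X → ℝ} (hu : ∀ p ∈ T, Sm C (u p)) {x1 : X} (h1 : ∀ p ∈ T, u p x1 = 0)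
    (he : ∀ p (hp : p ∈ T), Eqv (w p) (ddc (J p) (u p) (hu p hp))) : JS0 C T u := by
  have : CompleteSpace V := FiniteDimensional.complete ℝ V
  exact ddc_var (Yv_900.v0_MA (C := C) (Module.finBasis ℝ V)) hT hJ hom hw hcx h11 hpos hu h1 he

/-- DDC-VAR -/
theorem ddcv : DDCV C := Ly5_457.ddcv

/-- **HK-ISO for hyperkaehler triples** -/
theorem isoHk {T : Set ℝ} {H : ℝ → HkT C}
    (hH : Iso_139.JSH T H) {a b : ℝ} (hT : uIcc a b ⊆ T) {k l m : Fin 3} (hc : Cyc k l m)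
    (hdd : ∀ t ∈ uIcc a b, DDb (ofHk (H t) k))
    (h1 : ∀ t ∈ uIcc a b, Dif_268.Coh ((H t).om l) ((H a).om l))
    (h2 : ∀ t ∈ uIcc a b, Dif_268.Coh ((H t).om m) ((H a).om m)) :
    ∃ D : DifC C, Eqv (D.φ.pull ((H b).om l)) ((H a).om l) ∧
      Eqv (D.φ.pull ((H b).om m)) ((H a).om m) ∧
      HolM D.φ (ofHk (H a) k) (ofHk (H b) k) := by
  have : CompleteSpace V := FiniteDimensional.complete ℝ V
  exact iso_hk (Yv_900.v0_MA (C := C) (Module.finBasis ℝ V)) hH hT hc hdd h1 h2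

/-- the Kaehler classes `om k (t)` are Kaehler classes of one complex structure -/
theorem kclsHk {T : Set ℝ} {H : ℝ → HkT C}
    (hH : Iso_139.JSH T H) {a b : ℝ} (hT : uIcc a b ⊆ T) {k l m : Fin 3} (hc : Cyc k l m)
    (hdd : ∀ t ∈ uIcc a b, DDb (ofHk (H t) k))
    (h1 : ∀ t ∈ uIcc a b, Dif_268.Coh ((H t).om l) ((H a).om l))
    (h2 : ∀ t ∈ uIcc a b, Dif_268.Coh ((H t).om m) ((H a).om m)) :
    KCls (ofHk (H a) k) ((H b).om k) := by
  have : CompleteSpace V := FiniteDimensional.complete ℝ V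
  exact kcls_hk (Yv_900.v0_MA (C := C) (Module.finBasis ℝ V)) hH hT hc hdd h1 h2

end iso

/-- 151's `IsoF` -/
theorem isoF {V X : Type} [NormedAddCommGroup V] [NormedSpace ℝ V] [TopologicalSpace X]
    {C : RCh V X} [FiniteDimensional ℝ V] [MeasurableSpace V] [BorelSpace V] [CompactSpace X]
    [T2Space X] [SimplyConnectedSpace X] {d : ℕ} (hV : Module.finrank ℝ V = 2 * d)
    (hd : 2 ≤ d) : Ch_151.IsoF C :=
  Ch_151.isoF_of (Crest.Agent.R260.NN6_900.nnat d V hV) hd Iso_139.primVar Ly5_457.ddcv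

/-- **the family of moves** (557, 835) -/
theorem moveFam {n : ℕ} {X : Type} [TopologicalSpace X] [CompactSpace X] [T2Space X]
    [ConnectedSpace X] {C : RCh (Cn (2 * n)) X} {Q : F2 C →ₗ[ℝ] F2 C →ₗ[ℝ] ℝ}
    (hc : RkD_902.Ctx n C Q) : Bx_557.MoveFam C Q :=
  Mf_835.moveFam hc (yau C)

end

end Crest.Agent.R281.Yall_476
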